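import Vale.Agent.P078.MathlibUsed

/-!
Instance shortcuts (made local instances in the proof files), only to speed up the type class search in the proof files.
-/

namespace Vale.Agent.P078.Fast

section basic

variable {H : Type*} [NormedAddCommGroup H] [InnerProductSpace ℂ H]

@[reducible] noncomputable def a01 : NormedRing (H →L[ℂ] H) := inferInstance
@[reducible] noncomputable def a02 : NormedAddCommGroup (H →L[ℂ] H) := inferInstance
@[reducible] noncomputable def a03 : SeminormedAddCommGroup (H →L[ℂ] H) := inferInstance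
@[reducible] noncomputable def a04 : SeminormedAddGroup (H →L[ℂ] H) := inferInstance
@[reducible] noncomputable def a05 : Norm (H →L[ℂ] H) := inferInstance
@[reducible] noncomputable def a06 : UniformSpace (H →L[ℂ] H) := inferInstance
@[reducible] noncomputable def a07 : TopologicalSpace (H →L[ℂ] H) := inferInstance
theorem a08 : T2Space (H →L[ℂ] H) := inferInstance
@[reducible] def a09 : Ring (H →L[ℂ] H) := inferInstance
@[reducible] def a10 : Semiring (H →L[ℂ] H) := inferInstance
@[reducible] def a11 : NonUnitalRing (H →L[ℂ] H) := inferInstance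
@[reducible] def a12 : NonUnitalSemiring (H →L[ℂ] H) := inferInstance
@[reducible] def a13 : NonUnitalNonAssocRing (H →L[ℂ] H) := inferInstance
@[reducible] def a14 : NonUnitalNonAssocSemiring (H →L[ℂ] H) := inferInstance
@[reducible] def a15 : NonAssocSemiring (H →L[ℂ] H) := inferInstance
@[reducible] def a16 : NonAssocRing (H →L[ℂ] H) := inferInstance
@[reducible] def a17 : Monoid (H →L[ℂ] H) := inferInstance
@[reducible] def a18 : Semigroup (H →L[ℂ] H) := inferInstance
@[reducible] def a19 : MulOneClass (H →L[ℂ] H) := inferInstance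
@[reducible] def a20 : MulZeroClass (H →L[ℂ] H) := inferInstance
@[reducible] def a21 : Mul (H →L[ℂ] H) := inferInstance
@[reducible] def a22 : AddCommGroup (H →L[ℂ] H) := inferInstance
@[reducible] def a23 : AddGroup (H →L[ℂ] H) := inferInstance
@[reducible] def a24 : SubNegMonoid (H →L[ℂ] H) := inferInstance
@[reducible] def a25 : AddCommMonoid (H →L[ℂ] H) := inferInstance
@[reducible] def a26 : AddMonoid (H →L[ℂ] H) := inferInstance
@[reducible] def a27 : AddZeroClass (H →L[ℂ] H) := inferInstance
@[reducible] def a28 : Add (H →L[ℂ] H) := inferInstance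
@[reducible] def a29 : Sub (H →L[ℂ] H) := inferInstance
@[reducible] def a30 : Algebra ℂ (H →L[ℂ] H) := inferInstance
@[reducible] def a31 : Module ℂ (H →L[ℂ] H) := inferInstance
@[reducible] def a32 : MulAction ℂ (H →L[ℂ] H) := inferInstance
@[reducible] def a33 : DistribSMul ℂ (H →L[ℂ] H) := inferInstance
@[reducible] def a34 : SMulZeroClass ℂ (H →L[ℂ] H) := inferInstance
@[reducible] def a35 : SMulWithZero ℂ (H →L[ℂ] H) := inferInstance
@[reducible] def a36 : SMul ℂ (H →L[ℂ] H) := inferInstance
theorem a37 : SMulCommClass ℂ (H →L[ℂ] H) (H →L[ℂ] H) := inferInstance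
theorem a38 : IsScalarTower ℂ (H →L[ℂ] H) (H →L[ℂ] H) := inferInstance
theorem a39 : Module.IsTorsionFree ℂ (H →L[ℂ] H) := inferInstance

end basic

section cplt

variable {H : Type*} [NormedAddCommGroup H] [InnerProductSpace ℂ H] [CompleteSpace H]

@[reducible] noncomputable def a40 : Algebra ℝ (H →L[ℂ] H) := inferInstance
@[reducible] noncomputable def a41 : Module ℝ (H →L[ℂ] H) := inferInstance
@[reducible] noncomputable def a42 : MulAction ℝ (H →L[ℂ] H) := inferInstance
theorem a43 : SMulCommClass ℝ (H →L[ℂ] H) (H →L[ℂ] H) := inferInstance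
theorem a44 : IsScalarTower ℝ (H →L[ℂ] H) (H →L[ℂ] H) := inferInstance
@[reducible] noncomputable def a45 : StarRing (H →L[ℂ] H) := inferInstance
@[reducible] noncomputable def a46 : StarAddMonoid (H →L[ℂ] H) := inferInstance
@[reducible] noncomputable def a47 : Star (H →L[ℂ] H) := inferInstance
theorem a48 : StarModule ℂ (H →L[ℂ] H) := inferInstance
@[reducible] noncomputable def a49 : PartialOrder (H →L[ℂ] H) := inferInstance
theorem a50 : AddRightMono (H →L[ℂ] H) := inferInstance
theorem a51 : AddLeftMono (H →L[ℂ] H) := inferInstance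
theorem a52 : NonnegSpectrumClass ℝ (H →L[ℂ] H) := inferInstance
theorem a53 : ContinuousFunctionalCalculus ℝ (H →L[ℂ] H) IsSelfAdjoint := inferInstance
theorem a54 : NonUnitalContinuousFunctionalCalculus ℝ (H →L[ℂ] H) IsSelfAdjoint :=
  inferInstance

end cplt

end Vale.Agent.P078.Fast
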