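import Vale.Agent.P078.MathlibUsed
import Vale.Agent.P078.Bdl.Fast

set_option linter.all false
attribute [local instance] Vale.Agent.P078.Fast.a01 Vale.Agent.P078.Fast.a02
  Vale.Agent.P078.Fast.a03 Vale.Agent.P078.Fast.a04 Vale.Agent.P078.Fast.a05
  Vale.Agent.P078.Fast.a06 Vale.Agent.P078.Fast.a07 Vale.Agent.P078.Fast.a08
  Vale.Agent.P078.Fast.a09 Vale.Agent.P078.Fast.a10 Vale.Agent.P078.Fast.a11
  Vale.Agent.P078.Fast.a12 Vale.Agent.P078.Fast.a13 Vale.Agent.P078.Fast.a14
  Vale.Agent.P078.Fast.a15 Vale.Agent.P078.Fast.a16 Vale.Agent.P078.Fast.a17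
  Vale.Agent.P078.Fast.a18 Vale.Agent.P078.Fast.a19 Vale.Agent.P078.Fast.a20
  Vale.Agent.P078.Fast.a21 Vale.Agent.P078.Fast.a22 Vale.Agent.P078.Fast.a23
  Vale.Agent.P078.Fast.a24 Vale.Agent.P078.Fast.a25 Vale.Agent.P078.Fast.a26
  Vale.Agent.P078.Fast.a27 Vale.Agent.P078.Fast.a28 Vale.Agent.P078.Fast.a29
  Vale.Agent.P078.Fast.a30 Vale.Agent.P078.Fast.a31 Vale.Agent.P078.Fast.a32
  Vale.Agent.P078.Fast.a33 Vale.Agent.P078.Fast.a34 Vale.Agent.P078.Fast.a35
  Vale.Agent.P078.Fast.a36 Vale.Agent.P078.Fast.a37 Vale.Agent.P078.Fast.a38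
  Vale.Agent.P078.Fast.a39 Vale.Agent.P078.Fast.a40 Vale.Agent.P078.Fast.a41
  Vale.Agent.P078.Fast.a42 Vale.Agent.P078.Fast.a43 Vale.Agent.P078.Fast.a44
  Vale.Agent.P078.Fast.a45 Vale.Agent.P078.Fast.a46 Vale.Agent.P078.Fast.a47
  Vale.Agent.P078.Fast.a48 Vale.Agent.P078.Fast.a49 Vale.Agent.P078.Fast.a50
  Vale.Agent.P078.Fast.a51 Vale.Agent.P078.Fast.a52 Vale.Agent.P078.Fast.a53
  Vale.Agent.P078.Fast.a54

section
section

/-!
Finite models: Hermitian kernels, random colourings, expected characteristic polynomials.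
-/

namespace Vale.Agent.P078.C

open Finset Polynomial

variable {α : Type*} [DecidableEq α] {r : ℕ}

/-- Hermitian kernel -/
def Herm (y : α → α → ℂ) : Prop := ∀ i j, y j i = star (y i j)

/-- zero diagonal -/
def ZD (y : α → α → ℂ) : Prop := ∀ i, y i i = 0

/-- the quadratic form of `y` on the finite set `W` -/
noncomputable def qf (y : α → α → ℂ) (W : Finset α) (v : α → ℂ) : ℝ :=
  (∑ i ∈ W, ∑ j ∈ W, star (v i) * y i j * v j).re

/-- form bounds `-b ≤ y ≤ a` on all finite sets -/
def FB (a b : ℝ) (y : α → α → ℂ) : Prop :=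
  ∀ (W : Finset α) (v : α → ℂ), -b * ∑ i ∈ W, ‖v i‖ ^ 2 ≤ qf y W v ∧
    qf y W v ≤ a * ∑ i ∈ W, ‖v i‖ ^ 2

/-- expected determinant of `diag z - y^c` on the finite set `W`; `s` is the state: `s i = some a`
means that `i` has colour `a`, otherwise the colour of `i` is uniform and independent -/
noncomputable def Q (y : α → α → ℂ) (s : α → Option (Fin r)) (z : α → ℂ) (W : Finset α) : ℂ :=
  ((r : ℂ) ^ W.card)⁻¹ * ∑ c : W → Fin r, Matrix.det (Matrix.of fun i j : W =>
    (if i = j then z i else 0) - if (s i).getD (c i) = (s j).getD (c j) then y i j else 0)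

/-- the expected characteristic polynomial (`eval_chi` : its value at `t` is `Q` at `z = t`) -/
noncomputable def chi (y : α → α → ℂ) (s : α → Option (Fin r)) (W : Finset α) : ℂ[X] :=
  ∑ S ∈ W.powerset, Polynomial.C (Q y s 0 S) * Polynomial.X ^ (W.card - S.card)

/-- its roots (they are real) -/
noncomputable def rts (y : α → α → ℂ) (s : α → Option (Fin r)) (W : Finset α) : Multiset ℝ :=
  (chi y s W).roots.map Complex.re

/-- the sum of the values of the polynomial `p` at the roots -/
noncomputable def SP (p : ℝ[X]) (y : α → α → ℂ) (s : α → Option (Fin r)) (W : Finset α) : ℝ :=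
  ((rts y s W).map fun l => p.eval l).sum

/-- cluster coefficients -/
noncomputable def kap (p : ℝ[X]) (y : α → α → ℂ) (s : α → Option (Fin r)) (T : Finset α) : ℝ :=
  ∑ W ∈ T.powerset, (-1) ^ (T.card - W.card) * SP p y s W

/-- the pinched kernel -/
def yc (y : α → α → ℂ) (c : α → Fin r) : α → α → ℂ := fun i j => if c i = c j then y i j else 0

/-- powers of the kernel `t` cut down to `W` -/
noncomputable def pw (t : α → α → ℂ) (W : Finset α) : ℕ → α → α → ℂ
  | 0 => fun v w => if v = w then 1 else 0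
  | n + 1 => fun v w => ∑ u ∈ W, t v u * pw t W n u w

omit [DecidableEq α] in
theorem pw_zero' [DecidableEq α] (t : α → α → ℂ) (W : Finset α) (v w : α) :
    pw t W 0 v w = if v = w then 1 else 0 := by
  unfold pw
  rfl

omit [DecidableEq α] in
theorem pw_succ' [DecidableEq α] (t : α → α → ℂ) (W : Finset α) (n : ℕ) (v w : α) :
    pw t W (n + 1) v w = ∑ u ∈ W, t v u * pw t W n u w := by
  rw [pw]

/-- diagonal entry at `v` of `p` of the pinched kernel cut down to `W` -/
noncomputable def locmom (p : ℝ[X]) (y : α → α → ℂ) (c : α → Fin r) (W : Finset α) (v : α) : ℝ :=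
  ∑ n ∈ Finset.range (p.natDegree + 1), p.coeff n * (pw (yc y c) W n v v).re

/-- the function `λ ↦ arg (z - λ)` -/
noncomputable def gf (u η : ℝ) (l : ℝ) : ℝ := Complex.arg ((u - l : ℝ) + η * Complex.I)

/-- `p` approximates `gf u η` on `[-ρ, ρ]` in `C¹` -/
structure GoodPoly (p : ℝ[X]) (u η ρ κ : ℝ) : Prop where
  left : p.eval (-ρ) = gf u η (-ρ)
  deriv : ∀ t ∈ Set.Icc (-ρ) ρ, |(derivative p).eval t - η / ((u - t) ^ 2 + η ^ 2)| ≤ κ

end Vale.Agent.P078.C
end

section

/-!
Finite models with slots: every vertex uses a random slot `b ∈ Ω`, the slot `b` uses the Hermitian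
kernel `y b`. The state `s i : Ω → Ω` of the vertex `i` says how the slot is chosen: it is `s i c`
with `c` uniform on `Ω`.
-/

namespace Vale.Agent.P078.D

open Finset Polynomial
open Vale.Agent.P078.C (Herm ZD qf FB yc pw gf GoodPoly)

variable {α : Type*} [DecidableEq α] {Ω : Type*} [Fintype Ω] [DecidableEq Ω]

/-- expected determinant of `diag z - Y` on the finite set `W`, where `Y i j = y b i j` if both
`i` and `j` use the slot `b`, and `0` if they use different slots -/
noncomputable def Q (y : Ω → α → α → ℂ) (s : α → Ω → Ω) (z : α → ℂ) (W : Finset α) : ℂ :=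
  ((Fintype.card Ω : ℂ) ^ W.card)⁻¹ * ∑ c : W → Ω, Matrix.det (Matrix.of fun i j : W =>
    (if i = j then z i else 0) - if s i (c i) = s j (c j) then y (s i (c i)) i j else 0)

/-- the kernel of the colouring `c` -/
def kc (y : Ω → α → α → ℂ) (c : α → Ω) : α → α → ℂ := fun i j => if c i = c j then y (c i) i j else 0

/-- the expected characteristic polynomial (`eval_chi` : its value at `t` is `Q` at `z = t`) -/
noncomputable def chi (y : Ω → α → α → ℂ) (s : α → Ω → Ω) (W : Finset α) : ℂ[X] :=
  ∑ S ∈ W.powerset, Polynomial.C (Q y s 0 S) * Polynomial.X ^ (W.card - S.card)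

/-- its roots (they are real) -/
noncomputable def rts (y : Ω → α → α → ℂ) (s : α → Ω → Ω) (W : Finset α) : Multiset ℝ :=
  (chi y s W).roots.map Complex.re

/-- the sum of the values of the polynomial `p` at the roots -/
noncomputable def SP (p : ℝ[X]) (y : Ω → α → α → ℂ) (s : α → Ω → Ω) (W : Finset α) : ℝ :=
  ((rts y s W).map fun l => p.eval l).sum

/-- cluster coefficients -/
noncomputable def kap (p : ℝ[X]) (y : Ω → α → α → ℂ) (s : α → Ω → Ω) (T : Finset α) : ℝ :=
  ∑ W ∈ T.powerset, (-1) ^ (T.card - W.card) * SP p y s W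

/-- kernels with sign: the slots are `Fin r × Bool`, the kernel is `2 y` or `-2 y` -/
def tw (r : ℕ) (y : α → α → ℂ) : Fin r × Bool → α → α → ℂ :=
  fun b i j => (if b.2 then 2 else -2) * y i j

/-- slots of a (partial) colouring: `none` is a uniform slot, `some a` is the colour `a` with
random sign -/
def sl {r : ℕ} (s : α → Option (Fin r)) : α → Fin r × Bool → Fin r × Bool :=
  fun i c => ((s i).getD c.1, c.2)

end Vale.Agent.P078.D
end

section

/-! T1a: algebraic properties of `Q`. -/

namespace Vale.Agent.P078.D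

open Finset Polynomial
open Vale.Agent.P078.C (Herm ZD qf FB yc pw gf GoodPoly)

variable {α β : Type*} [DecidableEq α] [DecidableEq β] {Ω : Type*} [Fintype Ω] [DecidableEq Ω]
variable {y y' : Ω → α → α → ℂ} {s s' : α → Ω → Ω} {z z' : α → ℂ} {W W' : Finset α} {w : α}

theorem Q_empty : Q y s z ∅ = 1 := by
  simp only [Q, card_empty, pow_zero, inv_one, univ_unique, Matrix.coe_det_isEmpty, Function.const_apply, sum_const, card_singleton, one_smul, mul_one]

theorem Q_congr (hy : ∀ b, ∀ i ∈ W, ∀ j ∈ W, y b i j = y' b i j) (hs : ∀ i ∈ W, s i = s' i)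
    (hz : ∀ i ∈ W, z i = z' i) : Q y s z W = Q y' s' z' W := by
  unfold Q
  congr 1
  refine Finset.sum_congr rfl fun c _ => ?_
  congr 1
  ext i j
  simp only [Matrix.of_apply]
  rw [hy _ i i.2 j j.2, hs i i.2, hs j j.2, hz i i.2]

/-- the matrix entries -/
private noncomputable def me (y : Ω → α → α → ℂ) (s : α → Ω → Ω) (z : α → ℂ)
    {W : Finset α} (c : W → Ω) (i j : W) : ℂ :=
  (if i = j then z i else 0) - if s i (c i) = s j (c j) then y (s i (c i)) i j else 0

private theorem Q_eq : Q y s z W =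
    ((Fintype.card Ω : ℂ) ^ W.card)⁻¹ * ∑ c : W → Ω, Matrix.det (Matrix.of (me y s z c)) := rfl

/-- block triangular case -/
private theorem det_sum {m n k : Type*} [Fintype m] [Fintype n] [Fintype k] [DecidableEq m]
    [DecidableEq n] [DecidableEq k] (e : m ⊕ n ≃ k) (B : k → k → ℂ)
    (h0 : ∀ (i : n) (j : m), B (e (Sum.inr i)) (e (Sum.inl j)) = 0) :
    Matrix.det (Matrix.of B) =
      Matrix.det (Matrix.of fun i j : m => B (e (Sum.inl i)) (e (Sum.inl j))) *
      Matrix.det (Matrix.of fun i j : n => B (e (Sum.inr i)) (e (Sum.inr j))) := by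
  rw [← Matrix.det_fromBlocks_zero₂₁ _
    (Matrix.of fun (i : m) (j : n) => B (e (Sum.inl i)) (e (Sum.inr j))),
    ← Matrix.det_submatrix_equiv_self e]
  congr 1
  ext i j
  rcases i with i | i <;> rcases j with j | j <;> simp [h0]

private theorem sum_fun {m n k R : Type*} [Fintype m] [Fintype n] [Fintype k] [DecidableEq m]
    [DecidableEq n] [DecidableEq k] [Fintype R] (e : m ⊕ n ≃ k) (F : (m → R) → ℂ)
    (G : (n → R) → ℂ) :
    ∑ c : k → R, F (fun i => c (e (Sum.inl i))) * G (fun i => c (e (Sum.inr i))) =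
      (∑ c, F c) * ∑ c, G c := by
  rw [Finset.sum_mul_sum, ← Finset.sum_product', Finset.univ_product_univ]
  refine Fintype.sum_equiv ((Equiv.arrowCongr e (Equiv.refl R)).symm.trans
    (Equiv.sumArrowEquivProdArrow m n R)) _ _ fun c => ?_
  simp [Equiv.sumArrowEquivProdArrow]
  rfl

private def insE (hw : w ∉ W) : W ⊕ Unit ≃ ↥(insert w W : Finset α) :=
  (Equiv.optionEquivSumPUnit _).symm.trans (Finset.subtypeInsertEquivOption hw).symm

private theorem insE_inl (hw : w ∉ W) (i : W) :
    insE hw (Sum.inl i) = ⟨i, mem_insert_of_mem i.2⟩ := by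
  rfl

private theorem insE_inr (hw : w ∉ W) (i : Unit) :
    insE hw (Sum.inr i) = ⟨w, mem_insert_self w W⟩ := by
  rfl

private theorem sum_const_fun (hr : 0 < Fintype.card Ω) (hw : w ∉ W) (F : (W → Ω) → ℂ) :
    ((Fintype.card Ω : ℂ) ^ (insert w W).card)⁻¹ * ∑ c : ↥(insert w W : Finset α) → Ω,
      F (fun i => c ⟨i, mem_insert_of_mem i.2⟩) = ((Fintype.card Ω : ℂ) ^ W.card)⁻¹ * ∑ c, F c := by
  have h := sum_fun (R := Ω) (insE hw) F (fun _ => 1)
  simp only [insE_inl, mul_one] at h
  rw [h]
  have hr' : (Fintype.card Ω : ℂ) ≠ 0 := by exact_mod_cast hr.ne'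
  simp only [card_insert_of_notMem hw, pow_succ, sum_const, card_univ, Fintype.card_fun, Fintype.card_unit, pow_zero, one_mul, nsmul_eq_mul, mul_one]
  field_simp

theorem Q_insert (hr : 0 < Fintype.card Ω) (hw : w ∉ W) :
    Q y s z (insert w W) = z w * Q y s z W + Q y s (Function.update z w 0) (insert w W) := by
  have key : ∀ c : ↥(insert w W : Finset α) → Ω, Matrix.det (Matrix.of (me y s z c)) =
      z w * Matrix.det (Matrix.of (me y s z (W := W) fun i => c ⟨i, mem_insert_of_mem i.2⟩)) +
        Matrix.det (Matrix.of (me y s (Function.update z w 0) c)) := by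
    intro c
    set w₀ : ↥(insert w W : Finset α) := ⟨w, mem_insert_self w W⟩ with hw₀
    have h1 : Matrix.of (me y s z c) = (Matrix.of (me y s (Function.update z w 0) c)).updateRow w₀
        (z w • (Pi.single w₀ 1 : ↥(insert w W : Finset α) → ℂ) +
          Matrix.of (me y s (Function.update z w 0) c) w₀) := by
      ext i j
      by_cases hi : i = w₀
      · subst hi
        rw [Matrix.updateRow_self]
        by_cases hj : j = w₀
        · subst hj
          simp only [hw₀, Matrix.of_apply, me, ↓reduceIte, Pi.add_apply, Pi.smul_apply, Pi.single_eq_same, smul_eq_mul, mul_one, Function.update_self, zero_sub]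
          ring
        · have hj' : w₀ ≠ j := fun h => hj h.symm
          simp only [Matrix.of_apply, me, hj', ↓reduceIte, zero_sub, Pi.add_apply, Pi.smul_apply, ne_eq, hj, not_false_eq_true, Pi.single_eq_of_ne, smul_eq_mul, mul_zero, zero_add]
      · rw [Matrix.updateRow_ne hi]
        have hi' : (i : α) ≠ w := fun h => hi (Subtype.ext h)
        simp only [Matrix.of_apply, me, ne_eq, hi', not_false_eq_true, Function.update_of_ne]
    rw [h1, Matrix.det_updateRow_add, Matrix.det_updateRow_smul, Matrix.updateRow_eq_self]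
    congr 2
    have h2 := det_sum (insE hw) (fun i j => (Matrix.updateRow (Matrix.of
      (me y s (Function.update z w 0) c)) w₀ (Pi.single w₀ 1)) i j) ?_
    · change Matrix.det (Matrix.updateRow (Matrix.of
        (me y s (Function.update z w 0) c)) w₀ (Pi.single w₀ 1)) = _ at h2
      rw [h2]
      have h3 : Matrix.det (Matrix.of fun i j : Unit => (Matrix.updateRow (Matrix.of
          (me y s (Function.update z w 0) c)) w₀ (Pi.single w₀ 1)) (insE hw (Sum.inr i))
            (insE hw (Sum.inr j))) = 1 := by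
        rw [Matrix.det_unique]
        simp [insE_inr, ← hw₀]
      rw [h3, mul_one]
      congr 1
      ext i j
      simp only [insE_inl, Matrix.of_apply]
      have hi' : (i : α) ≠ w := fun h => hw (h ▸ i.2)
      rw [Matrix.updateRow_ne (fun h => hi' (congrArg Subtype.val h))]
      have he : ((⟨i, mem_insert_of_mem i.2⟩ : ↥(insert w W : Finset α)) =
          ⟨j, mem_insert_of_mem j.2⟩) ↔ i = j := by
        rw [Subtype.ext_iff, Subtype.ext_iff]
      simp only [me, Matrix.of_apply, he, Function.update_of_ne hi']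
    · intro i j
      have hj' : (⟨j, mem_insert_of_mem j.2⟩ : (insert w W : Finset α)) ≠ w₀ := by
        intro h
        have h' : (j : α) = w := congrArg Subtype.val h
        exact hw (h' ▸ j.2)
      simp only [insE_inl, insE_inr, ← hw₀]
      rw [Matrix.updateRow_self]
      simp [hj']
  rw [Q_eq, Finset.sum_congr rfl fun c _ => key c, Finset.sum_add_distrib, mul_add,
    ← Finset.mul_sum, mul_left_comm,
    sum_const_fun hr hw (fun c => Matrix.det (Matrix.of (me y s z c)))]
  rfl

theorem Q_avg (hr : 0 < Fintype.card Ω) (hw : w ∈ W) :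
    Q y s z W = (Fintype.card Ω : ℂ)⁻¹ *
      ∑ b : Ω, Q y (Function.update s w (fun _ => s w b)) z W := by
  have key : ∀ (a : Ω) (c : W → Ω),
      Matrix.det (Matrix.of (me y (Function.update s w (fun _ => s w a)) z c)) =
      Matrix.det (Matrix.of (me y s z (Function.update c ⟨w, hw⟩ a))) := by
    intro a c
    congr 1
    ext i j
    have h : ∀ i : W, (Function.update s w (fun _ => s w a) i) (c i) =
        s i (Function.update c ⟨w, hw⟩ a i) := by
      intro i
      by_cases hi : i = ⟨w, hw⟩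
      · subst hi
        simp
      · have hi' : (i : α) ≠ w := fun h => hi (Subtype.ext h)
        simp [hi, hi']
    simp only [me, Matrix.of_apply, h]
  have hsum : ∑ a : Ω, ∑ c : W → Ω,
      Matrix.det (Matrix.of (me y s z (Function.update c ⟨w, hw⟩ a))) =
      (Fintype.card Ω : ℂ) * ∑ c : W → Ω, Matrix.det (Matrix.of (me y s z c)) := by
    rw [← Finset.sum_product', Finset.univ_product_univ]
    have : (Fintype.card Ω : ℂ) * ∑ c : W → Ω, Matrix.det (Matrix.of (me y s z c)) =
        ∑ x : Ω × (W → Ω), Matrix.det (Matrix.of (me y s z x.2)) := by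
      rw [← Finset.univ_product_univ, Finset.sum_product]
      simp only [sum_const, card_univ, nsmul_eq_mul]
    rw [this]
    refine Fintype.sum_bijective (fun x : Ω × (W → Ω) =>
      (x.2 ⟨w, hw⟩, Function.update x.2 ⟨w, hw⟩ x.1)) ?_ _ _ fun x => rfl
    refine Function.Involutive.bijective fun x => ?_
    ext1
    · simp
    · simp
  have hr' : (Fintype.card Ω : ℂ) ≠ 0 := by exact_mod_cast hr.ne'
  simp only [Q_eq]
  rw [← Finset.mul_sum]
  simp only [key]
  rw [hsum]
  field_simp

private theorem Q_expand_aux (hr : 0 < Fintype.card Ω) (U : Finset α) : ∀ W : Finset α, U ⊆ W →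
    Q y s (fun i => if i ∈ U then z i else 0) W =
      ∑ R ∈ U.powerset, (∏ i ∈ R, z i) * Q y s 0 (W \ R) := by
  induction U using Finset.induction_on with
  | empty =>
    intro W _
    simp only [notMem_empty, if_false, powerset_empty, sum_singleton, prod_empty, one_mul,
      sdiff_empty]
    rfl
  | insert w U hw ih =>
    intro W hW
    have hwW : w ∈ W := hW (mem_insert_self w U)
    have hUW : U ⊆ W := fun i hi => hW (mem_insert_of_mem hi)
    have hUW' : U ⊆ W.erase w := fun i hi =>
      mem_erase.2 ⟨fun h => hw (h ▸ hi), hUW hi⟩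
    have e1 : Q y s (fun i => if i ∈ insert w U then z i else 0) W =
        z w * Q y s (fun i => if i ∈ U then z i else 0) (W.erase w) +
          Q y s (fun i => if i ∈ U then z i else 0) W := by
      conv_lhs => rw [← insert_erase hwW]
      rw [Q_insert hr (notMem_erase w W), insert_erase hwW]
      congr 1
      · congr 1
        · simp
        · refine Q_congr (fun _ _ _ _ _ => rfl) (fun _ _ => rfl) fun i hi => ?_
          have : i ≠ w := (mem_erase.1 hi).1
          simp [mem_insert, this]
      · refine Q_congr (fun _ _ _ _ _ => rfl) (fun _ _ => rfl) fun i hi => ?_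
        by_cases h : i = w
        · subst h
          simp [hw]
        · simp [mem_insert, h]
    rw [e1, ih _ hUW, ih _ hUW', sum_powerset_insert hw, add_comm, Finset.mul_sum]
    congr 1
    refine Finset.sum_congr rfl fun R hR => ?_
    have hwR : w ∉ R := fun h => hw (mem_powerset.1 hR h)
    rw [prod_insert hwR, mul_assoc]
    congr 3
    ext i
    simp only [mem_sdiff, mem_erase, mem_insert]
    (clear * -; tauto)

theorem Q_expand (hr : 0 < Fintype.card Ω) :
    Q y s z W = ∑ S ∈ W.powerset, (∏ i ∈ W \ S, z i) * Q y s 0 S := by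
  have h := Q_expand_aux (y := y) (s := s) (z := z) hr W W subset_rfl
  have h1 : Q y s (fun i => if i ∈ W then z i else 0) W = Q y s z W :=
    Q_congr (fun _ _ _ _ _ => rfl) (fun _ _ => rfl) fun i hi => by simp [hi]
  rw [← h1, h]
  refine Finset.sum_bij' (fun R _ => W \ R) (fun R _ => W \ R) ?_ ?_ ?_ ?_ ?_
  · intro R _; exact mem_powerset.2 sdiff_subset
  · intro R _; exact mem_powerset.2 sdiff_subset
  · intro R hR; exact Finset.sdiff_sdiff_eq_self (mem_powerset.1 hR)
  · intro R hR; exact Finset.sdiff_sdiff_eq_self (mem_powerset.1 hR)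
  · intro R hR
    rw [Finset.sdiff_sdiff_eq_self (mem_powerset.1 hR)]

theorem Q_map (f : β ↪ α) (W : Finset β) :
    Q y s z (W.map f) = Q (fun b i j => y b (f i) (f j)) (fun i => s (f i)) (fun i => z (f i)) W := by
  let e : W ≃ ↥(W.map f) := W.equivMap f
  have he : ∀ i : W, ((e i : ↥(W.map f)) : α) = f i := fun i => by simp [e]
  simp only [Q_eq, card_map]
  congr 1
  refine (Fintype.sum_equiv (Equiv.arrowCongr e (Equiv.refl (Ω))) _ _ fun c => ?_).symm
  rw [← Matrix.det_submatrix_equiv_self e]
  congr 1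
  ext i j
  simp only [Matrix.of_apply, me, Matrix.submatrix_apply, EmbeddingLike.apply_eq_iff_eq, he, Equiv.arrowCongr_apply, Equiv.coe_refl, Function.comp_apply, Equiv.symm_apply_apply, id_eq]

theorem Q_union (hr : 0 < Fintype.card Ω) (hd : Disjoint W W')
    (h : ∀ b, ∀ i ∈ W, ∀ j ∈ W', y b i j = 0 ∧ y b j i = 0) :
    Q y s z (W ∪ W') = Q y s z W * Q y s z W' := by
  let e : W ⊕ W' ≃ ↥(W ∪ W') := Equiv.Finset.union W W' hd
  have he1 : ∀ i : W, ((e (Sum.inl i) : ↥(W ∪ W')) : α) = i := fun i => rfl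
  have he2 : ∀ i : W', ((e (Sum.inr i) : ↥(W ∪ W')) : α) = i := fun i => rfl
  have key : ∀ c : ↥(W ∪ W') → Ω, Matrix.det (Matrix.of (me y s z c)) =
      Matrix.det (Matrix.of (me y s z (W := W) fun i => c (e (Sum.inl i)))) *
      Matrix.det (Matrix.of (me y s z (W := W') fun i => c (e (Sum.inr i)))) := by
    intro c
    rw [det_sum e]
    · congr 1
      · congr 1
        ext i j
        simp only [me, EmbeddingLike.apply_eq_iff_eq, Sum.inl.injEq, he1, Matrix.of_apply]
      · congr 1
        ext i j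
        simp only [me, EmbeddingLike.apply_eq_iff_eq, Sum.inr.injEq, he2, Matrix.of_apply]
    · intro i j
      have hne : e (Sum.inr i) ≠ e (Sum.inl j) := fun h => by simpa using e.injective h
      simp only [me, hne, ↓reduceIte, he2, he1, (h _ j j.2 i i.2).2, ite_self, sub_self]
  simp only [Q_eq]
  rw [Finset.sum_congr rfl fun c _ => key c,
    sum_fun e (fun c => Matrix.det (Matrix.of (me y s z c)))
      (fun c => Matrix.det (Matrix.of (me y s z c))), card_union_of_disjoint hd, pow_add]
  (clear * -; field_simp)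

theorem Q_star (hy : ∀ b, Herm (y b)) : Q y s (fun i => star (z i)) W = star (Q y s z W) := by
  simp only [Q_eq, star_mul', star_inv₀, star_pow, star_natCast, star_sum]
  congr 1
  refine Finset.sum_congr rfl fun c _ => ?_
  rw [← Matrix.det_conjTranspose]
  congr 1
  ext i j
  simp only [me, Matrix.of_apply, Matrix.conjTranspose_apply, star_sub]
  congr 1
  · by_cases h : i = j
    · subst h; simp only [↓reduceIte, RCLike.star_def]
    · have h' : j ≠ i := fun h' => h h'.symm
      simp [h, h']
  · by_cases h : s i (c i) = s j (c j)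
    · rw [if_pos h, if_pos h.symm, hy _ i j, star_star, h]
    · rw [if_neg h, if_neg fun h' => h h'.symm, star_zero]

theorem Q_gauge (u : α → ℂ) (hu : ∀ i ∈ W, ‖u i‖ = 1)
    (h : ∀ b, ∀ i ∈ W, ∀ j ∈ W, y' b i j = star (u i) * y b i j * u j) : Q y' s z W = Q y s z W := by
  simp only [Q_eq]
  congr 1
  refine Finset.sum_congr rfl fun c _ => ?_
  have h1 : Matrix.of (me y' s z c) = Matrix.diagonal (fun i : W => star (u i)) *
      Matrix.of (me y s z c) * Matrix.diagonal (fun i : W => u i) := by
    ext i j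
    rw [Matrix.mul_diagonal, Matrix.diagonal_mul]
    simp only [me, Matrix.of_apply]
    rw [h _ i i.2 j j.2]
    by_cases hij : i = j
    · subst hij
      have hn : star (u i) * u i = 1 := by
        have := hu i i.2
        rw [Complex.star_def, Complex.conj_mul', this]
        simp
      simp only [if_true]
      linear_combination (-(z i)) * hn
    · split_ifs <;> ring
  rw [h1, Matrix.det_mul, Matrix.det_mul, Matrix.det_diagonal, Matrix.det_diagonal, mul_right_comm,
    ← Finset.prod_mul_distrib]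
  have h2 : ∏ i : W, star (u i) * u i = 1 := by
    refine Finset.prod_eq_one fun i _ => ?_
    rw [Complex.star_def, Complex.conj_mul', hu i i.2]
    simp
  rw [h2, one_mul]

theorem Q_const (hr : 0 < Fintype.card Ω) (c : α → Ω) (hs : ∀ i ∈ W, s i = fun _ => c i) :
    Q y s z W = Matrix.det (Matrix.of fun i j : W =>
      (if i = j then z i else 0) - kc y c i j) := by
  have key : ∀ c' : W → Ω, Matrix.det (Matrix.of (me y s z c')) =
      Matrix.det (Matrix.of fun i j : W => (if i = j then z i else 0) - kc y c i j) := by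
    intro c'
    congr 1
    ext i j
    simp only [Matrix.of_apply, me, hs i i.2, hs j j.2, kc]
  rw [Q_eq, Finset.sum_congr rfl fun c' _ => key c']
  have hr' : (Fintype.card Ω : ℂ) ≠ 0 := by exact_mod_cast hr.ne'
  simp only [sum_const, card_univ, Fintype.card_fun, Fintype.card_fin, Fintype.card_coe,
    nsmul_eq_mul, Nat.cast_pow]
  field_simp

theorem continuous_Q {Z : Type*} [TopologicalSpace Z] {y : Z → Ω → α → α → ℂ} {z : Z → α → ℂ}
    (hy : ∀ b, ∀ i ∈ W, ∀ j ∈ W, Continuous fun t => y t b i j) (hz : ∀ i ∈ W, Continuous fun t => z t i) :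
    Continuous fun t => Q (y t) s (z t) W := by
  simp only [Q_eq]
  refine continuous_const.mul (continuous_finsetSum _ fun c _ => Continuous.matrix_det ?_)
  refine continuous_matrix fun i j => ?_
  simp only [me, Matrix.of_apply]
  refine Continuous.sub ?_ ?_
  · split_ifs
    · exact hz i i.2
    · exact continuous_const
  · split_ifs
    · exact hy _ i i.2 j j.2
    · exact continuous_const

theorem eval_chi (hr : 0 < Fintype.card Ω) (t : ℂ) : (chi y s W).eval t = Q y s (fun _ => t) W := by
  rw [Q_expand hr, chi, eval_finsetSum]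
  refine Finset.sum_congr rfl fun S hS => ?_
  rw [eval_mul, eval_C, eval_pow, eval_X, prod_const, card_sdiff_of_subset (mem_powerset.1 hS),
    mul_comm]

private theorem chi_eq (y : Ω → α → α → ℂ) (s : α → Ω → Ω) (W : Finset α) :
    ∃ f : ℂ[X], chi y s W = X ^ W.card + f ∧ f.degree < W.card := by
  refine ⟨∑ S ∈ W.powerset.erase ∅, Polynomial.C (Q y s 0 S) * X ^ (W.card - S.card), ?_, ?_⟩
  · rw [chi, ← Finset.add_sum_erase _ _ (empty_mem_powerset W)]
    simp only [Q_empty, map_one, card_empty, tsub_zero, one_mul, mem_powerset, empty_subset, sum_erase_eq_sub, add_sub_cancel]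
  · refine lt_of_le_of_lt (degree_sum_le _ _) ?_
    rw [Finset.sup_lt_iff (by simpa using WithBot.bot_lt_coe _)]
    intro S hS
    refine lt_of_le_of_lt (degree_C_mul_X_pow_le _ _) ?_
    have h1 := mem_erase.1 hS
    have h2 : 0 < S.card := Finset.card_pos.2 (Finset.nonempty_iff_ne_empty.2 h1.1)
    have h3 : S.card ≤ W.card := card_le_card (mem_powerset.1 h1.2)
    exact_mod_cast (by omega : W.card - S.card < W.card)

theorem monic_chi (_hr : 0 < Fintype.card Ω) : (chi y s W).Monic := by
  obtain ⟨f, h1, h2⟩ := chi_eq y s W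
  rw [h1]
  exact monic_X_pow_add h2

theorem natDegree_chi (_hr : 0 < Fintype.card Ω) : (chi y s W).natDegree = W.card := by
  obtain ⟨f, h1, h2⟩ := chi_eq y s W
  rw [h1, add_comm]
  exact natDegree_eq_of_degree_eq_some (by
    rw [degree_add_eq_right_of_degree_lt (by simpa only [degree_pow, degree_X, nsmul_eq_mul, mul_one] using h2), degree_X_pow])

end Vale.Agent.P078.D
end

section

/-! T1b: nonvanishing in the upper half plane, real roots. -/

namespace Vale.Agent.P078.D

open Finset Polynomial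
open Vale.Agent.P078.C (Herm ZD qf FB yc pw gf GoodPoly)
open scoped ComplexOrder

section Single

variable {α : Type*} [DecidableEq α] {y : α → α → ℂ} {z : α → ℂ} {W : Finset α} {a b : ℝ}

/-- the quadratic form of a Hermitian kernel is real -/
theorem qf_im (hy : Herm y) (W : Finset α) (v : α → ℂ) :
    (∑ i ∈ W, ∑ j ∈ W, star (v i) * y i j * v j).im = 0 := by
  have h : star (∑ i ∈ W, ∑ j ∈ W, star (v i) * y i j * v j) =
      ∑ i ∈ W, ∑ j ∈ W, star (v i) * y i j * v j := by
    rw [star_sum]
    simp only [star_sum]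
    rw [Finset.sum_comm]
    refine Finset.sum_congr rfl fun i _ => Finset.sum_congr rfl fun j _ => ?_
    rw [star_mul', star_mul', star_star, ← hy j i]
    ring
  exact Complex.conj_eq_iff_im.1 h

theorem det_ne_zero_of (hy : Herm y) (hz : ∀ i ∈ W, 0 < (z i).im) :
    Matrix.det (Matrix.of fun i j : W => (if i = j then z i else 0) - y i j) ≠ 0 := by
  intro h0
  obtain ⟨v, hv, hv0⟩ := Matrix.exists_mulVec_eq_zero_iff.2 h0
  let v' : α → ℂ := fun i => if h : i ∈ W then v ⟨i, h⟩ else 0
  have hv' : ∀ i : W, v' i = v i := fun i => by simp [v']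
  have h1 : ∑ i ∈ W, star (v' i) * (z i * v' i - ∑ j ∈ W, y i j * v' j) = 0 := by
    rw [← Finset.sum_coe_sort]
    refine Finset.sum_eq_zero fun i _ => ?_
    have h2 := congrFun hv0 i
    simp only [Matrix.mulVec, dotProduct, Matrix.of_apply, Pi.zero_apply, sub_mul, ite_mul,
      zero_mul, Finset.sum_sub_distrib, Finset.sum_ite_eq, mem_univ, if_true] at h2
    rw [← Finset.sum_coe_sort W (fun j => y i j * v' j)]
    simp only [hv']
    rw [h2, mul_zero]
  have h3 : ∑ i ∈ W, (z i * (‖v' i‖ ^ 2 : ℝ)) =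
      ∑ i ∈ W, ∑ j ∈ W, star (v' i) * y i j * v' j := by
    rw [← sub_eq_zero, ← h1, ← Finset.sum_sub_distrib]
    refine Finset.sum_congr rfl fun i _ => ?_
    rw [mul_sub, Finset.mul_sum]
    congr 1
    · have : star (v' i) * v' i = ((‖v' i‖ ^ 2 : ℝ) : ℂ) := by
        rw [Complex.star_def, Complex.conj_mul']
        push_cast
        rfl
      rw [← this]
      ring
    · exact Finset.sum_congr rfl fun j _ => by ring
  have h4 := congrArg Complex.im h3
  rw [qf_im hy] at h4
  simp only [Complex.im_sum, Complex.mul_im, Complex.ofReal_im, Complex.ofReal_re, mul_zero,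
    zero_add] at h4
  obtain ⟨i, hi⟩ := Function.ne_iff.1 hv
  have h5 : 0 < ∑ i ∈ W, (z i).im * ‖v' i‖ ^ 2 := by
    refine Finset.sum_pos' (fun i hi => mul_nonneg (hz i hi).le (by (clear * -; positivity))) ⟨i, i.2, ?_⟩
    refine mul_pos (hz i i.2) ?_
    rw [hv']
    have : v i ≠ 0 := hi
    positivity
  linarith only [h4, h5]

theorem det_pos_of (hy : Herm y) (hb : FB a b y) (x : α → ℝ) (hx : ∀ i ∈ W, a < x i) :
    0 < (Matrix.det (Matrix.of fun i j : W => (if i = j then (x i : ℂ) else 0) - y i j)).re := by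
  have h : (Matrix.of fun i j : W => (if i = j then (x i : ℂ) else 0) - y i j).PosDef := by
    refine Matrix.PosDef.of_dotProduct_mulVec_pos ?_ fun v hv => ?_
    · ext i j
      rw [Matrix.conjTranspose_apply, Matrix.of_apply, Matrix.of_apply, star_sub, ← hy j i]
      congr 1
      by_cases hij : i = j
      · subst hij; simp
      · rw [if_neg hij, if_neg fun h => hij h.symm, star_zero]
    · let v' : α → ℂ := fun i => if h : i ∈ W then v ⟨i, h⟩ else 0
      have hv' : ∀ i : W, v' i = v i := fun i => by simp [v']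
      have e : star v ⬝ᵥ (Matrix.of fun i j : W => (if i = j then (x i : ℂ) else 0) - y i j).mulVec v
          = ∑ i ∈ W, ((x i * ‖v' i‖ ^ 2 : ℝ) : ℂ) -
            ∑ i ∈ W, ∑ j ∈ W, star (v' i) * y i j * v' j := by
        simp only [dotProduct, Matrix.mulVec, Matrix.of_apply, sub_mul, ite_mul, zero_mul,
          Finset.sum_sub_distrib, Finset.sum_ite_eq, mem_univ, if_true, mul_sub, Pi.star_apply]
        congr 1
        · rw [← Finset.sum_coe_sort W]
          refine Finset.sum_congr rfl fun i _ => ?_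
          rw [← hv' i]
          have : star (v' i) * v' i = ((‖v' i‖ ^ 2 : ℝ) : ℂ) := by
            rw [Complex.star_def, Complex.conj_mul']
            push_cast
            rfl
          rw [Complex.ofReal_mul, ← this]
          ring
        · rw [← Finset.sum_coe_sort W]
          refine Finset.sum_congr rfl fun i _ => ?_
          rw [← Finset.sum_coe_sort W, Finset.mul_sum]
          refine Finset.sum_congr rfl fun j _ => ?_
          rw [hv' i, hv' j]
          ring
      rw [e, Complex.pos_iff, Complex.sub_im, qf_im hy, ← Complex.ofReal_sum, Complex.ofReal_im,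
        Complex.sub_re, Complex.ofReal_re]
      refine ⟨?_, by simp⟩
      have h1 := (hb W v').2
      unfold qf at h1
      have h2 : a * ∑ i ∈ W, ‖v' i‖ ^ 2 < ∑ i ∈ W, x i * ‖v' i‖ ^ 2 := by
        rw [Finset.mul_sum]
        obtain ⟨i, hi⟩ := Function.ne_iff.1 hv
        refine Finset.sum_lt_sum (fun i hi => mul_le_mul_of_nonneg_right (hx i hi).le
          (by (clear * -; positivity))) ⟨i, i.2, mul_lt_mul_of_pos_right (hx i i.2) ?_⟩
        rw [hv']
        have : v i ≠ 0 := hi
        positivity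
      linarith only [h1, h2]
  have := h.det_pos
  exact (Complex.pos_iff.1 this).1

end Single

variable {α β : Type*} [DecidableEq α] [DecidableEq β] {Ω : Type*} [Fintype Ω] [DecidableEq Ω]
variable {y y' : Ω → α → α → ℂ} {s s' : α → Ω → Ω} {z z' : α → ℂ} {W W' : Finset α} {w : α}
variable {a b : ℝ}

theorem kc_herm (hy : ∀ k, Herm (y k)) (c : α → Ω) : Herm (kc y c) := by
  intro i j
  unfold kc
  by_cases h : c i = c j
  · rw [if_pos h, if_pos h.symm, h, hy _ i j]
  · rw [if_neg h, if_neg fun h' => h h'.symm, star_zero]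

/-- from nonvanishing to the ratio -/
private theorem ratio_of_ne (hr : 0 < Fintype.card Ω) (hw : w ∈ W)
    (h : ∀ z : α → ℂ, (∀ i ∈ W, 0 < (z i).im) → Q y s z W ≠ 0)
    (hz : ∀ i ∈ W, 0 < (z i).im) (h' : Q y s z (W.erase w) ≠ 0) :
    (z w).im ≤ (Q y s z W / Q y s z (W.erase w)).im := by
  have e1 : ∀ ζ : ℂ, Q y s (Function.update z w ζ) W = ζ * Q y s z (W.erase w) +
      Q y s (Function.update z w 0) W := by
    intro ζ
    have := Q_insert (y := y) (s := s) (z := Function.update z w ζ) hr (notMem_erase w W)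
    rw [insert_erase hw] at this
    rw [this, Function.update_self, Function.update_idem]
    congr 2
    refine Q_congr (fun _ _ _ _ _ => rfl) (fun _ _ => rfl) fun i hi => ?_
    rw [Function.update_of_ne (mem_erase.1 hi).1]
  set G := Q y s z (W.erase w)
  set R := Q y s (Function.update z w 0) W
  have e2 : Q y s z W = z w * G + R := by
    rw [← e1 (z w), Function.update_eq_self]
  have h3 : 0 ≤ (R / G).im := by
    by_contra hneg
    push Not at hneg
    refine h (Function.update z w (-(R / G))) ?_ ?_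
    · intro i hi
      by_cases hiw : i = w
      · subst hiw
        rw [Function.update_self, Complex.neg_im]
        linarith only [hneg]
      · rw [Function.update_of_ne hiw]
        exact hz i hi
    · rw [e1]
      field_simp
      ring
  rw [e2, add_div, mul_div_assoc, div_self h', mul_one, Complex.add_im]
  linarith only [h3]

private theorem Q_ne_zero_aux (hr : 0 < Fintype.card Ω) (hy : ∀ k, Herm (y k)) (n : ℕ) :
    ∀ (s : α → Ω → Ω) (W : Finset α), (W.filter fun i => ¬ ∃ k, s i = fun _ => k).card = n →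
      ∀ z : α → ℂ, (∀ i ∈ W, 0 < (z i).im) → Q y s z W ≠ 0 := by
  induction n with
  | zero =>
    intro s W h z hz
    rw [card_eq_zero, filter_eq_empty_iff] at h
    obtain ⟨o⟩ : Nonempty Ω := Fintype.card_pos_iff.1 hr
    rw [Q_const hr (fun i => s i o) (fun i hi => ?_)]
    · exact det_ne_zero_of (kc_herm hy _) hz
    · obtain ⟨k, hk⟩ := not_not.1 (h hi)
      rw [hk]
  | succ n ih =>
    intro s W h z hz
    have hne : (W.filter fun i => ¬ ∃ k, s i = fun _ => k).Nonempty := by
      rw [← card_pos]; omega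
    obtain ⟨w, hw⟩ := hne
    have hwW := (mem_filter.1 hw).1
    have hsw := (mem_filter.1 hw).2
    have hG : Q y s z (W.erase w) ≠ 0 := by
      refine ih s (W.erase w) ?_ z fun i hi => hz i (mem_of_mem_erase hi)
      rw [filter_erase, card_erase_of_mem hw, h]
      rfl
    have hca : ∀ c : Ω, (W.filter fun i =>
        ¬ ∃ k, Function.update s w (fun _ => s w c) i = fun _ => k).card = n := by
      intro c
      have : (W.filter fun i => ¬ ∃ k, Function.update s w (fun _ => s w c) i = fun _ => k) =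
          (W.filter fun i => ¬ ∃ k, s i = fun _ => k).erase w := by
        ext i
        by_cases hi : i = w
        · subst hi
          simp only [mem_filter, Function.update_self, mem_erase, ne_eq, not_true, false_and,
            iff_false, not_and, not_not]
          exact fun _ => ⟨_, rfl⟩
        · simp only [not_exists, mem_filter, ne_eq, hi, not_false_eq_true, Function.update_of_ne, mem_erase, true_and]
      rw [this, card_erase_of_mem hw, h]
      rfl
    have hGa : ∀ c : Ω, Q y (Function.update s w (fun _ => s w c)) z (W.erase w) =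
        Q y s z (W.erase w) := by
      intro c
      refine Q_congr (fun _ _ _ _ _ => rfl) (fun i hi => ?_) fun _ _ => rfl
      rw [Function.update_of_ne (mem_erase.1 hi).1]
    have hpos : 0 < (Q y s z W / Q y s z (W.erase w)).im := by
      rw [Q_avg hr hwW, mul_div_assoc, Finset.sum_div, Finset.mul_sum, Complex.im_sum]
      have : Nonempty Ω := Fintype.card_pos_iff.1 hr
      refine Finset.sum_pos (fun c _ => ?_) univ_nonempty
      have e : (Fintype.card Ω : ℂ)⁻¹ = ((Fintype.card Ω : ℝ)⁻¹ : ℝ) := by push_cast; rfl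
      have hr' : (0 : ℝ) < Fintype.card Ω := by exact_mod_cast hr
      rw [e, Complex.im_ofReal_mul, ← hGa c]
      refine mul_pos (by (clear * - this; positivity)) (lt_of_lt_of_le (hz w hwW) ?_)
      refine ratio_of_ne hr hwW (ih _ W (hca c)) hz ?_
      rw [hGa c]
      exact hG
    intro h0
    rw [h0] at hpos
    simp at hpos

theorem Q_ne_zero (hr : 0 < Fintype.card Ω) (hy : ∀ k, Herm (y k)) (hz : ∀ i ∈ W, 0 < (z i).im) : Q y s z W ≠ 0 :=
  Q_ne_zero_aux hr hy _ s W rfl z hz

theorem Q_ratio_im (hr : 0 < Fintype.card Ω) (hy : ∀ k, Herm (y k)) (hz : ∀ i ∈ W, 0 < (z i).im) (hw : w ∈ W) :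
    (z w).im ≤ (Q y s z W / Q y s z (W.erase w)).im :=
  ratio_of_ne hr hw (fun _ h => Q_ne_zero hr hy h) hz
    (Q_ne_zero hr hy fun i hi => hz i (mem_of_mem_erase hi))

theorem Q_norm_ge (hr : 0 < Fintype.card Ω) (hy : ∀ k, Herm (y k)) (hz : ∀ i ∈ W, 0 < (z i).im) (hw : w ∈ W) :
    (z w).im * ‖Q y s z (W.erase w)‖ ≤ ‖Q y s z W‖ := by
  have h0 : Q y s z (W.erase w) ≠ 0 := Q_ne_zero hr hy fun i hi => hz i (mem_of_mem_erase hi)
  have h1 := Q_ratio_im (s := s) hr hy hz hw
  have h2 : (z w).im ≤ ‖Q y s z W / Q y s z (W.erase w)‖ :=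
    h1.trans ((le_abs_self _).trans (Complex.abs_im_le_norm _))
  rw [norm_div, le_div_iff₀ (norm_pos_iff.2 h0)] at h2
  exact h2

theorem Q_real_im (hy : ∀ k, Herm (y k)) (x : α → ℝ) : (Q y s (fun i => (x i : ℂ)) W).im = 0 := by
  have h := Q_star (s := s) (z := fun i => (x i : ℂ)) (W := W) hy
  have h1 : (fun i => star (x i : ℂ)) = fun i => (x i : ℂ) := by
    funext i
    exact Complex.conj_ofReal _
  rw [h1] at h
  exact Complex.conj_eq_iff_im.1 h.symm

/-- the quadratic form of the kernel of a colouring -/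
private theorem qf_kc (c : α → Ω) (v : α → ℂ) :
    qf (kc y c) W v = ∑ k : Ω, qf (y k) W (fun i => if c i = k then v i else 0) := by
  unfold qf
  rw [← Complex.re_sum]
  refine congrArg Complex.re ?_
  rw [Finset.sum_comm (s := univ)]
  refine Finset.sum_congr rfl fun i _ => ?_
  rw [Finset.sum_comm (s := univ)]
  refine Finset.sum_congr rfl fun j _ => ?_
  unfold kc
  by_cases h : c i = c j
  · rw [if_pos h]
    rw [Finset.sum_eq_single (c i)]
    · simp [h]
    · intro k _ hk
      have hk' : ¬ c i = k := fun h' => hk h'.symm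
      simp [hk']
    · intro h'
      exact absurd (mem_univ _) h'
  · rw [if_neg h]
    symm
    rw [mul_zero, zero_mul]
    refine Finset.sum_eq_zero fun k _ => ?_
    by_cases hk : c i = k
    · have hk' : ¬ c j = k := fun h' => h (hk.trans h'.symm)
      simp [hk']
    · simp [hk]

omit [DecidableEq α] in
private theorem sum_pinch (c : α → Ω) (v : α → ℂ) :
    ∑ k : Ω, ∑ i ∈ W, ‖if c i = k then v i else 0‖ ^ 2 = ∑ i ∈ W, ‖v i‖ ^ 2 := by
  rw [Finset.sum_comm]
  refine Finset.sum_congr rfl fun i _ => ?_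
  rw [Finset.sum_eq_single (c i)]
  · simp
  · intro k _ hk
    rw [if_neg (fun h' => hk h'.symm)]
    simp
  · intro h'
    exact absurd (mem_univ _) h'

theorem FB_kc (hb : ∀ k, FB a b (y k)) (c : α → Ω) : FB a b (kc y c) := by
  intro W v
  rw [qf_kc, ← sum_pinch c v, Finset.mul_sum, Finset.mul_sum]
  exact ⟨Finset.sum_le_sum fun k _ => (hb k W _).1, Finset.sum_le_sum fun k _ => (hb k W _).2⟩

private theorem Q_pos_aux (hr : 0 < Fintype.card Ω) (hy : ∀ k, Herm (y k)) (hb : ∀ k, FB a b (y k)) (x : α → ℝ) (n : ℕ) :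
    ∀ (s : α → Ω → Ω) (W : Finset α), (W.filter fun i => ¬ ∃ k, s i = fun _ => k).card = n →
      (∀ i ∈ W, a < x i) → 0 < (Q y s (fun i => (x i : ℂ)) W).re := by
  induction n with
  | zero =>
    intro s W h hx
    rw [card_eq_zero, filter_eq_empty_iff] at h
    obtain ⟨o⟩ : Nonempty Ω := Fintype.card_pos_iff.1 hr
    rw [Q_const hr (fun i => s i o) (fun i hi => ?_)]
    · exact det_pos_of (kc_herm hy _) (FB_kc hb _) x hx
    · obtain ⟨k, hk⟩ := not_not.1 (h hi)
      rw [hk]
  | succ n ih =>
    intro s W h hx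
    have hne : (W.filter fun i => ¬ ∃ k, s i = fun _ => k).Nonempty := by
      rw [← card_pos]; omega
    obtain ⟨w, hw⟩ := hne
    have hwW := (mem_filter.1 hw).1
    have hsw := (mem_filter.1 hw).2
    have hca : ∀ c : Ω, (W.filter fun i =>
        ¬ ∃ k, Function.update s w (fun _ => s w c) i = fun _ => k).card = n := by
      intro c
      have : (W.filter fun i => ¬ ∃ k, Function.update s w (fun _ => s w c) i = fun _ => k) =
          (W.filter fun i => ¬ ∃ k, s i = fun _ => k).erase w := by
        ext i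
        by_cases hi : i = w
        · subst hi
          simp only [mem_filter, Function.update_self, mem_erase, ne_eq, not_true, false_and,
            iff_false, not_and, not_not]
          exact fun _ => ⟨_, rfl⟩
        · simp only [not_exists, mem_filter, ne_eq, hi, not_false_eq_true, Function.update_of_ne, mem_erase, true_and]
      rw [this, card_erase_of_mem hw, h]
      rfl
    rw [Q_avg hr hwW]
    have e : (Fintype.card Ω : ℂ)⁻¹ = ((Fintype.card Ω : ℝ)⁻¹ : ℝ) := by push_cast; rfl
    have hr' : (0 : ℝ) < Fintype.card Ω := by exact_mod_cast hr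
    rw [e, Complex.re_ofReal_mul, Complex.re_sum]
    have : Nonempty Ω := Fintype.card_pos_iff.1 hr
    exact mul_pos (by positivity) (Finset.sum_pos (fun c _ => ih _ W (hca c) hx) univ_nonempty)

theorem Q_pos (hr : 0 < Fintype.card Ω) (hy : ∀ k, Herm (y k)) (hb : ∀ k, FB a b (y k)) (x : α → ℝ) (hx : ∀ i ∈ W, a < x i) :
    0 < (Q y s (fun i => (x i : ℂ)) W).re :=
  Q_pos_aux hr hy hb x _ s W rfl hx

private theorem Q_neg_eq : Q (fun k i j => -y k i j) s (fun i => -z i) W =
    (-1) ^ W.card * Q y s z W := by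
  unfold Q
  rw [mul_left_comm]
  refine congrArg _ ?_
  rw [Finset.mul_sum]
  refine Finset.sum_congr rfl fun c _ => ?_
  have := Matrix.det_neg (Matrix.of fun i j : W =>
    (if i = j then z i else 0) - if s i (c i) = s j (c j) then y (s i (c i)) i j else 0)
  rw [Fintype.card_coe] at this
  rw [← this]
  congr 1
  ext i j
  simp only [Matrix.of_apply, Matrix.neg_apply]
  split_ifs <;> ring

theorem Q_neg (hr : 0 < Fintype.card Ω) (hy : ∀ k, Herm (y k)) (hb : ∀ k, FB a b (y k)) (x : α → ℝ) (hx : ∀ i ∈ W, x i < -b) :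
    0 < (-1) ^ W.card * (Q y s (fun i => (x i : ℂ)) W).re := by
  have h1 : ∀ k, Herm (fun i j => -y k i j) := fun k i j => by
    simp only [star_neg, hy k i j]
  have h2 : ∀ k, FB b a (fun i j => -y k i j) := by
    intro k W v
    have e : qf (fun i j => -y k i j) W v = - qf (y k) W v := by
      unfold qf
      rw [← Complex.neg_re]
      refine congrArg Complex.re ?_
      rw [← Finset.sum_neg_distrib]
      refine Finset.sum_congr rfl fun i _ => ?_
      rw [← Finset.sum_neg_distrib]
      exact Finset.sum_congr rfl fun j _ => by ring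
    have := hb k W v
    rw [e]
    constructor <;> linarith only [this]
  have h3 := Q_pos (s := s) (W := W) hr h1 h2 (fun i => -x i) fun i hi => by
    have := hx i hi
    linarith only [this]
  have h4 : (fun i => ((-x i : ℝ) : ℂ)) = fun i => -(x i : ℂ) := by
    funext i; push_cast; rfl
  rw [h4, Q_neg_eq] at h3
  have h5 : ((-1 : ℂ) ^ W.card) = (((-1 : ℝ) ^ W.card : ℝ) : ℂ) := by push_cast; rfl
  rwa [h5, Complex.re_ofReal_mul] at h3

theorem card_rts (hr : 0 < Fintype.card Ω) : Multiset.card (rts y s W) = W.card := by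
  rw [rts, Multiset.card_map, ← natDegree_chi (y := y) (s := s) hr]
  exact (splits_iff_card_roots.1 (IsAlgClosed.splits _))

private theorem root_real (hr : 0 < Fintype.card Ω) (hy : ∀ k, Herm (y k)) {ζ : ℂ} (h : Q y s (fun _ => ζ) W = 0) :
    ζ.im = 0 := by
  have h1 : ¬ 0 < ζ.im := fun h' => Q_ne_zero hr hy (fun _ _ => h') h
  have h2 : ¬ 0 < (star ζ).im := fun h' => Q_ne_zero (s := s) (W := W) hr hy
    (z := fun _ => star ζ) (fun _ _ => h') (by
      have := Q_star (s := s) (z := fun _ => ζ) (W := W) hy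
      rw [this, h, star_zero])
  rw [Complex.star_def, Complex.conj_im] at h2
  (clear * - h2 h1; linarith)

theorem Q_eq_prod (hr : 0 < Fintype.card Ω) (hy : ∀ k, Herm (y k)) (t : ℂ) :
    Q y s (fun _ => t) W = ((rts y s W).map fun l : ℝ => t - (l : ℂ)).prod := by
  rw [← eval_chi hr, rts, Multiset.map_map]
  have h1 : chi y s W = ((chi y s W).roots.map fun ζ => X - Polynomial.C ζ).prod := by
    have := (IsAlgClosed.splits (chi y s W)).eq_prod_roots
    rw [(monic_chi hr).leadingCoeff, map_one, one_mul] at this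
    exact this
  conv_lhs => rw [h1]
  rw [eval_multiset_prod, Multiset.map_map]
  congr 1
  refine Multiset.map_congr rfl fun ζ hζ => ?_
  have h2 : ζ.im = 0 := by
    refine root_real (s := s) (W := W) hr hy ?_
    rw [← eval_chi hr]
    exact (mem_roots'.1 hζ).2
  simp only [Function.comp_apply, eval_sub, eval_X, eval_C]
  congr 1
  exact Complex.ext (by simp) (by simp [h2])

/-- uniqueness of the real root multiset -/
theorem rts_unique (hr : 0 < Fintype.card Ω) (L : Multiset ℝ)
    (h : ∀ t : ℂ, Q y s (fun _ => t) W = (L.map fun l : ℝ => t - (l : ℂ)).prod) :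
    rts y s W = L := by
  have h1 : chi y s W = ((L.map fun l : ℝ => (l : ℂ)).map fun ζ => X - Polynomial.C ζ).prod := by
    refine Polynomial.funext fun t => ?_
    rw [eval_chi hr, h, eval_multiset_prod, Multiset.map_map, Multiset.map_map]
    congr 1
    refine Multiset.map_congr rfl fun l _ => ?_
    simp only [Function.comp_apply, eval_sub, eval_X, eval_C]
  rw [rts, h1, roots_multiset_prod_X_sub_C, Multiset.map_map]
  simp

theorem rts_root (hr : 0 < Fintype.card Ω) (hy : ∀ k, Herm (y k)) {l : ℝ} (hl : l ∈ rts y s W) :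
    Q y s (fun _ => (l : ℂ)) W = 0 := by
  rw [Q_eq_prod hr hy]
  refine Multiset.prod_eq_zero (Multiset.mem_map.2 ⟨l, hl, ?_⟩)
  simp

theorem rts_mem (hr : 0 < Fintype.card Ω) (hy : ∀ k, Herm (y k)) (hb : ∀ k, FB a b (y k)) {l : ℝ} (hl : l ∈ rts y s W) :
    -b ≤ l ∧ l ≤ a := by
  have h0 := rts_root hr hy hl
  constructor
  · by_contra h
    push Not at h
    have := Q_neg (s := s) (W := W) hr hy hb (fun _ => l) fun _ _ => h
    rw [h0] at this
    simp only [Complex.zero_re, mul_zero, lt_self_iff_false] at this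
  · by_contra h
    push Not at h
    have := Q_pos (s := s) (W := W) hr hy hb (fun _ => l) fun _ _ => h
    rw [h0] at this
    simp at this

theorem rts_lt (hr : 0 < Fintype.card Ω) (hy : ∀ k, Herm (y k)) {e : ℝ}
    (h : ∀ t : ℝ, e ≤ t → 0 < (Q y s (fun _ => (t : ℂ)) W).re) {l : ℝ} (hl : l ∈ rts y s W) :
    l < e := by
  by_contra h'
  push Not at h'
  have := h l h'
  rw [rts_root hr hy hl] at this
  simp at this

theorem rts_congr (hy : ∀ k, ∀ i ∈ W, ∀ j ∈ W, y k i j = y' k i j) (hs : ∀ i ∈ W, s i = s' i) :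
    rts y s W = rts y' s' W := by
  have : chi y s W = chi y' s' W := by
    unfold chi
    refine Finset.sum_congr rfl fun S hS => ?_
    have hS' := mem_powerset.1 hS
    rw [Q_congr (fun k i hi j hj => hy k i (hS' hi) j (hS' hj)) (fun i hi => hs i (hS' hi))
      fun _ _ => rfl]
  rw [rts, rts, this]

theorem rts_union (hr : 0 < Fintype.card Ω) (hy : ∀ k, Herm (y k)) (hd : Disjoint W W')
    (h : ∀ k, ∀ i ∈ W, ∀ j ∈ W', y k i j = 0 ∧ y k j i = 0) :
    rts y s (W ∪ W') = rts y s W + rts y s W' := by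
  refine rts_unique hr _ fun t => ?_
  rw [Q_union hr hd h, Q_eq_prod hr hy, Q_eq_prod hr hy, Multiset.map_add, Multiset.prod_add]

end Vale.Agent.P078.D
end

section

/-! T4: cluster coefficients and properties of `SP`. -/

namespace Vale.Agent.P078.D

open Finset Polynomial
open Vale.Agent.P078.C (Herm ZD qf FB yc pw gf GoodPoly)

variable {α β : Type*} [DecidableEq α] [DecidableEq β] {Ω : Type*} [Fintype Ω] [DecidableEq Ω]
variable {p : ℝ[X]} {y y' : Ω → α → α → ℂ} {s s' : α → Ω → Ω} {W W' T T' : Finset α}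

theorem SP_congr (hy : ∀ k, ∀ i ∈ W, ∀ j ∈ W, y k i j = y' k i j) (hs : ∀ i ∈ W, s i = s' i) :
    SP p y s W = SP p y' s' W := by
  unfold SP
  rw [rts_congr hy hs]

private theorem rts_of_chi {β : Type*} [DecidableEq β] {y : Ω → α → α → ℂ} {y' : Ω → β → β → ℂ}
    {s : α → Ω → Ω}
    {s' : β → Ω → Ω} {W : Finset α} {W' : Finset β} (h : chi y s W = chi y' s' W') :
    rts y s W = rts y' s' W' := by
  unfold rts
  rw [h]

theorem SP_map (f : β ↪ α) (W : Finset β) :
    SP p y s (W.map f) = SP p (fun k i j => y k (f i) (f j)) (fun i => s (f i)) W := by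
  have h : chi y s (W.map f) = chi (fun k i j => y k (f i) (f j)) (fun i => s (f i)) W := by
    have hp : (W.map f).powerset = W.powerset.map (Finset.mapEmbedding f).toEmbedding := by
      ext S
      simp only [Finset.mem_powerset, Finset.subset_map_iff, Finset.mem_map,
        RelEmbedding.coe_toEmbedding, Finset.mapEmbedding_apply]
      exact ⟨fun ⟨u, hu, h⟩ => ⟨u, hu, h.symm⟩, fun ⟨u, hu, h⟩ => ⟨u, hu, h.symm⟩⟩
    unfold chi
    rw [hp, Finset.sum_map]
    refine Finset.sum_congr rfl fun S _ => ?_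
    simp only [Finset.mapEmbedding_apply, RelEmbedding.coe_toEmbedding, Finset.card_map]
    rw [Q_map]
    rfl
  unfold SP
  rw [rts_of_chi h]

theorem SP_gauge (u : α → ℂ) (hu : ∀ i ∈ W, ‖u i‖ = 1)
    (h : ∀ k, ∀ i ∈ W, ∀ j ∈ W, y' k i j = star (u i) * y k i j * u j) : SP p y' s W = SP p y s W := by
  have h : chi y' s W = chi y s W := by
    unfold chi
    refine Finset.sum_congr rfl fun S hS => ?_
    rw [Finset.mem_powerset] at hS
    rw [Q_gauge u (fun i hi => hu i (hS hi)) (fun k i hi j hj => h k i (hS hi) j (hS hj))]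
  unfold SP
  rw [rts_of_chi h]

theorem SP_union (hr : 0 < Fintype.card Ω) (hy : ∀ k, Herm (y k)) (hd : Disjoint W W')
    (h : ∀ k, ∀ i ∈ W, ∀ j ∈ W', y k i j = 0 ∧ y k j i = 0) :
    SP p y s (W ∪ W') = SP p y s W + SP p y s W' := by
  unfold SP
  rw [rts_union hr hy hd h, Multiset.map_add, Multiset.sum_add]

/-! ### power sums and Newton's identities -/

/-- power sums of the roots -/
private noncomputable def ps (y : Ω → α → α → ℂ) (s : α → Ω → Ω) (W : Finset α) (k : ℕ) : ℂ :=
  ((rts y s W).map fun l : ℝ => ((l : ℂ)) ^ k).sum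

/-- elementary symmetric functions of the roots, up to sign -/
private noncomputable def esy (y : Ω → α → α → ℂ) (s : α → Ω → Ω) (k : ℕ) (W : Finset α) : ℂ :=
  ∑ S ∈ W.powerset, if S.card = k then Q y s 0 S else 0

private theorem newton (R : Multiset ℂ) (k : ℕ) (hk : 0 < k) :
    (R.map (fun l => l ^ k)).sum = (-1) ^ (k + 1) * k * R.esymm k -
      ∑ a ∈ (antidiagonal k).filter (fun a => a.1 ∈ Set.Ioo 0 k),
        (-1) ^ a.1 * R.esymm a.1 * (R.map (fun l => l ^ a.2)).sum := by
  obtain ⟨n, f, rfl⟩ : ∃ (n : ℕ) (f : Fin n → ℂ), R = (Finset.univ : Finset (Fin n)).val.map f := by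
    induction R using Quotient.inductionOn with
    | h l =>
      refine ⟨l.length, l.get, ?_⟩
      rw [Fin.univ_val_map, List.ofFn_get]
      rfl
  have h := congrArg (MvPolynomial.aeval f) (MvPolynomial.psum_eq_mul_esymm_sub_sum (Fin n) ℂ k hk)
  simp only [MvPolynomial.psum, map_sum, map_pow, MvPolynomial.aeval_X, map_sub, map_mul, map_neg, map_one, map_natCast, MvPolynomial.aeval_esymm_eq_multiset_esymm] at h
  simp only [Multiset.map_map, Function.comp_def]
  exact h

private theorem chi_eq_prod (hr : 0 < Fintype.card Ω) (hy : ∀ k, Herm (y k)) :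
    chi y s W = (((rts y s W).map (fun l : ℝ => (l : ℂ))).map fun l => X - C l).prod := by
  refine Polynomial.funext fun t => ?_
  rw [eval_chi hr, Q_eq_prod hr hy, Polynomial.eval_multiset_prod, Multiset.map_map,
    Multiset.map_map]
  simp only [Function.comp_def, eval_sub, eval_X, eval_C, Function.comp_apply]

private theorem esymm_rts (hr : 0 < Fintype.card Ω) (hy : ∀ k, Herm (y k)) (k : ℕ) :
    ((rts y s W).map (fun l : ℝ => (l : ℂ))).esymm k = (-1) ^ k * esy y s k W := by
  have hc : Multiset.card ((rts y s W).map (fun l : ℝ => (l : ℂ))) = W.card := by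
    rw [Multiset.card_map, card_rts hr]
  by_cases hk : k ≤ W.card
  · have h1 := Multiset.prod_X_sub_C_coeff ((rts y s W).map (fun l : ℝ => (l : ℂ)))
      (k := W.card - k) (by rw [hc]; exact Nat.sub_le _ _)
    rw [hc, Nat.sub_sub_self hk, ← chi_eq_prod hr hy] at h1
    have h2 : (chi y s W).coeff (W.card - k) = esy y s k W := by
      unfold chi esy
      rw [Polynomial.finsetSum_coeff]
      refine Finset.sum_congr rfl fun S hS => ?_
      rw [Finset.mem_powerset] at hS
      have h3 := Finset.card_le_card hS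
      rw [Polynomial.coeff_C_mul_X_pow]
      refine if_congr ?_ rfl rfl
      (clear * - hk h3; omega)
    rw [← h2, h1, ← mul_assoc, ← pow_add, Even.neg_one_pow ⟨k, rfl⟩, one_mul]
  · have h1 : esy y s k W = 0 := by
      unfold esy
      refine Finset.sum_eq_zero fun S hS => ?_
      rw [Finset.mem_powerset] at hS
      have h3 := Finset.card_le_card hS
      rw [if_neg (by omega)]
    rw [h1, mul_zero]
    unfold Multiset.esymm
    rw [Multiset.powersetCard_eq_empty _ (by rw [hc]; omega)]
    rfl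

private theorem ps_newton (hr : 0 < Fintype.card Ω) (hy : ∀ k, Herm (y k)) (k : ℕ) (hk : 0 < k) :
    ps y s W k = (-1) ^ (k + 1) * k * ((-1) ^ k * esy y s k W) -
      ∑ a ∈ (antidiagonal k).filter (fun a => a.1 ∈ Set.Ioo 0 k),
        (-1) ^ a.1 * ((-1) ^ a.1 * esy y s a.1 W) * ps y s W a.2 := by
  have h := newton ((rts y s W).map (fun l : ℝ => (l : ℂ))) k hk
  simp only [Multiset.map_map, Function.comp_def, esymm_rts hr hy] at h
  exact h

private theorem ps_zero (hr : 0 < Fintype.card Ω) : ps y s W 0 = W.card := by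
  unfold ps
  simp only [pow_zero, Multiset.map_const', card_rts hr, Multiset.sum_replicate, nsmul_eq_mul, mul_one]

private theorem SP_eq_ps : (SP p y s W : ℂ) =
    ∑ k ∈ range (p.natDegree + 1), (p.coeff k : ℂ) * ps y s W k := by
  unfold SP ps
  induction rts y s W using Multiset.induction_on with
  | empty => simp
  | cons a R ih =>
    simp only [Multiset.map_cons, Multiset.sum_cons, mul_add, Finset.sum_add_distrib]
    rw [← ih, Complex.ofReal_add, Polynomial.eval_eq_sum_range]
    simp only [Complex.ofReal_sum, Complex.ofReal_mul, Complex.ofReal_pow]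

/-- the power sums of the roots depend continuously on the kernel -/
theorem continuous_SP (hr : 0 < Fintype.card Ω) {Z : Type*} [TopologicalSpace Z] {y : Z → Ω → α → α → ℂ}
    (hh : ∀ t k, Herm (y t k)) (hy : ∀ k, ∀ i ∈ W, ∀ j ∈ W, Continuous fun t => y t k i j) :
    Continuous fun t => SP p (y t) s W := by
  have h1 : ∀ k, Continuous fun t => esy (y t) s k W := by
    intro k
    unfold esy
    refine continuous_finsetSum _ fun S hS => ?_
    rw [Finset.mem_powerset] at hS
    by_cases hk : S.card = k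
    · simp only [hk, if_true]
      exact continuous_Q (fun k i hi j hj => hy k i (hS hi) j (hS hj)) (fun i _ => continuous_const)
    · simp only [hk, if_false]
      exact continuous_const
  have h2 : ∀ k, Continuous fun t => ps (y t) s W k := by
    intro k
    induction k using Nat.strong_induction_on with
    | _ k ih =>
      rcases Nat.eq_zero_or_pos k with rfl | hk
      · simp only [ps_zero hr]
        exact continuous_const
      · have h3 : (fun t => ps (y t) s W k) = fun t =>
          (-1) ^ (k + 1) * k * ((-1) ^ k * esy (y t) s k W) -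
          ∑ a ∈ (antidiagonal k).filter (fun a => a.1 ∈ Set.Ioo 0 k),
          (-1) ^ a.1 * ((-1) ^ a.1 * esy (y t) s a.1 W) * ps (y t) s W a.2 :=
          funext fun t => ps_newton hr (hh t) k hk
        rw [h3]
        refine Continuous.sub (continuous_const.mul (continuous_const.mul (h1 k))) ?_
        refine continuous_finsetSum _ fun a ha => ?_
        rw [Finset.mem_filter, HasAntidiagonal.mem_antidiagonal, Set.mem_Ioo] at ha
        exact (continuous_const.mul (continuous_const.mul (h1 a.1))).mul (ih a.2 (by omega))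
  have h4 : Continuous fun t => (SP p (y t) s W : ℂ) := by
    have h5 : (fun t => (SP p (y t) s W : ℂ)) = fun t =>
      ∑ k ∈ range (p.natDegree + 1), (p.coeff k : ℂ) * ps (y t) s W k :=
      funext fun t => SP_eq_ps
    rw [h5]
    exact continuous_finsetSum _ fun k _ => continuous_const.mul (h2 k)
  have h6 := Complex.continuous_re.comp h4
  simpa [Function.comp_def] using h6

/-! ### cluster coefficients -/

theorem kap_congr (hy : ∀ k, ∀ i ∈ T, ∀ j ∈ T, y k i j = y' k i j) (hs : ∀ i ∈ T, s i = s' i) :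
    kap p y s T = kap p y' s' T := by
  unfold kap
  refine Finset.sum_congr rfl fun W hW => ?_
  rw [Finset.mem_powerset] at hW
  rw [SP_congr (fun k i hi j hj => hy k i (hW hi) j (hW hj)) (fun i hi => hs i (hW hi))]

private theorem sum_toggle {R : Type*} [CommRing R] {S : Finset α} {x : α} (hx : x ∈ S)
    (G : Finset α → R) (hG : ∀ W ⊆ S.erase x, G (insert x W) = G W) :
    ∑ W ∈ S.powerset, (-1 : R) ^ (S.card - W.card) * G W = 0 := by
  obtain ⟨S', hx', rfl⟩ : ∃ S', x ∉ S' ∧ S = insert x S' :=
    ⟨S.erase x, Finset.notMem_erase _ _, (Finset.insert_erase hx).symm⟩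
  rw [Finset.erase_insert hx'] at hG
  rw [Finset.sum_powerset_insert hx', ← Finset.sum_add_distrib]
  refine Finset.sum_eq_zero fun W hW => ?_
  rw [Finset.mem_powerset] at hW
  have h1 : x ∉ W := fun h => hx' (hW h)
  rw [hG W hW, Finset.card_insert_of_notMem hx', Finset.card_insert_of_notMem h1]
  have h2 := Finset.card_le_card hW
  rw [show S'.card + 1 - W.card = (S'.card - W.card) + 1 by omega,
    show S'.card + 1 - (W.card + 1) = S'.card - W.card by omega]
  ring

private theorem sum_sign {R : Type*} [CommRing R] {V W : Finset α} (h : V ⊆ W) :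
    ∑ T ∈ W.powerset.filter (fun T => V ⊆ T), (-1 : R) ^ (W.card - T.card) =
      if V = W then 1 else 0 := by
  split_ifs with hVW
  · subst hVW
    rw [Finset.sum_eq_single V]
    · simp only [tsub_self, pow_zero]
    · intro T hT hne
      exfalso
      rw [Finset.mem_filter, Finset.mem_powerset] at hT
      exact hne (Finset.Subset.antisymm hT.1 hT.2)
    · intro hV
      exact absurd (by simp only [mem_filter, mem_powerset, Std.le_refl, and_self]) hV
  · obtain ⟨x, hxW, hxV⟩ := Finset.exists_of_ssubset (Finset.ssubset_iff_subset_ne.2 ⟨h, hVW⟩)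
    rw [Finset.sum_filter]
    have h1 := sum_toggle (R := R) hxW (fun T => if V ⊆ T then 1 else 0) (by
      intro T _
      refine if_congr ?_ rfl rfl
      rw [Finset.subset_insert_iff_of_notMem hxV])
    refine Eq.trans (Finset.sum_congr rfl fun T _ => ?_) h1
    by_cases h2 : V ⊆ T
    · rw [if_pos h2, if_pos h2, mul_one]
    · rw [if_neg h2, if_neg h2, mul_zero]

private theorem sum_sign' {R : Type*} [CommRing R] {V W : Finset α} (h : V ⊆ W) :
    ∑ T ∈ W.powerset.filter (fun T => V ⊆ T), (-1 : R) ^ (T.card - V.card) =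
      if V = W then 1 else 0 := by
  have h1 : ∑ T ∈ W.powerset.filter (fun T => V ⊆ T), (-1 : R) ^ (T.card - V.card) =
      (-1) ^ (W.card - V.card) *
      ∑ T ∈ W.powerset.filter (fun T => V ⊆ T), (-1 : R) ^ (W.card - T.card) := by
    rw [Finset.mul_sum]
    refine Finset.sum_congr rfl fun T hT => ?_
    rw [Finset.mem_filter, Finset.mem_powerset] at hT
    have h2 := Finset.card_le_card hT.1
    have h3 := Finset.card_le_card hT.2
    rw [← pow_add, show W.card - V.card + (W.card - T.card) =
      (T.card - V.card) + 2 * (W.card - T.card) by omega, pow_add, pow_mul]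
    simp only [even_two, Even.neg_pow, one_pow, mul_one]
  rw [h1, sum_sign h]
  split_ifs with h2
  · subst h2
    simp only [tsub_self, pow_zero, mul_one]
  · simp only [mul_zero]

private theorem mobius {R : Type*} [CommRing R] (g : Finset α → R) (W : Finset α) :
    ∑ T ∈ W.powerset, (-1 : R) ^ (W.card - T.card) * ∑ U ∈ T.powerset, g U = g W := by
  have h1 : ∑ T ∈ W.powerset, (-1 : R) ^ (W.card - T.card) * ∑ U ∈ T.powerset, g U =
      ∑ U ∈ W.powerset, ∑ T ∈ W.powerset.filter (fun T => U ⊆ T),
        (-1 : R) ^ (W.card - T.card) * g U := by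
    simp only [Finset.mul_sum]
    refine Finset.sum_comm' fun T U => ?_
    simp only [Finset.mem_powerset, Finset.mem_filter]
    exact ⟨fun ⟨h1, h2⟩ => ⟨⟨h1, h2⟩, h2.trans h1⟩, fun ⟨⟨h1, h2⟩, _⟩ => ⟨h1, h2⟩⟩
  rw [h1, Finset.sum_eq_single W]
  · rw [← Finset.sum_mul, sum_sign (Finset.Subset.refl W), if_pos rfl, one_mul]
  · intro U hU hne
    rw [Finset.mem_powerset] at hU
    rw [← Finset.sum_mul, sum_sign hU, if_neg hne, zero_mul]
  · intro h
    exact absurd (by simp) h

theorem sum_kap (W : Finset α) : ∑ T ∈ W.powerset, kap p y s T = SP p y s W := by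
  unfold kap
  have h1 : ∑ T ∈ W.powerset, ∑ V ∈ T.powerset, (-1 : ℝ) ^ (T.card - V.card) * SP p y s V =
      ∑ V ∈ W.powerset, ∑ T ∈ W.powerset.filter (fun T => V ⊆ T),
        (-1 : ℝ) ^ (T.card - V.card) * SP p y s V := by
    refine Finset.sum_comm' fun T U => ?_
    simp only [Finset.mem_powerset, Finset.mem_filter]
    exact ⟨fun ⟨h1, h2⟩ => ⟨⟨h1, h2⟩, h2.trans h1⟩, fun ⟨⟨h1, h2⟩, _⟩ => ⟨h1, h2⟩⟩
  rw [h1, Finset.sum_eq_single W]
  · rw [← Finset.sum_mul, sum_sign' (Finset.Subset.refl W), if_pos rfl, one_mul]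
  · intro U hU hne
    rw [Finset.mem_powerset] at hU
    rw [← Finset.sum_mul, sum_sign' hU, if_neg hne, zero_mul]
  · intro h
    exact absurd (by simp) h

theorem kap_disconn (hr : 0 < Fintype.card Ω) (hy : ∀ k, Herm (y k)) (hT : T.Nonempty) (hT' : T'.Nonempty)
    (hd : Disjoint T T') (h : ∀ k, ∀ i ∈ T, ∀ j ∈ T', y k i j = 0) : kap p y s (T ∪ T') = 0 := by
  obtain ⟨x, hx⟩ := hT
  obtain ⟨x', hx'⟩ := hT'
  have hxT' : x ∉ T' := Finset.disjoint_left.1 hd hx
  have hxT : x' ∉ T := Finset.disjoint_right.1 hd hx'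
  have h1 : ∀ W ∈ (T ∪ T').powerset, SP p y s W = SP p y s (W ∩ T) + SP p y s (W ∩ T') := by
    intro W hW
    rw [Finset.mem_powerset] at hW
    have h2 : W = (W ∩ T) ∪ (W ∩ T') := by
      rw [← Finset.inter_union_distrib_left]
      exact (Finset.inter_eq_left.2 hW).symm
    conv_lhs => rw [h2]
    refine SP_union hr hy ?_ ?_
    · exact Finset.disjoint_of_subset_left Finset.inter_subset_right
        (Finset.disjoint_of_subset_right Finset.inter_subset_right hd)
    · intro k i hi j hj
      have h3 := h k i (Finset.mem_inter.1 hi).2 j (Finset.mem_inter.1 hj).2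
      exact ⟨h3, by rw [hy k i j, h3, star_zero]⟩
  unfold kap
  rw [Finset.sum_congr rfl fun W hW => by rw [h1 W hW, mul_add], Finset.sum_add_distrib,
    sum_toggle (Finset.mem_union_right T hx') (fun W => SP p y s (W ∩ T)) (by
      intro W _
      simp only [Finset.insert_inter_of_notMem hxT]),
    sum_toggle (Finset.mem_union_left T' hx) (fun W => SP p y s (W ∩ T')) (by
      intro W _
      simp only [Finset.insert_inter_of_notMem hxT']), add_zero]

/-! ### set functions of bounded degree -/

private def Deg (k : ℕ) (F : Finset α → ℂ) : Prop :=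
  ∃ g : Finset α → ℂ, (∀ T, k < T.card → g T = 0) ∧ ∀ W, F W = ∑ T ∈ W.powerset, g T

omit [DecidableEq α] in
private theorem Deg.mono {k k' : ℕ} {F : Finset α → ℂ} (h : Deg k F) (hk : k ≤ k') : Deg k' F := by
  obtain ⟨g, h1, h2⟩ := h
  exact ⟨g, fun T hT => h1 T (by omega), h2⟩

omit [DecidableEq α] in
private theorem Deg.const_mul {k : ℕ} {F : Finset α → ℂ} (h : Deg k F) (c : ℂ) :
    Deg k (fun W => c * F W) := by
  obtain ⟨g, h1, h2⟩ := h
  refine ⟨fun T => c * g T, fun T hT => ?_, fun W => ?_⟩
  · simp only [h1 T hT, mul_zero]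
  · simp only [h2 W, Finset.mul_sum]

omit [DecidableEq α] in
private theorem Deg.sum {ι : Type*} {k : ℕ} (I : Finset ι) (F : ι → Finset α → ℂ)
    (h : ∀ i ∈ I, Deg k (F i)) : Deg k (fun W => ∑ i ∈ I, F i W) := by
  classical
  choose! g hg using h
  refine ⟨fun T => ∑ i ∈ I, g i T, fun T hT => ?_, fun W => ?_⟩
  · exact Finset.sum_eq_zero fun i hi => (hg i hi).1 T hT
  · rw [Finset.sum_comm]
    exact Finset.sum_congr rfl fun i hi => (hg i hi).2 W

omit [DecidableEq α] in
private theorem Deg.sub {k : ℕ} {F G : Finset α → ℂ} (h : Deg k F) (h' : Deg k G) :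
    Deg k (fun W => F W - G W) := by
  obtain ⟨g, h1, h2⟩ := h
  obtain ⟨g', h1', h2'⟩ := h'
  refine ⟨fun T => g T - g' T, fun T hT => ?_, fun W => ?_⟩
  · simp only [h1 T hT, h1' T hT, sub_zero]
  · simp only [h2 W, h2' W, Finset.sum_sub_distrib]

private theorem Deg.mul {k k' : ℕ} {F G : Finset α → ℂ} (h : Deg k F) (h' : Deg k' G) :
    Deg (k + k') (fun W => F W * G W) := by
  obtain ⟨g, h1, h2⟩ := h
  obtain ⟨g', h1', h2'⟩ := h'
  refine ⟨fun U => ∑ q ∈ (U.powerset ×ˢ U.powerset).filter (fun q => q.1 ∪ q.2 = U),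
    g q.1 * g' q.2, fun U hU => ?_, fun W => ?_⟩
  · refine Finset.sum_eq_zero fun q hq => ?_
    rw [Finset.mem_filter] at hq
    have h3 := Finset.card_union_le q.1 q.2
    rw [hq.2] at h3
    by_cases h4 : k < q.1.card
    · rw [h1 _ h4, zero_mul]
    · rw [h1' q.2 (by omega), mul_zero]
  · simp only [h2 W, h2' W]
    rw [Finset.sum_mul_sum, ← Finset.sum_product']
    rw [← Finset.sum_fiberwise_of_maps_to (s := W.powerset ×ˢ W.powerset) (t := W.powerset)
      (g := fun q => q.1 ∪ q.2)]
    · refine Finset.sum_congr rfl fun U hU => ?_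
      rw [Finset.mem_powerset] at hU
      refine Finset.sum_congr ?_ fun _ _ => rfl
      ext q
      simp only [Finset.mem_filter, Finset.mem_product, Finset.mem_powerset]
      refine ⟨fun ⟨_, h⟩ => ⟨⟨?_, ?_⟩, h⟩, fun ⟨h, h'⟩ => ⟨⟨h.1.trans hU, h.2.trans hU⟩, h'⟩⟩
      · rw [← h]
        exact Finset.subset_union_left
      · rw [← h]
        exact Finset.subset_union_right
    · intro q hq
      rw [Finset.mem_product, Finset.mem_powerset, Finset.mem_powerset] at hq
      rw [Finset.mem_powerset]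
      exact Finset.union_subset hq.1 hq.2

private theorem Deg.kap {k : ℕ} {F : Finset α → ℂ} (h : Deg k F) {T : Finset α}
    (hT : k < T.card) : ∑ W ∈ T.powerset, (-1 : ℂ) ^ (T.card - W.card) * F W = 0 := by
  obtain ⟨g, h1, h2⟩ := h
  simp only [h2]
  rw [mobius, h1 T hT]

private theorem deg_esy (k : ℕ) : Deg k (esy y s k) := by
  refine ⟨fun S => if S.card = k then Q y s 0 S else 0, fun T hT => ?_, fun W => rfl⟩
  exact if_neg (by omega)

private theorem deg_ps_zero (hr : 0 < Fintype.card Ω) : Deg 1 (fun W => ps y s W 0) := by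
  refine ⟨fun S => if S.card = 1 then 1 else 0, fun T hT => ?_, fun W => ?_⟩
  · exact if_neg (by omega)
  · simp only
    rw [ps_zero hr, Finset.sum_ite, Finset.sum_const_zero, add_zero, Finset.sum_const,
      ← Finset.powersetCard_eq_filter]
    simp

private theorem deg_ps (hr : 0 < Fintype.card Ω) (hy : ∀ k, Herm (y k)) (k : ℕ) (hk : 0 < k) :
    Deg k (fun W => ps y s W k) := by
  induction k using Nat.strong_induction_on with
  | _ k ih =>
    have h3 : (fun W => ps y s W k) = fun W =>
      (-1) ^ (k + 1) * k * ((-1) ^ k * esy y s k W) -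
      ∑ a ∈ (antidiagonal k).filter (fun a => a.1 ∈ Set.Ioo 0 k),
      (-1) ^ a.1 * ((-1) ^ a.1 * esy y s a.1 W) * ps y s W a.2 :=
      funext fun t => ps_newton hr hy k hk
    rw [h3]
    refine Deg.sub (Deg.const_mul (Deg.const_mul (deg_esy k) _) _) ?_
    refine Deg.sum _ _ fun a ha => ?_
    rw [Finset.mem_filter, HasAntidiagonal.mem_antidiagonal, Set.mem_Ioo] at ha
    have h4 := ih a.2 (by omega) (by omega)
    have h5 := Deg.mul (Deg.const_mul (Deg.const_mul (deg_esy (y := y) (s := s) a.1) ((-1) ^ a.1))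
      ((-1) ^ a.1)) h4
    rw [ha.1] at h5
    exact h5

theorem kap_large (hr : 0 < Fintype.card Ω) (hy : ∀ k, Herm (y k)) (h : p.natDegree < T.card) (h1 : 1 < T.card) :
    kap p y s T = 0 := by
  have h2 : ((kap p y s T : ℝ) : ℂ) = 0 := by
    unfold kap
    push_cast
    refine Deg.kap (k := max p.natDegree 1) ?_ (by omega)
    have h3 : (fun W => (SP p y s W : ℂ)) = fun W =>
      ∑ k ∈ range (p.natDegree + 1), (p.coeff k : ℂ) * ps y s W k := funext fun W => SP_eq_ps
    rw [h3]
    refine Deg.sum _ _ fun k hk => Deg.const_mul ?_ _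
    rw [Finset.mem_range] at hk
    rcases Nat.eq_zero_or_pos k with rfl | hk'
    · exact (deg_ps_zero hr).mono (le_max_right _ _)
    · exact (deg_ps hr hy k hk').mono (le_trans (by omega) (le_max_left _ _))
  exact_mod_cast h2

end Vale.Agent.P078.D
end

section

/-! T1a: algebraic properties of `Q`. -/

namespace Vale.Agent.P078.C

open Finset Polynomial

variable {α β : Type*} [DecidableEq α] [DecidableEq β] {r : ℕ}
variable {y y' : α → α → ℂ} {s s' : α → Option (Fin r)} {z z' : α → ℂ} {W W' : Finset α} {w : α}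

theorem Q_empty : Q y s z ∅ = 1 := by
  simp only [Q, card_empty, pow_zero, inv_one, univ_unique, Matrix.coe_det_isEmpty, Function.const_apply, sum_const, card_singleton, one_smul, mul_one]

theorem Q_congr (hy : ∀ i ∈ W, ∀ j ∈ W, y i j = y' i j) (hs : ∀ i ∈ W, s i = s' i)
    (hz : ∀ i ∈ W, z i = z' i) : Q y s z W = Q y' s' z' W := by
  unfold Q
  congr 1
  refine Finset.sum_congr rfl fun c _ => ?_
  congr 1
  ext i j
  simp only [Matrix.of_apply]
  rw [hy i i.2 j j.2, hs i i.2, hs j j.2, hz i i.2]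

/-- the matrix entries -/
private noncomputable def me (y : α → α → ℂ) (s : α → Option (Fin r)) (z : α → ℂ)
    {W : Finset α} (c : W → Fin r) (i j : W) : ℂ :=
  (if i = j then z i else 0) - if (s i).getD (c i) = (s j).getD (c j) then y i j else 0

private theorem Q_eq : Q y s z W =
    ((r : ℂ) ^ W.card)⁻¹ * ∑ c : W → Fin r, Matrix.det (Matrix.of (me y s z c)) := rfl

/-- block triangular case -/
private theorem det_sum {m n k : Type*} [Fintype m] [Fintype n] [Fintype k] [DecidableEq m]
    [DecidableEq n] [DecidableEq k] (e : m ⊕ n ≃ k) (B : k → k → ℂ)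
    (h0 : ∀ (i : n) (j : m), B (e (Sum.inr i)) (e (Sum.inl j)) = 0) :
    Matrix.det (Matrix.of B) =
      Matrix.det (Matrix.of fun i j : m => B (e (Sum.inl i)) (e (Sum.inl j))) *
      Matrix.det (Matrix.of fun i j : n => B (e (Sum.inr i)) (e (Sum.inr j))) := by
  rw [← Matrix.det_fromBlocks_zero₂₁ _
    (Matrix.of fun (i : m) (j : n) => B (e (Sum.inl i)) (e (Sum.inr j))),
    ← Matrix.det_submatrix_equiv_self e]
  congr 1
  ext i j
  rcases i with i | i <;> rcases j with j | j <;> simp [h0]

private theorem sum_fun {m n k R : Type*} [Fintype m] [Fintype n] [Fintype k] [DecidableEq m]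
    [DecidableEq n] [DecidableEq k] [Fintype R] (e : m ⊕ n ≃ k) (F : (m → R) → ℂ)
    (G : (n → R) → ℂ) :
    ∑ c : k → R, F (fun i => c (e (Sum.inl i))) * G (fun i => c (e (Sum.inr i))) =
      (∑ c, F c) * ∑ c, G c := by
  rw [Finset.sum_mul_sum, ← Finset.sum_product', Finset.univ_product_univ]
  refine Fintype.sum_equiv ((Equiv.arrowCongr e (Equiv.refl R)).symm.trans
    (Equiv.sumArrowEquivProdArrow m n R)) _ _ fun c => ?_
  simp only [Equiv.arrowCongr_symm, Equiv.refl_symm, Equiv.sumArrowEquivProdArrow, Equiv.trans_apply, Equiv.coe_fn_mk]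
  rfl

private def insE (hw : w ∉ W) : W ⊕ Unit ≃ ↥(insert w W : Finset α) :=
  (Equiv.optionEquivSumPUnit _).symm.trans (Finset.subtypeInsertEquivOption hw).symm

private theorem insE_inl (hw : w ∉ W) (i : W) :
    insE hw (Sum.inl i) = ⟨i, mem_insert_of_mem i.2⟩ := by
  rfl

private theorem insE_inr (hw : w ∉ W) (i : Unit) :
    insE hw (Sum.inr i) = ⟨w, mem_insert_self w W⟩ := by
  rfl

private theorem sum_const_fun (hr : 0 < r) (hw : w ∉ W) (F : (W → Fin r) → ℂ) :
    ((r : ℂ) ^ (insert w W).card)⁻¹ * ∑ c : ↥(insert w W : Finset α) → Fin r,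
      F (fun i => c ⟨i, mem_insert_of_mem i.2⟩) = ((r : ℂ) ^ W.card)⁻¹ * ∑ c, F c := by
  have h := sum_fun (R := Fin r) (insE hw) F (fun _ => 1)
  simp only [insE_inl, mul_one] at h
  rw [h]
  have hr' : (r : ℂ) ≠ 0 := by exact_mod_cast hr.ne'
  simp only [sum_const, card_univ, Fintype.card_fun, Fintype.card_fin, Fintype.card_unit,
    nsmul_eq_mul, mul_one, card_insert_of_notMem hw, pow_succ, pow_zero, one_mul]
  field_simp

theorem Q_insert (hr : 0 < r) (hw : w ∉ W) :
    Q y s z (insert w W) = z w * Q y s z W + Q y s (Function.update z w 0) (insert w W) := by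
  have key : ∀ c : ↥(insert w W : Finset α) → Fin r, Matrix.det (Matrix.of (me y s z c)) =
      z w * Matrix.det (Matrix.of (me y s z (W := W) fun i => c ⟨i, mem_insert_of_mem i.2⟩)) +
        Matrix.det (Matrix.of (me y s (Function.update z w 0) c)) := by
    intro c
    set w₀ : ↥(insert w W : Finset α) := ⟨w, mem_insert_self w W⟩ with hw₀
    have h1 : Matrix.of (me y s z c) = (Matrix.of (me y s (Function.update z w 0) c)).updateRow w₀
        (z w • (Pi.single w₀ 1 : ↥(insert w W : Finset α) → ℂ) +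
          Matrix.of (me y s (Function.update z w 0) c) w₀) := by
      ext i j
      by_cases hi : i = w₀
      · subst hi
        rw [Matrix.updateRow_self]
        by_cases hj : j = w₀
        · subst hj
          simp only [hw₀, Matrix.of_apply, me, ↓reduceIte, Pi.add_apply, Pi.smul_apply, Pi.single_eq_same, smul_eq_mul, mul_one, Function.update_self, zero_sub]
          ring
        · have hj' : w₀ ≠ j := fun h => hj h.symm
          simp only [Matrix.of_apply, me, hj', ↓reduceIte, zero_sub, Pi.add_apply, Pi.smul_apply, ne_eq, hj, not_false_eq_true, Pi.single_eq_of_ne, smul_eq_mul, mul_zero, zero_add]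
      · rw [Matrix.updateRow_ne hi]
        have hi' : (i : α) ≠ w := fun h => hi (Subtype.ext h)
        simp only [Matrix.of_apply, me, ne_eq, hi', not_false_eq_true, Function.update_of_ne]
    rw [h1, Matrix.det_updateRow_add, Matrix.det_updateRow_smul, Matrix.updateRow_eq_self]
    congr 2
    have h2 := det_sum (insE hw) (fun i j => (Matrix.updateRow (Matrix.of
      (me y s (Function.update z w 0) c)) w₀ (Pi.single w₀ 1)) i j) ?_
    · change Matrix.det (Matrix.updateRow (Matrix.of
        (me y s (Function.update z w 0) c)) w₀ (Pi.single w₀ 1)) = _ at h2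
      rw [h2]
      have h3 : Matrix.det (Matrix.of fun i j : Unit => (Matrix.updateRow (Matrix.of
          (me y s (Function.update z w 0) c)) w₀ (Pi.single w₀ 1)) (insE hw (Sum.inr i))
            (insE hw (Sum.inr j))) = 1 := by
        rw [Matrix.det_unique]
        simp [insE_inr, ← hw₀]
      rw [h3, mul_one]
      congr 1
      ext i j
      simp only [insE_inl, Matrix.of_apply]
      have hi' : (i : α) ≠ w := fun h => hw (h ▸ i.2)
      rw [Matrix.updateRow_ne (fun h => hi' (congrArg Subtype.val h))]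
      have he : ((⟨i, mem_insert_of_mem i.2⟩ : ↥(insert w W : Finset α)) =
          ⟨j, mem_insert_of_mem j.2⟩) ↔ i = j := by
        rw [Subtype.ext_iff, Subtype.ext_iff]
      simp only [me, Matrix.of_apply, he, Function.update_of_ne hi']
    · intro i j
      have hj' : (⟨j, mem_insert_of_mem j.2⟩ : (insert w W : Finset α)) ≠ w₀ := by
        intro h
        have h' : (j : α) = w := congrArg Subtype.val h
        exact hw (h' ▸ j.2)
      simp only [insE_inl, insE_inr, ← hw₀]
      rw [Matrix.updateRow_self]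
      simp only [ne_eq, hj', not_false_eq_true, Pi.single_eq_of_ne]
  rw [Q_eq, Finset.sum_congr rfl fun c _ => key c, Finset.sum_add_distrib, mul_add,
    ← Finset.mul_sum, mul_left_comm,
    sum_const_fun hr hw (fun c => Matrix.det (Matrix.of (me y s z c)))]
  rfl

theorem Q_avg (hr : 0 < r) (hw : w ∈ W) (hs : s w = none) :
    Q y s z W = (r : ℂ)⁻¹ * ∑ a : Fin r, Q y (Function.update s w (some a)) z W := by
  have key : ∀ (a : Fin r) (c : W → Fin r),
      Matrix.det (Matrix.of (me y (Function.update s w (some a)) z c)) =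
      Matrix.det (Matrix.of (me y s z (Function.update c ⟨w, hw⟩ a))) := by
    intro a c
    congr 1
    ext i j
    have h : ∀ i : W, (Function.update s w (some a) i).getD (c i) =
        (s i).getD (Function.update c ⟨w, hw⟩ a i) := by
      intro i
      by_cases hi : i = ⟨w, hw⟩
      · subst hi
        simp [hs]
      · have hi' : (i : α) ≠ w := fun h => hi (Subtype.ext h)
        simp [hi, hi']
    simp only [me, Matrix.of_apply, h]
  have hsum : ∑ a : Fin r, ∑ c : W → Fin r,
      Matrix.det (Matrix.of (me y s z (Function.update c ⟨w, hw⟩ a))) =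
      r * ∑ c : W → Fin r, Matrix.det (Matrix.of (me y s z c)) := by
    rw [← Finset.sum_product', Finset.univ_product_univ]
    have : (r : ℂ) * ∑ c : W → Fin r, Matrix.det (Matrix.of (me y s z c)) =
        ∑ x : Fin r × (W → Fin r), Matrix.det (Matrix.of (me y s z x.2)) := by
      rw [← Finset.univ_product_univ, Finset.sum_product]
      simp only [sum_const, card_univ, Fintype.card_fin, nsmul_eq_mul]
    rw [this]
    refine Fintype.sum_bijective (fun x : Fin r × (W → Fin r) =>
      (x.2 ⟨w, hw⟩, Function.update x.2 ⟨w, hw⟩ x.1)) ?_ _ _ fun x => rfl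
    refine Function.Involutive.bijective fun x => ?_
    ext1
    · simp
    · simp
  have hr' : (r : ℂ) ≠ 0 := by exact_mod_cast hr.ne'
  simp only [Q_eq]
  rw [← Finset.mul_sum]
  simp only [key]
  rw [hsum]
  field_simp

private theorem Q_expand_aux (hr : 0 < r) (U : Finset α) : ∀ W : Finset α, U ⊆ W →
    Q y s (fun i => if i ∈ U then z i else 0) W =
      ∑ R ∈ U.powerset, (∏ i ∈ R, z i) * Q y s 0 (W \ R) := by
  induction U using Finset.induction_on with
  | empty =>
    intro W _
    simp only [notMem_empty, if_false, powerset_empty, sum_singleton, prod_empty, one_mul,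
      sdiff_empty]
    rfl
  | insert w U hw ih =>
    intro W hW
    have hwW : w ∈ W := hW (mem_insert_self w U)
    have hUW : U ⊆ W := fun i hi => hW (mem_insert_of_mem hi)
    have hUW' : U ⊆ W.erase w := fun i hi =>
      mem_erase.2 ⟨fun h => hw (h ▸ hi), hUW hi⟩
    have e1 : Q y s (fun i => if i ∈ insert w U then z i else 0) W =
        z w * Q y s (fun i => if i ∈ U then z i else 0) (W.erase w) +
          Q y s (fun i => if i ∈ U then z i else 0) W := by
      conv_lhs => rw [← insert_erase hwW]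
      rw [Q_insert hr (notMem_erase w W), insert_erase hwW]
      congr 1
      · congr 1
        · simp
        · refine Q_congr (fun _ _ _ _ => rfl) (fun _ _ => rfl) fun i hi => ?_
          have : i ≠ w := (mem_erase.1 hi).1
          simp [mem_insert, this]
      · refine Q_congr (fun _ _ _ _ => rfl) (fun _ _ => rfl) fun i hi => ?_
        by_cases h : i = w
        · subst h
          simp only [mem_insert, Function.update_self, hw, ↓reduceIte]
        · simp only [mem_insert, ne_eq, h, not_false_eq_true, Function.update_of_ne, false_or]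
    rw [e1, ih _ hUW, ih _ hUW', sum_powerset_insert hw, add_comm, Finset.mul_sum]
    congr 1
    refine Finset.sum_congr rfl fun R hR => ?_
    have hwR : w ∉ R := fun h => hw (mem_powerset.1 hR h)
    rw [prod_insert hwR, mul_assoc]
    congr 3
    ext i
    simp only [mem_sdiff, mem_erase, mem_insert]
    (clear * -; tauto)

theorem Q_expand (hr : 0 < r) :
    Q y s z W = ∑ S ∈ W.powerset, (∏ i ∈ W \ S, z i) * Q y s 0 S := by
  have h := Q_expand_aux (y := y) (s := s) (z := z) hr W W subset_rfl
  have h1 : Q y s (fun i => if i ∈ W then z i else 0) W = Q y s z W :=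
    Q_congr (fun _ _ _ _ => rfl) (fun _ _ => rfl) fun i hi => by simp [hi]
  rw [← h1, h]
  refine Finset.sum_bij' (fun R _ => W \ R) (fun R _ => W \ R) ?_ ?_ ?_ ?_ ?_
  · intro R _; exact mem_powerset.2 sdiff_subset
  · intro R _; exact mem_powerset.2 sdiff_subset
  · intro R hR; exact Finset.sdiff_sdiff_eq_self (mem_powerset.1 hR)
  · intro R hR; exact Finset.sdiff_sdiff_eq_self (mem_powerset.1 hR)
  · intro R hR
    rw [Finset.sdiff_sdiff_eq_self (mem_powerset.1 hR)]

theorem Q_map (f : β ↪ α) (W : Finset β) :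
    Q y s z (W.map f) = Q (fun i j => y (f i) (f j)) (fun i => s (f i)) (fun i => z (f i)) W := by
  let e : W ≃ ↥(W.map f) := W.equivMap f
  have he : ∀ i : W, ((e i : ↥(W.map f)) : α) = f i := fun i => by simp [e]
  simp only [Q_eq, card_map]
  congr 1
  refine (Fintype.sum_equiv (Equiv.arrowCongr e (Equiv.refl (Fin r))) _ _ fun c => ?_).symm
  rw [← Matrix.det_submatrix_equiv_self e]
  congr 1
  ext i j
  simp only [Matrix.of_apply, me, Matrix.submatrix_apply, EmbeddingLike.apply_eq_iff_eq, he, Equiv.arrowCongr_apply, Equiv.coe_refl, Function.comp_apply, Equiv.symm_apply_apply, id_eq]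

theorem Q_union (hr : 0 < r) (hd : Disjoint W W')
    (h : ∀ i ∈ W, ∀ j ∈ W', y i j = 0 ∧ y j i = 0) :
    Q y s z (W ∪ W') = Q y s z W * Q y s z W' := by
  let e : W ⊕ W' ≃ ↥(W ∪ W') := Equiv.Finset.union W W' hd
  have he1 : ∀ i : W, ((e (Sum.inl i) : ↥(W ∪ W')) : α) = i := fun i => rfl
  have he2 : ∀ i : W', ((e (Sum.inr i) : ↥(W ∪ W')) : α) = i := fun i => rfl
  have key : ∀ c : ↥(W ∪ W') → Fin r, Matrix.det (Matrix.of (me y s z c)) =
      Matrix.det (Matrix.of (me y s z (W := W) fun i => c (e (Sum.inl i)))) *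
      Matrix.det (Matrix.of (me y s z (W := W') fun i => c (e (Sum.inr i)))) := by
    intro c
    rw [det_sum e]
    · congr 1
      · congr 1
        ext i j
        simp only [me, EmbeddingLike.apply_eq_iff_eq, Sum.inl.injEq, he1, Matrix.of_apply]
      · congr 1
        ext i j
        simp only [me, EmbeddingLike.apply_eq_iff_eq, Sum.inr.injEq, he2, Matrix.of_apply]
    · intro i j
      have hne : e (Sum.inr i) ≠ e (Sum.inl j) := fun h => by simpa using e.injective h
      simp only [me, hne, ↓reduceIte, he2, he1, (h j j.2 i i.2).2, ite_self, sub_self]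
  simp only [Q_eq]
  rw [Finset.sum_congr rfl fun c _ => key c,
    sum_fun e (fun c => Matrix.det (Matrix.of (me y s z c)))
      (fun c => Matrix.det (Matrix.of (me y s z c))), card_union_of_disjoint hd, pow_add]
  (clear * -; field_simp)

theorem Q_star (hy : Herm y) : Q y s (fun i => star (z i)) W = star (Q y s z W) := by
  simp only [Q_eq, star_mul', star_inv₀, star_pow, star_natCast, star_sum]
  congr 1
  refine Finset.sum_congr rfl fun c _ => ?_
  rw [← Matrix.det_conjTranspose]
  congr 1
  ext i j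
  simp only [me, Matrix.of_apply, Matrix.conjTranspose_apply, star_sub]
  congr 1
  · by_cases h : i = j
    · subst h; simp
    · have h' : j ≠ i := fun h' => h h'.symm
      simp [h, h']
  · by_cases h : (s i).getD (c i) = (s j).getD (c j)
    · rw [if_pos h, if_pos h.symm, hy i j, star_star]
    · rw [if_neg h, if_neg fun h' => h h'.symm, star_zero]

theorem Q_gauge (u : α → ℂ) (hu : ∀ i ∈ W, ‖u i‖ = 1)
    (h : ∀ i ∈ W, ∀ j ∈ W, y' i j = star (u i) * y i j * u j) : Q y' s z W = Q y s z W := by
  simp only [Q_eq]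
  congr 1
  refine Finset.sum_congr rfl fun c _ => ?_
  have h1 : Matrix.of (me y' s z c) = Matrix.diagonal (fun i : W => star (u i)) *
      Matrix.of (me y s z c) * Matrix.diagonal (fun i : W => u i) := by
    ext i j
    rw [Matrix.mul_diagonal, Matrix.diagonal_mul]
    simp only [me, Matrix.of_apply]
    rw [h i i.2 j j.2]
    by_cases hij : i = j
    · subst hij
      have hn : star (u i) * u i = 1 := by
        have := hu i i.2
        rw [Complex.star_def, Complex.conj_mul', this]
        simp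
      simp only [if_true]
      linear_combination (-(z i)) * hn
    · split_ifs <;> ring
  rw [h1, Matrix.det_mul, Matrix.det_mul, Matrix.det_diagonal, Matrix.det_diagonal, mul_right_comm,
    ← Finset.prod_mul_distrib]
  have h2 : ∏ i : W, star (u i) * u i = 1 := by
    refine Finset.prod_eq_one fun i _ => ?_
    rw [Complex.star_def, Complex.conj_mul', hu i i.2]
    simp
  rw [h2, one_mul]

theorem Q_some (hr : 0 < r) (c : α → Fin r) (hs : ∀ i ∈ W, s i = some (c i)) :
    Q y s z W = Matrix.det (Matrix.of fun i j : W =>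
      (if i = j then z i else 0) - yc y c i j) := by
  have key : ∀ c' : W → Fin r, Matrix.det (Matrix.of (me y s z c')) =
      Matrix.det (Matrix.of fun i j : W => (if i = j then z i else 0) - yc y c i j) := by
    intro c'
    congr 1
    ext i j
    simp [me, yc, hs i i.2, hs j j.2]
  rw [Q_eq, Finset.sum_congr rfl fun c' _ => key c']
  have hr' : (r : ℂ) ≠ 0 := by exact_mod_cast hr.ne'
  simp only [sum_const, card_univ, Fintype.card_fun, Fintype.card_fin, Fintype.card_coe, nsmul_eq_mul, Nat.cast_pow]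
  field_simp

theorem continuous_Q {Z : Type*} [TopologicalSpace Z] {y : Z → α → α → ℂ} {z : Z → α → ℂ}
    (hy : ∀ i ∈ W, ∀ j ∈ W, Continuous fun t => y t i j) (hz : ∀ i ∈ W, Continuous fun t => z t i) :
    Continuous fun t => Q (y t) s (z t) W := by
  simp only [Q_eq]
  refine continuous_const.mul (continuous_finsetSum _ fun c _ => Continuous.matrix_det ?_)
  refine continuous_matrix fun i j => ?_
  simp only [me, Matrix.of_apply]
  refine Continuous.sub ?_ ?_
  · split_ifs
    · exact hz i i.2
    · exact continuous_const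
  · split_ifs
    · exact hy i i.2 j j.2
    · exact continuous_const

theorem eval_chi (hr : 0 < r) (t : ℂ) : (chi y s W).eval t = Q y s (fun _ => t) W := by
  rw [Q_expand hr, chi, eval_finsetSum]
  refine Finset.sum_congr rfl fun S hS => ?_
  rw [eval_mul, eval_C, eval_pow, eval_X, prod_const, card_sdiff_of_subset (mem_powerset.1 hS),
    mul_comm]

private theorem chi_eq (y : α → α → ℂ) (s : α → Option (Fin r)) (W : Finset α) :
    ∃ f : ℂ[X], chi y s W = X ^ W.card + f ∧ f.degree < W.card := by
  refine ⟨∑ S ∈ W.powerset.erase ∅, Polynomial.C (Q y s 0 S) * X ^ (W.card - S.card), ?_, ?_⟩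
  · rw [chi, ← Finset.add_sum_erase _ _ (empty_mem_powerset W)]
    simp only [Q_empty, map_one, card_empty, tsub_zero, one_mul, mem_powerset, empty_subset, sum_erase_eq_sub, add_sub_cancel]
  · refine lt_of_le_of_lt (degree_sum_le _ _) ?_
    rw [Finset.sup_lt_iff (by simpa using WithBot.bot_lt_coe _)]
    intro S hS
    refine lt_of_le_of_lt (degree_C_mul_X_pow_le _ _) ?_
    have h1 := mem_erase.1 hS
    have h2 : 0 < S.card := Finset.card_pos.2 (Finset.nonempty_iff_ne_empty.2 h1.1)
    have h3 : S.card ≤ W.card := card_le_card (mem_powerset.1 h1.2)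
    exact_mod_cast (by omega : W.card - S.card < W.card)

theorem monic_chi (hr : 0 < r) : (chi y s W).Monic := by
  obtain ⟨f, h1, h2⟩ := chi_eq y s W
  rw [h1]
  exact monic_X_pow_add h2

theorem natDegree_chi (hr : 0 < r) : (chi y s W).natDegree = W.card := by
  obtain ⟨f, h1, h2⟩ := chi_eq y s W
  rw [h1, add_comm]
  exact natDegree_eq_of_degree_eq_some (by
    rw [degree_add_eq_right_of_degree_lt (by simpa only [degree_pow, degree_X, nsmul_eq_mul, mul_one] using h2), degree_X_pow])

end Vale.Agent.P078.C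
end

end

section
section

/-! T1b: nonvanishing in the upper half plane, real roots. -/

namespace Vale.Agent.P078.C

open Finset Polynomial
open scoped ComplexOrder

variable {α β : Type*} [DecidableEq α] [DecidableEq β] {r : ℕ}
variable {y y' : α → α → ℂ} {s s' : α → Option (Fin r)} {z z' : α → ℂ} {W W' : Finset α} {w : α}
variable {a b : ℝ}

private theorem yc_herm (hy : Herm y) (c : α → Fin r) : Herm (yc y c) := by
  intro i j
  unfold yc
  by_cases h : c i = c j
  · rw [if_pos h, if_pos h.symm, hy i j]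
  · rw [if_neg h, if_neg fun h' => h h'.symm, star_zero]

/-- the quadratic form of a Hermitian kernel is real -/
private theorem qf_im (hy : Herm y) (W : Finset α) (v : α → ℂ) :
    (∑ i ∈ W, ∑ j ∈ W, star (v i) * y i j * v j).im = 0 := by
  have h : star (∑ i ∈ W, ∑ j ∈ W, star (v i) * y i j * v j) =
      ∑ i ∈ W, ∑ j ∈ W, star (v i) * y i j * v j := by
    rw [star_sum]
    simp only [star_sum]
    rw [Finset.sum_comm]
    refine Finset.sum_congr rfl fun i _ => Finset.sum_congr rfl fun j _ => ?_
    rw [star_mul', star_mul', star_star, ← hy j i]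
    ring
  exact Complex.conj_eq_iff_im.1 h

private theorem det_ne_zero_of (hy : Herm y) (hz : ∀ i ∈ W, 0 < (z i).im) :
    Matrix.det (Matrix.of fun i j : W => (if i = j then z i else 0) - y i j) ≠ 0 := by
  intro h0
  obtain ⟨v, hv, hv0⟩ := Matrix.exists_mulVec_eq_zero_iff.2 h0
  let v' : α → ℂ := fun i => if h : i ∈ W then v ⟨i, h⟩ else 0
  have hv' : ∀ i : W, v' i = v i := fun i => by simp [v']
  have h1 : ∑ i ∈ W, star (v' i) * (z i * v' i - ∑ j ∈ W, y i j * v' j) = 0 := by
    rw [← Finset.sum_coe_sort]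
    refine Finset.sum_eq_zero fun i _ => ?_
    have h2 := congrFun hv0 i
    simp only [Matrix.mulVec, dotProduct, Matrix.of_apply, Pi.zero_apply, sub_mul, ite_mul,
      zero_mul, Finset.sum_sub_distrib, Finset.sum_ite_eq, mem_univ, if_true] at h2
    rw [← Finset.sum_coe_sort W (fun j => y i j * v' j)]
    simp only [hv']
    rw [h2, mul_zero]
  have h3 : ∑ i ∈ W, (z i * (‖v' i‖ ^ 2 : ℝ)) =
      ∑ i ∈ W, ∑ j ∈ W, star (v' i) * y i j * v' j := by
    rw [← sub_eq_zero, ← h1, ← Finset.sum_sub_distrib]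
    refine Finset.sum_congr rfl fun i _ => ?_
    rw [mul_sub, Finset.mul_sum]
    congr 1
    · have : star (v' i) * v' i = ((‖v' i‖ ^ 2 : ℝ) : ℂ) := by
        rw [Complex.star_def, Complex.conj_mul']
        push_cast
        rfl
      rw [← this]
      ring
    · exact Finset.sum_congr rfl fun j _ => by ring
  have h4 := congrArg Complex.im h3
  rw [qf_im hy] at h4
  simp only [Complex.im_sum, Complex.mul_im, Complex.ofReal_im, Complex.ofReal_re, mul_zero,
    zero_add] at h4
  obtain ⟨i, hi⟩ := Function.ne_iff.1 hv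
  have h5 : 0 < ∑ i ∈ W, (z i).im * ‖v' i‖ ^ 2 := by
    refine Finset.sum_pos' (fun i hi => mul_nonneg (hz i hi).le (by (clear * -; positivity))) ⟨i, i.2, ?_⟩
    refine mul_pos (hz i i.2) ?_
    rw [hv']
    have : v i ≠ 0 := hi
    positivity
  linarith only [h4, h5]

/-- from nonvanishing to the ratio -/
private theorem ratio_of_ne (hr : 0 < r) (hw : w ∈ W)
    (h : ∀ z : α → ℂ, (∀ i ∈ W, 0 < (z i).im) → Q y s z W ≠ 0)
    (hz : ∀ i ∈ W, 0 < (z i).im) (h' : Q y s z (W.erase w) ≠ 0) :
    (z w).im ≤ (Q y s z W / Q y s z (W.erase w)).im := by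
  have e1 : ∀ ζ : ℂ, Q y s (Function.update z w ζ) W = ζ * Q y s z (W.erase w) +
      Q y s (Function.update z w 0) W := by
    intro ζ
    have := Q_insert (y := y) (s := s) (z := Function.update z w ζ) hr (notMem_erase w W)
    rw [insert_erase hw] at this
    rw [this, Function.update_self, Function.update_idem]
    congr 2
    refine Q_congr (fun _ _ _ _ => rfl) (fun _ _ => rfl) fun i hi => ?_
    rw [Function.update_of_ne (mem_erase.1 hi).1]
  set G := Q y s z (W.erase w)
  set R := Q y s (Function.update z w 0) W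
  have e2 : Q y s z W = z w * G + R := by
    rw [← e1 (z w), Function.update_eq_self]
  have h3 : 0 ≤ (R / G).im := by
    by_contra hneg
    push Not at hneg
    refine h (Function.update z w (-(R / G))) ?_ ?_
    · intro i hi
      by_cases hiw : i = w
      · subst hiw
        rw [Function.update_self, Complex.neg_im]
        linarith only [hneg]
      · rw [Function.update_of_ne hiw]
        exact hz i hi
    · rw [e1]
      field_simp
      ring
  rw [e2, add_div, mul_div_assoc, div_self h', mul_one, Complex.add_im]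
  linarith only [h3]

private theorem Q_ne_zero_aux (hr : 0 < r) (hy : Herm y) (n : ℕ) :
    ∀ (s : α → Option (Fin r)) (W : Finset α), (W.filter fun i => s i = none).card = n →
      ∀ z : α → ℂ, (∀ i ∈ W, 0 < (z i).im) → Q y s z W ≠ 0 := by
  induction n with
  | zero =>
    intro s W h z hz
    rw [card_eq_zero, filter_eq_empty_iff] at h
    rw [Q_some hr (fun i => (s i).getD ⟨0, hr⟩) (fun i hi => ?_)]
    · exact det_ne_zero_of (yc_herm hy _) hz
    · cases hsi : s i with
      | none => exact absurd hsi (h hi)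
      | some c => rfl
  | succ n ih =>
    intro s W h z hz
    have hne : (W.filter fun i => s i = none).Nonempty := by
      rw [← card_pos]; omega
    obtain ⟨w, hw⟩ := hne
    have hwW := (mem_filter.1 hw).1
    have hsw := (mem_filter.1 hw).2
    have hG : Q y s z (W.erase w) ≠ 0 := by
      refine ih s (W.erase w) ?_ z fun i hi => hz i (mem_of_mem_erase hi)
      rw [filter_erase, card_erase_of_mem hw, h]
      rfl
    have hca : ∀ c : Fin r, (W.filter fun i => Function.update s w (some c) i = none).card = n := by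
      intro c
      have : (W.filter fun i => Function.update s w (some c) i = none) =
          (W.filter fun i => s i = none).erase w := by
        ext i
        by_cases hi : i = w
        · subst hi; simp
        · simp [hi]
      rw [this, card_erase_of_mem hw, h]
      rfl
    have hGa : ∀ c : Fin r, Q y (Function.update s w (some c)) z (W.erase w) =
        Q y s z (W.erase w) := by
      intro c
      refine Q_congr (fun _ _ _ _ => rfl) (fun i hi => ?_) fun _ _ => rfl
      rw [Function.update_of_ne (mem_erase.1 hi).1]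
    have hpos : 0 < (Q y s z W / Q y s z (W.erase w)).im := by
      rw [Q_avg hr hwW hsw, mul_div_assoc, Finset.sum_div, Finset.mul_sum, Complex.im_sum]
      have : Nonempty (Fin r) := ⟨⟨0, hr⟩⟩
      refine Finset.sum_pos (fun c _ => ?_) univ_nonempty
      have e : (r : ℂ)⁻¹ = ((r : ℝ)⁻¹ : ℝ) := by push_cast; rfl
      rw [e, Complex.im_ofReal_mul, ← hGa c]
      refine mul_pos (by (clear * - hr; positivity)) (lt_of_lt_of_le (hz w hwW) ?_)
      refine ratio_of_ne hr hwW (ih _ W (hca c)) hz ?_
      rw [hGa c]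
      exact hG
    intro h0
    rw [h0] at hpos
    simp at hpos

theorem Q_ne_zero (hr : 0 < r) (hy : Herm y) (hz : ∀ i ∈ W, 0 < (z i).im) : Q y s z W ≠ 0 :=
  Q_ne_zero_aux hr hy _ s W rfl z hz

theorem Q_ratio_im (hr : 0 < r) (hy : Herm y) (hz : ∀ i ∈ W, 0 < (z i).im) (hw : w ∈ W) :
    (z w).im ≤ (Q y s z W / Q y s z (W.erase w)).im :=
  ratio_of_ne hr hw (fun _ h => Q_ne_zero hr hy h) hz
    (Q_ne_zero hr hy fun i hi => hz i (mem_of_mem_erase hi))

theorem Q_norm_ge (hr : 0 < r) (hy : Herm y) (hz : ∀ i ∈ W, 0 < (z i).im) (hw : w ∈ W) :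
    (z w).im * ‖Q y s z (W.erase w)‖ ≤ ‖Q y s z W‖ := by
  have h0 : Q y s z (W.erase w) ≠ 0 := Q_ne_zero hr hy fun i hi => hz i (mem_of_mem_erase hi)
  have h1 := Q_ratio_im (s := s) hr hy hz hw
  have h2 : (z w).im ≤ ‖Q y s z W / Q y s z (W.erase w)‖ :=
    h1.trans ((le_abs_self _).trans (Complex.abs_im_le_norm _))
  rw [norm_div, le_div_iff₀ (norm_pos_iff.2 h0)] at h2
  exact h2

theorem Q_real_im (hy : Herm y) (x : α → ℝ) : (Q y s (fun i => (x i : ℂ)) W).im = 0 := by
  have h := Q_star (s := s) (z := fun i => (x i : ℂ)) (W := W) hy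
  have h1 : (fun i => star (x i : ℂ)) = fun i => (x i : ℂ) := by
    funext i
    exact Complex.conj_ofReal _
  rw [h1] at h
  exact Complex.conj_eq_iff_im.1 h.symm

/-- the quadratic form of the pinched kernel -/
private theorem qf_yc (c : α → Fin r) (v : α → ℂ) :
    qf (yc y c) W v = ∑ k : Fin r, qf y W (fun i => if c i = k then v i else 0) := by
  unfold qf
  rw [← Complex.re_sum]
  refine congrArg Complex.re ?_
  rw [Finset.sum_comm (s := univ)]
  refine Finset.sum_congr rfl fun i _ => ?_
  rw [Finset.sum_comm (s := univ)]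
  refine Finset.sum_congr rfl fun j _ => ?_
  unfold yc
  by_cases h : c i = c j
  · rw [if_pos h]
    rw [Finset.sum_eq_single (c i)]
    · simp [h]
    · intro k _ hk
      have hk' : ¬ c i = k := fun h' => hk h'.symm
      simp [hk']
    · intro h'
      exact absurd (mem_univ _) h'
  · rw [if_neg h]
    symm
    rw [mul_zero, zero_mul]
    refine Finset.sum_eq_zero fun k _ => ?_
    by_cases hk : c i = k
    · have hk' : ¬ c j = k := fun h' => h (hk.trans h'.symm)
      simp [hk']
    · simp [hk]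

private theorem sum_pinch (c : α → Fin r) (v : α → ℂ) :
    ∑ k : Fin r, ∑ i ∈ W, ‖if c i = k then v i else 0‖ ^ 2 = ∑ i ∈ W, ‖v i‖ ^ 2 := by
  rw [Finset.sum_comm]
  refine Finset.sum_congr rfl fun i _ => ?_
  rw [Finset.sum_eq_single (c i)]
  · simp
  · intro k _ hk
    rw [if_neg (fun h' => hk h'.symm)]
    simp
  · intro h'
    exact absurd (mem_univ _) h'

private theorem FB_yc (hb : FB a b y) (c : α → Fin r) : FB a b (yc y c) := by
  intro W v
  rw [qf_yc, ← sum_pinch c v, Finset.mul_sum, Finset.mul_sum]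
  exact ⟨Finset.sum_le_sum fun k _ => (hb W _).1, Finset.sum_le_sum fun k _ => (hb W _).2⟩

private theorem det_pos_of (hy : Herm y) (hb : FB a b y) (x : α → ℝ) (hx : ∀ i ∈ W, a < x i) :
    0 < (Matrix.det (Matrix.of fun i j : W => (if i = j then (x i : ℂ) else 0) - y i j)).re := by
  have h : (Matrix.of fun i j : W => (if i = j then (x i : ℂ) else 0) - y i j).PosDef := by
    refine Matrix.PosDef.of_dotProduct_mulVec_pos ?_ fun v hv => ?_
    · ext i j
      rw [Matrix.conjTranspose_apply, Matrix.of_apply, Matrix.of_apply, star_sub, ← hy j i]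
      congr 1
      by_cases hij : i = j
      · subst hij; simp
      · rw [if_neg hij, if_neg fun h => hij h.symm, star_zero]
    · let v' : α → ℂ := fun i => if h : i ∈ W then v ⟨i, h⟩ else 0
      have hv' : ∀ i : W, v' i = v i := fun i => by simp [v']
      have e : star v ⬝ᵥ (Matrix.of fun i j : W => (if i = j then (x i : ℂ) else 0) - y i j).mulVec v
          = ∑ i ∈ W, ((x i * ‖v' i‖ ^ 2 : ℝ) : ℂ) -
            ∑ i ∈ W, ∑ j ∈ W, star (v' i) * y i j * v' j := by
        simp only [dotProduct, Pi.star_apply, Matrix.mulVec, Matrix.of_apply, sub_mul, ite_mul, zero_mul, sum_sub_distrib, sum_ite_eq, mem_univ, if_true, mul_sub]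
        congr 1
        · rw [← Finset.sum_coe_sort W]
          refine Finset.sum_congr rfl fun i _ => ?_
          rw [← hv' i]
          have : star (v' i) * v' i = ((‖v' i‖ ^ 2 : ℝ) : ℂ) := by
            rw [Complex.star_def, Complex.conj_mul']
            push_cast
            rfl
          rw [Complex.ofReal_mul, ← this]
          ring
        · rw [← Finset.sum_coe_sort W]
          refine Finset.sum_congr rfl fun i _ => ?_
          rw [← Finset.sum_coe_sort W, Finset.mul_sum]
          refine Finset.sum_congr rfl fun j _ => ?_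
          rw [hv' i, hv' j]
          ring
      rw [e, Complex.pos_iff, Complex.sub_im, qf_im hy, ← Complex.ofReal_sum, Complex.ofReal_im,
        Complex.sub_re, Complex.ofReal_re]
      refine ⟨?_, by simp⟩
      have h1 := (hb W v').2
      unfold qf at h1
      have h2 : a * ∑ i ∈ W, ‖v' i‖ ^ 2 < ∑ i ∈ W, x i * ‖v' i‖ ^ 2 := by
        rw [Finset.mul_sum]
        obtain ⟨i, hi⟩ := Function.ne_iff.1 hv
        refine Finset.sum_lt_sum (fun i hi => mul_le_mul_of_nonneg_right (hx i hi).le
          (by (clear * -; positivity))) ⟨i, i.2, mul_lt_mul_of_pos_right (hx i i.2) ?_⟩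
        rw [hv']
        have : v i ≠ 0 := hi
        positivity
      linarith only [h1, h2]
  have := h.det_pos
  exact (Complex.pos_iff.1 this).1

private theorem Q_pos_aux (hr : 0 < r) (hy : Herm y) (hb : FB a b y) (x : α → ℝ) (n : ℕ) :
    ∀ (s : α → Option (Fin r)) (W : Finset α), (W.filter fun i => s i = none).card = n →
      (∀ i ∈ W, a < x i) → 0 < (Q y s (fun i => (x i : ℂ)) W).re := by
  induction n with
  | zero =>
    intro s W h hx
    rw [card_eq_zero, filter_eq_empty_iff] at h
    rw [Q_some hr (fun i => (s i).getD ⟨0, hr⟩) (fun i hi => ?_)]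
    · exact det_pos_of (yc_herm hy _) (FB_yc hb _) x hx
    · cases hsi : s i with
      | none => exact absurd hsi (h hi)
      | some c => rfl
  | succ n ih =>
    intro s W h hx
    have hne : (W.filter fun i => s i = none).Nonempty := by
      rw [← card_pos]; omega
    obtain ⟨w, hw⟩ := hne
    have hwW := (mem_filter.1 hw).1
    have hsw := (mem_filter.1 hw).2
    have hca : ∀ c : Fin r, (W.filter fun i => Function.update s w (some c) i = none).card = n := by
      intro c
      have : (W.filter fun i => Function.update s w (some c) i = none) =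
          (W.filter fun i => s i = none).erase w := by
        ext i
        by_cases hi : i = w
        · subst hi; simp only [mem_filter, Function.update_self, reduceCtorEq, and_false, mem_erase, ne_eq, not_true_eq_false, false_and]
        · simp only [mem_filter, ne_eq, hi, not_false_eq_true, Function.update_of_ne, mem_erase, true_and]
      rw [this, card_erase_of_mem hw, h]
      rfl
    rw [Q_avg hr hwW hsw]
    have e : (r : ℂ)⁻¹ = ((r : ℝ)⁻¹ : ℝ) := by push_cast; rfl
    rw [e, Complex.re_ofReal_mul, Complex.re_sum]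
    have : Nonempty (Fin r) := ⟨⟨0, hr⟩⟩
    exact mul_pos (by positivity) (Finset.sum_pos (fun c _ => ih _ W (hca c) hx) univ_nonempty)

theorem Q_pos (hr : 0 < r) (hy : Herm y) (hb : FB a b y) (x : α → ℝ) (hx : ∀ i ∈ W, a < x i) :
    0 < (Q y s (fun i => (x i : ℂ)) W).re :=
  Q_pos_aux hr hy hb x _ s W rfl hx

private theorem Q_neg_eq : Q (fun i j => -y i j) s (fun i => -z i) W =
    (-1) ^ W.card * Q y s z W := by
  unfold Q
  rw [mul_left_comm]
  refine congrArg _ ?_
  rw [Finset.mul_sum]
  refine Finset.sum_congr rfl fun c _ => ?_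
  have := Matrix.det_neg (Matrix.of fun i j : W =>
    (if i = j then z i else 0) - if (s i).getD (c i) = (s j).getD (c j) then y i j else 0)
  rw [Fintype.card_coe] at this
  rw [← this]
  congr 1
  ext i j
  simp only [Matrix.of_apply, Matrix.neg_apply]
  split_ifs <;> ring

theorem Q_neg (hr : 0 < r) (hy : Herm y) (hb : FB a b y) (x : α → ℝ) (hx : ∀ i ∈ W, x i < -b) :
    0 < (-1) ^ W.card * (Q y s (fun i => (x i : ℂ)) W).re := by
  have h1 : Herm (fun i j => -y i j) := fun i j => by
    simp only [star_neg, hy i j]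
  have h2 : FB b a (fun i j => -y i j) := by
    intro W v
    have e : qf (fun i j => -y i j) W v = - qf y W v := by
      unfold qf
      rw [← Complex.neg_re]
      refine congrArg Complex.re ?_
      rw [← Finset.sum_neg_distrib]
      refine Finset.sum_congr rfl fun i _ => ?_
      rw [← Finset.sum_neg_distrib]
      exact Finset.sum_congr rfl fun j _ => by ring
    have := hb W v
    rw [e]
    constructor <;> linarith only [this.1, this.2]
  have h3 := Q_pos (s := s) (W := W) hr h1 h2 (fun i => -x i) fun i hi => by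
    have := hx i hi
    linarith only [this]
  have h4 : (fun i => ((-x i : ℝ) : ℂ)) = fun i => -(x i : ℂ) := by
    funext i; push_cast; rfl
  rw [h4, Q_neg_eq] at h3
  have h5 : ((-1 : ℂ) ^ W.card) = (((-1 : ℝ) ^ W.card : ℝ) : ℂ) := by push_cast; rfl
  rwa [h5, Complex.re_ofReal_mul] at h3

theorem card_rts (hr : 0 < r) : Multiset.card (rts y s W) = W.card := by
  rw [rts, Multiset.card_map, ← natDegree_chi (y := y) (s := s) hr]
  exact (splits_iff_card_roots.1 (IsAlgClosed.splits _))

private theorem root_real (hr : 0 < r) (hy : Herm y) {ζ : ℂ} (h : Q y s (fun _ => ζ) W = 0) :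
    ζ.im = 0 := by
  have h1 : ¬ 0 < ζ.im := fun h' => Q_ne_zero hr hy (fun _ _ => h') h
  have h2 : ¬ 0 < (star ζ).im := fun h' => Q_ne_zero (s := s) (W := W) hr hy
    (z := fun _ => star ζ) (fun _ _ => h') (by
      have := Q_star (s := s) (z := fun _ => ζ) (W := W) hy
      rw [this, h, star_zero])
  rw [Complex.star_def, Complex.conj_im] at h2
  linarith only [h1, h2]

theorem Q_eq_prod (hr : 0 < r) (hy : Herm y) (t : ℂ) :
    Q y s (fun _ => t) W = ((rts y s W).map fun l : ℝ => t - (l : ℂ)).prod := by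
  rw [← eval_chi hr, rts, Multiset.map_map]
  have h1 : chi y s W = ((chi y s W).roots.map fun ζ => X - Polynomial.C ζ).prod := by
    have := (IsAlgClosed.splits (chi y s W)).eq_prod_roots
    rw [(monic_chi hr).leadingCoeff, map_one, one_mul] at this
    exact this
  conv_lhs => rw [h1]
  rw [eval_multiset_prod, Multiset.map_map]
  congr 1
  refine Multiset.map_congr rfl fun ζ hζ => ?_
  have h2 : ζ.im = 0 := by
    refine root_real (s := s) (W := W) hr hy ?_
    rw [← eval_chi hr]
    exact (mem_roots'.1 hζ).2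
  simp only [Function.comp_apply, eval_sub, eval_X, eval_C]
  congr 1
  exact Complex.ext (by simp) (by simp [h2])

/-- uniqueness of the real root multiset -/
theorem rts_unique (hr : 0 < r) (L : Multiset ℝ)
    (h : ∀ t : ℂ, Q y s (fun _ => t) W = (L.map fun l : ℝ => t - (l : ℂ)).prod) :
    rts y s W = L := by
  have h1 : chi y s W = ((L.map fun l : ℝ => (l : ℂ)).map fun ζ => X - Polynomial.C ζ).prod := by
    refine Polynomial.funext fun t => ?_
    rw [eval_chi hr, h, eval_multiset_prod, Multiset.map_map, Multiset.map_map]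
    congr 1
    refine Multiset.map_congr rfl fun l _ => ?_
    simp
  rw [rts, h1, roots_multiset_prod_X_sub_C, Multiset.map_map]
  simp

theorem rts_root (hr : 0 < r) (hy : Herm y) {l : ℝ} (hl : l ∈ rts y s W) :
    Q y s (fun _ => (l : ℂ)) W = 0 := by
  rw [Q_eq_prod hr hy]
  refine Multiset.prod_eq_zero (Multiset.mem_map.2 ⟨l, hl, ?_⟩)
  simp

theorem rts_mem (hr : 0 < r) (hy : Herm y) (hb : FB a b y) {l : ℝ} (hl : l ∈ rts y s W) :
    -b ≤ l ∧ l ≤ a := by
  have h0 := rts_root hr hy hl
  constructor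
  · by_contra h
    push Not at h
    have := Q_neg (s := s) (W := W) hr hy hb (fun _ => l) fun _ _ => h
    rw [h0] at this
    simp only [Complex.zero_re, mul_zero, lt_self_iff_false] at this
  · by_contra h
    push Not at h
    have := Q_pos (s := s) (W := W) hr hy hb (fun _ => l) fun _ _ => h
    rw [h0] at this
    simp at this

theorem rts_lt (hr : 0 < r) (hy : Herm y) {e : ℝ}
    (h : ∀ t : ℝ, e ≤ t → 0 < (Q y s (fun _ => (t : ℂ)) W).re) {l : ℝ} (hl : l ∈ rts y s W) :
    l < e := by
  by_contra h'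
  push Not at h'
  have := h l h'
  rw [rts_root hr hy hl] at this
  simp at this

theorem rts_congr (hy : ∀ i ∈ W, ∀ j ∈ W, y i j = y' i j) (hs : ∀ i ∈ W, s i = s' i) :
    rts y s W = rts y' s' W := by
  have : chi y s W = chi y' s' W := by
    unfold chi
    refine Finset.sum_congr rfl fun S hS => ?_
    have hS' := mem_powerset.1 hS
    rw [Q_congr (fun i hi j hj => hy i (hS' hi) j (hS' hj)) (fun i hi => hs i (hS' hi))
      fun _ _ => rfl]
  rw [rts, rts, this]

theorem rts_union (hr : 0 < r) (hy : Herm y) (hd : Disjoint W W')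
    (h : ∀ i ∈ W, ∀ j ∈ W', y i j = 0 ∧ y j i = 0) :
    rts y s (W ∪ W') = rts y s W + rts y s W' := by
  refine rts_unique hr _ fun t => ?_
  rw [Q_union hr hd h, Q_eq_prod hr hy, Q_eq_prod hr hy, Multiset.map_add, Multiset.prod_add]

end Vale.Agent.P078.C
end

section

/-! Base case of the barrier argument: pinched kernels. -/

namespace Vale.Agent.P078.C

open Finset Polynomial

section Matr

variable {n : Type*} [Fintype n] [DecidableEq n]

theorem inv_entry_le (Y : Matrix n n ℂ) (hY : Y.IsHermitian) {a b t : ℝ}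
    (hev : ∀ k, -b ≤ hY.eigenvalues k ∧ hY.eigenvalues k ≤ a) (ht : a < t) (hab : 0 < t + b)
    (p : n) (hp : Y p p = 0) :
    (Matrix.adjugate ((t : ℂ) • (1 : Matrix n n ℂ) - Y) p p).re ≤
      (t + b - a) / ((t - a) * (t + b)) * (Matrix.det ((t : ℂ) • (1 : Matrix n n ℂ) - Y)).re := by
  set U : Matrix n n ℂ := (hY.eigenvectorUnitary : Matrix n n ℂ) with hU
  set l : n → ℝ := hY.eigenvalues with hl
  have hUU : U * star U = 1 := Unitary.coe_mul_star_self _
  have hUU' : star U * U = 1 := Unitary.coe_star_mul_self _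
  have hsp : Y = U * Matrix.diagonal (fun k => (l k : ℂ)) * star U := by
    have := hY.spectral_theorem
    rw [Unitary.conjStarAlgAut_apply] at this
    exact this
  have hT : (t : ℂ) • (1 : Matrix n n ℂ) - Y =
      U * Matrix.diagonal (fun k => ((t - l k : ℝ) : ℂ)) * star U := by
    have h1 : Matrix.diagonal (fun k => ((t - l k : ℝ) : ℂ)) =
        (t : ℂ) • (1 : Matrix n n ℂ) - Matrix.diagonal (fun k => (l k : ℂ)) := by
      ext i j
      by_cases hij : i = j
      · subst hij; simp only [Complex.ofReal_sub, Matrix.diagonal_apply_eq, Complex.coe_smul, Matrix.sub_apply, Matrix.smul_apply, Matrix.one_apply_eq, Complex.real_smul, mul_one]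
      · simp [hij]
    rw [h1, Matrix.mul_sub, Matrix.sub_mul, ← hsp]
    congr 1
    rw [Matrix.mul_smul, Matrix.smul_mul, Matrix.mul_one, hUU]
  have hpos : ∀ k, 0 < t - l k := fun k => by have := (hev k).2; linarith only [ht, this]
  have hdet : Matrix.det ((t : ℂ) • (1 : Matrix n n ℂ) - Y) = ((∏ k, (t - l k) : ℝ) : ℂ) := by
    rw [hT, Matrix.det_mul, Matrix.det_mul, mul_right_comm, ← Matrix.det_mul, hUU, Matrix.det_one,
      one_mul, Matrix.det_diagonal]
    push_cast
    rfl
  have hadj : Matrix.adjugate ((t : ℂ) • (1 : Matrix n n ℂ) - Y) =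
      Matrix.det ((t : ℂ) • (1 : Matrix n n ℂ) - Y) •
        (U * Matrix.diagonal (fun k => (((t - l k)⁻¹ : ℝ) : ℂ)) * star U) := by
    have h1 : ((t : ℂ) • (1 : Matrix n n ℂ) - Y) *
        (U * Matrix.diagonal (fun k => (((t - l k)⁻¹ : ℝ) : ℂ)) * star U) = 1 := by
      rw [hT]
      calc U * Matrix.diagonal (fun k => ((t - l k : ℝ) : ℂ)) * star U *
          (U * Matrix.diagonal (fun k => (((t - l k)⁻¹ : ℝ) : ℂ)) * star U)
          = U * (Matrix.diagonal (fun k => ((t - l k : ℝ) : ℂ)) * (star U * U) *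
            Matrix.diagonal (fun k => (((t - l k)⁻¹ : ℝ) : ℂ))) * star U := by
            simp only [Matrix.mul_assoc]
        _ = 1 := by
            rw [hUU', Matrix.mul_one, Matrix.diagonal_mul_diagonal]
            have h2 : (fun i => ((t - l i : ℝ) : ℂ) * (((t - l i)⁻¹ : ℝ) : ℂ)) = fun _ => 1 := by
              funext k
              rw [← Complex.ofReal_mul, mul_inv_cancel₀ (hpos k).ne']
              simp
            rw [h2, Matrix.diagonal_one, Matrix.mul_one, hUU]
    calc Matrix.adjugate ((t : ℂ) • (1 : Matrix n n ℂ) - Y)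
        = Matrix.adjugate ((t : ℂ) • (1 : Matrix n n ℂ) - Y) *
          (((t : ℂ) • (1 : Matrix n n ℂ) - Y) *
            (U * Matrix.diagonal (fun k => (((t - l k)⁻¹ : ℝ) : ℂ)) * star U)) := by
          rw [h1, Matrix.mul_one]
      _ = _ := by
          rw [← Matrix.mul_assoc, Matrix.adjugate_mul, Matrix.smul_mul, Matrix.one_mul]
  have hentry : ∀ f : n → ℝ, (U * Matrix.diagonal (fun k => (f k : ℂ)) * star U) p p =
      ((∑ k, f k * ‖U p k‖ ^ 2 : ℝ) : ℂ) := by
    intro f
    rw [Matrix.mul_apply]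
    push_cast
    refine Finset.sum_congr rfl fun k _ => ?_
    rw [Matrix.mul_diagonal, Matrix.star_apply]
    have : (star (U p k) : ℂ) = (starRingEnd ℂ) (U p k) := rfl
    rw [this, mul_right_comm, Complex.mul_conj']
    ring
  have hsum0 : ∑ k, l k * ‖U p k‖ ^ 2 = 0 := by
    have := hentry l
    rw [← hsp, hp] at this
    exact_mod_cast this.symm
  have hsum1 : ∑ k, ‖U p k‖ ^ 2 = 1 := by
    have h1 := hentry (fun _ => 1)
    have h2 : (fun _ : n => (((1 : ℝ) : ℝ) : ℂ)) = fun _ => 1 := by funext k; simp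
    rw [h2, Matrix.diagonal_one, Matrix.mul_one, hUU, Matrix.one_apply_eq] at h1
    have h3 : ((1 : ℝ) : ℂ) = ((∑ k, 1 * ‖U p k‖ ^ 2 : ℝ) : ℂ) := by simpa only [Complex.ofReal_one, one_mul, Complex.ofReal_sum, Complex.ofReal_pow] using h1
    have h4 := Complex.ofReal_injective h3
    simpa only [one_mul] using h4.symm
  rw [hadj, Matrix.smul_apply, hentry, hdet, smul_eq_mul, ← Complex.ofReal_mul,
    Complex.ofReal_re, Complex.ofReal_re, mul_comm]
  refine mul_le_mul_of_nonneg_right ?_ (Finset.prod_nonneg fun k _ => (hpos k).le)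
  have hta : 0 < t - a := by linarith only [ht]
  have hM : 0 < (t - a) * (t + b) := mul_pos hta hab
  calc ∑ k, (t - l k)⁻¹ * ‖U p k‖ ^ 2
      ≤ ∑ k, ((t + b - a + l k) / ((t - a) * (t + b))) * ‖U p k‖ ^ 2 := by
        refine Finset.sum_le_sum fun k _ => mul_le_mul_of_nonneg_right ?_ (by (clear * -; positivity))
        rw [inv_eq_one_div, div_le_div_iff₀ (hpos k) hM]
        have h1 := (hev k).1
        have h2 := (hev k).2
        linarith only [mul_nonneg (sub_nonneg.mpr h1) (sub_nonneg.mpr h2)]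
    _ = ((t + b - a) * ∑ k, ‖U p k‖ ^ 2 + ∑ k, l k * ‖U p k‖ ^ 2) / ((t - a) * (t + b)) := by
        rw [Finset.mul_sum, ← Finset.sum_add_distrib, Finset.sum_div]
        refine Finset.sum_congr rfl fun k _ => ?_
        ring
    _ = (t + b - a) / ((t - a) * (t + b)) := by
        rw [hsum0, hsum1]; simp

theorem det_sub_pos (Y : Matrix n n ℂ) (hY : Y.IsHermitian) {a t : ℝ}
    (hev : ∀ k, hY.eigenvalues k ≤ a) (ht : a < t) :
    0 < (Matrix.det ((t : ℂ) • (1 : Matrix n n ℂ) - Y)).re := by
  have h1 : (Matrix.det ((t : ℂ) • (1 : Matrix n n ℂ) - Y)) = Y.charpoly.eval (t : ℂ) := by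
    rw [Matrix.eval_charpoly, Matrix.smul_one_eq_diagonal]
    rfl
  rw [h1, hY.charpoly_eq, Polynomial.eval_prod]
  have h2 : ∏ j, Polynomial.eval (t : ℂ) (X - C ((hY.eigenvalues j : ℝ) : ℂ)) =
      ((∏ j, (t - hY.eigenvalues j) : ℝ) : ℂ) := by
    push_cast
    refine Finset.prod_congr rfl fun j _ => ?_
    simp
  have h3 : (∏ j, Polynomial.eval (t : ℂ) (X - C (RCLike.ofReal (hY.eigenvalues j) : ℂ))) =
      ((∏ j, (t - hY.eigenvalues j) : ℝ) : ℂ) := h2
  rw [h3, Complex.ofReal_re]
  exact Finset.prod_pos fun j _ => by have := hev j; linarith only [ht, this]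

theorem det_add_single (T : Matrix n n ℂ) (p : n) (δ : ℂ) :
    Matrix.det (T.updateRow p (T p + δ • Pi.single p 1)) =
      Matrix.det T + δ * Matrix.adjugate T p p := by
  rw [Matrix.det_updateRow_add, Matrix.updateRow_eq_self, Matrix.det_updateRow_smul,
    Matrix.adjugate_apply]

end Matr

section Kernel

variable {β : Type*} [DecidableEq β] {y : β → β → ℂ} {a b : ℝ}

/-- the matrix of `y` on `W` -/
def mat (y : β → β → ℂ) (W : Finset β) : Matrix W W ℂ := Matrix.of fun i j : W => y i j

omit [DecidableEq β] in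
theorem mat_herm (hy : Herm y) (W : Finset β) : (mat y W).IsHermitian := by
  ext i j
  simp only [Matrix.conjTranspose_apply, mat, Matrix.of_apply]
  exact (hy j i).symm

theorem eig_bounds (hb : FB a b y) (W : Finset β) (hY : (mat y W).IsHermitian) (k : W) :
    -b ≤ hY.eigenvalues k ∧ hY.eigenvalues k ≤ a := by
  classical
  let v : W → ℂ := ⇑(hY.eigenvectorBasis k)
  let v' : β → ℂ := fun p => if h : p ∈ W then v ⟨p, h⟩ else 0
  have hv' : ∀ i : W, v' i = v i := by
    intro i
    simp [v']
  have hnorm : ∑ i ∈ W, ‖v' i‖ ^ 2 = 1 := by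
    rw [← Finset.sum_coe_sort]
    simp_rw [hv']
    have h1 := hY.eigenvectorBasis.orthonormal.1 k
    have h2 := EuclideanSpace.norm_sq_eq (hY.eigenvectorBasis k)
    rw [h1] at h2
    rw [← h2]
    norm_num
  have hq : qf y W v' = hY.eigenvalues k := by
    rw [hY.eigenvalues_eq k, qf]
    rw [← Finset.sum_coe_sort]
    simp only [dotProduct, Matrix.mulVec, mat, Matrix.of_apply]
    congr 1
    refine Finset.sum_congr rfl fun i _ => ?_
    rw [← Finset.sum_coe_sort, Finset.mul_sum]
    refine Finset.sum_congr rfl fun j _ => ?_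
    rw [hv', hv']
    exact mul_assoc _ _ _
  have h3 := hb W v'
  rw [hnorm, hq] at h3
  constructor
  · linarith only [h3.1]
  · linarith only [h3.2]

end Kernel

section Pinch

variable {α : Type*} [DecidableEq α] {r : ℕ}

/-- the kernel on pairs (vertex, colour) -/
def yo (r : ℕ) (y : α → α → ℂ) : α × Option (Fin r) → α × Option (Fin r) → ℂ :=
  fun p q => if p.2 = q.2 then y p.1 q.1 else 0

omit [DecidableEq α] in
theorem herm_yo {y : α → α → ℂ} (hy : Herm y) : Herm (yo r y) := by
  intro i j
  simp only [yo]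
  by_cases h : i.2 = j.2
  · rw [if_pos h, if_pos h.symm]; exact hy _ _
  · rw [if_neg h, if_neg (Ne.symm h)]; simp

theorem qf_yo (y : α → α → ℂ) (W : Finset (α × Option (Fin r))) (v : α × Option (Fin r) → ℂ) :
    qf (yo r y) W v = ∑ o : Option (Fin r), qf y (W.image Prod.fst)
      (fun x => if (x, o) ∈ W then v (x, o) else 0) := by
  classical
  set V := W.image Prod.fst with hV
  have hsub : W ⊆ V ×ˢ (Finset.univ : Finset (Option (Fin r))) := by
    intro p hp
    rw [Finset.mem_product]
    exact ⟨Finset.mem_image_of_mem _ hp, Finset.mem_univ _⟩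
  have hsum : ∀ F : α × Option (Fin r) → ℂ, ∑ p ∈ W, F p =
      ∑ x ∈ V, ∑ o : Option (Fin r), if (x, o) ∈ W then F (x, o) else 0 := by
    intro F
    rw [← Finset.sum_product', ← Finset.sum_subset hsub]
    · refine Finset.sum_congr rfl fun p hp => ?_
      rw [if_pos hp]
    · intro p _ hp
      rw [if_neg hp]
  simp only [qf]
  rw [← Complex.re_sum]
  congr 1
  rw [hsum]
  simp_rw [hsum]
  rw [Finset.sum_comm]
  refine Finset.sum_congr rfl fun o _ => Finset.sum_congr rfl fun x _ => ?_
  by_cases h1 : (x, o) ∈ W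
  · rw [if_pos h1]
    refine Finset.sum_congr rfl fun x' _ => ?_
    rw [Finset.sum_eq_single o]
    · simp only [yo, if_true, if_pos h1]
      split_ifs <;> simp
    · intro o' _ ho'
      simp only [RCLike.star_def, yo, Ne.symm ho', ↓reduceIte, mul_zero, zero_mul, ite_self]
    · simp only [mem_univ, not_true_eq_false, RCLike.star_def, ite_eq_right_iff, mul_eq_zero, map_eq_zero, IsEmpty.forall_iff]
  · rw [if_neg h1]
    simp [if_neg h1]

theorem norm_yo (W : Finset (α × Option (Fin r))) (v : α × Option (Fin r) → ℂ) :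
    ∑ p ∈ W, ‖v p‖ ^ 2 = ∑ o : Option (Fin r), ∑ x ∈ W.image Prod.fst,
      ‖(if (x, o) ∈ W then v (x, o) else 0 : ℂ)‖ ^ 2 := by
  classical
  set V := W.image Prod.fst with hV
  have hsub : W ⊆ V ×ˢ (Finset.univ : Finset (Option (Fin r))) := by
    intro p hp
    rw [Finset.mem_product]
    exact ⟨Finset.mem_image_of_mem _ hp, Finset.mem_univ _⟩
  rw [Finset.sum_comm, ← Finset.sum_product', ← Finset.sum_subset hsub]
  · refine Finset.sum_congr rfl fun p hp => ?_
    rw [if_pos hp]
  · intro p _ hp
    rw [if_neg hp]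
    simp only [norm_zero, ne_eq, OfNat.ofNat_ne_zero, not_false_eq_true, zero_pow]

theorem FB_yo {y : α → α → ℂ} {a b : ℝ} (hb : FB a b y) : FB a b (yo r y) := by
  intro W v
  rw [qf_yo, norm_yo, Finset.mul_sum, Finset.mul_sum]
  exact ⟨Finset.sum_le_sum fun o _ => (hb _ _).1, Finset.sum_le_sum fun o _ => (hb _ _).2⟩

end Pinch

end Vale.Agent.P078.C
end

section

/-! T3a: the barrier lemma. -/

namespace Vale.Agent.P078.C

open Finset Polynomial

/-- `f = f_r x^r + f_{r-1} x^{r-1} + ...` is sent to `f_r x + f_{r-1} / r` -/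
noncomputable def lin (r : ℕ) (f : ℝ[X]) (x : ℝ) : ℝ := f.coeff r * x + f.coeff (r - 1) / r

/-! ### auxiliary lemmas for the barrier lemma -/

theorem lb_norm_le (x z : ℂ) (hx : 0 < x.im) (hz : z.im ≤ 0) :
    ‖(starRingEnd ℂ) x - z‖ ≤ ‖x - z‖ := by
  rw [← sq_le_sq₀ (norm_nonneg _) (norm_nonneg _), Complex.sq_norm, Complex.sq_norm,
    Complex.normSq_apply, Complex.normSq_apply]
  simp only [Complex.sub_re, Complex.sub_im, Complex.conj_re, Complex.conj_im]
  linarith only [mul_nonneg hx.le (neg_nonneg.mpr hz)]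

theorem lb_prod_norm (s : Multiset ℂ) (hs : ∀ z ∈ s, z.im ≤ 0) (x : ℂ) (hx : 0 < x.im) :
    ‖(s.map (fun z => (starRingEnd ℂ) x - z)).prod‖ ≤ ‖(s.map (fun z => x - z)).prod‖ := by
  induction s using Multiset.induction_on with
  | empty => simp only [Multiset.map_zero, Multiset.prod_zero, norm_one, Std.le_refl]
  | cons a s ih =>
    rw [Multiset.map_cons, Multiset.prod_cons, Multiset.map_cons, Multiset.prod_cons, norm_mul,
      norm_mul]
    exact mul_le_mul (lb_norm_le x a hx (hs a (Multiset.mem_cons_self a s)))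
      (ih fun z hz => hs z (Multiset.mem_cons_of_mem hz)) (norm_nonneg _) (norm_nonneg _)

theorem lb_im_le (p q : ℝ[X]) (hst : ∀ x : ℂ, 0 < x.im → aeval x p + Complex.I * aeval x q ≠ 0)
    (x : ℂ) (hx : 0 < x.im) : (aeval x q * (starRingEnd ℂ) (aeval x p)).im ≤ 0 := by
  set F : ℂ[X] := p.map (algebraMap ℝ ℂ) + C Complex.I * q.map (algebraMap ℝ ℂ) with hF
  have hFe : ∀ y : ℂ, F.eval y = aeval y p + Complex.I * aeval y q := by
    intro y
    rw [hF, eval_add, eval_mul, eval_C, eval_map_algebraMap, eval_map_algebraMap]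
  have hsp : F.Splits := IsAlgClosed.splits F
  have hroots : ∀ z ∈ F.roots, z.im ≤ 0 := by
    intro z hz
    by_contra h
    push Not at h
    have h1 : F.eval z = 0 := (mem_roots'.mp hz).2
    rw [hFe] at h1
    exact hst z h h1
  have h1 : ‖F.eval ((starRingEnd ℂ) x)‖ ≤ ‖F.eval x‖ := by
    rw [hsp.eval_eq_prod_roots, hsp.eval_eq_prod_roots, norm_mul, norm_mul]
    exact mul_le_mul_of_nonneg_left (lb_prod_norm F.roots hroots x hx) (norm_nonneg _)
  rw [hFe, hFe, aeval_conj, aeval_conj] at h1
  set a := aeval x p with ha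
  set b := aeval x q with hb
  rw [← sq_le_sq₀ (norm_nonneg _) (norm_nonneg _), Complex.sq_norm, Complex.sq_norm,
    Complex.normSq_apply, Complex.normSq_apply] at h1
  simp only [Complex.add_re, Complex.add_im, Complex.mul_re, Complex.mul_im, Complex.I_re,
    Complex.I_im, Complex.conj_re, Complex.conj_im] at h1 ⊢
  linarith only [h1]

theorem lb_splits (p : ℝ[X]) (hp : ∀ x : ℂ, 0 < x.im → aeval x p ≠ 0) : p.Splits := by
  apply Splits.of_splits_map (algebraMap ℝ ℂ) (IsAlgClosed.splits _)
  intro a ha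
  have h1 : aeval a p = 0 := by
    have := (mem_roots'.mp ha).2
    rw [IsRoot.def, eval_map_algebraMap] at this
    exact this
  have h2 : a.im = 0 := by
    rcases lt_trichotomy a.im 0 with h | h | h
    · exfalso
      apply hp ((starRingEnd ℂ) a)
      · rw [Complex.conj_im]
        linarith only [h]
      · rw [aeval_conj, h1, map_zero]
    · exact h
    · exact absurd h1 (hp a h)
  exact ⟨a.re, Complex.ext rfl h2.symm⟩

theorem lb_aeval_real (q : ℝ[X]) (x : ℝ) : aeval (x : ℂ) q = ((q.eval x : ℝ) : ℂ) := by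
  have := aeval_algebraMap_apply ℂ x q
  rw [coe_aeval_eq_eval] at this
  exact this

theorem lb_local (p q : ℝ[X])
    (H : ∀ x : ℂ, 0 < x.im → (aeval x q * (starRingEnd ℂ) (aeval x p)).im ≤ 0) (ρ : ℝ) (n : ℕ)
    (P₁ : ℝ[X]) (hP : p = (X - C ρ) ^ n * P₁) (w : ℂ) (hw : 0 < w.im) :
    0 ≤ q.eval ρ * P₁.eval ρ * (w ^ n).im := by
  set G : ℝ → ℝ := fun s => (aeval ((ρ : ℂ) + s * w) q * (starRingEnd ℂ) (w ^ n) *
    (starRingEnd ℂ) (aeval ((ρ : ℂ) + s * w) P₁)).im with hG
  have hcont : Continuous G := by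
    have h1 : Continuous fun s : ℝ => (ρ : ℂ) + s * w := by (clear * -; fun_prop)
    have h2 : Continuous fun s : ℝ => aeval ((ρ : ℂ) + s * w) q :=
      (q.continuous_aeval).comp h1
    have h3 : Continuous fun s : ℝ => aeval ((ρ : ℂ) + s * w) P₁ :=
      (P₁.continuous_aeval).comp h1
    exact Complex.continuous_im.comp
      ((h2.mul continuous_const).mul (Complex.continuous_conj.comp h3))
  have hneg : ∀ s : ℝ, 0 < s → G s ≤ 0 := by
    intro s hs
    have him : 0 < ((ρ : ℂ) + s * w).im := by
      simp only [Complex.add_im, Complex.ofReal_im, Complex.mul_im, Complex.ofReal_re, zero_mul,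
        zero_add, add_zero]
      positivity
    have h1 := H _ him
    have h2 : aeval ((ρ : ℂ) + s * w) p = ((s : ℂ) * w) ^ n * aeval ((ρ : ℂ) + s * w) P₁ := by
      rw [hP, map_mul, map_pow, map_sub, aeval_X, aeval_C]
      congr 2
      change (ρ : ℂ) + s * w - (ρ : ℂ) = _
      ring
    rw [h2] at h1
    have h3 : aeval ((ρ : ℂ) + s * w) q * (starRingEnd ℂ)
        (((s : ℂ) * w) ^ n * aeval ((ρ : ℂ) + s * w) P₁) =
        ((s ^ n : ℝ) : ℂ) * (aeval ((ρ : ℂ) + s * w) q * (starRingEnd ℂ) (w ^ n) *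
          (starRingEnd ℂ) (aeval ((ρ : ℂ) + s * w) P₁)) := by
      rw [map_mul, mul_pow, map_mul, map_pow (starRingEnd ℂ) (s : ℂ), Complex.conj_ofReal]
      push_cast
      ring
    rw [h3, Complex.im_ofReal_mul] at h1
    have h4 : (0 : ℝ) < s ^ n := by positivity
    exact nonpos_of_mul_nonpos_right h1 h4
  have h0 : G 0 ≤ 0 := by
    have ht : Filter.Tendsto G (nhdsWithin 0 (Set.Ioi 0)) (nhds (G 0)) :=
      (hcont.tendsto 0).mono_left nhdsWithin_le_nhds
    refine le_of_tendsto ht ?_
    filter_upwards [self_mem_nhdsWithin] with s hs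
    exact hneg s hs
  have h1 : G 0 = -(q.eval ρ * P₁.eval ρ * (w ^ n).im) := by
    simp only [hG]
    rw [Complex.ofReal_zero, zero_mul, add_zero, lb_aeval_real, lb_aeval_real,
      Complex.conj_ofReal, mul_comm _ ((P₁.eval ρ : ℝ) : ℂ), Complex.im_ofReal_mul,
      Complex.im_ofReal_mul, Complex.conj_im]
    ring
  rw [h1] at h0
  linarith only [h0]

/-- a point of the upper half plane whose `n`-th power is `I`. -/
theorem lb_dir1 (n : ℕ) (hn : 1 ≤ n) : ∃ w : ℂ, 0 < w.im ∧ (w ^ n).im = 1 := by
  have hn0 : (0 : ℝ) < n := by exact_mod_cast hn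
  refine ⟨Complex.exp ((Real.pi / (2 * n) : ℝ) * Complex.I), ?_, ?_⟩
  · rw [Complex.exp_ofReal_mul_I_im]
    apply Real.sin_pos_of_pos_of_lt_pi
    · (clear * - hn; positivity)
    · rw [div_lt_iff₀ (by (clear * - hn; positivity))]
      have : (1 : ℝ) ≤ n := by exact_mod_cast hn
      linarith only [mul_nonneg (sub_nonneg.2 this) (le_of_lt (sub_pos.2 Real.pi_pos)), Real.pi_pos]
  · rw [← Complex.exp_nat_mul]
    have h1 : (n : ℂ) * ((Real.pi / (2 * n) : ℝ) * Complex.I) =
        ((Real.pi / 2 : ℝ) : ℂ) * Complex.I := by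
      have hnC : (n : ℂ) ≠ 0 := by exact_mod_cast hn0.ne'
      push_cast
      field_simp
    rw [h1, Complex.exp_ofReal_mul_I_im, Real.sin_pi_div_two]

/-- a point of the upper half plane whose `n`-th power is `-I`. -/
theorem lb_dir2 (n : ℕ) (hn : 2 ≤ n) : ∃ w : ℂ, 0 < w.im ∧ (w ^ n).im = -1 := by
  have hn0 : (0 : ℝ) < n := by
    have : 0 < n := by omega
    exact_mod_cast this
  refine ⟨Complex.exp ((3 * Real.pi / (2 * n) : ℝ) * Complex.I), ?_, ?_⟩
  · rw [Complex.exp_ofReal_mul_I_im]
    apply Real.sin_pos_of_pos_of_lt_pi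
    · (clear * - hn; positivity)
    · rw [div_lt_iff₀ (by positivity)]
      have : (2 : ℝ) ≤ n := by exact_mod_cast hn
      linarith only [mul_nonneg (sub_nonneg.2 this) (le_of_lt (sub_pos.2 Real.pi_pos)), Real.pi_pos]
  · rw [← Complex.exp_nat_mul]
    have h1 : (n : ℂ) * ((3 * Real.pi / (2 * n) : ℝ) * Complex.I) =
        ((Real.pi / 2 + Real.pi : ℝ) : ℂ) * Complex.I := by
      have hnC : (n : ℂ) ≠ 0 := by exact_mod_cast hn0.ne'
      push_cast
      field_simp
      ring
    rw [h1, Complex.exp_ofReal_mul_I_im, Real.sin_add_pi, Real.sin_pi_div_two]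

/-- partial fractions in the coprime case. -/
theorem lb_decomp_coprime (p q : ℝ[X]) (hp : p ≠ 0) (hpq : q.natDegree ≤ p.natDegree)
    (hsp : p.Splits) (hcop : IsCoprime p q)
    (H : ∀ x : ℂ, 0 < x.im → (aeval x q * (starRingEnd ℂ) (aeval x p)).im ≤ 0) :
    ∃ (D : Finset ℝ) (c : ℝ) (m : ℝ → ℝ) (h : ℝ → ℝ[X]),
      (∀ ρ ∈ D, 0 ≤ m ρ ∧ (X - C ρ) * h ρ = p) ∧ q = C c * p + ∑ ρ ∈ D, C (m ρ) * h ρ := by
  classical
  have key : ∀ ρ ∈ p.roots, ∃ h : ℝ[X], (X - C ρ) * h = p ∧ h.eval ρ ≠ 0 ∧
      0 ≤ q.eval ρ * h.eval ρ ∧ p.rootMultiplicity ρ = 1 := by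
    intro ρ hρ
    have hroot : p.eval ρ = 0 := (mem_roots'.mp hρ).2
    have hq0 : q.eval ρ ≠ 0 := by
      intro h0
      obtain ⟨a, b, hab⟩ := hcop
      have := congrArg (eval ρ) hab
      rw [eval_add, eval_mul, eval_mul, hroot, h0, mul_zero, mul_zero, add_zero, eval_one] at this
      exact zero_ne_one this
    obtain ⟨P₁, hP₁, hnd⟩ := exists_eq_pow_rootMultiplicity_mul_and_not_dvd p hp ρ
    set n := p.rootMultiplicity ρ with hn
    have hn1 : 1 ≤ n := (rootMultiplicity_pos hp).mpr hroot
    have hP0 : P₁.eval ρ ≠ 0 := by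
      intro h
      exact hnd (dvd_iff_isRoot.mpr h)
    have hlt2 : n < 2 := by
      by_contra hge
      push Not at hge
      obtain ⟨w, hw, hw1⟩ := lb_dir1 n hn1
      obtain ⟨w', hw', hw1'⟩ := lb_dir2 n hge
      have h1 := lb_local p q H ρ n P₁ hP₁ w hw
      have h2 := lb_local p q H ρ n P₁ hP₁ w' hw'
      rw [hw1] at h1
      rw [hw1'] at h2
      have h3 : q.eval ρ * P₁.eval ρ = 0 := by linarith only [h1, h2]
      exact (mul_ne_zero hq0 hP0) h3
    have hn1' : n = 1 := by (clear * - hn1 hlt2; omega)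
    refine ⟨P₁, ?_, hP0, ?_, hn1'⟩
    · rw [hn1', pow_one] at hP₁
      exact hP₁.symm
    · obtain ⟨w, hw, hw1⟩ := lb_dir1 n hn1
      have h1 := lb_local p q H ρ n P₁ hP₁ w hw
      rw [hw1, mul_one] at h1
      exact h1
  choose! h hh1 hh2 hh3 hh4 using key
  set D := p.roots.toFinset with hD
  have hnodup : p.roots.Nodup := by
    rw [Multiset.nodup_iff_count_le_one]
    intro a
    rw [count_roots]
    by_cases ha : a ∈ p.roots
    · rw [hh4 a ha]
    · rw [← count_roots, Multiset.count_eq_zero_of_notMem ha]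
      exact Nat.zero_le 1
  have hcard : D.card = p.natDegree := by
    rw [hD, Multiset.toFinset_card_of_nodup hnodup, hsp.natDegree_eq_card_roots]
  have hmem : ∀ ρ ∈ D, ρ ∈ p.roots := fun ρ hρ => Multiset.mem_toFinset.mp hρ
  refine ⟨D, q.coeff p.natDegree / p.leadingCoeff, fun ρ => q.eval ρ / (h ρ).eval ρ, h, ?_, ?_⟩
  · intro ρ hρ
    refine ⟨?_, hh1 ρ (hmem ρ hρ)⟩
    have h1 := hh3 ρ (hmem ρ hρ)
    have h2 := hh2 ρ (hmem ρ hρ)
    have h3 : q.eval ρ / (h ρ).eval ρ = q.eval ρ * (h ρ).eval ρ / ((h ρ).eval ρ) ^ 2 := by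
      (clear * - h2; field_simp)
    change 0 ≤ q.eval ρ / (h ρ).eval ρ
    rw [h3]
    (clear * - h1 h2; (clear * - h1 h2; positivity))
  · have hdeg : ∀ ρ ∈ D, (h ρ).natDegree < p.natDegree := by
      intro ρ hρ
      have h1 := hh1 ρ (hmem ρ hρ)
      have h2 : h ρ ≠ 0 := by
        intro h0
        rw [h0, mul_zero] at h1
        exact hp h1.symm
      have h3 := congrArg natDegree h1
      rw [natDegree_mul (X_sub_C_ne_zero ρ) h2, natDegree_X_sub_C] at h3
      (clear * - hcard h3; omega)
    refine Polynomial.eq_of_degree_sub_lt_of_eval_finset_eq D ?_ ?_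
    · rw [hcard, degree_lt_iff_coeff_zero]
      intro k hk
      rw [coeff_sub, coeff_add, coeff_C_mul, finsetSum_coeff]
      have hs : ∑ ρ ∈ D, (C (q.eval ρ / (h ρ).eval ρ) * h ρ).coeff k = 0 := by
        apply Finset.sum_eq_zero
        intro ρ hρ
        rw [coeff_C_mul, coeff_eq_zero_of_natDegree_lt (lt_of_lt_of_le (hdeg ρ hρ) hk), mul_zero]
      rw [hs, add_zero]
      rcases eq_or_lt_of_le hk with hk1 | hk1
      · rw [← hk1]
        have hl : p.coeff p.natDegree = p.leadingCoeff := rfl
        rw [hl, div_mul_cancel₀ _ (leadingCoeff_ne_zero.mpr hp), sub_self]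
      · rw [coeff_eq_zero_of_natDegree_lt hk1, coeff_eq_zero_of_natDegree_lt (hpq.trans_lt hk1)]
        ring
    · intro σ hσ
      rw [eval_add, eval_mul, eval_finsetSum]
      have h0 : p.eval σ = 0 := (mem_roots'.mp (hmem σ hσ)).2
      rw [h0, mul_zero, zero_add, Finset.sum_eq_single σ]
      · rw [eval_mul, eval_C, div_mul_cancel₀ _ (hh2 σ (hmem σ hσ))]
      · intro ρ hρ hne
        have h1 := congrArg (eval σ) (hh1 ρ (hmem ρ hρ))
        rw [eval_mul, h0, eval_sub, eval_X, eval_C] at h1
        have h2 : σ - ρ ≠ 0 := sub_ne_zero.mpr (Ne.symm hne)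
        have h3 : (h ρ).eval σ = 0 := (mul_eq_zero.mp h1).resolve_left h2
        rw [eval_mul, h3, mul_zero]
      · intro hn
        exact absurd hσ hn

/-- partial fractions. -/
theorem lb_decomp (p q : ℝ[X]) (hp : p ≠ 0) (hpq : q.natDegree ≤ p.natDegree)
    (hpx : ∀ x : ℂ, 0 < x.im → aeval x p ≠ 0)
    (H : ∀ x : ℂ, 0 < x.im → (aeval x q * (starRingEnd ℂ) (aeval x p)).im ≤ 0) :
    ∃ (D : Finset ℝ) (c : ℝ) (m : ℝ → ℝ) (h : ℝ → ℝ[X]),
      (∀ ρ ∈ D, 0 ≤ m ρ ∧ (X - C ρ) * h ρ = p) ∧ q = C c * p + ∑ ρ ∈ D, C (m ρ) * h ρ := by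
  classical
  have hsp := lb_splits p hpx
  set g := EuclideanDomain.gcd p q with hg
  obtain ⟨p', hp'⟩ := EuclideanDomain.gcd_dvd_left p q
  obtain ⟨q', hq'⟩ := EuclideanDomain.gcd_dvd_right p q
  rw [← hg] at hp' hq'
  have hg0 : g ≠ 0 := by
    intro h
    rw [h, zero_mul] at hp'
    exact hp hp'
  have hp'0 : p' ≠ 0 := by
    intro h
    rw [h, mul_zero] at hp'
    exact hp hp'
  have hcop : IsCoprime p' q' := by
    have h1 := EuclideanDomain.gcd_eq_gcd_ab p q
    rw [← hg] at h1
    set A := EuclideanDomain.gcdA p q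
    set B := EuclideanDomain.gcdB p q
    refine ⟨A, B, ?_⟩
    have h2 : g * (A * p' + B * q') = g * 1 := by
      rw [mul_one]
      conv_rhs => rw [h1, hp', hq']
      ring
    exact mul_left_cancel₀ hg0 h2
  have hdeg : q'.natDegree ≤ p'.natDegree := by
    by_cases hq0 : q' = 0
    · rw [hq0, natDegree_zero]
      exact Nat.zero_le _
    · rw [hp', hq', natDegree_mul hg0 hp'0, natDegree_mul hg0 hq0] at hpq
      omega
  have H' : ∀ x : ℂ, 0 < x.im → (aeval x q' * (starRingEnd ℂ) (aeval x p')).im ≤ 0 := by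
    intro x hx
    have h1 := H x hx
    have h2 := hpx x hx
    rw [hp', map_mul] at h2
    have hgx : aeval x g ≠ 0 := left_ne_zero_of_mul h2
    rw [hp', hq', map_mul, map_mul, map_mul] at h1
    have h3 : aeval x g * aeval x q' * ((starRingEnd ℂ) (aeval x g) * (starRingEnd ℂ) (aeval x p')) =
        ((Complex.normSq (aeval x g) : ℝ) : ℂ) * (aeval x q' * (starRingEnd ℂ) (aeval x p')) := by
      rw [← Complex.mul_conj]
      ring
    rw [h3, Complex.im_ofReal_mul] at h1
    exact nonpos_of_mul_nonpos_right h1 (Complex.normSq_pos.mpr hgx)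
  obtain ⟨D, c, m, h, hh, hq⟩ := lb_decomp_coprime p' q' hp'0 hdeg
    (hsp.of_dvd hp ⟨g, by rw [hp']; ring⟩) hcop H'
  refine ⟨D, c, m, fun ρ => g * h ρ, ?_, ?_⟩
  · intro ρ hρ
    refine ⟨(hh ρ hρ).1, ?_⟩
    have := (hh ρ hρ).2
    rw [hp', ← this]
    ring
  · rw [hq', hq, hp', mul_add, Finset.mul_sum]
    congr 1
    · ring
    · apply Finset.sum_congr rfl
      intro ρ _
      ring

/-- Cauchy-Schwarz for a multiset of positive numbers. -/
theorem lb_cauchy (t : Multiset ℝ) (ht : ∀ a ∈ t, 0 < a) :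
    (t.card : ℝ) ^ 2 ≤ t.sum * (t.map (fun a => 1 / a)).sum ∧ 0 ≤ t.sum ∧
      0 ≤ (t.map (fun a => 1 / a)).sum := by
  induction t using Multiset.induction_on with
  | empty => simp
  | cons a t ih =>
    obtain ⟨h1, h2, h3⟩ := ih fun b hb => ht b (Multiset.mem_cons_of_mem hb)
    have ha := ht a (Multiset.mem_cons_self a t)
    rw [Multiset.card_cons, Multiset.sum_cons, Multiset.map_cons, Multiset.sum_cons]
    push_cast
    set S := t.sum
    set S' := (t.map (fun a => 1 / a)).sum
    set n : ℝ := (t.card : ℝ)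
    have hn : 0 ≤ n := Nat.cast_nonneg _
    have h1a : 0 < 1 / a := by (clear * - ha; positivity)
    refine ⟨?_, by (clear * - ha h2; positivity), by positivity⟩
    have e1 : (a + S) * (1 / a + S') = 1 + (a * S' + S * (1 / a)) + S * S' := by
      field_simp
      ring
    have e2 : 2 * n ≤ a * S' + S * (1 / a) := by
      have h4 : (a * S') * (S * (1 / a)) = S * S' := by
        (clear * - ha; field_simp)
      have h5 : 0 ≤ a * S' := by (clear * - ha h3; positivity)
      have h6 : 0 ≤ S * (1 / a) := by (clear * - h2 ha; positivity)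
      have h7 : (2 * n) ^ 2 ≤ (a * S' + S * (1 / a)) ^ 2 := by
        linarith only [sq_nonneg (a * S' - S * (1 / a)), h4, h1]
      exact (sq_le_sq₀ (by (clear * -; positivity)) (by (clear * - ha h3 h2; positivity))).mp h7
    rw [e1]
    linarith only [h1, e2]

theorem lemmaB {r : ℕ} (hr : 2 ≤ r) {p q : ℝ[X]} (hp : p.natDegree = r) (hlead : 0 < p.coeff r)
    (hq : q.natDegree ≤ r)
    (hst : ∀ x : ℂ, 0 < x.im → ∀ ε : ℝ, 0 ≤ ε →
      (p.map (algebraMap ℝ ℂ)).eval x + ε * Complex.I * (q.map (algebraMap ℝ ℂ)).eval x ≠ 0)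
    {x₀ B : ℝ} (hB : 0 < B) (hpos : ∀ x, x₀ ≤ x → 0 < p.eval x)
    (hder : (derivative p).eval x₀ ≤ B * p.eval x₀) :
    0 < lin r p (x₀ - (r - 1) ^ 2 / (r * B)) ∧
    lin r q (x₀ - (r - 1) ^ 2 / (r * B)) * p.eval x₀ ≤
      lin r p (x₀ - (r - 1) ^ 2 / (r * B)) * q.eval x₀ := by
  classical
  have hp0 : p ≠ 0 := by
    intro h
    rw [h, coeff_zero] at hlead
    exact lt_irrefl _ hlead
  have hpx : ∀ x : ℂ, 0 < x.im → aeval x p ≠ 0 := by
    intro x hx
    have h1 := hst x hx 0 le_rfl
    rw [Complex.ofReal_zero, zero_mul, zero_mul, add_zero, eval_map_algebraMap] at h1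
    exact h1
  have hst1 : ∀ x : ℂ, 0 < x.im → aeval x p + Complex.I * aeval x q ≠ 0 := by
    intro x hx
    have h1 := hst x hx 1 zero_le_one
    rw [Complex.ofReal_one, one_mul, eval_map_algebraMap, eval_map_algebraMap] at h1
    exact h1
  have hsp := lb_splits p hpx
  set s := p.roots with hs
  have hcard : s.card = r := by rw [hs, ← hsp.natDegree_eq_card_roots, hp]
  have hr0 : (0 : ℝ) < r := by
    have : 0 < r := by (clear * - hr hp hcard; omega)
    exact_mod_cast this
  have hpx0 : 0 < p.eval x₀ := hpos x₀ le_rfl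
  have hroot : ∀ a ∈ s, 0 < x₀ - a := by
    intro a ha
    by_contra h
    push Not at h
    have h1 := hpos a (by linarith only [h])
    have h2 : p.eval a = 0 := (mem_roots'.mp ha).2
    linarith only [h1, h2]
  have hsum : (s.map fun a => 1 / (x₀ - a)).sum ≤ B := by
    have h1 := hsp.eval_derivative_div_eval_of_ne_zero hpx0.ne'
    rw [← h1, div_le_iff₀ hpx0]
    exact hder
  have hvieta : p.coeff (r - 1) = - (p.coeff r * s.sum) := by
    have h1 := hsp.nextCoeff_eq_neg_sum_roots_mul_leadingCoeff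
    rw [nextCoeff_of_natDegree_pos (by (clear * - hr hp hcard; omega)), hp] at h1
    rw [h1, leadingCoeff, hp]
    ring
  set d : ℝ := (r - 1) ^ 2 / (r * B) with hd
  set S : ℝ := r * x₀ - s.sum with hS
  have hL : lin r p (x₀ - d) = p.coeff r * (S - r * d) / r := by
    unfold lin
    rw [hvieta, hS]
    field_simp
    ring
  have hrd : r * d = (r - 1) ^ 2 / B := by
    rw [hd]
    (clear * - hr hB; field_simp)
  have hSsum : (s.map fun a => x₀ - a).sum = S := by
    rw [Multiset.sum_map_sub, Multiset.map_const', Multiset.sum_replicate, hcard, Multiset.map_id',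
      nsmul_eq_mul]
  have claim : ∀ ρ ∈ s, x₀ - ρ ≤ S - r * d := by
    intro ρ hρ
    set t : Multiset ℝ := (s.erase ρ).map fun a => x₀ - a with ht
    have hcons : s = ρ ::ₘ s.erase ρ := (Multiset.cons_erase hρ).symm
    have h1 : x₀ - ρ + t.sum = S := by
      rw [← hSsum]
      conv_rhs => rw [hcons]
      rw [Multiset.map_cons, Multiset.sum_cons]
    have h2 : 1 / (x₀ - ρ) + (t.map fun a => 1 / a).sum ≤ B := by
      refine le_trans (le_of_eq ?_) hsum
      conv_rhs => rw [hcons]
      rw [Multiset.map_cons, Multiset.sum_cons, ht, Multiset.map_map]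
      rfl
    have h3 : (t.card : ℝ) = r - 1 := by
      rw [ht, Multiset.card_map, Multiset.card_erase_of_mem hρ, hcard]
      rw [Nat.pred_eq_sub_one, Nat.cast_sub (by (clear * - hr hp hcard; omega)), Nat.cast_one]
    obtain ⟨c1, c2, c3⟩ := lb_cauchy t (by
      intro a ha
      rw [ht] at ha
      obtain ⟨b, hb, rfl⟩ := Multiset.mem_map.mp ha
      exact hroot b (Multiset.mem_of_mem_erase hb))
    rw [h3] at c1
    have h4 : 0 < 1 / (x₀ - ρ) := by
      have := hroot ρ hρ
      (clear * - this; positivity)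
    have h5 : ((r : ℝ) - 1) ^ 2 ≤ t.sum * B :=
      c1.trans (mul_le_mul_of_nonneg_left (by linarith only [h4, h2]) c2)
    have h6 : ((r : ℝ) - 1) ^ 2 / B ≤ t.sum := by
      rw [div_le_iff₀ hB]
      exact h5
    rw [hrd]
    linarith only [h1, h6]
  have hLpos : 0 < lin r p (x₀ - d) := by
    have hne : s ≠ 0 := by
      intro h
      rw [h, Multiset.card_zero] at hcard
      (clear * - hr hp hcard; omega)
    obtain ⟨ρ, hρ⟩ := Multiset.exists_mem_of_ne_zero hne
    have h1 := claim ρ hρ
    have h2 := hroot ρ hρ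
    rw [hL]
    have h3 : 0 < S - r * d := by linarith only [h2, h1]
    (clear * - hr hlead h3; (clear * - hlead h3 hr; (clear * - hlead h3 hr; positivity)))
  refine ⟨hLpos, ?_⟩
  obtain ⟨D, c, m, h, hh, hqe⟩ := lb_decomp p q hp0 (by rw [hp]; exact hq) hpx
    (lb_im_le p q hst1)
  have hhdeg : ∀ ρ ∈ D, (h ρ).natDegree = r - 1 ∧ (h ρ).coeff (r - 1) = p.coeff r := by
    intro ρ hρ
    have h1 := (hh ρ hρ).2
    have h2 : h ρ ≠ 0 := by
      intro h0
      rw [h0, mul_zero] at h1
      exact hp0 h1.symm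
    have h3 := congrArg natDegree h1
    rw [natDegree_mul (X_sub_C_ne_zero ρ) h2, natDegree_X_sub_C, hp] at h3
    have h4 : (h ρ).natDegree = r - 1 := by (clear * - hr hp hcard h3; omega)
    refine ⟨h4, ?_⟩
    have h5 := congrArg leadingCoeff h1
    rw [leadingCoeff_mul, leadingCoeff_X_sub_C, one_mul, leadingCoeff, leadingCoeff, h4, hp] at h5
    exact h5
  have hlinq : ∀ y, lin r q y = c * lin r p y + ∑ ρ ∈ D, m ρ * (p.coeff r / r) := by
    intro y
    unfold lin
    have e1 : q.coeff r = c * p.coeff r := by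
      rw [hqe, coeff_add, coeff_C_mul, finsetSum_coeff, Finset.sum_eq_zero, add_zero]
      intro ρ hρ
      rw [coeff_C_mul, coeff_eq_zero_of_natDegree_lt (by rw [(hhdeg ρ hρ).1]; (clear * - hr hp hcard; omega)), mul_zero]
    have e2 : q.coeff (r - 1) = c * p.coeff (r - 1) + ∑ ρ ∈ D, m ρ * p.coeff r := by
      rw [hqe, coeff_add, coeff_C_mul, finsetSum_coeff]
      congr 1
      apply Finset.sum_congr rfl
      intro ρ hρ
      rw [coeff_C_mul, (hhdeg ρ hρ).2]
    rw [e1, e2, add_div, Finset.sum_div]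
    have e3 : ∀ ρ, m ρ * p.coeff r / r = m ρ * (p.coeff r / r) := fun ρ => by ring
    rw [Finset.sum_congr rfl (fun ρ _ => e3 ρ)]
    ring
  have hqx : q.eval x₀ = c * p.eval x₀ + ∑ ρ ∈ D, m ρ * (h ρ).eval x₀ := by
    rw [hqe, eval_add, eval_mul, eval_C, eval_finsetSum]
    congr 1
    apply Finset.sum_congr rfl
    intro ρ _
    rw [eval_mul, eval_C]
  rw [hlinq, hqx, add_mul, mul_add, Finset.sum_mul, Finset.mul_sum]
  have hfirst : c * lin r p (x₀ - d) * p.eval x₀ = lin r p (x₀ - d) * (c * p.eval x₀) := by ring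
  rw [hfirst]
  apply add_le_add le_rfl
  apply Finset.sum_le_sum
  intro ρ hρ
  obtain ⟨hm, h1⟩ := hh ρ hρ
  have hρs : ρ ∈ s := by
    rw [hs, mem_roots hp0, IsRoot.def, ← h1]
    simp
  have h2 := hroot ρ hρs
  have h3 : (h ρ).eval x₀ = p.eval x₀ / (x₀ - ρ) := by
    rw [eq_div_iff h2.ne', ← h1]
    simp only [eval_mul, eval_sub, eval_X, eval_C]
    ring
  rw [h3]
  have h4 := claim ρ hρs
  have h5 : p.coeff r / r ≤ lin r p (x₀ - d) / (x₀ - ρ) := by
    rw [hL, le_div_iff₀ h2]
    have : p.coeff r / r * (x₀ - ρ) = p.coeff r * (x₀ - ρ) / r := by ring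
    rw [this]
    (clear * - hr hlead h4; gcongr)
  calc m ρ * (p.coeff r / r) * p.eval x₀ ≤ m ρ * (lin r p (x₀ - d) / (x₀ - ρ)) * p.eval x₀ := by
        (clear * - hpx0 hm h5; gcongr)
    _ = lin r p (x₀ - d) * (m ρ * (p.eval x₀ / (x₀ - ρ))) := by ring

end Vale.Agent.P078.C
end

section

/-! T3b: the root bound for the undecided state. -/

namespace Vale.Agent.P078.C

open Finset Polynomial

section Shift

variable {α : Type*} [DecidableEq α] {r : ℕ} {y : α → α → ℂ} {s : α → Option (Fin r)}

theorem Q_update_add (hr : 0 < r) (z : α → ℂ) (δ : ℂ) {w : α} {W : Finset α} (hw : w ∈ W) :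
    Q y s (Function.update z w (z w + δ)) W = Q y s z W + δ * Q y s z (W.erase w) := by
  obtain ⟨W0, hW0, rfl⟩ : ∃ W0, w ∉ W0 ∧ W = insert w W0 :=
    ⟨W.erase w, Finset.notMem_erase w W, (Finset.insert_erase hw).symm⟩
  rw [Finset.erase_insert hW0, Q_insert hr hW0, Q_insert (z := z) hr hW0]
  have h1 : Q y s (Function.update z w (z w + δ)) W0 = Q y s z W0 := by
    apply Q_congr (fun _ _ _ _ => rfl) (fun _ _ => rfl)
    intro i hi
    rw [Function.update_of_ne]
    rintro rfl
    exact hW0 hi
  rw [h1, Function.update_self, Function.update_idem]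
  ring

theorem Q_shift {β : Type*} [DecidableEq β] (hr : 0 < r) (z : α → ℂ) (δ : ℂ) (f : β ↪ α)
    (T : Finset β) :
    ∀ W : Finset α, T.map f ⊆ W →
    Q y s (fun i => if i ∈ T.map f then z i + δ else z i) W =
      ∑ S ∈ T.powerset, δ ^ S.card * Q y s z (W \ S.map f) := by
  induction T using Finset.induction_on with
  | empty => intro W _; simp only [map_empty, notMem_empty, ↓reduceIte, powerset_empty, sum_singleton, card_empty, pow_zero, sdiff_empty, one_mul]
  | insert v T hv ih =>
    intro W hW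
    have hv' : f v ∉ T.map f := by simpa using hv
    have hvW : f v ∈ W := hW (by simp)
    have hTW : T.map f ⊆ W := fun i hi => hW (by
      rw [Finset.map_insert]; exact Finset.mem_insert_of_mem hi)
    have h1 : (fun i => if i ∈ (insert v T).map f then z i + δ else z i) =
        Function.update (fun i => if i ∈ T.map f then z i + δ else z i) (f v)
          ((fun i => if i ∈ T.map f then z i + δ else z i) (f v) + δ) := by
      funext i
      by_cases hi : i = f v
      · subst hi
        rw [Function.update_self]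
        simp only [Finset.map_insert, Finset.mem_insert_self, if_true, if_neg hv']
      · rw [Function.update_of_ne hi]
        simp only [Finset.map_insert, Finset.mem_insert, hi, false_or]
    rw [h1, Q_update_add hr _ _ hvW, ih W hTW, ih (W.erase (f v)) (fun i hi => by
      rw [Finset.mem_erase]
      refine ⟨?_, hTW hi⟩
      rintro rfl
      exact hv' hi), Finset.sum_powerset_insert hv, Finset.mul_sum]
    congr 1
    refine Finset.sum_congr rfl fun S hS => ?_
    have hvS : v ∉ S := fun h => hv (Finset.mem_powerset.mp hS h)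
    rw [Finset.card_insert_of_notMem hvS, pow_succ, Finset.map_insert]
    have h2 : W.erase (f v) \ S.map f = W \ insert (f v) (S.map f) := by
      ext i
      simp only [Finset.mem_sdiff, Finset.mem_erase, Finset.mem_insert]
      (clear * -; tauto)
    rw [h2]
    ring

theorem Q_norm_ge_prod (hr : 0 < r) (hy : Herm y) (z : α → ℂ) (C : Finset α) :
    ∀ W : Finset α, C ⊆ W → (∀ i ∈ W, 0 < (z i).im) →
      (∏ i ∈ C, (z i).im) * ‖Q y s z (W \ C)‖ ≤ ‖Q y s z W‖ := by
  induction C using Finset.induction_on with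
  | empty => intro W _ _; simp
  | insert v C hv ih =>
    intro W hW hz
    have hvW : v ∈ W := hW (Finset.mem_insert_self v C)
    have hCW : C ⊆ W := fun i hi => hW (Finset.mem_insert_of_mem hi)
    have h1 := ih (W.erase v) (fun i hi => by
      rw [Finset.mem_erase]
      exact ⟨fun h => hv (h ▸ hi), hCW hi⟩) (fun i hi => hz i (Finset.mem_of_mem_erase hi))
    have h2 := Q_norm_ge (s := s) hr hy hz hvW
    have h3 : W.erase v \ C = W \ insert v C := by
      ext i
      simp only [Finset.mem_sdiff, Finset.mem_erase, Finset.mem_insert]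
      (clear * -; tauto)
    rw [h3] at h1
    rw [Finset.prod_insert hv]
    have hvz : 0 ≤ (z v).im := (hz v hvW).le
    calc (z v).im * (∏ i ∈ C, (z i).im) * ‖Q y s z (W \ insert v C)‖
        = (z v).im * ((∏ i ∈ C, (z i).im) * ‖Q y s z (W \ insert v C)‖) := by ring
      _ ≤ (z v).im * ‖Q y s z (W.erase v)‖ := mul_le_mul_of_nonneg_left h1 hvz
      _ ≤ _ := h2

theorem Q_norm_ge_limit (hr : 0 < r) (hy : Herm y) (z : α → ℂ) (C : Finset α)
    (W : Finset α) (hC : C ⊆ W) (hz : ∀ i ∈ W, 0 ≤ (z i).im) :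
      (∏ i ∈ C, (z i).im) * ‖Q y s z (W \ C)‖ ≤ ‖Q y s z W‖ := by
  have hcont : ∀ V : Finset α, Continuous fun δ : ℝ => Q y s (fun i => z i + δ * Complex.I) V := by
    intro V
    exact continuous_Q (fun _ _ _ _ => continuous_const) (fun i _ => by (clear * -; fun_prop))
  have hf : Continuous fun δ : ℝ => (∏ i ∈ C, ((z i).im + δ)) *
      ‖Q y s (fun i => z i + δ * Complex.I) (W \ C)‖ := by
    refine Continuous.mul (continuous_finsetProd _ fun i _ => by fun_prop) (hcont _).norm
  have hg : Continuous fun δ : ℝ => ‖Q y s (fun i => z i + δ * Complex.I) W‖ := (hcont _).norm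
  have key : ∀ δ : ℝ, δ ∈ Set.Ioi (0 : ℝ) → (∏ i ∈ C, ((z i).im + δ)) *
      ‖Q y s (fun i => z i + δ * Complex.I) (W \ C)‖ ≤
      ‖Q y s (fun i => z i + δ * Complex.I) W‖ := by
    intro δ hδ
    have hδ' : 0 < δ := hδ
    have him : ∀ i, (z i + δ * Complex.I).im = (z i).im + δ := fun i => by simp
    have := Q_norm_ge_prod (s := s) hr hy (fun i => z i + δ * Complex.I) C W hC (fun i hi => by
      rw [him]; have := hz i hi; linarith only [hδ', this])
    simpa only [him] using this
  have h1 := hf.tendsto 0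
  have h2 := hg.tendsto 0
  have h3 := le_of_tendsto_of_tendsto (h1.mono_left nhdsWithin_le_nhds)
    (h2.mono_left nhdsWithin_le_nhds)
    (Filter.eventually_of_mem (self_mem_nhdsWithin (a := (0 : ℝ)) (s := Set.Ioi 0)) key)
  simpa only [ge_iff_le, add_zero, Complex.ofReal_zero, zero_mul] using h3

end Shift

section Poly

variable {r : ℕ}

theorem sum_card_one {M : Type*} [AddCommMonoid M] (G : Finset (Fin r) → M) :
    ∑ S : Finset (Fin r), (if S.card = 1 then G S else 0) = ∑ a : Fin r, G {a} := by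
  rw [← Finset.sum_filter]
  have h1 : (Finset.univ : Finset (Finset (Fin r))).filter (fun S => S.card = 1) =
      Finset.univ.map ⟨fun a : Fin r => ({a} : Finset (Fin r)), Finset.singleton_injective⟩ := by
    ext S
    simp only [card_eq_one, mem_filter, mem_univ, true_and, mem_map, Function.Embedding.coeFn_mk]
    constructor
    · rintro ⟨a, rfl⟩; exact ⟨a, rfl⟩
    · rintro ⟨a, rfl⟩; exact ⟨a, rfl⟩
  rw [h1, Finset.sum_map]
  rfl

theorem sum_compl_eq {M : Type*} [AddCommMonoid M] (G : Finset (Fin r) → M) :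
    ∑ S : Finset (Fin r), G Sᶜ = ∑ S : Finset (Fin r), G S :=
  Equiv.sum_comp (compl_involutive.toPerm (compl : Finset (Fin r) → Finset (Fin r))) G

/-- the polynomial `∑ F(Sᶜ) (X - t)^{|S|}`. -/
noncomputable def PP (F : Finset (Fin r) → ℝ) (t : ℝ) : ℝ[X] :=
  ∑ S : Finset (Fin r), C (F Sᶜ) * (X - C t) ^ S.card

theorem natDegree_PP_le (F : Finset (Fin r) → ℝ) (t : ℝ) : (PP F t).natDegree ≤ r := by
  refine Polynomial.natDegree_sum_le_of_forall_le _ _ fun S _ => ?_
  refine (Polynomial.natDegree_C_mul_le _ _).trans ?_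
  rw [Polynomial.natDegree_pow, Polynomial.natDegree_X_sub_C, mul_one]
  simpa only [Fintype.card_fin] using Finset.card_le_univ S

theorem coeff_pow_top (t : ℝ) (m : ℕ) (hm : m ≤ r) :
    ((X - C t : ℝ[X]) ^ m).coeff r = if m = r then 1 else 0 := by
  split_ifs with h
  · subst h
    have := (Polynomial.monic_X_sub_C t).pow m
    have h2 : ((X - C t : ℝ[X]) ^ m).natDegree = m := by
      rw [Polynomial.natDegree_pow, Polynomial.natDegree_X_sub_C, mul_one]
    have h3 := this.coeff_natDegree
    rwa [h2] at h3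
  · apply Polynomial.coeff_eq_zero_of_natDegree_lt
    rw [Polynomial.natDegree_pow, Polynomial.natDegree_X_sub_C, mul_one]
    omega

theorem coeff_PP (F : Finset (Fin r) → ℝ) (t : ℝ) : (PP F t).coeff r = F ∅ := by
  rw [PP, Polynomial.finsetSum_coeff, Finset.sum_eq_single Finset.univ]
  · rw [Polynomial.coeff_C_mul, coeff_pow_top _ _ (by simp only [card_univ, Fintype.card_fin, Std.le_refl])]
    simp only [compl_univ, card_univ, Fintype.card_fin, ↓reduceIte, mul_one]
  · intro S _ hS
    rw [Polynomial.coeff_C_mul, coeff_pow_top _ _ (by simpa only [Fintype.card_fin] using Finset.card_le_univ S), if_neg,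
      mul_zero]
    intro h
    apply hS
    rw [← Finset.card_eq_iff_eq_univ]
    simpa using h
  · simp only [mem_univ, not_true_eq_false, compl_univ, card_univ, Fintype.card_fin, coeff_C_mul, mul_eq_zero, IsEmpty.forall_iff]

theorem coeff_pow_sub_one (hr : 1 ≤ r) (t : ℝ) (m : ℕ) (hm : m ≤ r) :
    ((X - C t : ℝ[X]) ^ m).coeff (r - 1) = if m = r then -t * r else if m = r - 1 then 1 else 0 := by
  have h0 : (X - C t : ℝ[X]) = X + C (-t) := by rw [Polynomial.C_neg]; ring
  rw [h0, Polynomial.coeff_X_add_C_pow]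
  split_ifs with h1 h2
  · subst h1
    have h3 : m - (m - 1) = 1 := by (clear * - hr; omega)
    rw [h3, pow_one]
    have h4 : m.choose (m - 1) = m := by
      rw [Nat.choose_symm_of_eq_add (b := 1) (by omega), Nat.choose_one_right]
    rw [h4]
  · subst h2
    simp only [tsub_self, pow_zero, Nat.choose_self, Nat.cast_one, mul_one]
  · rw [Nat.choose_eq_zero_of_lt (by omega)]
    simp only [CharP.cast_eq_zero, mul_zero]

theorem lin_PP (hr : 1 ≤ r) (F : Finset (Fin r) → ℝ) (t x : ℝ) :
    lin r (PP F t) x = F ∅ * (x - t) + (r : ℝ)⁻¹ * ∑ a : Fin r, F {a} := by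
  have hr0 : (r : ℝ) ≠ 0 := by (clear * - hr; positivity)
  have hc1 : (PP F t).coeff (r - 1) = -t * r * F ∅ + ∑ a : Fin r, F {a} := by
    rw [PP, Polynomial.finsetSum_coeff]
    have h1 : ∀ S : Finset (Fin r), (C (F Sᶜ) * (X - C t) ^ S.card).coeff (r - 1) =
        (if S.card = r then -t * r * F Sᶜ else 0) + (if S.card = r - 1 then F Sᶜ else 0) := by
      intro S
      rw [Polynomial.coeff_C_mul, coeff_pow_sub_one hr _ _ (by simpa only [Fintype.card_fin] using Finset.card_le_univ S)]
      split_ifs with h1 h2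
      · omega
      · ring
      · ring
      · ring
    simp_rw [h1]
    rw [Finset.sum_add_distrib]
    congr 1
    · rw [Finset.sum_eq_single Finset.univ]
      · simp only [card_univ, Fintype.card_fin, ↓reduceIte, neg_mul, compl_univ]
      · intro S _ hS
        rw [if_neg]
        intro h
        apply hS
        rw [← Finset.card_eq_iff_eq_univ]
        simpa only [Fintype.card_fin] using h
      · simp only [mem_univ, not_true_eq_false, card_univ, Fintype.card_fin, ↓reduceIte, neg_mul, compl_univ, neg_eq_zero, mul_eq_zero, Nat.cast_eq_zero, IsEmpty.forall_iff]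
    · rw [← sum_card_one, ← sum_compl_eq]
      refine Finset.sum_congr rfl fun S _ => ?_
      rw [compl_compl]
      have h2 : Sᶜ.card = r - S.card := by rw [Finset.card_compl, Fintype.card_fin]
      have h3 : S.card ≤ r := by simpa only [Fintype.card_fin] using Finset.card_le_univ S
      rw [h2]
      by_cases h4 : S.card = 1
      · rw [if_pos h4, if_pos (by omega)]
      · rw [if_neg h4, if_neg (by omega)]
  rw [lin, coeff_PP, hc1]
  field_simp
  ring

theorem eval_PP_self (F : Finset (Fin r) → ℝ) (t : ℝ) : (PP F t).eval t = F Finset.univ := by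
  rw [PP, Polynomial.eval_finsetSum, Finset.sum_eq_single ∅]
  · simp only [compl_empty, card_empty, pow_zero, mul_one, eval_C]
  · intro S _ hS
    have : S.card ≠ 0 := by simpa [Finset.card_eq_zero] using hS
    simp [this]
  · simp only [mem_univ, not_true_eq_false, compl_empty, card_empty, pow_zero, mul_one, eval_C, IsEmpty.forall_iff]

theorem eval_PP_pos (F : Finset (Fin r) → ℝ) (t x : ℝ) (hF : ∀ S, 0 < F S) (hx : t ≤ x) :
    0 < (PP F t).eval x := by
  rw [PP, Polynomial.eval_finsetSum]
  apply Finset.sum_pos'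
  · intro S _
    rw [Polynomial.eval_mul, Polynomial.eval_C, Polynomial.eval_pow, Polynomial.eval_sub,
      Polynomial.eval_X, Polynomial.eval_C]
    exact mul_nonneg (hF _).le (pow_nonneg (sub_nonneg.mpr hx) _)
  · refine ⟨∅, Finset.mem_univ _, ?_⟩
    simp only [Finset.card_empty, pow_zero, mul_one, Polynomial.eval_C]
    exact hF _

theorem derivative_PP (F : Finset (Fin r) → ℝ) (t : ℝ) :
    (derivative (PP F t)).eval t = ∑ a : Fin r, F {a}ᶜ := by
  rw [PP, Polynomial.derivative_sum, Polynomial.eval_finsetSum, ← sum_card_one (fun S => F Sᶜ)]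
  refine Finset.sum_congr rfl fun S _ => ?_
  rw [Polynomial.derivative_C_mul, Polynomial.eval_mul, Polynomial.eval_C,
    Polynomial.derivative_X_sub_C_pow]
  split_ifs with h
  · simp only [h, Nat.cast_one, map_one, tsub_self, pow_zero, mul_one, eval_one]
  · rcases Nat.lt_or_ge 1 S.card with h1 | h1
    · have : S.card - 1 ≠ 0 := by omega
      simp only [map_natCast, eval_mul, eval_natCast, eval_pow, eval_sub, eval_X, eval_C, sub_self, ne_eq, this, not_false_eq_true, zero_pow, mul_zero]
    · have : S.card = 0 := by omega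
      simp only [this, CharP.cast_eq_zero, map_zero, zero_tsub, pow_zero, mul_one, eval_zero, mul_zero]

theorem eval_map_PP (F : Finset (Fin r) → ℝ) (t : ℝ) (x : ℂ) :
    ((PP F t).map (algebraMap ℝ ℂ)).eval x = ∑ S : Finset (Fin r), (F Sᶜ : ℂ) * (x - t) ^ S.card := by
  rw [PP, Polynomial.map_sum, Polynomial.eval_finsetSum]
  refine Finset.sum_congr rfl fun S _ => ?_
  simp only [Polynomial.map_mul, map_C, Complex.coe_algebraMap, Polynomial.map_pow, Polynomial.map_sub, map_X, eval_mul, eval_C, eval_pow, eval_sub, eval_X]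

end Poly

section Ext

variable {α : Type*} [DecidableEq α] {r : ℕ}

/-- extended kernel: vertex `(v, none)` is undecided, `(v, some a)` has colour `a`. -/
def ey (r : ℕ) (y : α → α → ℂ) : α × Option (Fin r) → α × Option (Fin r) → ℂ := fun p q => y p.1 q.1

/-- extended state -/
def es : α × Option (Fin r) → Option (Fin r) := Prod.snd

/-- extended point -/
def ez (e t₀ : ℝ) : α × Option (Fin r) → ℝ := fun p => if p.2 = none then e else t₀

/-- copies -/
def cop (u : α) : Fin r ↪ α × Option (Fin r) :=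
  ⟨fun a => (u, some a), fun a b h => by simpa using h⟩

omit [DecidableEq α] in
@[simp] theorem cop_apply (u : α) (a : Fin r) : cop u a = (u, some a) := rfl

/-- real value of the extended model -/
noncomputable def QE (y : α → α → ℂ) (e t₀ : ℝ) (W : Finset (α × Option (Fin r))) : ℝ :=
  (Q (ey r y) es (fun p => (ez e t₀ p : ℂ)) W).re

omit [DecidableEq α] in
theorem herm_ey {y : α → α → ℂ} (hy : Herm y) : Herm (ey r y) := fun i j => hy i.1 j.1

theorem QE_coe {y : α → α → ℂ} (hy : Herm y) (e t₀ : ℝ) (W : Finset (α × Option (Fin r))) :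
    ((QE y e t₀ W : ℝ) : ℂ) = Q (ey r y) es (fun p => (ez e t₀ p : ℂ)) W := by
  apply Complex.ext
  · simp [QE]
  · rw [Q_real_im (herm_ey hy)]
    simp

/-- the admissible sets -/
def Adm (D : Finset α) (W : Finset (α × Option (Fin r))) : Prop :=
  ∀ p ∈ W, p.2 = none ↔ p.1 ∈ D

/-- the invariant -/
def Inv (y : α → α → ℂ) (e t₀ g : ℝ) (D : Finset α) : Prop :=
  ∀ W : Finset (α × Option (Fin r)), Adm D W → 0 < QE y e t₀ W ∧
    ∀ p ∈ W, p.2 ≠ none → QE y e t₀ (W.erase p) ≤ g * QE y e t₀ W

/-- one undecided vertex as average over its copies -/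
theorem QE_insert_none (hr : 0 < r) {y : α → α → ℂ} (hy : Herm y) (e t₀ : ℝ) (u : α)
    (W : Finset (α × Option (Fin r))) (hW : ∀ p ∈ W, p.1 ≠ u) :
    QE y e t₀ (insert (u, none) W) = QE y e t₀ W * (e - t₀) +
      (r : ℝ)⁻¹ * ∑ a : Fin r, QE y e t₀ (W ∪ ({a} : Finset (Fin r)).map (cop u)) := by
  have hu : ((u, none) : α × Option (Fin r)) ∉ W := fun h => hW _ h rfl
  have key : ((QE y e t₀ (insert (u, none) W) : ℝ) : ℂ) =
      ((QE y e t₀ W * (e - t₀) +
      (r : ℝ)⁻¹ * ∑ a : Fin r, QE y e t₀ (W ∪ ({a} : Finset (Fin r)).map (cop u)) : ℝ) : ℂ) := by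
    push_cast
    rw [QE_coe hy, QE_coe hy]
    simp_rw [QE_coe hy]
    -- move the point of `(u, none)` to `t₀`
    let z₁ : α × Option (Fin r) → ℂ := Function.update (fun p => (ez e t₀ p : ℂ)) (u, none) t₀
    have h1 : Q (ey r y) es (fun p => (ez e t₀ p : ℂ)) (insert (u, none) W) =
        Q (ey r y) es z₁ (insert (u, none) W) +
          (e - t₀) * Q (ey r y) es (fun p => (ez e t₀ p : ℂ)) W := by
      have h2 := Q_update_add (y := ey r y) (s := es) hr z₁ (e - t₀ : ℂ)
        (Finset.mem_insert_self (u, none) W)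
      have h3 : Function.update z₁ (u, none) (z₁ (u, none) + (e - t₀ : ℂ)) =
          fun p => (ez e t₀ p : ℂ) := by
        funext p
        by_cases hp : p = (u, none)
        · subst hp
          simp only [ez, Function.update_self, add_sub_cancel, ↓reduceIte, z₁]
        · simp [z₁, hp]
      rw [h3, Finset.erase_insert hu] at h2
      rw [h2]
      congr 2
      apply Q_congr (fun _ _ _ _ => rfl) (fun _ _ => rfl)
      intro i hi
      have : i ≠ (u, none) := fun h => hu (h ▸ hi)
      simp [z₁, this]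
    rw [h1, Q_avg (y := ey r y) (s := es) (z := z₁) hr (Finset.mem_insert_self (u, none) W) rfl]
    suffices hsum : ∀ a : Fin r, Q (ey r y) (Function.update es (u, none) (some a)) z₁
        (insert (u, none) W) = Q (ey r y) es (fun p => (ez e t₀ p : ℂ))
          (W ∪ ({a} : Finset (Fin r)).map (cop u)) by
      simp_rw [hsum]
      ring
    intro a
    -- relabelling
    let f : (α × Option (Fin r)) ↪ (α × Option (Fin r)) :=
      (Equiv.swap ((u, none) : α × Option (Fin r)) (u, some a)).toEmbedding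
    have hWf : (W ∪ ({a} : Finset (Fin r)).map (cop u)) = (insert (u, none) W).map f := by
      ext p
      simp only [Finset.mem_union, Finset.mem_map, Finset.mem_singleton, cop_apply, exists_eq_left,
        Finset.mem_insert, f, Equiv.coe_toEmbedding]
      constructor
      · rintro (h | h)
        · refine ⟨p, Or.inr h, Equiv.swap_apply_of_ne_of_ne ?_ ?_⟩
          · rintro rfl; exact hu h
          · rintro rfl; exact hW _ h rfl
        · exact ⟨(u, none), Or.inl rfl, by rw [Equiv.swap_apply_left, h]⟩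
      · rintro ⟨q, (rfl | h), rfl⟩
        · right; rw [Equiv.swap_apply_left]
        · left
          rwa [Equiv.swap_apply_of_ne_of_ne]
          · rintro rfl; exact hu h
          · rintro rfl; exact hW _ h rfl
    rw [hWf, Q_map]
    apply Q_congr
    · intro i hi j hj
      have hf : ∀ i, (f i).1 = i.1 := by
        intro i
        simp only [f, Equiv.coe_toEmbedding]
        rw [Equiv.swap_apply_def]
        split_ifs with h1 h2
        · rw [h1]
        · rw [h2]
        · rfl
      simp [ey, hf]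
    · intro i hi
      rcases Finset.mem_insert.mp hi with rfl | hi
      · rw [Function.update_self]
        simp [f, es]
      · have h1 : i ≠ (u, none) := fun h => hu (h ▸ hi)
        have h2 : i ≠ (u, some a) := fun h => hW i hi (by rw [h])
        rw [Function.update_of_ne h1]
        simp only [f, Equiv.coe_toEmbedding]
        rw [Equiv.swap_apply_of_ne_of_ne h1 h2]
    · intro i hi
      rcases Finset.mem_insert.mp hi with rfl | hi
      · simp only [ez, Function.update_self, Function.Embedding.coeFn_mk, Equiv.swap_apply_left, reduceCtorEq, ↓reduceIte, z₁, f]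
      · have h1 : i ≠ (u, none) := fun h => hu (h ▸ hi)
        have h2 : i ≠ (u, some a) := fun h => hW i hi (by rw [h])
        simp only [f, Equiv.coe_toEmbedding]
        rw [Equiv.swap_apply_of_ne_of_ne h1 h2]
        simp [z₁, h1]
  exact_mod_cast key

theorem sdiff_map_cop (u : α) (W : Finset (α × Option (Fin r))) (hW : ∀ p ∈ W, p.1 ≠ u)
    (S : Finset (Fin r)) :
    (W ∪ Finset.univ.map (cop u)) \ S.map (cop u) = W ∪ Sᶜ.map (cop u) := by
  ext p
  simp only [Finset.mem_sdiff, Finset.mem_union, Finset.mem_map, Finset.mem_univ, true_and,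
    cop_apply, Finset.mem_compl]
  constructor
  · rintro ⟨h | ⟨a, rfl⟩, h2⟩
    · exact Or.inl h
    · refine Or.inr ⟨a, fun ha => h2 ⟨a, ha, rfl⟩, rfl⟩
  · rintro (h | ⟨a, ha, rfl⟩)
    · refine ⟨Or.inl h, ?_⟩
      rintro ⟨a, _, rfl⟩
      exact hW _ h rfl
    · refine ⟨Or.inr ⟨a, rfl⟩, ?_⟩
      rintro ⟨b, hb, hab⟩
      have : b = a := by simpa using hab
      exact ha (this ▸ hb)

theorem eval_PP_ext (hr : 0 < r) {y : α → α → ℂ} (hy : Herm y) (e t₀ : ℝ) (u : α)
    (W : Finset (α × Option (Fin r))) (hW : ∀ p ∈ W, p.1 ≠ u) (x : ℂ) :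
    ((PP (fun S => QE y e t₀ (W ∪ S.map (cop u))) t₀).map (algebraMap ℝ ℂ)).eval x =
      Q (ey r y) es (fun p => if p.1 = u then x else (ez e t₀ p : ℂ))
        (W ∪ Finset.univ.map (cop u)) := by
  rw [eval_map_PP]
  have h1 := Q_shift (y := ey r y) (s := es) hr (fun p => (ez e t₀ p : ℂ)) (x - t₀) (cop u)
    Finset.univ (W ∪ Finset.univ.map (cop u)) Finset.subset_union_right
  have h2 : Q (ey r y) es (fun p => if p.1 = u then x else (ez e t₀ p : ℂ))
        (W ∪ Finset.univ.map (cop u)) = Q (ey r y) es (fun p =>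
          if p ∈ (Finset.univ : Finset (Fin r)).map (cop u) then (ez e t₀ p : ℂ) + (x - t₀)
          else (ez e t₀ p : ℂ)) (W ∪ Finset.univ.map (cop u)) := by
    apply Q_congr (fun _ _ _ _ => rfl) (fun _ _ => rfl)
    intro p hp
    rcases Finset.mem_union.mp hp with h | h
    · have h3 : p ∉ (Finset.univ : Finset (Fin r)).map (cop u) := by
        intro h4
        obtain ⟨a, _, rfl⟩ := Finset.mem_map.mp h4
        exact hW _ h rfl
      rw [if_neg (hW p h), if_neg h3]
    · obtain ⟨a, _, rfl⟩ := Finset.mem_map.mp h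
      rw [if_pos (by simp), if_pos h]
      simp [ez]
  rw [h2, h1, Finset.powerset_univ]
  refine Finset.sum_congr rfl fun S _ => ?_
  rw [sdiff_map_cop u W hW, QE_coe hy]
  ring

theorem Q_ne_zero_ext (hr : 0 < r) {y : α → α → ℂ} (hy : Herm y) (u : α)
    (W : Finset (α × Option (Fin r))) (hW : ∀ p ∈ W, p.1 ≠ u) (z : α × Option (Fin r) → ℂ)
    (hz1 : ∀ p ∈ W, 0 ≤ (z p).im) (hz2 : ∀ a, 0 < (z (u, some a)).im)
    (h : Q (ey r y) es z W ≠ 0) :
    Q (ey r y) es z (W ∪ Finset.univ.map (cop u)) ≠ 0 := by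
  have h1 := Q_norm_ge_limit (s := es) hr (herm_ey (r := r) hy) z (Finset.univ.map (cop u))
    (W ∪ Finset.univ.map (cop u)) Finset.subset_union_right (fun p hp => by
      rcases Finset.mem_union.mp hp with h | h
      · exact hz1 p h
      · obtain ⟨a, _, rfl⟩ := Finset.mem_map.mp h
        exact (hz2 a).le)
  rw [sdiff_map_cop u W hW, Finset.compl_univ, Finset.map_empty, Finset.union_empty,
    Finset.prod_map] at h1
  intro h2
  rw [h2, norm_zero] at h1
  have h3 : 0 < ∏ a : Fin r, (z (cop u a)).im := Finset.prod_pos fun a _ => hz2 a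
  have h4 : 0 < ‖Q (ey r y) es z W‖ := norm_pos_iff.mpr h
  have := mul_pos h3 h4
  linarith only [h1, this]

theorem inv_step (hr : 2 ≤ r) {y : α → α → ℂ} (hy : Herm y) {e t₀ g : ℝ} (hg : 0 < g)
    (he : e = t₀ - (r - 1) ^ 2 / (r * (r * g))) {D : Finset α} {u : α} (hu : u ∉ D)
    (hD : Inv (r := r) y e t₀ g D) : Inv (r := r) y e t₀ g (insert u D) := by
  have hr0 : 0 < r := by omega
  intro W hW
  by_cases huW : ((u, none) : α × Option (Fin r)) ∈ W
  · obtain ⟨W0, hW0, rfl⟩ : ∃ W0, (u, none) ∉ W0 ∧ W = insert (u, none) W0 :=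
      ⟨W.erase (u, none), Finset.notMem_erase _ W, (Finset.insert_erase huW).symm⟩
    have hW0u : ∀ p ∈ W0, p.1 ≠ u := by
      intro p hp hpu
      have h1 := (hW p (Finset.mem_insert_of_mem hp)).mpr (by rw [hpu]; simp)
      apply hW0
      have : p = (u, none) := Prod.ext hpu h1
      rwa [this] at hp
    have hadm : ∀ V ⊆ W0, ∀ S : Finset (Fin r), Adm D (V ∪ S.map (cop u)) := by
      intro V hV S p hp
      rcases Finset.mem_union.mp hp with h | h
      · have h1 := hW p (Finset.mem_insert_of_mem (hV h))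
        rw [h1, Finset.mem_insert]
        constructor
        · rintro (h2 | h2)
          · exact absurd h2 (hW0u p (hV h))
          · exact h2
        · exact Or.inr
      · obtain ⟨a, _, rfl⟩ := Finset.mem_map.mp h
        simp [hu]
    have hB : 0 < (r : ℝ) * g := by (clear * - hr hg; positivity)
    -- the polynomial attached to a set
    have hpoly : ∀ V ⊆ W0, (PP (fun S => QE y e t₀ (V ∪ S.map (cop u))) t₀).natDegree = r ∧
        0 < (PP (fun S => QE y e t₀ (V ∪ S.map (cop u))) t₀).coeff r := by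
      intro V hV
      have h1 : 0 < (PP (fun S => QE y e t₀ (V ∪ S.map (cop u))) t₀).coeff r := by
        rw [coeff_PP]
        exact (hD _ (hadm V hV ∅)).1
      refine ⟨le_antisymm (natDegree_PP_le _ _) ?_, h1⟩
      exact Polynomial.le_natDegree_of_ne_zero h1.ne'
    have hlin : ∀ V ⊆ W0, lin r (PP (fun S => QE y e t₀ (V ∪ S.map (cop u))) t₀) e =
        QE y e t₀ (insert (u, none) V) := by
      intro V hV
      rw [lin_PP (by (clear * - hr; omega)), QE_insert_none hr0 hy e t₀ u V (fun p hp => hW0u p (hV hp))]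
      simp only [map_empty, union_empty, map_singleton, cop_apply, union_singleton]
    set F : Finset (Fin r) → ℝ := fun S => QE y e t₀ (W0 ∪ S.map (cop u)) with hF
    have hpos : ∀ x, t₀ ≤ x → 0 < (PP F t₀).eval x := fun x hx =>
      eval_PP_pos F t₀ x (fun S => (hD _ (hadm W0 subset_rfl S)).1) hx
    have hder : (derivative (PP F t₀)).eval t₀ ≤ (r * g) * (PP F t₀).eval t₀ := by
      rw [derivative_PP, eval_PP_self]
      calc ∑ a : Fin r, F {a}ᶜ ≤ ∑ _a : Fin r, g * F Finset.univ := by
            refine Finset.sum_le_sum fun a _ => ?_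
            have h1 := (hD _ (hadm W0 subset_rfl Finset.univ)).2 (u, some a)
              (Finset.mem_union_right _ (Finset.mem_map.mpr ⟨a, Finset.mem_univ _, rfl⟩))
              (by simp)
            have h2 : (W0 ∪ Finset.univ.map (cop u)).erase (u, some a) =
                W0 ∪ ({a}ᶜ : Finset (Fin r)).map (cop u) := by
              rw [← sdiff_map_cop u W0 hW0u, Finset.map_singleton, Finset.sdiff_singleton_eq_erase]
              rfl
            rw [h2] at h1
            exact h1
        _ = (r * g) * F Finset.univ := by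
            rw [Finset.sum_const, Finset.card_univ, Fintype.card_fin, nsmul_eq_mul]; ring
    have hQpos : 0 < QE y e t₀ W0 := by
      have := (hD _ (hadm W0 subset_rfl ∅)).1
      simpa only [gt_iff_lt, map_empty, union_empty] using this
    have hbase : ∀ x : ℂ, 0 < x.im → ∀ p : α × Option (Fin r), 0 ≤
        ((fun p : α × Option (Fin r) => if p.1 = u then x else (ez e t₀ p : ℂ)) p).im := by
      intro x hx p
      simp only
      split_ifs
      · exact hx.le
      · simp
    have hQW0 : ∀ (x : ℂ) (V : Finset (α × Option (Fin r))), V ⊆ W0 →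
        Q (ey r y) es (fun p => if p.1 = u then x else (ez e t₀ p : ℂ)) V = (QE y e t₀ V : ℂ) := by
      intro x V hV
      rw [QE_coe hy]
      apply Q_congr (fun _ _ _ _ => rfl) (fun _ _ => rfl)
      intro p hp
      rw [if_neg (hW0u p (hV hp))]
    refine ⟨?_, ?_⟩
    · -- positivity, `q = 0`
      have h1 := lemmaB hr (hpoly W0 subset_rfl).1 (hpoly W0 subset_rfl).2
        (q := 0) (by simp) (fun x hx ε _ => by
          rw [Polynomial.map_zero, Polynomial.eval_zero, mul_zero, add_zero,
            eval_PP_ext hr0 hy e t₀ u W0 hW0u]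
          apply Q_ne_zero_ext hr0 hy u W0 hW0u _ (fun p _ => hbase x hx p) (fun a => by simpa using hx)
          rw [hQW0 x W0 subset_rfl]
          exact_mod_cast hQpos.ne') hB hpos hder
      rw [← he, hlin W0 subset_rfl] at h1
      exact h1.1
    · intro p hp hpn
      have hpW0 : p ∈ W0 := by
        rcases Finset.mem_insert.mp hp with rfl | h
        · exact absurd rfl hpn
        · exact h
      have hpu : p ≠ (u, none) := fun h => hpn (by rw [h])
      have hpu1 : p.1 ≠ u := hW0u p hpW0
      set G : Finset (Fin r) → ℝ := fun S => QE y e t₀ (W0.erase p ∪ S.map (cop u)) with hG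
      have hsub : W0.erase p ⊆ W0 := Finset.erase_subset _ _
      have herase : ∀ S : Finset (Fin r), (W0 ∪ S.map (cop u)).erase p =
          W0.erase p ∪ S.map (cop u) := by
        intro S
        ext q
        simp only [Finset.mem_erase, Finset.mem_union, Finset.mem_map, cop_apply]
        constructor
        · rintro ⟨h1, h2 | h2⟩
          · exact Or.inl ⟨h1, h2⟩
          · exact Or.inr h2
        · rintro (⟨h1, h2⟩ | ⟨a, ha, rfl⟩)
          · exact ⟨h1, Or.inl h2⟩
          · exact ⟨fun h => hpu1 (by rw [← h]), Or.inr ⟨a, ha, rfl⟩⟩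
      have h1 := lemmaB hr (hpoly W0 subset_rfl).1 (hpoly W0 subset_rfl).2
        (q := PP G t₀) (natDegree_PP_le _ _) (fun x hx ε hε => by
          rw [eval_PP_ext hr0 hy e t₀ u W0 hW0u, eval_PP_ext hr0 hy e t₀ u (W0.erase p)
            (fun q hq => hW0u q (hsub hq)), ← herase]
          have hmem : p ∈ W0 ∪ Finset.univ.map (cop u) := Finset.mem_union_left _ hpW0
          rw [← Q_update_add (y := ey r y) (s := es) hr0 _ _ hmem]
          apply Q_ne_zero_ext hr0 hy u W0 hW0u
          · intro q hq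
            by_cases hqp : q = p
            · subst hqp
              rw [Function.update_self, Complex.add_im]
              have := hbase x hx q
              have h2 : ((ε : ℂ) * Complex.I).im = ε := by simp
              rw [h2]
              linarith only [hε, this]
            · rw [Function.update_of_ne hqp]
              exact hbase x hx q
          · intro a
            rw [Function.update_of_ne (fun h => hpu1 (by rw [← h]))]
            simpa using hx
          · rw [Q_update_add (y := ey r y) (s := es) hr0 _ _ hpW0, hQW0 x W0 subset_rfl,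
              hQW0 x (W0.erase p) hsub]
            intro h0
            have h2 := congrArg Complex.re h0
            simp at h2
            exact hQpos.ne' h2) hB hpos hder
      rw [← he, hlin W0 subset_rfl, hlin _ hsub] at h1
      obtain ⟨h2, h3⟩ := h1
      rw [eval_PP_self, eval_PP_self] at h3
      have h4 : G Finset.univ ≤ g * F Finset.univ := by
        have h5 := (hD _ (hadm W0 subset_rfl Finset.univ)).2 p
          (Finset.mem_union_left _ hpW0) hpn
        rwa [herase] at h5
      have hFpos : 0 < F Finset.univ := (hD _ (hadm W0 subset_rfl Finset.univ)).1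
      have h6 : (insert (u, none) W0).erase p = insert (u, none) (W0.erase p) := by
        rw [Finset.erase_insert_of_ne (Ne.symm hpu)]
      rw [h6]
      have h7 : QE y e t₀ (insert (u, none) (W0.erase p)) * F Finset.univ ≤
          (g * QE y e t₀ (insert (u, none) W0)) * F Finset.univ := by
        refine h3.trans ?_
        calc QE y e t₀ (insert (u, none) W0) * G Finset.univ
            ≤ QE y e t₀ (insert (u, none) W0) * (g * F Finset.univ) :=
              mul_le_mul_of_nonneg_left h4 h2.le
          _ = _ := by ring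
      exact le_of_mul_le_mul_right h7 hFpos
  · apply hD W
    intro p hp
    rw [hW p hp, Finset.mem_insert]
    constructor
    · rintro (h | h)
      · exfalso
        have h1 := (hW p hp).mpr (by rw [h]; simp)
        apply huW
        have : p = (u, none) := Prod.ext h h1
        rwa [this] at hp
      · exact h
    · exact Or.inr

theorem Q_ext_det (hr : 0 < r) (y : α → α → ℂ) (z : α × Option (Fin r) → ℂ)
    (W : Finset (α × Option (Fin r))) (hW : ∀ p ∈ W, p.2 ≠ none) :
    Q (ey r y) es z W = Matrix.det (Matrix.diagonal (fun i : W => z i) - mat (yo r y) W) := by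
  let c : α × Option (Fin r) → Fin r := fun p => p.2.getD ⟨0, hr⟩
  have hc : ∀ p ∈ W, p.2 = some (c p) := by
    intro p hp
    obtain ⟨a, ha⟩ := Option.ne_none_iff_exists'.mp (hW p hp)
    simp [c, ha]
  rw [Q_some hr c (fun i hi => by rw [← hc i hi]; rfl)]
  congr 1
  ext i j
  simp only [yc, ey, Matrix.of_apply, mat, yo, Matrix.sub_apply, Matrix.diagonal_apply]
  congr 1
  have h1 := hc i i.2
  have h2 := hc j j.2
  by_cases h : c i = c j
  · rw [if_pos h, if_pos (by rw [h1, h2, h])]
  · rw [if_neg h, if_neg]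
    rw [h1, h2]
    intro h3
    exact h (Option.some_injective _ h3)

theorem inv_base (hr : 0 < r) {y : α → α → ℂ} (hy : Herm y) (hz : ZD y) {a b : ℝ} (hb : FB a b y)
    {t₀ : ℝ} (ht : a < t₀) (hab : 0 < t₀ + b) (e : ℝ) :
    Inv (r := r) y e t₀ ((t₀ + b - a) / ((t₀ - a) * (t₀ + b))) ∅ := by
  intro W hW
  have hW' : ∀ p ∈ W, p.2 ≠ none := fun p hp h => by
    have := (hW p hp).mp h
    simp at this
  have hY := mat_herm (herm_yo (r := r) hy) W
  have hev := eig_bounds (FB_yo (r := r) hb) W hY
  have hT : Matrix.diagonal (fun i : W => (ez e t₀ (i : α × Option (Fin r)) : ℂ)) -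
      mat (yo r y) W = (t₀ : ℂ) • (1 : Matrix W W ℂ) - mat (yo r y) W := by
    congr 1
    rw [Matrix.smul_one_eq_diagonal]
    congr 1
    funext i
    rw [ez, if_neg (hW' i i.2)]
  have hQ : Q (ey r y) es (fun p => (ez e t₀ p : ℂ)) W =
      Matrix.det ((t₀ : ℂ) • (1 : Matrix W W ℂ) - mat (yo r y) W) := by
    rw [Q_ext_det hr y _ W hW', hT]
  refine ⟨?_, ?_⟩
  · rw [QE, hQ]
    exact det_sub_pos _ hY (fun k => (hev k).2) ht
  · intro p hp _
    have h1 := Q_update_add (y := ey r y) (s := es) hr (fun p => (ez e t₀ p : ℂ)) 1 hp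
    have h2 : Q (ey r y) es (Function.update (fun p => (ez e t₀ p : ℂ)) p
        ((fun p => (ez e t₀ p : ℂ)) p + 1)) W =
        Matrix.det ((t₀ : ℂ) • (1 : Matrix W W ℂ) - mat (yo r y) W) +
          1 * Matrix.adjugate ((t₀ : ℂ) • (1 : Matrix W W ℂ) - mat (yo r y) W) ⟨p, hp⟩ ⟨p, hp⟩ := by
      rw [Q_ext_det hr y _ W hW', ← det_add_single, ← hT]
      congr 1
      ext i j
      rw [Matrix.updateRow_apply]
      by_cases hi : i = ⟨p, hp⟩
      · subst hi
        rw [if_pos rfl]
        simp only [Matrix.sub_apply, Pi.add_apply, Pi.smul_apply, smul_eq_mul,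
          Matrix.diagonal_apply, Function.update_self, one_mul, Pi.single_apply]
        by_cases hj : (⟨p, hp⟩ : W) = j
        · subst hj
          simp only [↓reduceIte]
          ring
        · simp [hj, Ne.symm hj]
      · rw [if_neg hi]
        simp only [Matrix.sub_apply, Matrix.diagonal_apply]
        have h3 : (i : α × Option (Fin r)) ≠ p := fun h => hi (Subtype.ext h)
        rw [Function.update_of_ne h3]
    rw [h2, hQ] at h1
    have h3 : Q (ey r y) es (fun p => (ez e t₀ p : ℂ)) (W.erase p) =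
        Matrix.adjugate ((t₀ : ℂ) • (1 : Matrix W W ℂ) - mat (yo r y) W) ⟨p, hp⟩ ⟨p, hp⟩ := by
      have h4 := add_left_cancel h1
      simpa only [Complex.coe_smul, one_mul] using h4.symm
    rw [QE, QE, h3, hQ]
    refine inv_entry_le _ hY hev ht hab _ ?_
    simp only [mat, yo, Matrix.of_apply, if_true]
    exact hz _

theorem inv_all (hr : 2 ≤ r) {y : α → α → ℂ} (hy : Herm y) (hz : ZD y) {a b : ℝ} (hb : FB a b y)
    {t₀ : ℝ} (ht : a < t₀) (hab : 0 < t₀ + b) (hg : 0 < t₀ + b - a) {e : ℝ}
    (he : e = t₀ - (r - 1) ^ 2 / (r * (r * ((t₀ + b - a) / ((t₀ - a) * (t₀ + b))))))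
    (D : Finset α) : Inv (r := r) y e t₀ ((t₀ + b - a) / ((t₀ - a) * (t₀ + b))) D := by
  have hg' : 0 < (t₀ + b - a) / ((t₀ - a) * (t₀ + b)) :=
    div_pos hg (mul_pos (by linarith only [ht]) hab)
  induction D using Finset.induction_on with
  | empty => exact inv_base (by omega) hy hz hb ht hab e
  | insert u D hu ih => exact inv_step hr hy hg' he hu ih

/-- vertices as undecided pairs -/
def un (r : ℕ) : α ↪ α × Option (Fin r) := ⟨fun v => (v, none), fun a b h => by simpa using h⟩

omit [DecidableEq α] in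
@[simp] theorem un_apply (v : α) : un r v = (v, none) := rfl

theorem pos_un (hr : 2 ≤ r) {y : α → α → ℂ} (hy : Herm y) (hz : ZD y) {a b : ℝ} (hb : FB a b y)
    {t₀ : ℝ} (ht : a < t₀) (hab : 0 < t₀ + b) (hg : 0 < t₀ + b - a) {e : ℝ}
    (he : e = t₀ - (r - 1) ^ 2 / (r * (r * ((t₀ + b - a) / ((t₀ - a) * (t₀ + b))))))
    (S : Finset α) :
    0 < (Q y (fun _ => (none : Option (Fin r))) (fun _ => (e : ℂ)) S).re := by
  have h1 := (inv_all hr hy hz hb ht hab hg he S (S.map (un r)) (by
    intro p hp
    obtain ⟨v, hv, rfl⟩ := Finset.mem_map.mp hp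
    simp [hv])).1
  rw [QE, Q_map] at h1
  have h2 : Q (fun i j => ey r y (un r i) (un r j)) (fun i => es (un r i))
      (fun i => (ez e t₀ (un r i) : ℂ)) S =
      Q y (fun _ => (none : Option (Fin r))) (fun _ => (e : ℂ)) S := by
    apply Q_congr
    · intro i _ j _; rfl
    · intro i _; rfl
    · intro i _; simp [ez]
  rwa [h2] at h1

end Ext

section Final

variable {α : Type*} [DecidableEq α] {r : ℕ} {y : α → α → ℂ}

/-- the root bound -/
noncomputable def eb (r : ℕ) (a b t₀ : ℝ) : ℝ :=
  t₀ - (1 - 1 / (r : ℝ)) ^ 2 * ((t₀ - a) * (t₀ + b) / (t₀ + b - a))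

theorem pos_above (hr : 2 ≤ r) (hy : Herm y) (hz : ZD y) {a b : ℝ} (hb : FB a b y)
    {t₀ : ℝ} (ht : a < t₀) (hab : 0 < t₀ + b) (hg : 0 < t₀ + b - a) {e : ℝ}
    (he : e = t₀ - (r - 1) ^ 2 / (r * (r * ((t₀ + b - a) / ((t₀ - a) * (t₀ + b))))))
    (W : Finset α) {t : ℝ} (het : e ≤ t) :
    0 < (Q y (fun _ => (none : Option (Fin r))) (fun _ => (t : ℂ)) W).re := by
  have hr0 : 0 < r := by omega
  have h1 := Q_shift (y := y) (s := fun _ => (none : Option (Fin r))) hr0 (fun _ => (e : ℂ))
    ((t - e : ℝ) : ℂ) (Function.Embedding.refl α) W W (by simp)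
  have h2 : Q y (fun _ => (none : Option (Fin r)))
      (fun i => if i ∈ W.map (Function.Embedding.refl α) then (e : ℂ) + ((t - e : ℝ) : ℂ)
        else (e : ℂ)) W = Q y (fun _ => (none : Option (Fin r))) (fun _ => (t : ℂ)) W := by
    apply Q_congr (fun _ _ _ _ => rfl) (fun _ _ => rfl)
    intro i hi
    rw [if_pos (by simpa using hi)]
    push_cast
    ring
  rw [h2] at h1
  rw [h1, Complex.re_sum]
  have hterm : ∀ S : Finset α, (((t - e : ℝ) : ℂ) ^ S.card *
      Q y (fun _ => (none : Option (Fin r))) (fun _ => (e : ℂ))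
        (W \ S.map (Function.Embedding.refl α))).re =
      (t - e) ^ S.card * (Q y (fun _ => (none : Option (Fin r))) (fun _ => (e : ℂ))
        (W \ S.map (Function.Embedding.refl α))).re := by
    intro S
    rw [← Complex.ofReal_pow, Complex.re_ofReal_mul]
  refine Finset.sum_pos' ?_ ⟨∅, Finset.empty_mem_powerset W, ?_⟩
  · intro S _
    rw [hterm]
    exact mul_nonneg (pow_nonneg (sub_nonneg.mpr het) _)
      (pos_un hr hy hz hb ht hab hg he _).le
  · rw [hterm, Finset.card_empty, pow_zero, one_mul]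
    exact pos_un hr hy hz hb ht hab hg he _

variable {W : Finset α} {a b : ℝ}

theorem root_bound (hr : 2 ≤ r) (hy : Herm y) (hz : ZD y) (hb : FB a b y) (ha0 : 0 ≤ a)
    (hb0 : 0 < b) {t₀ : ℝ} (ht : a < t₀) {l : ℝ}
    (hl : l ∈ rts y (fun _ => (none : Option (Fin r))) W) : l ≤ eb r a b t₀ := by
  have hr0 : 0 < r := by omega
  have hab : 0 < t₀ + b := by linarith only [ha0, hb0, ht]
  have hg : 0 < t₀ + b - a := by linarith only [hb0, ht]
  have he : eb r a b t₀ =
      t₀ - (r - 1) ^ 2 / (r * (r * ((t₀ + b - a) / ((t₀ - a) * (t₀ + b))))) := by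
    have h1 : (r : ℝ) ≠ 0 := by (clear * - hr; positivity)
    have h2 : t₀ - a ≠ 0 := by linarith only [ht, ht] |> fun h : 0 < t₀ - a => h.ne'
    have h3 : t₀ + b ≠ 0 := hab.ne'
    have h4 : t₀ + b - a ≠ 0 := hg.ne'
    rw [eb]
    field_simp
  exact (rts_lt hr0 hy (fun t het => pos_above hr hy hz hb ht hab hg he W het) hl).le

end Final

end Vale.Agent.P078.C
end

end

section
section

/-! The root bound for the undecided state, slot version. -/

namespace Vale.Agent.P078.D

open Finset Polynomial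
open Vale.Agent.P078.C (Herm ZD qf FB yc pw gf GoodPoly mat mat_herm eig_bounds det_sub_pos
  inv_entry_le det_add_single PP coeff_PP natDegree_PP_le lin_PP eval_PP_self eval_PP_pos
  derivative_PP eval_map_PP lin lemmaB cop cop_apply sdiff_map_cop Adm ez eb)

section Shift

variable {α : Type*} [DecidableEq α] {Ω : Type*} [Fintype Ω] [DecidableEq Ω]
variable {y : Ω → α → α → ℂ} {s : α → Ω → Ω}

theorem Q_update_add (hr : 0 < Fintype.card Ω) (z : α → ℂ) (δ : ℂ) {w : α} {W : Finset α} (hw : w ∈ W) :
    Q y s (Function.update z w (z w + δ)) W = Q y s z W + δ * Q y s z (W.erase w) := by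
  obtain ⟨W0, hW0, rfl⟩ : ∃ W0, w ∉ W0 ∧ W = insert w W0 :=
    ⟨W.erase w, Finset.notMem_erase w W, (Finset.insert_erase hw).symm⟩
  rw [Finset.erase_insert hW0, Q_insert hr hW0, Q_insert (z := z) hr hW0]
  have h1 : Q y s (Function.update z w (z w + δ)) W0 = Q y s z W0 := by
    apply Q_congr (fun _ _ _ _ _ => rfl) (fun _ _ => rfl)
    intro i hi
    rw [Function.update_of_ne]
    rintro rfl
    exact hW0 hi
  rw [h1, Function.update_self, Function.update_idem]
  ring

theorem Q_shift {β : Type*} [DecidableEq β] (hr : 0 < Fintype.card Ω) (z : α → ℂ) (δ : ℂ) (f : β ↪ α)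
    (T : Finset β) :
    ∀ W : Finset α, T.map f ⊆ W →
    Q y s (fun i => if i ∈ T.map f then z i + δ else z i) W =
      ∑ S ∈ T.powerset, δ ^ S.card * Q y s z (W \ S.map f) := by
  induction T using Finset.induction_on with
  | empty => intro W _; simp
  | insert v T hv ih =>
    intro W hW
    have hv' : f v ∉ T.map f := by simpa using hv
    have hvW : f v ∈ W := hW (by simp)
    have hTW : T.map f ⊆ W := fun i hi => hW (by
      rw [Finset.map_insert]; exact Finset.mem_insert_of_mem hi)
    have h1 : (fun i => if i ∈ (insert v T).map f then z i + δ else z i) =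
        Function.update (fun i => if i ∈ T.map f then z i + δ else z i) (f v)
          ((fun i => if i ∈ T.map f then z i + δ else z i) (f v) + δ) := by
      funext i
      by_cases hi : i = f v
      · subst hi
        rw [Function.update_self]
        simp only [Finset.map_insert, Finset.mem_insert_self, if_true, if_neg hv']
      · rw [Function.update_of_ne hi]
        simp only [Finset.map_insert, Finset.mem_insert, hi, false_or]
    rw [h1, Q_update_add hr _ _ hvW, ih W hTW, ih (W.erase (f v)) (fun i hi => by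
      rw [Finset.mem_erase]
      refine ⟨?_, hTW hi⟩
      rintro rfl
      exact hv' hi), Finset.sum_powerset_insert hv, Finset.mul_sum]
    congr 1
    refine Finset.sum_congr rfl fun S hS => ?_
    have hvS : v ∉ S := fun h => hv (Finset.mem_powerset.mp hS h)
    rw [Finset.card_insert_of_notMem hvS, pow_succ, Finset.map_insert]
    have h2 : W.erase (f v) \ S.map f = W \ insert (f v) (S.map f) := by
      ext i
      simp only [Finset.mem_sdiff, Finset.mem_erase, Finset.mem_insert]
      (clear * -; tauto)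
    rw [h2]
    ring

theorem Q_norm_ge_prod (hr : 0 < Fintype.card Ω) (hy : ∀ k, Herm (y k)) (z : α → ℂ) (C : Finset α) :
    ∀ W : Finset α, C ⊆ W → (∀ i ∈ W, 0 < (z i).im) →
      (∏ i ∈ C, (z i).im) * ‖Q y s z (W \ C)‖ ≤ ‖Q y s z W‖ := by
  induction C using Finset.induction_on with
  | empty => intro W _ _; simp
  | insert v C hv ih =>
    intro W hW hz
    have hvW : v ∈ W := hW (Finset.mem_insert_self v C)
    have hCW : C ⊆ W := fun i hi => hW (Finset.mem_insert_of_mem hi)
    have h1 := ih (W.erase v) (fun i hi => by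
      rw [Finset.mem_erase]
      exact ⟨fun h => hv (h ▸ hi), hCW hi⟩) (fun i hi => hz i (Finset.mem_of_mem_erase hi))
    have h2 := Q_norm_ge (s := s) hr hy hz hvW
    have h3 : W.erase v \ C = W \ insert v C := by
      ext i
      simp only [Finset.mem_sdiff, Finset.mem_erase, Finset.mem_insert]
      (clear * -; tauto)
    rw [h3] at h1
    rw [Finset.prod_insert hv]
    have hvz : 0 ≤ (z v).im := (hz v hvW).le
    calc (z v).im * (∏ i ∈ C, (z i).im) * ‖Q y s z (W \ insert v C)‖
        = (z v).im * ((∏ i ∈ C, (z i).im) * ‖Q y s z (W \ insert v C)‖) := by ring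
      _ ≤ (z v).im * ‖Q y s z (W.erase v)‖ := mul_le_mul_of_nonneg_left h1 hvz
      _ ≤ _ := h2

theorem Q_norm_ge_limit (hr : 0 < Fintype.card Ω) (hy : ∀ k, Herm (y k)) (z : α → ℂ) (C : Finset α)
    (W : Finset α) (hC : C ⊆ W) (hz : ∀ i ∈ W, 0 ≤ (z i).im) :
      (∏ i ∈ C, (z i).im) * ‖Q y s z (W \ C)‖ ≤ ‖Q y s z W‖ := by
  have hcont : ∀ V : Finset α, Continuous fun δ : ℝ => Q y s (fun i => z i + δ * Complex.I) V := by
    intro V
    exact continuous_Q (fun _ _ _ _ _ => continuous_const) (fun i _ => by (clear * -; fun_prop))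
  have hf : Continuous fun δ : ℝ => (∏ i ∈ C, ((z i).im + δ)) *
      ‖Q y s (fun i => z i + δ * Complex.I) (W \ C)‖ := by
    refine Continuous.mul (continuous_finsetProd _ fun i _ => by fun_prop) (hcont _).norm
  have hg : Continuous fun δ : ℝ => ‖Q y s (fun i => z i + δ * Complex.I) W‖ := (hcont _).norm
  have key : ∀ δ : ℝ, δ ∈ Set.Ioi (0 : ℝ) → (∏ i ∈ C, ((z i).im + δ)) *
      ‖Q y s (fun i => z i + δ * Complex.I) (W \ C)‖ ≤
      ‖Q y s (fun i => z i + δ * Complex.I) W‖ := by
    intro δ hδ
    have hδ' : 0 < δ := hδ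
    have him : ∀ i, (z i + δ * Complex.I).im = (z i).im + δ := fun i => by simp
    have := Q_norm_ge_prod (s := s) hr hy (fun i => z i + δ * Complex.I) C W hC (fun i hi => by
      rw [him]; have := hz i hi; linarith only [hδ', this])
    simpa only [him] using this
  have h1 := hf.tendsto 0
  have h2 := hg.tendsto 0
  have h3 := le_of_tendsto_of_tendsto (h1.mono_left nhdsWithin_le_nhds)
    (h2.mono_left nhdsWithin_le_nhds)
    (Filter.eventually_of_mem (self_mem_nhdsWithin (a := (0 : ℝ)) (s := Set.Ioi 0)) key)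
  simpa only [ge_iff_le, add_zero, Complex.ofReal_zero, zero_mul] using h3

end Shift

section Pinch

variable {α : Type*} [DecidableEq α] {r : ℕ}

/-- the kernel of an optional slot -/
def yO (y : Fin r → α → α → ℂ) (o : Option (Fin r)) : α → α → ℂ :=
  o.elim (fun _ _ => 0) y

omit [DecidableEq α] in
theorem herm_yO {y : Fin r → α → α → ℂ} (hy : ∀ k, Herm (y k)) (o : Option (Fin r)) :
    Herm (yO y o) := by
  cases o with
  | none => intro i j; simp [yO]
  | some k => exact hy k

omit [DecidableEq α] in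
theorem FB_yO {y : Fin r → α → α → ℂ} {a b : ℝ} (ha : 0 ≤ a) (hb0 : 0 ≤ b)
    (hb : ∀ k, FB a b (y k)) (o : Option (Fin r)) : FB a b (yO y o) := by
  cases o with
  | none =>
    intro W v
    have h0 : 0 ≤ ∑ i ∈ W, ‖v i‖ ^ 2 := Finset.sum_nonneg fun _ _ => by (clear * -; positivity)
    have h1 : qf (yO y none) W v = 0 := by simp [qf, yO]
    rw [h1]
    constructor
    · nlinarith only [hb0, h0]
    · (clear * - ha; positivity)
  | some k => exact hb k

/-- the kernel on pairs (vertex, colour) -/
def yo (y : Fin r → α → α → ℂ) : α × Option (Fin r) → α × Option (Fin r) → ℂ :=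
  fun p q => if p.2 = q.2 then yO y p.2 p.1 q.1 else 0

omit [DecidableEq α] in
theorem herm_yo {y : Fin r → α → α → ℂ} (hy : ∀ k, Herm (y k)) : Herm (yo y) := by
  intro i j
  simp only [yo]
  by_cases h : i.2 = j.2
  · rw [if_pos h, if_pos h.symm, h]; exact herm_yO hy _ _ _
  · rw [if_neg h, if_neg (Ne.symm h)]; simp

theorem qf_yo (y : Fin r → α → α → ℂ) (W : Finset (α × Option (Fin r))) (v : α × Option (Fin r) → ℂ) :
    qf (yo y) W v = ∑ o : Option (Fin r), qf (yO y o) (W.image Prod.fst)
      (fun x => if (x, o) ∈ W then v (x, o) else 0) := by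
  classical
  set V := W.image Prod.fst with hV
  have hsub : W ⊆ V ×ˢ (Finset.univ : Finset (Option (Fin r))) := by
    intro p hp
    rw [Finset.mem_product]
    exact ⟨Finset.mem_image_of_mem _ hp, Finset.mem_univ _⟩
  have hsum : ∀ F : α × Option (Fin r) → ℂ, ∑ p ∈ W, F p =
      ∑ x ∈ V, ∑ o : Option (Fin r), if (x, o) ∈ W then F (x, o) else 0 := by
    intro F
    rw [← Finset.sum_product', ← Finset.sum_subset hsub]
    · refine Finset.sum_congr rfl fun p hp => ?_
      rw [if_pos hp]
    · intro p _ hp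
      rw [if_neg hp]
  simp only [qf]
  rw [← Complex.re_sum]
  congr 1
  rw [hsum]
  simp_rw [hsum]
  rw [Finset.sum_comm]
  refine Finset.sum_congr rfl fun o _ => Finset.sum_congr rfl fun x _ => ?_
  by_cases h1 : (x, o) ∈ W
  · rw [if_pos h1]
    refine Finset.sum_congr rfl fun x' _ => ?_
    rw [Finset.sum_eq_single o]
    · simp only [yo, if_true, if_pos h1]
      split_ifs <;> simp
    · intro o' _ ho'
      simp only [RCLike.star_def, yo, Ne.symm ho', ↓reduceIte, mul_zero, zero_mul, ite_self]
    · simp only [mem_univ, not_true_eq_false, RCLike.star_def, ite_eq_right_iff, mul_eq_zero, map_eq_zero, IsEmpty.forall_iff]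
  · rw [if_neg h1]
    simp [if_neg h1]

theorem norm_yo (W : Finset (α × Option (Fin r))) (v : α × Option (Fin r) → ℂ) :
    ∑ p ∈ W, ‖v p‖ ^ 2 = ∑ o : Option (Fin r), ∑ x ∈ W.image Prod.fst,
      ‖(if (x, o) ∈ W then v (x, o) else 0 : ℂ)‖ ^ 2 := by
  classical
  set V := W.image Prod.fst with hV
  have hsub : W ⊆ V ×ˢ (Finset.univ : Finset (Option (Fin r))) := by
    intro p hp
    rw [Finset.mem_product]
    exact ⟨Finset.mem_image_of_mem _ hp, Finset.mem_univ _⟩
  rw [Finset.sum_comm, ← Finset.sum_product', ← Finset.sum_subset hsub]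
  · refine Finset.sum_congr rfl fun p hp => ?_
    rw [if_pos hp]
  · intro p _ hp
    rw [if_neg hp]
    simp

theorem FB_yo {y : Fin r → α → α → ℂ} {a b : ℝ} (ha : 0 ≤ a) (hb0 : 0 ≤ b)
    (hb : ∀ k, FB a b (y k)) : FB a b (yo y) := by
  intro W v
  rw [qf_yo, norm_yo, Finset.mul_sum, Finset.mul_sum]
  exact ⟨Finset.sum_le_sum fun o _ => (FB_yO ha hb0 hb o _ _).1,
    Finset.sum_le_sum fun o _ => (FB_yO ha hb0 hb o _ _).2⟩

end Pinch

section Ext

theorem cf {r : ℕ} (hr : 0 < r) : 0 < Fintype.card (Fin r) := by simpa only [Fintype.card_fin] using hr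

variable {α : Type*} [DecidableEq α] {r : ℕ}

/-- extended kernel: vertex `(v, none)` is undecided, `(v, some a)` has colour `a`. -/
def ey (y : Fin r → α → α → ℂ) : Fin r → α × Option (Fin r) → α × Option (Fin r) → ℂ :=
  fun b p q => y b p.1 q.1

/-- extended state -/
def es : α × Option (Fin r) → Fin r → Fin r := fun p b => p.2.getD b

/-- real value of the extended model -/
noncomputable def QE (y : Fin r → α → α → ℂ) (e t₀ : ℝ) (W : Finset (α × Option (Fin r))) : ℝ :=
  (Q (ey y) es (fun p => (ez e t₀ p : ℂ)) W).re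

omit [DecidableEq α] in
theorem herm_ey {y : Fin r → α → α → ℂ} (hy : ∀ k, Herm (y k)) : ∀ k, Herm (ey y k) := fun k i j => hy k i.1 j.1

theorem QE_coe {y : Fin r → α → α → ℂ} (hy : ∀ k, Herm (y k)) (e t₀ : ℝ) (W : Finset (α × Option (Fin r))) :
    ((QE y e t₀ W : ℝ) : ℂ) = Q (ey y) es (fun p => (ez e t₀ p : ℂ)) W := by
  apply Complex.ext
  · simp [QE]
  · rw [Q_real_im (herm_ey hy)]
    simp

/-- the invariant -/
def Inv (y : Fin r → α → α → ℂ) (e t₀ g : ℝ) (D : Finset α) : Prop :=
  ∀ W : Finset (α × Option (Fin r)), Adm D W → 0 < QE y e t₀ W ∧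
    ∀ p ∈ W, p.2 ≠ none → QE y e t₀ (W.erase p) ≤ g * QE y e t₀ W

/-- one undecided vertex as average over its copies -/
theorem QE_insert_none (hr : 0 < r) {y : Fin r → α → α → ℂ} (hy : ∀ k, Herm (y k)) (e t₀ : ℝ) (u : α)
    (W : Finset (α × Option (Fin r))) (hW : ∀ p ∈ W, p.1 ≠ u) :
    QE y e t₀ (insert (u, none) W) = QE y e t₀ W * (e - t₀) +
      (r : ℝ)⁻¹ * ∑ a : Fin r, QE y e t₀ (W ∪ ({a} : Finset (Fin r)).map (cop u)) := by
  have hu : ((u, none) : α × Option (Fin r)) ∉ W := fun h => hW _ h rfl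
  have key : ((QE y e t₀ (insert (u, none) W) : ℝ) : ℂ) =
      ((QE y e t₀ W * (e - t₀) +
      (r : ℝ)⁻¹ * ∑ a : Fin r, QE y e t₀ (W ∪ ({a} : Finset (Fin r)).map (cop u)) : ℝ) : ℂ) := by
    push_cast
    rw [QE_coe hy, QE_coe hy]
    simp_rw [QE_coe hy]
    -- move the point of `(u, none)` to `t₀`
    let z₁ : α × Option (Fin r) → ℂ := Function.update (fun p => (ez e t₀ p : ℂ)) (u, none) t₀
    have h1 : Q (ey y) es (fun p => (ez e t₀ p : ℂ)) (insert (u, none) W) =
        Q (ey y) es z₁ (insert (u, none) W) +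
          (e - t₀) * Q (ey y) es (fun p => (ez e t₀ p : ℂ)) W := by
      have h2 := Q_update_add (y := ey y) (s := es) (cf hr) z₁ (e - t₀ : ℂ)
        (Finset.mem_insert_self (u, none) W)
      have h3 : Function.update z₁ (u, none) (z₁ (u, none) + (e - t₀ : ℂ)) =
          fun p => (ez e t₀ p : ℂ) := by
        funext p
        by_cases hp : p = (u, none)
        · subst hp
          simp [z₁, ez]
        · simp [z₁, hp]
      rw [h3, Finset.erase_insert hu] at h2
      rw [h2]
      congr 2
      apply Q_congr (fun _ _ _ _ _ => rfl) (fun _ _ => rfl)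
      intro i hi
      have : i ≠ (u, none) := fun h => hu (h ▸ hi)
      simp [z₁, this]
    rw [h1, Q_avg (y := ey y) (s := es) (z := z₁) (cf hr) (Finset.mem_insert_self (u, none) W)]
    suffices hsum : ∀ a : Fin r, Q (ey y) (Function.update es (u, none)
        (fun _ => es (u, none) a)) z₁
        (insert (u, none) W) = Q (ey y) es (fun p => (ez e t₀ p : ℂ))
          (W ∪ ({a} : Finset (Fin r)).map (cop u)) by
      simp_rw [hsum]
      rw [Fintype.card_fin]
      ring
    intro a
    -- relabelling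
    let f : (α × Option (Fin r)) ↪ (α × Option (Fin r)) :=
      (Equiv.swap ((u, none) : α × Option (Fin r)) (u, some a)).toEmbedding
    have hWf : (W ∪ ({a} : Finset (Fin r)).map (cop u)) = (insert (u, none) W).map f := by
      ext p
      simp only [Finset.mem_union, Finset.mem_map, Finset.mem_singleton, cop_apply, exists_eq_left,
        Finset.mem_insert, f, Equiv.coe_toEmbedding]
      constructor
      · rintro (h | h)
        · refine ⟨p, Or.inr h, Equiv.swap_apply_of_ne_of_ne ?_ ?_⟩
          · rintro rfl; exact hu h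
          · rintro rfl; exact hW _ h rfl
        · exact ⟨(u, none), Or.inl rfl, by rw [Equiv.swap_apply_left, h]⟩
      · rintro ⟨q, (rfl | h), rfl⟩
        · right; rw [Equiv.swap_apply_left]
        · left
          rwa [Equiv.swap_apply_of_ne_of_ne]
          · rintro rfl; exact hu h
          · rintro rfl; exact hW _ h rfl
    rw [hWf, Q_map]
    apply Q_congr
    · intro k i hi j hj
      have hf : ∀ i, (f i).1 = i.1 := by
        intro i
        simp only [f, Equiv.coe_toEmbedding]
        rw [Equiv.swap_apply_def]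
        split_ifs with h1 h2
        · rw [h1]
        · rw [h2]
        · rfl
      simp [ey, hf]
    · intro i hi
      rcases Finset.mem_insert.mp hi with rfl | hi
      · rw [Function.update_self]
        funext b
        simp [f, es]
      · have h1 : i ≠ (u, none) := fun h => hu (h ▸ hi)
        have h2 : i ≠ (u, some a) := fun h => hW i hi (by rw [h])
        rw [Function.update_of_ne h1]
        simp only [f, Equiv.coe_toEmbedding]
        rw [Equiv.swap_apply_of_ne_of_ne h1 h2]
    · intro i hi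
      rcases Finset.mem_insert.mp hi with rfl | hi
      · simp [z₁, f, ez]
      · have h1 : i ≠ (u, none) := fun h => hu (h ▸ hi)
        have h2 : i ≠ (u, some a) := fun h => hW i hi (by rw [h])
        simp only [f, Equiv.coe_toEmbedding]
        rw [Equiv.swap_apply_of_ne_of_ne h1 h2]
        simp [z₁, h1]
  exact_mod_cast key

theorem eval_PP_ext (hr : 0 < r) {y : Fin r → α → α → ℂ} (hy : ∀ k, Herm (y k)) (e t₀ : ℝ) (u : α)
    (W : Finset (α × Option (Fin r))) (hW : ∀ p ∈ W, p.1 ≠ u) (x : ℂ) :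
    ((PP (fun S => QE y e t₀ (W ∪ S.map (cop u))) t₀).map (algebraMap ℝ ℂ)).eval x =
      Q (ey y) es (fun p => if p.1 = u then x else (ez e t₀ p : ℂ))
        (W ∪ Finset.univ.map (cop u)) := by
  rw [eval_map_PP]
  have h1 := Q_shift (y := ey y) (s := es) (cf hr) (fun p => (ez e t₀ p : ℂ)) (x - t₀) (cop u)
    Finset.univ (W ∪ Finset.univ.map (cop u)) Finset.subset_union_right
  have h2 : Q (ey y) es (fun p => if p.1 = u then x else (ez e t₀ p : ℂ))
        (W ∪ Finset.univ.map (cop u)) = Q (ey y) es (fun p =>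
          if p ∈ (Finset.univ : Finset (Fin r)).map (cop u) then (ez e t₀ p : ℂ) + (x - t₀)
          else (ez e t₀ p : ℂ)) (W ∪ Finset.univ.map (cop u)) := by
    apply Q_congr (fun _ _ _ _ _ => rfl) (fun _ _ => rfl)
    intro p hp
    rcases Finset.mem_union.mp hp with h | h
    · have h3 : p ∉ (Finset.univ : Finset (Fin r)).map (cop u) := by
        intro h4
        obtain ⟨a, _, rfl⟩ := Finset.mem_map.mp h4
        exact hW _ h rfl
      rw [if_neg (hW p h), if_neg h3]
    · obtain ⟨a, _, rfl⟩ := Finset.mem_map.mp h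
      rw [if_pos (by simp), if_pos h]
      simp [ez]
  rw [h2, h1, Finset.powerset_univ]
  refine Finset.sum_congr rfl fun S _ => ?_
  rw [sdiff_map_cop u W hW, QE_coe hy]
  ring

theorem Q_ne_zero_ext (hr : 0 < r) {y : Fin r → α → α → ℂ} (hy : ∀ k, Herm (y k)) (u : α)
    (W : Finset (α × Option (Fin r))) (hW : ∀ p ∈ W, p.1 ≠ u) (z : α × Option (Fin r) → ℂ)
    (hz1 : ∀ p ∈ W, 0 ≤ (z p).im) (hz2 : ∀ a, 0 < (z (u, some a)).im)
    (h : Q (ey y) es z W ≠ 0) :
    Q (ey y) es z (W ∪ Finset.univ.map (cop u)) ≠ 0 := by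
  have h1 := Q_norm_ge_limit (s := es) (cf hr) (herm_ey hy) z (Finset.univ.map (cop u))
    (W ∪ Finset.univ.map (cop u)) Finset.subset_union_right (fun p hp => by
      rcases Finset.mem_union.mp hp with h | h
      · exact hz1 p h
      · obtain ⟨a, _, rfl⟩ := Finset.mem_map.mp h
        exact (hz2 a).le)
  rw [sdiff_map_cop u W hW, Finset.compl_univ, Finset.map_empty, Finset.union_empty,
    Finset.prod_map] at h1
  intro h2
  rw [h2, norm_zero] at h1
  have h3 : 0 < ∏ a : Fin r, (z (cop u a)).im := Finset.prod_pos fun a _ => hz2 a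
  have h4 : 0 < ‖Q (ey y) es z W‖ := norm_pos_iff.mpr h
  have := mul_pos h3 h4
  linarith only [h1, this]

theorem inv_step (hr : 2 ≤ r) {y : Fin r → α → α → ℂ} (hy : ∀ k, Herm (y k)) {e t₀ g : ℝ} (hg : 0 < g)
    (he : e = t₀ - (r - 1) ^ 2 / (r * (r * g))) {D : Finset α} {u : α} (hu : u ∉ D)
    (hD : Inv (r := r) y e t₀ g D) : Inv (r := r) y e t₀ g (insert u D) := by
  have hr0 : 0 < r := by omega
  intro W hW
  by_cases huW : ((u, none) : α × Option (Fin r)) ∈ W
  · obtain ⟨W0, hW0, rfl⟩ : ∃ W0, (u, none) ∉ W0 ∧ W = insert (u, none) W0 :=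
      ⟨W.erase (u, none), Finset.notMem_erase _ W, (Finset.insert_erase huW).symm⟩
    have hW0u : ∀ p ∈ W0, p.1 ≠ u := by
      intro p hp hpu
      have h1 := (hW p (Finset.mem_insert_of_mem hp)).mpr (by rw [hpu]; simp)
      apply hW0
      have : p = (u, none) := Prod.ext hpu h1
      rwa [this] at hp
    have hadm : ∀ V ⊆ W0, ∀ S : Finset (Fin r), Adm D (V ∪ S.map (cop u)) := by
      intro V hV S p hp
      rcases Finset.mem_union.mp hp with h | h
      · have h1 := hW p (Finset.mem_insert_of_mem (hV h))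
        rw [h1, Finset.mem_insert]
        constructor
        · rintro (h2 | h2)
          · exact absurd h2 (hW0u p (hV h))
          · exact h2
        · exact Or.inr
      · obtain ⟨a, _, rfl⟩ := Finset.mem_map.mp h
        simp [hu]
    have hB : 0 < (r : ℝ) * g := by positivity
    -- the polynomial attached to a set
    have hpoly : ∀ V ⊆ W0, (PP (fun S => QE y e t₀ (V ∪ S.map (cop u))) t₀).natDegree = r ∧
        0 < (PP (fun S => QE y e t₀ (V ∪ S.map (cop u))) t₀).coeff r := by
      intro V hV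
      have h1 : 0 < (PP (fun S => QE y e t₀ (V ∪ S.map (cop u))) t₀).coeff r := by
        rw [coeff_PP]
        exact (hD _ (hadm V hV ∅)).1
      refine ⟨le_antisymm (natDegree_PP_le _ _) ?_, h1⟩
      exact Polynomial.le_natDegree_of_ne_zero h1.ne'
    have hlin : ∀ V ⊆ W0, lin r (PP (fun S => QE y e t₀ (V ∪ S.map (cop u))) t₀) e =
        QE y e t₀ (insert (u, none) V) := by
      intro V hV
      rw [lin_PP (by (clear * - hr; omega)), QE_insert_none hr0 hy e t₀ u V (fun p hp => hW0u p (hV hp))]
      simp only [map_empty, union_empty, map_singleton, cop_apply, union_singleton]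
    set F : Finset (Fin r) → ℝ := fun S => QE y e t₀ (W0 ∪ S.map (cop u)) with hF
    have hpos : ∀ x, t₀ ≤ x → 0 < (PP F t₀).eval x := fun x hx =>
      eval_PP_pos F t₀ x (fun S => (hD _ (hadm W0 subset_rfl S)).1) hx
    have hder : (derivative (PP F t₀)).eval t₀ ≤ (r * g) * (PP F t₀).eval t₀ := by
      rw [derivative_PP, eval_PP_self]
      calc ∑ a : Fin r, F {a}ᶜ ≤ ∑ _a : Fin r, g * F Finset.univ := by
            refine Finset.sum_le_sum fun a _ => ?_
            have h1 := (hD _ (hadm W0 subset_rfl Finset.univ)).2 (u, some a)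
              (Finset.mem_union_right _ (Finset.mem_map.mpr ⟨a, Finset.mem_univ _, rfl⟩))
              (by simp)
            have h2 : (W0 ∪ Finset.univ.map (cop u)).erase (u, some a) =
                W0 ∪ ({a}ᶜ : Finset (Fin r)).map (cop u) := by
              rw [← sdiff_map_cop u W0 hW0u, Finset.map_singleton, Finset.sdiff_singleton_eq_erase]
              rfl
            rw [h2] at h1
            exact h1
        _ = (r * g) * F Finset.univ := by
            rw [Finset.sum_const, Finset.card_univ, Fintype.card_fin, nsmul_eq_mul]; ring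
    have hQpos : 0 < QE y e t₀ W0 := by
      have := (hD _ (hadm W0 subset_rfl ∅)).1
      simpa using this
    have hbase : ∀ x : ℂ, 0 < x.im → ∀ p : α × Option (Fin r), 0 ≤
        ((fun p : α × Option (Fin r) => if p.1 = u then x else (ez e t₀ p : ℂ)) p).im := by
      intro x hx p
      simp only
      split_ifs
      · exact hx.le
      · simp
    have hQW0 : ∀ (x : ℂ) (V : Finset (α × Option (Fin r))), V ⊆ W0 →
        Q (ey y) es (fun p => if p.1 = u then x else (ez e t₀ p : ℂ)) V = (QE y e t₀ V : ℂ) := by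
      intro x V hV
      rw [QE_coe hy]
      apply Q_congr (fun _ _ _ _ _ => rfl) (fun _ _ => rfl)
      intro p hp
      rw [if_neg (hW0u p (hV hp))]
    refine ⟨?_, ?_⟩
    · -- positivity, `q = 0`
      have h1 := lemmaB hr (hpoly W0 subset_rfl).1 (hpoly W0 subset_rfl).2
        (q := 0) (by simp) (fun x hx ε _ => by
          rw [Polynomial.map_zero, Polynomial.eval_zero, mul_zero, add_zero,
            eval_PP_ext hr0 hy e t₀ u W0 hW0u]
          apply Q_ne_zero_ext hr0 hy u W0 hW0u _ (fun p _ => hbase x hx p) (fun a => by simpa using hx)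
          rw [hQW0 x W0 subset_rfl]
          exact_mod_cast hQpos.ne') hB hpos hder
      rw [← he, hlin W0 subset_rfl] at h1
      exact h1.1
    · intro p hp hpn
      have hpW0 : p ∈ W0 := by
        rcases Finset.mem_insert.mp hp with rfl | h
        · exact absurd rfl hpn
        · exact h
      have hpu : p ≠ (u, none) := fun h => hpn (by rw [h])
      have hpu1 : p.1 ≠ u := hW0u p hpW0
      set G : Finset (Fin r) → ℝ := fun S => QE y e t₀ (W0.erase p ∪ S.map (cop u)) with hG
      have hsub : W0.erase p ⊆ W0 := Finset.erase_subset _ _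
      have herase : ∀ S : Finset (Fin r), (W0 ∪ S.map (cop u)).erase p =
          W0.erase p ∪ S.map (cop u) := by
        intro S
        ext q
        simp only [mem_erase, mem_union, mem_map, cop_apply]
        constructor
        · rintro ⟨h1, h2 | h2⟩
          · exact Or.inl ⟨h1, h2⟩
          · exact Or.inr h2
        · rintro (⟨h1, h2⟩ | ⟨a, ha, rfl⟩)
          · exact ⟨h1, Or.inl h2⟩
          · exact ⟨fun h => hpu1 (by rw [← h]), Or.inr ⟨a, ha, rfl⟩⟩
      have h1 := lemmaB hr (hpoly W0 subset_rfl).1 (hpoly W0 subset_rfl).2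
        (q := PP G t₀) (natDegree_PP_le _ _) (fun x hx ε hε => by
          rw [eval_PP_ext hr0 hy e t₀ u W0 hW0u, eval_PP_ext hr0 hy e t₀ u (W0.erase p)
            (fun q hq => hW0u q (hsub hq)), ← herase]
          have hmem : p ∈ W0 ∪ Finset.univ.map (cop u) := Finset.mem_union_left _ hpW0
          rw [← Q_update_add (y := ey y) (s := es) (cf hr0) _ _ hmem]
          apply Q_ne_zero_ext hr0 hy u W0 hW0u
          · intro q hq
            by_cases hqp : q = p
            · subst hqp
              rw [Function.update_self, Complex.add_im]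
              have := hbase x hx q
              have h2 : ((ε : ℂ) * Complex.I).im = ε := by simp
              rw [h2]
              linarith only [hε, this]
            · rw [Function.update_of_ne hqp]
              exact hbase x hx q
          · intro a
            rw [Function.update_of_ne (fun h => hpu1 (by rw [← h]))]
            simpa using hx
          · rw [Q_update_add (y := ey y) (s := es) (cf hr0) _ _ hpW0, hQW0 x W0 subset_rfl,
              hQW0 x (W0.erase p) hsub]
            intro h0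
            have h2 := congrArg Complex.re h0
            simp at h2
            exact hQpos.ne' h2) hB hpos hder
      rw [← he, hlin W0 subset_rfl, hlin _ hsub] at h1
      obtain ⟨h2, h3⟩ := h1
      rw [eval_PP_self, eval_PP_self] at h3
      have h4 : G Finset.univ ≤ g * F Finset.univ := by
        have h5 := (hD _ (hadm W0 subset_rfl Finset.univ)).2 p
          (Finset.mem_union_left _ hpW0) hpn
        rwa [herase] at h5
      have hFpos : 0 < F Finset.univ := (hD _ (hadm W0 subset_rfl Finset.univ)).1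
      have h6 : (insert (u, none) W0).erase p = insert (u, none) (W0.erase p) := by
        rw [Finset.erase_insert_of_ne (Ne.symm hpu)]
      rw [h6]
      have h7 : QE y e t₀ (insert (u, none) (W0.erase p)) * F Finset.univ ≤
          (g * QE y e t₀ (insert (u, none) W0)) * F Finset.univ := by
        refine h3.trans ?_
        calc QE y e t₀ (insert (u, none) W0) * G Finset.univ
            ≤ QE y e t₀ (insert (u, none) W0) * (g * F Finset.univ) :=
              mul_le_mul_of_nonneg_left h4 h2.le
          _ = _ := by ring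
      exact le_of_mul_le_mul_right h7 hFpos
  · apply hD W
    intro p hp
    rw [hW p hp, Finset.mem_insert]
    constructor
    · rintro (h | h)
      · exfalso
        have h1 := (hW p hp).mpr (by rw [h]; simp)
        apply huW
        have : p = (u, none) := Prod.ext h h1
        rwa [this] at hp
      · exact h
    · exact Or.inr

theorem Q_ext_det (hr : 0 < r) (y : Fin r → α → α → ℂ) (z : α × Option (Fin r) → ℂ)
    (W : Finset (α × Option (Fin r))) (hW : ∀ p ∈ W, p.2 ≠ none) :
    Q (ey y) es z W = Matrix.det (Matrix.diagonal (fun i : W => z i) - mat (yo y) W) := by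
  let c : α × Option (Fin r) → Fin r := fun p => p.2.getD ⟨0, hr⟩
  have hc : ∀ p ∈ W, p.2 = some (c p) := by
    intro p hp
    obtain ⟨a, ha⟩ := Option.ne_none_iff_exists'.mp (hW p hp)
    simp [c, ha]
  rw [Q_const (cf hr) c (fun i hi => by funext b; simp only [es]; rw [hc i hi]; rfl)]
  congr 1
  ext i j
  simp only [Matrix.of_apply, Matrix.sub_apply, Matrix.diagonal_apply, mat, yo, kc, ey]
  congr 1
  have h1 := hc i i.2
  have h2 := hc j j.2
  by_cases h : c i = c j
  · rw [if_pos h, if_pos (by rw [h1, h2, h]), h1]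
    rfl
  · rw [if_neg h, if_neg]
    rw [h1, h2]
    intro h3
    exact h (Option.some_injective _ h3)

theorem inv_base (hr : 0 < r) {y : Fin r → α → α → ℂ} (hy : ∀ k, Herm (y k)) (hz : ∀ k, ZD (y k)) {a b : ℝ} (hb : ∀ k, FB a b (y k))
    (ha0 : 0 ≤ a) (hb0 : 0 ≤ b) {t₀ : ℝ} (ht : a < t₀) (hab : 0 < t₀ + b) (e : ℝ) :
    Inv (r := r) y e t₀ ((t₀ + b - a) / ((t₀ - a) * (t₀ + b))) ∅ := by
  intro W hW
  have hW' : ∀ p ∈ W, p.2 ≠ none := fun p hp h => by
    have := (hW p hp).mp h
    simp at this
  have hY := mat_herm (herm_yo (r := r) hy) W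
  have hev := eig_bounds (FB_yo (r := r) ha0 hb0 hb) W hY
  have hT : Matrix.diagonal (fun i : W => (ez e t₀ (i : α × Option (Fin r)) : ℂ)) -
      mat (yo y) W = (t₀ : ℂ) • (1 : Matrix W W ℂ) - mat (yo y) W := by
    congr 1
    rw [Matrix.smul_one_eq_diagonal]
    congr 1
    funext i
    rw [ez, if_neg (hW' i i.2)]
  have hQ : Q (ey y) es (fun p => (ez e t₀ p : ℂ)) W =
      Matrix.det ((t₀ : ℂ) • (1 : Matrix W W ℂ) - mat (yo y) W) := by
    rw [Q_ext_det hr y _ W hW', hT]
  refine ⟨?_, ?_⟩
  · rw [QE, hQ]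
    exact det_sub_pos _ hY (fun k => (hev k).2) ht
  · intro p hp _
    have h1 := Q_update_add (y := ey y) (s := es) (cf hr) (fun p => (ez e t₀ p : ℂ)) 1 hp
    have h2 : Q (ey y) es (Function.update (fun p => (ez e t₀ p : ℂ)) p
        ((fun p => (ez e t₀ p : ℂ)) p + 1)) W =
        Matrix.det ((t₀ : ℂ) • (1 : Matrix W W ℂ) - mat (yo y) W) +
          1 * Matrix.adjugate ((t₀ : ℂ) • (1 : Matrix W W ℂ) - mat (yo y) W) ⟨p, hp⟩ ⟨p, hp⟩ := by
      rw [Q_ext_det hr y _ W hW', ← det_add_single, ← hT]
      congr 1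
      ext i j
      rw [Matrix.updateRow_apply]
      by_cases hi : i = ⟨p, hp⟩
      · subst hi
        rw [if_pos rfl]
        simp only [Matrix.sub_apply, Pi.add_apply, Pi.smul_apply, smul_eq_mul,
          Matrix.diagonal_apply, Function.update_self, one_mul, Pi.single_apply]
        by_cases hj : (⟨p, hp⟩ : W) = j
        · subst hj
          simp only [↓reduceIte]
          ring
        · simp [hj, Ne.symm hj]
      · rw [if_neg hi]
        simp only [Matrix.sub_apply, Matrix.diagonal_apply]
        have h3 : (i : α × Option (Fin r)) ≠ p := fun h => hi (Subtype.ext h)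
        rw [Function.update_of_ne h3]
    rw [h2, hQ] at h1
    have h3 : Q (ey y) es (fun p => (ez e t₀ p : ℂ)) (W.erase p) =
        Matrix.adjugate ((t₀ : ℂ) • (1 : Matrix W W ℂ) - mat (yo y) W) ⟨p, hp⟩ ⟨p, hp⟩ := by
      have h4 := add_left_cancel h1
      simpa only [Complex.coe_smul, one_mul] using h4.symm
    rw [QE, QE, h3, hQ]
    refine inv_entry_le _ hY hev ht hab _ ?_
    simp only [mat, Matrix.of_apply, yo, if_true]
    cases hp2 : p.2 with
    | none => simp [yO]
    | some k => exact hz k _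

theorem inv_all (hr : 2 ≤ r) {y : Fin r → α → α → ℂ} (hy : ∀ k, Herm (y k)) (hz : ∀ k, ZD (y k)) {a b : ℝ} (hb : ∀ k, FB a b (y k))
    (ha0 : 0 ≤ a) (hb0 : 0 ≤ b) {t₀ : ℝ} (ht : a < t₀) (hab : 0 < t₀ + b) (hg : 0 < t₀ + b - a) {e : ℝ}
    (he : e = t₀ - (r - 1) ^ 2 / (r * (r * ((t₀ + b - a) / ((t₀ - a) * (t₀ + b))))))
    (D : Finset α) : Inv (r := r) y e t₀ ((t₀ + b - a) / ((t₀ - a) * (t₀ + b))) D := by
  have hg' : 0 < (t₀ + b - a) / ((t₀ - a) * (t₀ + b)) :=
    div_pos hg (mul_pos (by linarith only [ht]) hab)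
  induction D using Finset.induction_on with
  | empty => exact inv_base (by omega) hy hz hb ha0 hb0 ht hab e
  | insert u D hu ih => exact inv_step hr hy hg' he hu ih

/-- vertices as undecided pairs -/
def un (r : ℕ) : α ↪ α × Option (Fin r) := ⟨fun v => (v, none), fun a b h => by simpa using h⟩

omit [DecidableEq α] in
@[simp] theorem un_apply (v : α) : un r v = (v, none) := rfl

theorem pos_un (hr : 2 ≤ r) {y : Fin r → α → α → ℂ} (hy : ∀ k, Herm (y k)) (hz : ∀ k, ZD (y k)) {a b : ℝ} (hb : ∀ k, FB a b (y k))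
    (ha0 : 0 ≤ a) (hb0 : 0 ≤ b) {t₀ : ℝ} (ht : a < t₀) (hab : 0 < t₀ + b) (hg : 0 < t₀ + b - a) {e : ℝ}
    (he : e = t₀ - (r - 1) ^ 2 / (r * (r * ((t₀ + b - a) / ((t₀ - a) * (t₀ + b))))))
    (S : Finset α) :
    0 < (Q y (fun _ => (id : Fin r → Fin r)) (fun _ => (e : ℂ)) S).re := by
  have h1 := (inv_all hr hy hz hb ha0 hb0 ht hab hg he S (S.map (un r)) (by
    intro p hp
    obtain ⟨v, hv, rfl⟩ := Finset.mem_map.mp hp
    simp [hv])).1
  rw [QE, Q_map] at h1
  have h2 : Q (fun k i j => ey y k (un r i) (un r j)) (fun i => es (un r i))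
      (fun i => (ez e t₀ (un r i) : ℂ)) S =
      Q y (fun _ => (id : Fin r → Fin r)) (fun _ => (e : ℂ)) S := by
    apply Q_congr
    · intro k i _ j _; rfl
    · intro i _; rfl
    · intro i _; simp [ez]
  rwa [h2] at h1

end Ext

section Final

variable {α : Type*} [DecidableEq α] {r : ℕ} {y : Fin r → α → α → ℂ}

theorem pos_above (hr : 2 ≤ r) (hy : ∀ k, Herm (y k)) (hz : ∀ k, ZD (y k)) {a b : ℝ} (hb : ∀ k, FB a b (y k))
    (ha0 : 0 ≤ a) (hb0 : 0 ≤ b) {t₀ : ℝ} (ht : a < t₀) (hab : 0 < t₀ + b) (hg : 0 < t₀ + b - a) {e : ℝ}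
    (he : e = t₀ - (r - 1) ^ 2 / (r * (r * ((t₀ + b - a) / ((t₀ - a) * (t₀ + b))))))
    (W : Finset α) {t : ℝ} (het : e ≤ t) :
    0 < (Q y (fun _ => (id : Fin r → Fin r)) (fun _ => (t : ℂ)) W).re := by
  have hr0 : 0 < r := by omega
  have h1 := Q_shift (y := y) (s := fun _ => (id : Fin r → Fin r)) (cf hr0) (fun _ => (e : ℂ))
    ((t - e : ℝ) : ℂ) (Function.Embedding.refl α) W W (by simp)
  have h2 : Q y (fun _ => (id : Fin r → Fin r))
      (fun i => if i ∈ W.map (Function.Embedding.refl α) then (e : ℂ) + ((t - e : ℝ) : ℂ)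
        else (e : ℂ)) W = Q y (fun _ => (id : Fin r → Fin r)) (fun _ => (t : ℂ)) W := by
    apply Q_congr (fun _ _ _ _ _ => rfl) (fun _ _ => rfl)
    intro i hi
    rw [if_pos (by simpa using hi)]
    push_cast
    ring
  rw [h2] at h1
  rw [h1, Complex.re_sum]
  have hterm : ∀ S : Finset α, (((t - e : ℝ) : ℂ) ^ S.card *
      Q y (fun _ => (id : Fin r → Fin r)) (fun _ => (e : ℂ))
        (W \ S.map (Function.Embedding.refl α))).re =
      (t - e) ^ S.card * (Q y (fun _ => (id : Fin r → Fin r)) (fun _ => (e : ℂ))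
        (W \ S.map (Function.Embedding.refl α))).re := by
    intro S
    rw [← Complex.ofReal_pow, Complex.re_ofReal_mul]
  refine Finset.sum_pos' ?_ ⟨∅, Finset.empty_mem_powerset W, ?_⟩
  · intro S _
    rw [hterm]
    exact mul_nonneg (pow_nonneg (sub_nonneg.mpr het) _)
      (pos_un hr hy hz hb ha0 hb0 ht hab hg he _).le
  · rw [hterm, Finset.card_empty, pow_zero, one_mul]
    exact pos_un hr hy hz hb ha0 hb0 ht hab hg he _

variable {W : Finset α} {a b : ℝ}

theorem root_bound (hr : 2 ≤ r) (hy : ∀ k, Herm (y k)) (hz : ∀ k, ZD (y k)) (hb : ∀ k, FB a b (y k)) (ha0 : 0 ≤ a)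
    (hb0 : 0 < b) {t₀ : ℝ} (ht : a < t₀) {l : ℝ}
    (hl : l ∈ rts y (fun _ => (id : Fin r → Fin r)) W) : l ≤ eb r a b t₀ := by
  have hr0 : 0 < r := by omega
  have hab : 0 < t₀ + b := by linarith only [ha0, hb0, ht]
  have hg : 0 < t₀ + b - a := by linarith only [hb0, ht]
  have he : eb r a b t₀ =
      t₀ - (r - 1) ^ 2 / (r * (r * ((t₀ + b - a) / ((t₀ - a) * (t₀ + b))))) := by
    have h1 : (r : ℝ) ≠ 0 := by positivity
    have h2 : t₀ - a ≠ 0 := by linarith only [ht, ht] |> fun h : 0 < t₀ - a => h.ne'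
    have h3 : t₀ + b ≠ 0 := hab.ne'
    have h4 : t₀ + b - a ≠ 0 := hg.ne'
    rw [eb]
    field_simp
  exact (rts_lt (cf hr0) hy (fun t het => pos_above hr hy hz hb ha0 hb0.le ht hab hg he W het) hl).le

end Final

/-! ### relabelling the slots -/

section Relabel

variable {α : Type*} [DecidableEq α] {Ω Ω' : Type*} [Fintype Ω] [DecidableEq Ω] [Fintype Ω']
  [DecidableEq Ω'] {W : Finset α}

theorem Q_relabel (e : Ω ≃ Ω') (y : Ω → α → α → ℂ) (s : α → Ω → Ω) (z : α → ℂ) :
    Q y s z W = Q (fun k => y (e.symm k)) (fun i k => e (s i (e.symm k))) z W := by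
  unfold Q
  rw [Fintype.card_congr e]
  congr 1
  refine Fintype.sum_equiv (Equiv.arrowCongr (Equiv.refl _) e) _ _ fun c => ?_
  congr 1
  ext i j
  simp only [Matrix.of_apply, Equiv.arrowCongr_apply, Equiv.refl_symm, Equiv.coe_refl, CompTriple.comp_eq, Function.comp_apply, Equiv.symm_apply_apply, EmbeddingLike.apply_eq_iff_eq]

theorem rts_relabel (e : Ω ≃ Ω') (y : Ω → α → α → ℂ) (s : α → Ω → Ω) :
    rts y s W = rts (fun k => y (e.symm k)) (fun i k => e (s i (e.symm k))) W := by
  have : chi y s W = chi (fun k => y (e.symm k)) (fun i k => e (s i (e.symm k))) W := by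
    unfold chi
    exact Finset.sum_congr rfl fun S _ => by rw [Q_relabel e]
  rw [rts, rts, this]

/-- the root bound for an arbitrary slot type -/
theorem root_bound_slot (hr : 2 ≤ Fintype.card Ω) {y : Ω → α → α → ℂ} (hy : ∀ k, Herm (y k))
    (hz : ∀ k, ZD (y k)) {a b : ℝ} (hb : ∀ k, FB a b (y k)) (ha0 : 0 ≤ a) (hb0 : 0 < b) {t₀ : ℝ}
    (ht : a < t₀) {l : ℝ} (hl : l ∈ rts y (fun _ => (id : Ω → Ω)) W) :
    l ≤ eb (Fintype.card Ω) a b t₀ := by
  rw [rts_relabel (Fintype.equivFin Ω)] at hl
  have h : (fun (_ : α) (k : Fin (Fintype.card Ω)) =>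
      Fintype.equivFin Ω (id ((Fintype.equivFin Ω).symm k))) = fun _ => id := by
    funext _ k
    simp
  rw [h] at hl
  exact root_bound hr (fun k => hy _) (fun k => hz _) (fun k => hb _) ha0 hb0 ht hl

end Relabel

end Vale.Agent.P078.D
end

section

/-! The slot model of a kernel with random signs, in terms of partial colourings. -/

namespace Vale.Agent.P078.D

open Finset Polynomial
open Vale.Agent.P078.C (Herm ZD qf FB yc pw gf GoodPoly)

variable {α β : Type*} [DecidableEq α] [DecidableEq β] {r : ℕ}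
variable {y y' : α → α → ℂ} {s s' : α → Option (Fin r)} {z : α → ℂ} {W W' T T' : Finset α} {w : α}
variable {p : ℝ[X]} {a b : ℝ}

theorem card_slot (r : ℕ) : Fintype.card (Fin r × Bool) = 2 * r := by
  rw [Fintype.card_prod, Fintype.card_fin, Fintype.card_bool, mul_comm]

theorem card_slot_pos (hr : 0 < r) : 0 < Fintype.card (Fin r × Bool) := by
  rw [card_slot]; omega

theorem herm_tw (hy : Herm y) (k : Fin r × Bool) : Herm (tw r y k) := by
  intro i j
  unfold tw
  rw [hy i j]
  cases k.2 <;> simp only [Bool.false_eq_true, ↓reduceIte, RCLike.star_def, neg_mul, star_neg, star_mul', star_ofNat]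

theorem zd_tw (hy : ZD y) (k : Fin r × Bool) : ZD (tw r y k) := by
  intro i
  unfold tw
  rw [hy i, mul_zero]

theorem qf_smul (c : ℝ) (y : α → α → ℂ) (W : Finset α) (v : α → ℂ) :
    qf (fun i j => (c : ℂ) * y i j) W v = c * qf y W v := by
  unfold qf
  rw [← Complex.re_ofReal_mul]
  congr 1
  rw [Finset.mul_sum]
  refine Finset.sum_congr rfl fun i _ => ?_
  rw [Finset.mul_sum]
  refine Finset.sum_congr rfl fun j _ => ?_
  ring

theorem fb_tw (hb : FB a b y) (k : Fin r × Bool) :
    FB (2 * max a b) (2 * max a b) (tw r y k) := by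
  intro W v
  obtain ⟨h1, h2⟩ := hb W v
  have h0 : 0 ≤ ∑ i ∈ W, ‖v i‖ ^ 2 := Finset.sum_nonneg fun i _ => by positivity
  have ha : a * ∑ i ∈ W, ‖v i‖ ^ 2 ≤ max a b * ∑ i ∈ W, ‖v i‖ ^ 2 :=
    mul_le_mul_of_nonneg_right (le_max_left _ _) h0
  have hb' : b * ∑ i ∈ W, ‖v i‖ ^ 2 ≤ max a b * ∑ i ∈ W, ‖v i‖ ^ 2 :=
    mul_le_mul_of_nonneg_right (le_max_right _ _) h0
  have e : qf (tw r y k) W v = (if k.2 then 2 else -2) * qf y W v := by
    have h3 : tw r y k = fun i j => (((if k.2 then 2 else -2 : ℝ)) : ℂ) * y i j := by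
      funext i j
      unfold tw
      cases k.2 <;> simp only [Bool.false_eq_true, ↓reduceIte, neg_mul, Complex.ofReal_neg, Complex.ofReal_ofNat]
    rw [h3, qf_smul]
  rw [e]
  cases k.2
  · simp only [Bool.false_eq_true, if_false]
    constructor <;> linarith only [h1, hb', h2, ha]
  · simp only [if_true]
    constructor <;> linarith only [h1, hb', h2, ha]

theorem sl_none : sl (fun _ : α => (none : Option (Fin r))) = fun _ => id := by
  funext i c
  rfl

theorem Q_sl_avg (hr : 0 < r) (hw : w ∈ W) (hs : s w = none) :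
    Q (tw r y) (sl s) z W =
      (r : ℂ)⁻¹ * ∑ a, Q (tw r y) (sl (Function.update s w (some a))) z W := by
  have h0 := card_slot_pos hr
  have hr' : (r : ℂ) ≠ 0 := by exact_mod_cast hr.ne'
  rw [Q_avg h0 hw]
  have h1 : ∀ a : Fin r, Q (tw r y) (sl (Function.update s w (some a))) z W =
      ((2 * r : ℕ) : ℂ)⁻¹ * (r * ∑ β : Bool, Q (tw r y) (Function.update (sl s) w fun _ => (a, β)) z W) := by
    intro a
    rw [Q_avg h0 hw, card_slot, Fintype.sum_prod_type]
    congr 1
    have h2 : ∀ (k : Fin r) (β : Bool), Q (tw r y)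
        (Function.update (sl (Function.update s w (some a))) w
          fun _ => sl (Function.update s w (some a)) w (k, β)) z W =
        Q (tw r y) (Function.update (sl s) w fun _ => (a, β)) z W := by
      intro k β
      refine Q_congr (fun _ _ _ _ _ => rfl) (fun i _ => ?_) (fun _ _ => rfl)
      by_cases hi : i = w
      · subst hi
        rw [Function.update_self, Function.update_self]
        funext c
        simp [sl]
      · rw [Function.update_of_ne hi, Function.update_of_ne hi]
        funext c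
        simp [sl, Function.update_of_ne hi]
    simp only [h2, Finset.sum_const, Finset.card_univ, Fintype.card_fin, nsmul_eq_mul]
  simp only [h1]
  rw [card_slot, Fintype.sum_prod_type, ← Finset.mul_sum]
  have h3 : ∀ (a : Fin r) (β : Bool), Q (tw r y)
      (Function.update (sl s) w fun _ => sl s w (a, β)) z W =
      Q (tw r y) (Function.update (sl s) w fun _ => (a, β)) z W := by
    intro a β
    have : sl s w (a, β) = (a, β) := by simp [sl, hs]
    rw [this]
  simp only [h3]
  rw [← Finset.mul_sum]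
  field_simp

/-! ### the functional in terms of partial colourings -/

/-- the functional -/
noncomputable def sp (p : ℝ[X]) (y : α → α → ℂ) (s : α → Option (Fin r)) (W : Finset α) : ℝ :=
  SP p (tw r y) (sl s) W

/-- cluster coefficients of the functional -/
noncomputable def kp (p : ℝ[X]) (y : α → α → ℂ) (s : α → Option (Fin r)) (T : Finset α) : ℝ :=
  ∑ W ∈ T.powerset, (-1) ^ (T.card - W.card) * sp p y s W

theorem kp_eq : kp p y s T = kap p (tw r y) (sl s) T := rfl

theorem sl_congr (hs : s w = s' w) : sl s w = sl s' w := by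
  unfold sl
  rw [hs]

theorem sp_congr (hy : ∀ i ∈ W, ∀ j ∈ W, y i j = y' i j) (hs : ∀ i ∈ W, s i = s' i) :
    sp p y s W = sp p y' s' W := by
  unfold sp
  refine SP_congr (fun k i hi j hj => ?_) fun i hi => sl_congr (hs i hi)
  unfold tw
  rw [hy i hi j hj]

theorem kp_congr (hy : ∀ i ∈ T, ∀ j ∈ T, y i j = y' i j) (hs : ∀ i ∈ T, s i = s' i) :
    kp p y s T = kp p y' s' T := by
  rw [kp_eq, kp_eq]
  refine kap_congr (fun k i hi j hj => ?_) fun i hi => sl_congr (hs i hi)
  unfold tw
  rw [hy i hi j hj]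

theorem sp_map (f : β ↪ α) (W : Finset β) :
    sp p y s (W.map f) = sp p (fun i j => y (f i) (f j)) (fun i => s (f i)) W := by
  unfold sp
  rw [SP_map]
  rfl

theorem sp_gauge (u : α → ℂ) (hu : ∀ i ∈ W, ‖u i‖ = 1)
    (h : ∀ i ∈ W, ∀ j ∈ W, y' i j = star (u i) * y i j * u j) : sp p y' s W = sp p y s W := by
  unfold sp
  refine SP_gauge u hu fun k i hi j hj => ?_
  unfold tw
  rw [h i hi j hj]
  ring

theorem sp_union (hr : 0 < r) (hy : Herm y) (hd : Disjoint W W')
    (h : ∀ i ∈ W, ∀ j ∈ W', y i j = 0 ∧ y j i = 0) :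
    sp p y s (W ∪ W') = sp p y s W + sp p y s W' := by
  unfold sp
  refine SP_union (card_slot_pos hr) (herm_tw hy) hd fun k i hi j hj => ?_
  unfold tw
  rw [(h i hi j hj).1, (h i hi j hj).2]
  simp

theorem continuous_sp (hr : 0 < r) {Z : Type*} [TopologicalSpace Z] {y : Z → α → α → ℂ}
    (hh : ∀ t, Herm (y t)) (hy : ∀ i ∈ W, ∀ j ∈ W, Continuous fun t => y t i j) :
    Continuous fun t => sp p (y t) s W := by
  unfold sp
  refine continuous_SP (card_slot_pos hr) (fun t k => herm_tw (hh t) k) fun k i hi j hj => ?_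
  unfold tw
  exact continuous_const.mul (hy i hi j hj)

theorem sum_kp (W : Finset α) : ∑ T ∈ W.powerset, kp p y s T = sp p y s W := by
  simp only [kp_eq]
  exact sum_kap W

theorem kp_disconn (hr : 0 < r) (hy : Herm y) (hT : T.Nonempty) (hT' : T'.Nonempty)
    (hd : Disjoint T T') (h : ∀ i ∈ T, ∀ j ∈ T', y i j = 0) : kp p y s (T ∪ T') = 0 := by
  rw [kp_eq]
  refine kap_disconn (card_slot_pos hr) (herm_tw hy) hT hT' hd fun k i hi j hj => ?_
  unfold tw
  rw [h i hi j hj, mul_zero]

theorem kp_large (hr : 0 < r) (hy : Herm y) (h : p.natDegree < T.card) (h1 : 1 < T.card) :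
    kp p y s T = 0 := by
  rw [kp_eq]
  exact kap_large (card_slot_pos hr) (herm_tw hy) h h1

end Vale.Agent.P078.D
end

section

/-! T2a: arguments, counting functions (pure analysis). -/

namespace Vale.Agent.P078.C

open Finset Polynomial

/-- sum of the arguments -/
noncomputable def Th (L : Multiset ℝ) (z : ℂ) : ℝ := (L.map fun l : ℝ => Complex.arg (z - l)).sum

/-- the product -/
noncomputable def pr (L : Multiset ℝ) (z : ℂ) : ℂ := (L.map fun l : ℝ => z - (l : ℂ)).prod

/-- counting function -/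
noncomputable def cnt (L : Multiset ℝ) (t : ℝ) : ℕ := Multiset.card (L.filter fun l => t < l)

theorem al_im_sub_real (z : ℂ) (l : ℝ) : (z - (l : ℂ)).im = z.im := by simp

theorem al_sub_real_ne {z : ℂ} (hz : 0 < z.im) (l : ℝ) : z - (l : ℂ) ≠ 0 := by
  intro h
  have := al_im_sub_real z l
  rw [h] at this
  simp at this
  linarith only [hz, this]

theorem al_pr_ne {z : ℂ} (hz : 0 < z.im) (L : Multiset ℝ) : pr L z ≠ 0 := by
  unfold pr
  intro h
  rw [Multiset.prod_eq_zero_iff] at h
  obtain ⟨l, -, hl⟩ := Multiset.mem_map.1 h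
  exact al_sub_real_ne hz l hl

theorem al_Th_cons (l : ℝ) (L : Multiset ℝ) (z : ℂ) :
    Th (l ::ₘ L) z = Complex.arg (z - l) + Th L z := by
  simp [Th]

theorem al_pr_cons (l : ℝ) (L : Multiset ℝ) (z : ℂ) :
    pr (l ::ₘ L) z = (z - l) * pr L z := by
  simp [pr]

theorem al_Th_angle {z : ℂ} (hz : 0 < z.im) (L : Multiset ℝ) :
    ((Th L z : ℝ) : Real.Angle) = (Complex.arg (pr L z) : Real.Angle) := by
  induction L using Multiset.induction with
  | empty => simp [Th, pr]
  | cons l L ih =>
    rw [al_Th_cons, al_pr_cons, Complex.arg_mul_coe_angle (al_sub_real_ne hz l) (al_pr_ne hz L),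
      Real.Angle.coe_add, ih]

theorem al_arg_mem_of_im_pos {z : ℂ} (hz : 0 < z.im) : 0 < Complex.arg z ∧ Complex.arg z < Real.pi := by
  constructor
  · rcases lt_or_eq_of_le (Complex.arg_nonneg_iff.2 hz.le) with h | h
    · exact h
    · have := Complex.arg_eq_zero_iff.1 h.symm
      linarith only [hz, this.2]
  · rcases lt_or_eq_of_le (Complex.arg_le_pi z) with h | h
    · exact h
    · have := Complex.arg_eq_pi_iff.1 h
      linarith only [hz, this.2]

theorem al_D_int {L K : Multiset ℝ} {z : ℂ} (hz : 0 < z.im) :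
    ∃ n : ℤ, Th L z - Th K z - Complex.arg (pr L z / pr K z) = n * (2 * Real.pi) := by
  have h : ((Th L z - Th K z - Complex.arg (pr L z / pr K z) : ℝ) : Real.Angle) = 0 := by
    rw [Real.Angle.coe_sub, Real.Angle.coe_sub, al_Th_angle hz, al_Th_angle hz,
      Complex.arg_div_coe_angle (al_pr_ne hz L) (al_pr_ne hz K), sub_self]
  rw [Real.Angle.coe_eq_zero_iff] at h
  obtain ⟨n, hn⟩ := h
  exact ⟨n, by rw [← hn]; simp⟩

theorem al_continuousAt_Th {z : ℂ} (hz : 0 < z.im) (L : Multiset ℝ) : ContinuousAt (Th L) z := by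
  induction L using Multiset.induction with
  | empty =>
    have : Th 0 = fun _ => (0 : ℝ) := by funext w; simp [Th]
    rw [this]; exact continuousAt_const
  | cons l L ih =>
    have : Th (l ::ₘ L) = fun w => Complex.arg (w - l) + Th L w := by funext w; exact al_Th_cons l L w
    rw [this]
    refine ContinuousAt.add ?_ ih
    have h1 : ContinuousAt (fun w : ℂ => w - (l : ℂ)) z := by (clear * -; fun_prop)
    refine ContinuousAt.comp (g := Complex.arg) (Complex.continuousAt_arg ?_) h1
    rw [Complex.mem_slitPlane_iff]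
    right; rw [al_im_sub_real]; exact hz.ne'

theorem al_continuous_pr (L : Multiset ℝ) : Continuous (pr L) := by
  induction L using Multiset.induction with
  | empty =>
    have : pr 0 = fun _ => (1 : ℂ) := by funext w; simp [pr]
    rw [this]; exact continuous_const
  | cons l L ih =>
    have : pr (l ::ₘ L) = fun w => (w - l) * pr L w := by funext w; exact al_pr_cons l L w
    rw [this]
    (clear * - ih; fun_prop)

theorem al_const_of_int {g : ℝ → ℝ} {a b : ℝ} (hab : a ≤ b) (hg : ContinuousOn g (Set.Icc a b))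
    (hi : ∀ x ∈ Set.Icc a b, ∃ n : ℤ, g x = n) : g a = g b := by
  obtain ⟨na, hna⟩ := hi a (Set.left_mem_Icc.2 hab)
  obtain ⟨nb, hnb⟩ := hi b (Set.right_mem_Icc.2 hab)
  rw [hna, hnb]
  rcases lt_trichotomy na nb with h | h | h
  · exfalso
    have h1 : (na : ℝ) + 1 ≤ nb := by exact_mod_cast h
    have : (na : ℝ) + 1 / 2 ∈ Set.Icc (g a) (g b) := by
      rw [hna, hnb]; constructor <;> linarith only [h1]
    obtain ⟨x, hx, hgx⟩ := intermediate_value_Icc hab hg this
    obtain ⟨m, hm⟩ := hi x hx
    rw [hm] at hgx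
    have h2 : (2 * m : ℝ) = 2 * na + 1 := by linarith only [hgx]
    have h3 : 2 * m = 2 * na + 1 := by exact_mod_cast h2
    omega
  · rw [h]
  · exfalso
    have h1 : (nb : ℝ) + 1 ≤ na := by exact_mod_cast h
    have : (nb : ℝ) + 1 / 2 ∈ Set.Icc (g b) (g a) := by
      rw [hna, hnb]; constructor <;> linarith only [h1]
    obtain ⟨x, hx, hgx⟩ := intermediate_value_Icc' hab hg this
    obtain ⟨m, hm⟩ := hi x hx
    rw [hm] at hgx
    have h2 : (2 * m : ℝ) = 2 * nb + 1 := by linarith only [hgx]
    have h3 : 2 * m = 2 * nb + 1 := by exact_mod_cast h2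
    omega

theorem al_tendsto_arg_atTop (z : ℂ) :
    Filter.Tendsto (fun s : ℝ => Complex.arg (z + s * Complex.I)) Filter.atTop
      (nhds (Real.pi / 2)) := by
  have h1 : Filter.Tendsto (fun s : ℝ => ((s⁻¹ : ℝ) : ℂ) * z + Complex.I) Filter.atTop
      (nhds Complex.I) := by
    have h0 : Filter.Tendsto (fun s : ℝ => ((s⁻¹ : ℝ) : ℂ)) Filter.atTop (nhds ((0 : ℝ) : ℂ)) :=
      (Complex.continuous_ofReal.tendsto 0).comp tendsto_inv_atTop_zero
    have := (h0.mul_const z).add_const Complex.I
    simpa only [Complex.ofReal_inv, Complex.ofReal_zero, zero_mul, zero_add] using this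
  have h2 : Filter.Tendsto Complex.arg (nhds Complex.I) (nhds (Real.pi / 2)) := by
    have : ContinuousAt Complex.arg Complex.I :=
      Complex.continuousAt_arg (by rw [Complex.mem_slitPlane_iff]; right; simp)
    rw [← Complex.arg_I]
    exact this
  refine (h2.comp h1).congr' ?_
  filter_upwards [Filter.eventually_gt_atTop (0 : ℝ)] with s hs
  simp only [Function.comp]
  have h3 : z + s * Complex.I = (s : ℂ) * (((s⁻¹ : ℝ) : ℂ) * z + Complex.I) := by
    have : (s : ℂ) ≠ 0 := by exact_mod_cast hs.ne'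
    push_cast
    field_simp
  rw [h3, Complex.arg_real_mul _ hs]

theorem al_tendsto_Th_atTop (L : Multiset ℝ) (z : ℂ) :
    Filter.Tendsto (fun s : ℝ => Th L (z + s * Complex.I)) Filter.atTop
      (nhds (Multiset.card L * (Real.pi / 2))) := by
  induction L using Multiset.induction with
  | empty => simp only [Th, Multiset.map_zero, Multiset.sum_zero, Multiset.card_zero, CharP.cast_eq_zero, zero_mul, tendsto_const_nhds_iff]
  | cons l L ih =>
    have h1 := (al_tendsto_arg_atTop (z - l)).add ih
    have h2 : ((Multiset.card (l ::ₘ L) : ℕ) : ℝ) * (Real.pi / 2) =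
        Real.pi / 2 + Multiset.card L * (Real.pi / 2) := by
      rw [Multiset.card_cons]; push_cast; ring
    rw [h2]
    refine h1.congr fun s => ?_
    rw [al_Th_cons]
    congr 2
    ring

theorem Th_sub {L K : Multiset ℝ} (hc : Multiset.card L = Multiset.card K + 1)
    (h : ∀ z : ℂ, 0 < z.im → 0 < (pr L z / pr K z).im) {z : ℂ} (hz : 0 < z.im) :
    Th L z - Th K z = Complex.arg (pr L z / pr K z) := by
  set f : ℝ → ℝ := fun s => (Th L (z + s * Complex.I) - Th K (z + s * Complex.I) -
    Complex.arg (pr L (z + s * Complex.I) / pr K (z + s * Complex.I))) / (2 * Real.pi) with hf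
  have hpi := Real.pi_pos
  have him : ∀ s : ℝ, 0 ≤ s → 0 < (z + s * Complex.I).im := by
    intro s hs
    simp only [Complex.add_im, Complex.mul_im, Complex.ofReal_re, Complex.I_im, mul_one, Complex.ofReal_im, Complex.I_re, mul_zero, add_zero]; linarith only [hz, hs]
  have hint : ∀ s : ℝ, 0 ≤ s → ∃ n : ℤ, f s = n := by
    intro s hs
    obtain ⟨n, hn⟩ := al_D_int (L := L) (K := K) (him s hs)
    refine ⟨n, ?_⟩
    simp only [hf, hn]
    (clear * -; field_simp)
  have hcont : ∀ s : ℝ, 0 ≤ s → ContinuousAt f s := by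
    intro s hs
    have h0 : ContinuousAt (fun s : ℝ => z + (s : ℂ) * Complex.I) s := by (clear * -; fun_prop)
    have h1 : ContinuousAt (fun s : ℝ => Th L (z + s * Complex.I)) s :=
      ContinuousAt.comp (g := Th L) (al_continuousAt_Th (him s hs) L) h0
    have h2 : ContinuousAt (fun s : ℝ => Th K (z + s * Complex.I)) s :=
      ContinuousAt.comp (g := Th K) (al_continuousAt_Th (him s hs) K) h0
    have h3 : ContinuousAt (fun s : ℝ => pr L (z + s * Complex.I) / pr K (z + s * Complex.I)) s := by
      refine ContinuousAt.div ?_ ?_ (al_pr_ne (him s hs) K)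
      · exact ContinuousAt.comp (g := pr L) (al_continuous_pr L).continuousAt h0
      · exact ContinuousAt.comp (g := pr K) (al_continuous_pr K).continuousAt h0
    have h4 : ContinuousAt (fun s : ℝ =>
        Complex.arg (pr L (z + s * Complex.I) / pr K (z + s * Complex.I))) s := by
      refine ContinuousAt.comp (g := Complex.arg) (Complex.continuousAt_arg ?_) h3
      rw [Complex.mem_slitPlane_iff]
      right; exact (h _ (him s hs)).ne'
    exact ((h1.sub h2).sub h4).div_const _
  -- for large `s` the difference is small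
  have hlim : Filter.Tendsto (fun s : ℝ => Th L (z + s * Complex.I) - Th K (z + s * Complex.I))
      Filter.atTop (nhds (Real.pi / 2)) := by
    have := (al_tendsto_Th_atTop L z).sub (al_tendsto_Th_atTop K z)
    rw [hc] at this
    have h2 : ((Multiset.card K + 1 : ℕ) : ℝ) * (Real.pi / 2) - Multiset.card K * (Real.pi / 2) =
        Real.pi / 2 := by push_cast; ring
    rwa [h2] at this
  have hev := hlim.eventually (Ioo_mem_nhds (show (0 : ℝ) < Real.pi / 2 by linarith only [hpi])
    (show Real.pi / 2 < Real.pi by linarith only [hpi]))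
  obtain ⟨s, hs, hs0⟩ := (hev.and (Filter.eventually_ge_atTop (0 : ℝ))).exists
  have hfs : f s = 0 := by
    obtain ⟨n, hn⟩ := hint s hs0
    have ha := al_arg_mem_of_im_pos (h _ (him s hs0))
    have h1 : f s < 1 := by
      simp only [hf]
      rw [div_lt_one (by (clear * -; positivity))]
      linarith only [ha.2, ha.1, hs.2]
    have h2 : -1 < f s := by
      simp only [hf]
      rw [lt_div_iff₀ (by (clear * -; positivity))]
      linarith only [hs.1, hs.2, ha.1, ha.2]
    rw [hn] at h1 h2 ⊢
    have h3 : n < 1 := by exact_mod_cast h1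
    have h4 : -1 < n := by exact_mod_cast h2
    have : n = 0 := by (clear * - h3 h4; omega)
    rw [this]; simp
  have h00 : f 0 = f s := al_const_of_int hs0
    (fun x hx => (hcont x hx.1).continuousWithinAt) (fun x hx => hint x hx.1)
  rw [hfs] at h00
  simp only [hf] at h00
  rw [div_eq_zero_iff] at h00
  rcases h00 with h00 | h00
  · simp only [Complex.ofReal_zero, zero_mul, add_zero] at h00
    linarith only [h00]
  · exfalso; linarith only [hs, h00]

theorem al_cnt_cons (l : ℝ) (L : Multiset ℝ) (t : ℝ) :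
    cnt (l ::ₘ L) t = (if t < l then 1 else 0) + cnt L t := by
  unfold cnt
  by_cases h : t < l
  · rw [Multiset.filter_cons_of_pos _ h, Multiset.card_cons, if_pos h, add_comm]
  · rw [Multiset.filter_cons_of_neg _ h, if_neg h, zero_add]

theorem al_tendsto_Th_real {L : Multiset ℝ} {t : ℝ} (hL : t ∉ L) :
    Filter.Tendsto (fun s : ℝ => Th L ((t : ℂ) + s * Complex.I)) (nhdsWithin 0 (Set.Ioi 0))
      (nhds (cnt L t * Real.pi)) := by
  induction L using Multiset.induction with
  | empty => simp only [Th, Multiset.map_zero, Multiset.sum_zero, cnt, Multiset.filter_zero, Multiset.card_zero, CharP.cast_eq_zero, zero_mul, tendsto_const_nhds_iff]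
  | cons l L ih =>
    rw [Multiset.mem_cons, not_or] at hL
    obtain ⟨h1, h2⟩ := hL
    have key : Filter.Tendsto (fun s : ℝ => Complex.arg ((t : ℂ) + s * Complex.I - l))
        (nhdsWithin 0 (Set.Ioi 0)) (nhds ((if t < l then (1 : ℝ) else 0) * Real.pi)) := by
      have h0 : Filter.Tendsto (fun s : ℝ => (t : ℂ) + s * Complex.I - l)
          (nhdsWithin 0 (Set.Ioi 0)) (nhds (((t - l : ℝ)) : ℂ)) := by
        have hc : Continuous (fun s : ℝ => (t : ℂ) + s * Complex.I - l) := by (clear * -; fun_prop)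
        have := hc.tendsto 0
        refine Filter.Tendsto.mono_left ?_ nhdsWithin_le_nhds
        simpa only [Complex.ofReal_sub, Complex.ofReal_zero, zero_mul, add_zero] using this
      by_cases hlt : t < l
      · rw [if_pos hlt, one_mul]
        have h3 : Filter.Tendsto (fun s : ℝ => (t : ℂ) + s * Complex.I - l)
            (nhdsWithin 0 (Set.Ioi 0)) (nhdsWithin (((t - l : ℝ)) : ℂ) {z : ℂ | 0 ≤ z.im}) := by
          rw [tendsto_nhdsWithin_iff]
          refine ⟨h0, ?_⟩
          filter_upwards [self_mem_nhdsWithin] with s hs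
          have hs' : (0 : ℝ) < s := hs
          have him : ((t : ℂ) + s * Complex.I - l).im = s := by simp
          show 0 ≤ ((t : ℂ) + s * Complex.I - l).im
          rw [him]
          exact hs'.le
        have h4 : Filter.Tendsto Complex.arg (nhdsWithin (((t - l : ℝ)) : ℂ) {z : ℂ | 0 ≤ z.im})
            (nhds Real.pi) :=
          Complex.tendsto_arg_nhdsWithin_im_nonneg_of_re_neg_of_im_zero
            (by rw [Complex.ofReal_re]; linarith only [hlt]) (by rw [Complex.ofReal_im])
        exact h4.comp h3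
      · rw [if_neg hlt, zero_mul]
        have hgt : l < t := lt_of_le_of_ne (not_lt.1 hlt) (Ne.symm h1)
        have h3 : ContinuousAt Complex.arg (((t - l : ℝ)) : ℂ) :=
          Complex.continuousAt_arg (by
            rw [Complex.mem_slitPlane_iff]; left; rw [Complex.ofReal_re]; linarith only [hgt])
        have h4 : Complex.arg (((t - l : ℝ)) : ℂ) = 0 := Complex.arg_ofReal_of_nonneg (by linarith only [hgt])
        have h5 := h3.tendsto.comp h0
        rw [h4] at h5
        exact h5
    have h3 := key.add (ih h2)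
    have h4 : ((if t < l then (1 : ℝ) else 0) * Real.pi + cnt L t * Real.pi) =
        (cnt (l ::ₘ L) t : ℝ) * Real.pi := by
      rw [al_cnt_cons]
      push_cast
      split_ifs <;> ring
    rw [h4] at h3
    refine h3.congr fun s => ?_
    rw [al_Th_cons]

theorem cnt_sub {L K : Multiset ℝ} (hc : Multiset.card L = Multiset.card K + 1)
    (h : ∀ z : ℂ, 0 < z.im → 0 < (pr L z / pr K z).im) {t : ℝ} (hL : t ∉ L) (hK : t ∉ K) :
    cnt K t ≤ cnt L t ∧ cnt L t ≤ cnt K t + 1 := by
  have hpi := Real.pi_pos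
  have h1 := (al_tendsto_Th_real hL).sub (al_tendsto_Th_real hK)
  have hb : ∀ᶠ s : ℝ in nhdsWithin 0 (Set.Ioi 0),
      Th L ((t : ℂ) + s * Complex.I) - Th K ((t : ℂ) + s * Complex.I) ∈ Set.Icc 0 Real.pi := by
    filter_upwards [self_mem_nhdsWithin] with s hs
    have hs' : 0 < ((t : ℂ) + s * Complex.I).im := by
      simp; exact hs
    rw [Th_sub hc h hs']
    have := al_arg_mem_of_im_pos (h _ hs')
    exact ⟨this.1.le, this.2.le⟩
  have h2 : (cnt L t : ℝ) * Real.pi - cnt K t * Real.pi ∈ Set.Icc 0 Real.pi :=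
    isClosed_Icc.mem_of_tendsto h1 hb
  have h3 : (cnt K t : ℝ) ≤ cnt L t := by
    have := h2.1
    nlinarith only [hpi, this]
  have h4 : (cnt L t : ℝ) ≤ cnt K t + 1 := by
    have := h2.2
    (by_contra nlg; linarith only [nlg, mul_pos (sub_pos.2 (not_le.1 nlg)) (sub_pos.2 hpi), this])
  exact ⟨by exact_mod_cast h3, by exact_mod_cast h4⟩

theorem al_cnt_antitone (L : Multiset ℝ) : Antitone (fun t => (cnt L t : ℝ)) := by
  intro s t hst
  simp only [cnt]
  have : Multiset.card (L.filter fun l => t < l) ≤ Multiset.card (L.filter fun l => s < l) := by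
    apply Multiset.card_le_card
    apply Multiset.monotone_filter_right
    intro l hl
    exact lt_of_le_of_lt hst hl
  exact_mod_cast this

theorem cnt_intervalIntegrable (L : Multiset ℝ) {h' : ℝ → ℝ} (hc : Continuous h') (x y : ℝ) :
    IntervalIntegrable (fun t => h' t * (cnt L t : ℝ)) MeasureTheory.volume x y := by
  have h1 : IntervalIntegrable (fun t => (cnt L t : ℝ)) MeasureTheory.volume x y :=
    (al_cnt_antitone L).intervalIntegrable
  exact h1.continuousOn_mul hc.continuousOn

theorem sum_eq_integral {L : Multiset ℝ} {ρ : ℝ} (hL : ∀ l ∈ L, -ρ ≤ l ∧ l ≤ ρ) {h h' : ℝ → ℝ}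
    (hd : ∀ t, HasDerivAt h (h' t) t) (hc : Continuous h') :
    (L.map h).sum = Multiset.card L * h (-ρ) + ∫ t in (-ρ)..ρ, h' t * cnt L t := by
  induction L using Multiset.induction with
  | empty => simp [cnt]
  | cons l L ih =>
    have hl := hL l (Multiset.mem_cons_self l L)
    have ih' := ih fun k hk => hL k (Multiset.mem_cons_of_mem hk)
    have hsplit : ∀ t : ℝ, h' t * (cnt (l ::ₘ L) t : ℝ) =
        h' t * (cnt ({l} : Multiset ℝ) t : ℝ) + h' t * (cnt L t : ℝ) := by
      intro t
      have h1 : cnt ({l} : Multiset ℝ) t = if t < l then 1 else 0 := by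
        have := al_cnt_cons l 0 t
        rw [Multiset.cons_zero] at this
        rw [this]; simp [cnt]
      rw [al_cnt_cons, h1]
      push_cast
      ring
    have h1 : cnt ({l} : Multiset ℝ) = fun t => if t < l then 1 else 0 := by
      funext t
      have := al_cnt_cons l 0 t
      rw [Multiset.cons_zero] at this
      rw [this]; simp [cnt]
    have hone : ∫ t in (-ρ)..ρ, h' t * (cnt ({l} : Multiset ℝ) t : ℝ) = h l - h (-ρ) := by
      rw [← intervalIntegral.integral_add_adjacent_intervals
        (cnt_intervalIntegrable {l} hc (-ρ) l) (cnt_intervalIntegrable {l} hc l ρ)]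
      have e1 : ∫ t in (-ρ)..l, h' t * (cnt ({l} : Multiset ℝ) t : ℝ) = ∫ t in (-ρ)..l, h' t := by
        apply intervalIntegral.integral_congr_ae
        have hne : ∀ᵐ t : ℝ, t ≠ l := by
          simp [MeasureTheory.ae_iff, MeasureTheory.measure_singleton]
        filter_upwards [hne] with t ht hmem
        rw [Set.uIoc_of_le hl.1] at hmem
        have : t < l := lt_of_le_of_ne hmem.2 ht
        simp [h1, this]
      have e2 : ∫ t in l..ρ, h' t * (cnt ({l} : Multiset ℝ) t : ℝ) = 0 := by
        have : ∫ t in l..ρ, h' t * (cnt ({l} : Multiset ℝ) t : ℝ) = ∫ t in l..ρ, (0 : ℝ) := by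
          apply intervalIntegral.integral_congr_ae
          refine Filter.Eventually.of_forall fun t hmem => ?_
          rw [Set.uIoc_of_le hl.2] at hmem
          have : ¬ t < l := not_lt.2 hmem.1.le
          simp [h1, this]
        rw [this]; simp
      rw [e1, e2, add_zero]
      exact intervalIntegral.integral_eq_sub_of_hasDerivAt (fun t _ => hd t)
        (hc.intervalIntegrable _ _)
    rw [Multiset.map_cons, Multiset.sum_cons, ih', Multiset.card_cons]
    simp_rw [hsplit]
    rw [intervalIntegral.integral_add (cnt_intervalIntegrable {l} hc (-ρ) ρ)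
      (cnt_intervalIntegrable L hc (-ρ) ρ), hone]
    push_cast
    ring

/-- an average of points of the upper half plane: one of them has smaller argument -/
theorem exists_arg_le {r : ℕ} (hr : 0 < r) (ζ : Fin r → ℂ) (hζ : ∀ a, 0 < (ζ a).im) :
    ∃ a, Complex.arg (ζ a) ≤ Complex.arg ((r : ℂ)⁻¹ * ∑ a, ζ a) := by
  by_contra hcon
  push Not at hcon
  set w : ℂ := (r : ℂ)⁻¹ * ∑ a, ζ a with hw
  have hr0 : (r : ℂ) ≠ 0 := by exact_mod_cast hr.ne'
  have hrR : (0 : ℝ) < r := by exact_mod_cast hr
  have : Nonempty (Fin r) := ⟨⟨0, hr⟩⟩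
  have hsum : ∑ a, ζ a = (r : ℂ) * w := by rw [hw]; (clear * - hr0; field_simp)
  have hsre : ∑ a, (ζ a).re = r * w.re := by
    have := congrArg Complex.re hsum
    rw [Complex.re_sum] at this
    rw [this]; simp
  have hsim : ∑ a, (ζ a).im = r * w.im := by
    have := congrArg Complex.im hsum
    rw [Complex.im_sum] at this
    rw [this]; simp
  have hwim : 0 < w.im := by
    have : 0 < ∑ a, (ζ a).im := Finset.sum_pos (fun a _ => hζ a) Finset.univ_nonempty
    rw [hsim] at this
    by_contra hneg
    push Not at hneg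
    nlinarith only [this, hneg]
  have hpos : ∀ a, 0 < (ζ a).im * w.re - (ζ a).re * w.im := by
    intro a
    have ha := al_arg_mem_of_im_pos (hζ a)
    have hb := al_arg_mem_of_im_pos hwim
    have h1 : 0 < Real.sin (Complex.arg (ζ a) - Complex.arg w) :=
      Real.sin_pos_of_pos_of_lt_pi (by linarith only [hcon a]) (by linarith only [ha.2, hb.1])
    rw [Real.sin_sub] at h1
    have hz1 : ζ a ≠ 0 := by intro h0; have := hζ a; rw [h0] at this; simp at this
    have hw1 : w ≠ 0 := by intro h0; rw [h0] at hwim; simp at hwim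
    have hn1 : 0 < ‖ζ a‖ := norm_pos_iff.2 hz1
    have hn2 : 0 < ‖w‖ := norm_pos_iff.2 hw1
    have e1 := Complex.norm_mul_cos_arg (ζ a)
    have e2 := Complex.norm_mul_sin_arg (ζ a)
    have e3 := Complex.norm_mul_cos_arg w
    have e4 := Complex.norm_mul_sin_arg w
    rw [← e1, ← e2, ← e3, ← e4]
    have : ‖ζ a‖ * Real.sin (Complex.arg (ζ a)) * (‖w‖ * Real.cos (Complex.arg w)) -
        ‖ζ a‖ * Real.cos (Complex.arg (ζ a)) * (‖w‖ * Real.sin (Complex.arg w)) =
        (‖ζ a‖ * ‖w‖) * (Real.sin (Complex.arg (ζ a)) * Real.cos (Complex.arg w) -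
          Real.cos (Complex.arg (ζ a)) * Real.sin (Complex.arg w)) := by ring
    rw [this]
    (clear * - h1 hz1 hw1; positivity)
  have htot : 0 < ∑ a, ((ζ a).im * w.re - (ζ a).re * w.im) :=
    Finset.sum_pos (fun a _ => hpos a) Finset.univ_nonempty
  rw [Finset.sum_sub_distrib, ← Finset.sum_mul, ← Finset.sum_mul, hsre, hsim] at htot
  have : (r : ℝ) * w.im * w.re - r * w.re * w.im = 0 := by ring
  linarith only [htot]

end Vale.Agent.P078.C
end

section

/-! T2b: the selection inequality and the initial inequality. -/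

namespace Vale.Agent.P078.C

open Finset Polynomial

theorem gf_eq_arctan {u η : ℝ} (hη : 0 < η) (l : ℝ) :
    gf u η l = Real.pi / 2 - Real.arctan ((u - l) / η) := by
  set t : ℝ := (u - l) / η with ht
  have h1 : 0 < Real.sqrt (1 + t ^ 2) := Real.sqrt_pos.mpr (by (clear * -; positivity))
  have hmem : Real.pi / 2 - Real.arctan t ∈ Set.Ioc (-Real.pi) Real.pi := by
    have h2 := Real.arctan_lt_pi_div_two t
    have h3 := Real.neg_pi_div_two_lt_arctan t
    have h4 := Real.pi_pos
    constructor <;> linarith only [h2, h3]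
  have h5 := Complex.arg_mul_cos_add_sin_mul_I (r := η * Real.sqrt (1 + t ^ 2))
    (by (clear * - hη; positivity)) hmem
  rw [← h5]
  unfold gf
  congr 1
  rw [← Complex.ofReal_cos, ← Complex.ofReal_sin, Real.cos_pi_div_two_sub,
    Real.sin_pi_div_two_sub, Real.sin_arctan, Real.cos_arctan]
  have h6 : (η * Real.sqrt (1 + t ^ 2)) * (t / Real.sqrt (1 + t ^ 2)) = u - l := by
    rw [ht]
    field_simp
  have h7 : (η * Real.sqrt (1 + t ^ 2)) * (1 / Real.sqrt (1 + t ^ 2)) = η := by
    (clear * - hη; field_simp)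
  rw [mul_add, ← mul_assoc, ← Complex.ofReal_mul, ← Complex.ofReal_mul, h6, h7]

theorem gf_nonneg {u η : ℝ} (hη : 0 < η) (l : ℝ) : 0 ≤ gf u η l := by
  rw [gf_eq_arctan hη]
  have := Real.arctan_lt_pi_div_two ((u - l) / η)
  linarith only [this]

theorem gf_ge {u η : ℝ} (hη : 0 < η) {l : ℝ} (hl : u ≤ l) : Real.pi / 2 ≤ gf u η l := by
  rw [gf_eq_arctan hη]
  have h : Real.arctan ((u - l) / η) ≤ 0 := by
    rw [Real.arctan_le_zero]
    exact div_nonpos_of_nonpos_of_nonneg (by linarith only [hl]) hη.le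
  linarith only [h]

theorem gf_le {u η : ℝ} (hη : 0 < η) {l : ℝ} (hl : l < u) : gf u η l ≤ η / (u - l) := by
  rw [gf_eq_arctan hη]
  have hx : 0 < (u - l) / η := div_pos (by linarith only [hl]) hη
  rw [← Real.arctan_inv_of_pos hx, inv_div]
  have hy : 0 ≤ η / (u - l) := div_nonneg hη.le (by linarith only [hl])
  have h1 : 0 ≤ Real.arctan (η / (u - l)) := Real.arctan_nonneg.mpr hy
  have h2 := Real.le_tan h1 (Real.arctan_lt_pi_div_two _)
  rwa [Real.tan_arctan] at h2

theorem gf_hasDerivAt {u η : ℝ} (hη : 0 < η) (l : ℝ) :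
    HasDerivAt (gf u η) (η / ((u - l) ^ 2 + η ^ 2)) l := by
  have h0 : gf u η = fun l => Real.pi / 2 - Real.arctan ((u - l) / η) := by
    funext l
    exact gf_eq_arctan hη l
  rw [h0]
  have h1 : HasDerivAt (fun l : ℝ => (u - l) / η) (-1 / η) l := by
    have := ((hasDerivAt_id l).const_sub u).div_const η
    simpa using this
  have h2 := h1.arctan.const_sub (Real.pi / 2)
  have h3 : η / ((u - l) ^ 2 + η ^ 2) = -(1 / (1 + ((u - l) / η) ^ 2) * (-1 / η)) := by
    have h4 : (u - l) ^ 2 + η ^ 2 ≠ 0 := by (clear * - hη; positivity)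
    have h5 : 1 + ((u - l) / η) ^ 2 ≠ 0 := by (clear * -; positivity)
    rw [neg_div, mul_neg, neg_neg, div_mul_div_comm, one_mul, div_eq_div_iff h4 (by (clear * - hη; positivity))]
    field_simp
    ring
  rw [h3]
  exact h2

theorem exists_antideriv (q : ℝ[X]) : ∃ p : ℝ[X], derivative p = q := by
  induction q using Polynomial.induction_on' with
  | add p q hp hq =>
    obtain ⟨a, ha⟩ := hp
    obtain ⟨b, hb⟩ := hq
    exact ⟨a + b, by rw [derivative_add, ha, hb]⟩
  | monomial n a =>
    refine ⟨monomial (n + 1) (a / (n + 1)), ?_⟩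
    rw [derivative_monomial]
    have : (n : ℝ) + 1 ≠ 0 := by positivity
    simp only [Nat.add_sub_cancel, Nat.cast_add, Nat.cast_one]
    congr 1
    field_simp

theorem exists_goodPoly {u η ρ κ : ℝ} (hη : 0 < η) (hρ : 0 < ρ) (hκ : 0 < κ) :
    ∃ p : ℝ[X], GoodPoly p u η ρ κ := by
  have _ := hρ
  have hc : ContinuousOn (fun t : ℝ => η / ((u - t) ^ 2 + η ^ 2)) (Set.Icc (-ρ) ρ) := by
    apply Continuous.continuousOn
    apply Continuous.div continuous_const (by fun_prop)
    intro x
    (clear * - hη; positivity)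
  obtain ⟨q, hq⟩ := exists_polynomial_near_of_continuousOn (-ρ) ρ _ hc κ hκ
  obtain ⟨p, hp⟩ := exists_antideriv q
  refine ⟨p + C (gf u η (-ρ) - p.eval (-ρ)), ?_, ?_⟩
  · simp
  · intro t ht
    rw [derivative_add, derivative_C, add_zero, hp]
    exact (hq t ht).le

theorem GoodPoly.lower {p : ℝ[X]} {u η ρ κ : ℝ} (hp : GoodPoly p u η ρ κ) (hη : 0 < η)
    {t : ℝ} (ht : t ∈ Set.Icc (-ρ) ρ) : gf u η t - 2 * ρ * κ ≤ p.eval t := by
  have hρ : -ρ ≤ ρ := le_trans ht.1 ht.2
  have hκ : 0 ≤ κ := le_trans (abs_nonneg _) (hp.deriv t ht)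
  have h1 : ∀ x ∈ Set.Icc (-ρ) ρ, HasDerivWithinAt (fun x => p.eval x - gf u η x)
      ((derivative p).eval x - η / ((u - x) ^ 2 + η ^ 2)) (Set.Icc (-ρ) ρ) x := fun x _ =>
    ((p.hasDerivAt x).sub (gf_hasDerivAt hη x)).hasDerivWithinAt
  have h2 := Convex.norm_image_sub_le_of_norm_hasDerivWithin_le (C := κ) h1
    (fun x hx => by rw [Real.norm_eq_abs]; exact hp.deriv x hx) (convex_Icc _ _)
    (Set.left_mem_Icc.mpr hρ) ht
  rw [hp.left] at h2
  simp only [sub_self, sub_zero, Real.norm_eq_abs] at h2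
  have h3 := (abs_le.mp h2).1
  have h4 : |t - -ρ| ≤ 2 * ρ := by
    rw [abs_le]
    constructor <;> linarith only [hρ, ht.1, ht.2]
  linarith only [h3, mul_le_mul_of_nonneg_left h4 hκ]

variable {α : Type*} [DecidableEq α] {r : ℕ}
variable {y : α → α → ℂ} {s : α → Option (Fin r)} {W : Finset α} {w : α}
variable {a b : ℝ}

theorem Th_eq_gf (L : Multiset ℝ) (u η : ℝ) :
    Th L ((u : ℂ) + η * Complex.I) = (L.map (gf u η)).sum := by
  unfold Th
  congr 1
  apply Multiset.map_congr rfl
  intro l _
  unfold gf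
  congr 1
  push_cast
  ring

theorem rts_bd (hr : 0 < r) (hy : Herm y) (hb : FB a b y) {ρ : ℝ} (ha : a ≤ ρ) (hbρ : b ≤ ρ) :
    ∀ l ∈ rts y s W, -ρ ≤ l ∧ l ≤ ρ := by
  intro l hl
  have h := rts_mem hr hy hb hl
  constructor <;> linarith only [hbρ, ha, h.1, h.2]

theorem pr_rts (hr : 0 < r) (hy : Herm y) (t : ℂ) : pr (rts y s W) t = Q y s (fun _ => t) W :=
  (Q_eq_prod hr hy t).symm

theorem ratio_pos (hr : 0 < r) (hy : Herm y) (hw : w ∈ W) :
    ∀ z : ℂ, 0 < z.im → 0 < (pr (rts y s W) z / pr (rts y s (W.erase w)) z).im := by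
  intro z hz
  rw [pr_rts hr hy, pr_rts hr hy]
  exact lt_of_lt_of_le hz (Q_ratio_im (z := fun _ => z) hr hy (fun _ _ => hz) hw)

theorem rts_erase_update (c : Fin r) :
    rts y (Function.update s w (some c)) (W.erase w) = rts y s (W.erase w) := by
  apply rts_congr
  · intro i _ j _
    rfl
  · intro i hi
    exact Function.update_of_ne (Finset.ne_of_mem_erase hi) _ _

theorem card_rts_erase (hr : 0 < r) (hw : w ∈ W) :
    Multiset.card (rts y s W) = Multiset.card (rts y s (W.erase w)) + 1 := by
  rw [card_rts hr, card_rts hr, Finset.card_erase_add_one hw]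

/-- difference of the polynomial sum and the argument sum -/
theorem SP_sub_gf {L : Multiset ℝ} {p : ℝ[X]} {u η ρ κ : ℝ} (hη : 0 < η)
    (hp : GoodPoly p u η ρ κ) (hL : ∀ l ∈ L, -ρ ≤ l ∧ l ≤ ρ) :
    (L.map fun l => p.eval l).sum - (L.map (gf u η)).sum =
      ∫ t in (-ρ)..ρ, ((derivative p).eval t - η / ((u - t) ^ 2 + η ^ 2)) * cnt L t := by
  have hc2 : Continuous (fun t : ℝ => η / ((u - t) ^ 2 + η ^ 2)) := by
    apply Continuous.div continuous_const (by (clear * -; fun_prop))
    intro x
    (clear * - hη; positivity)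
  have hc1 : Continuous fun t : ℝ => (derivative p).eval t := (derivative p).continuous
  have h1 := sum_eq_integral (h := fun t => p.eval t) (h' := fun t => (derivative p).eval t) hL
    (fun t => p.hasDerivAt t) hc1
  have h2 := sum_eq_integral (h := gf u η) (h' := fun t => η / ((u - t) ^ 2 + η ^ 2)) hL
    (fun t => gf_hasDerivAt hη t) hc2
  rw [h1, h2, hp.left, add_sub_add_left_eq_sub,
    ← intervalIntegral.integral_sub (cnt_intervalIntegrable L hc1 _ _)
      (cnt_intervalIntegrable L hc2 _ _)]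
  congr 1
  funext t
  ring

theorem sel (hr : 0 < r) (hy : Herm y) (hb : FB a b y) {p : ℝ[X]} {u η ρ κ : ℝ} (hη : 0 < η)
    (ha : a ≤ ρ) (hbρ : b ≤ ρ) (hρ : 0 < ρ) (hp : GoodPoly p u η ρ κ) (hw : w ∈ W)
    (hs : s w = none) :
    ∃ c, SP p y (Function.update s w (some c)) W ≤ SP p y s W + 2 * ρ * κ := by
  have hz : 0 < ((u : ℂ) + η * Complex.I).im := by simpa only [Complex.add_im, Complex.ofReal_im, Complex.mul_im, Complex.ofReal_re, Complex.I_im, mul_one,     Complex.I_re, mul_zero, add_zero, zero_add] using hη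
  set z0 : ℂ := (u : ℂ) + η * Complex.I with hz0
  set K := rts y s (W.erase w) with hK
  set L := rts y s W with hL
  -- the ratios
  have hcL : Multiset.card L = Multiset.card K + 1 := card_rts_erase hr hw
  have hpL : ∀ z : ℂ, 0 < z.im → 0 < (pr L z / pr K z).im := ratio_pos hr hy hw
  have hcA : ∀ c : Fin r, Multiset.card (rts y (Function.update s w (some c)) W) =
      Multiset.card K + 1 := fun c => by
    rw [card_rts_erase hr hw, rts_erase_update]
  have hpA : ∀ c : Fin r, ∀ z : ℂ, 0 < z.im →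
      0 < (pr (rts y (Function.update s w (some c)) W) z / pr K z).im := fun c z hz => by
    have := ratio_pos (s := Function.update s w (some c)) hr hy hw z hz
    rwa [rts_erase_update] at this
  have havg : (r : ℂ)⁻¹ * ∑ c : Fin r,
      pr (rts y (Function.update s w (some c)) W) z0 / pr K z0 = pr L z0 / pr K z0 := by
    rw [← Finset.sum_div, ← mul_div_assoc]
    congr 1
    rw [hL, pr_rts hr hy, Q_avg hr hw hs]
    congr 1
    apply Finset.sum_congr rfl
    intro c _
    exact pr_rts hr hy _
  obtain ⟨c, hc⟩ := exists_arg_le hr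
    (fun c : Fin r => pr (rts y (Function.update s w (some c)) W) z0 / pr K z0)
    (fun c => hpA c z0 hz)
  rw [havg] at hc
  refine ⟨c, ?_⟩
  have hTh : Th (rts y (Function.update s w (some c)) W) z0 ≤ Th L z0 := by
    have h1 := Th_sub (hcA c) (hpA c) hz
    have h2 := Th_sub hcL hpL hz
    linarith only [hc, h1, h2]
  rw [hz0, Th_eq_gf, Th_eq_gf] at hTh
  set M := rts y (Function.update s w (some c)) W with hM
  have hLb : ∀ l ∈ L, -ρ ≤ l ∧ l ≤ ρ := rts_bd hr hy hb ha hbρ
  have hMb : ∀ l ∈ M, -ρ ≤ l ∧ l ≤ ρ := rts_bd hr hy hb ha hbρ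
  have e1 := SP_sub_gf hη hp hLb
  have e2 := SP_sub_gf hη hp hMb
  have hc2 : Continuous (fun t : ℝ => (derivative p).eval t - η / ((u - t) ^ 2 + η ^ 2)) := by
    apply Continuous.sub (derivative p).continuous
    apply Continuous.div continuous_const (by fun_prop)
    intro x
    (clear * - hη; (clear * - hη; positivity))
  have h3 : (∫ t in (-ρ)..ρ, ((derivative p).eval t - η / ((u - t) ^ 2 + η ^ 2)) * cnt M t) -
      (∫ t in (-ρ)..ρ, ((derivative p).eval t - η / ((u - t) ^ 2 + η ^ 2)) * cnt L t) ≤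
      2 * ρ * κ := by
    rw [← intervalIntegral.integral_sub (cnt_intervalIntegrable M hc2 _ _)
      (cnt_intervalIntegrable L hc2 _ _)]
    have hfin : ((K.toFinset ∪ L.toFinset ∪ M.toFinset : Finset ℝ) : Set ℝ).Finite :=
      Finset.finite_toSet _
    have hae : ∀ᵐ t : ℝ, t ∉ ((K.toFinset ∪ L.toFinset ∪ M.toFinset : Finset ℝ) : Set ℝ) :=
      MeasureTheory.measure_eq_zero_iff_ae_notMem.mp (hfin.measure_zero _)
    have h4 := intervalIntegral.norm_integral_le_of_norm_le_const_ae (a := -ρ) (b := ρ) (C := κ)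
      (f := fun t => ((derivative p).eval t - η / ((u - t) ^ 2 + η ^ 2)) * (cnt M t : ℝ) -
        ((derivative p).eval t - η / ((u - t) ^ 2 + η ^ 2)) * (cnt L t : ℝ)) ?_
    · have h5 : |ρ - -ρ| = 2 * ρ := by
        rw [sub_neg_eq_add, abs_of_pos (by linarith only [hρ])]
        ring
      rw [h5] at h4
      calc _ ≤ _ := le_trans (le_abs_self _) h4
        _ = 2 * ρ * κ := by ring
    · filter_upwards [hae] with t ht htI
      have htK : t ∉ K := fun h => ht (by simp [h])
      have htL : t ∉ L := fun h => ht (by simp [h])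
      have htM : t ∉ M := fun h => ht (by simp [h])
      have hIcc : t ∈ Set.Icc (-ρ) ρ := by
        rw [Set.uIoc_of_le (by linarith only [hρ])] at htI
        exact ⟨htI.1.le, htI.2⟩
      rw [← mul_sub, norm_mul, Real.norm_eq_abs, Real.norm_eq_abs]
      have k1 := cnt_sub hcL hpL htL htK
      have k2 := cnt_sub (hcA c) (hpA c) htM htK
      have k3 : |(cnt M t : ℝ) - cnt L t| ≤ 1 := by
        have a1 : (cnt K t : ℝ) ≤ cnt L t := by exact_mod_cast k1.1
        have a2 : (cnt L t : ℝ) ≤ cnt K t + 1 := by exact_mod_cast k1.2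
        have a3 : (cnt K t : ℝ) ≤ cnt M t := by exact_mod_cast k2.1
        have a4 : (cnt M t : ℝ) ≤ cnt K t + 1 := by exact_mod_cast k2.2
        rw [abs_le]
        constructor <;> linarith only [a2, a3, a1, a4]
      calc _ ≤ κ * 1 := mul_le_mul (hp.deriv t hIcc) k3 (abs_nonneg _)
            (le_trans (abs_nonneg _) (hp.deriv t hIcc))
        _ = κ := mul_one κ
  have h6 : SP p y (Function.update s w (some c)) W = (M.map fun l => p.eval l).sum := rfl
  have h7 : SP p y s W = (L.map fun l => p.eval l).sum := rfl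
  rw [h6, h7]
  linarith only [h3, e2, e1, hTh]

theorem ini (hr : 0 < r) (hy : Herm y) (hb : FB a b y) {p : ℝ[X]} {u η ρ κ e : ℝ} (hη : 0 < η)
    (ha : a ≤ ρ) (hbρ : b ≤ ρ) (hρ : 0 < ρ) (hκ : 0 ≤ κ) (hp : GoodPoly p u η ρ κ) (hw : w ∈ W)
    (he : ∀ l ∈ rts y s W, l ≤ e) (heu : e < u) :
    SP p y s W ≤ SP p y s (W.erase w) + (η / (u - e) + 2 * ρ * κ) := by
  set K := rts y s (W.erase w) with hK
  set L := rts y s W with hL
  have hcL : Multiset.card L = Multiset.card K + 1 := card_rts_erase hr hw
  have hpL : ∀ z : ℂ, 0 < z.im → 0 < (pr L z / pr K z).im := ratio_pos hr hy hw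
  have hLb : ∀ l ∈ L, -ρ ≤ l ∧ l ≤ ρ := rts_bd hr hy hb ha hbρ
  have hKb : ∀ l ∈ K, -ρ ≤ l ∧ l ≤ ρ := rts_bd hr hy hb ha hbρ
  have hc1 : Continuous fun t : ℝ => (derivative p).eval t := (derivative p).continuous
  have hc2 : Continuous (fun t : ℝ => η / ((u - t) ^ 2 + η ^ 2)) := by
    apply Continuous.div continuous_const (by (clear * -; fun_prop))
    intro x
    (clear * - hη; (clear * - hη; positivity))
  -- e ≥ -ρ
  have heρ : -ρ ≤ e := by
    have hne : L ≠ 0 := by
      intro h
      rw [h] at hcL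
      simp at hcL
    obtain ⟨l, hl⟩ := Multiset.exists_mem_of_ne_zero hne
    exact le_trans (hLb l hl).1 (he l hl)
  have e1 := sum_eq_integral (h := fun t => p.eval t) (h' := fun t => (derivative p).eval t) hLb
    (fun t => p.hasDerivAt t) hc1
  have e2 := sum_eq_integral (h := fun t => p.eval t) (h' := fun t => (derivative p).eval t) hKb
    (fun t => p.hasDerivAt t) hc1
  have i1 := fun x y => cnt_intervalIntegrable L hc1 x y
  have i2 := fun x y => cnt_intervalIntegrable K hc1 x y
  set e' := min e ρ with he'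
  have he'1 : -ρ ≤ e' := le_min heρ (by linarith only [hρ])
  have he'2 : e' ≤ ρ := min_le_right _ _
  have he'3 : e' ≤ e := min_le_left _ _
  have hae : ∀ᵐ t : ℝ, t ∉ ((K.toFinset ∪ L.toFinset : Finset ℝ) : Set ℝ) :=
    MeasureTheory.measure_eq_zero_iff_ae_notMem.mp ((Finset.finite_toSet _).measure_zero _)
  have hcnt : ∀ t, t ∉ ((K.toFinset ∪ L.toFinset : Finset ℝ) : Set ℝ) →
      (0 : ℝ) ≤ (cnt L t : ℝ) - cnt K t ∧ (cnt L t : ℝ) - cnt K t ≤ 1 := by
    intro t ht
    have htK : t ∉ K := fun h => ht (by simp [h])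
    have htL : t ∉ L := fun h => ht (by simp [h])
    have k1 := cnt_sub hcL hpL htL htK
    have a1 : (cnt K t : ℝ) ≤ cnt L t := by exact_mod_cast k1.1
    have a2 : (cnt L t : ℝ) ≤ cnt K t + 1 := by exact_mod_cast k1.2
    constructor <;> linarith only [a1, a2]
  have hdiff : (∫ t in (-ρ)..ρ, (derivative p).eval t * cnt L t) -
      (∫ t in (-ρ)..ρ, (derivative p).eval t * cnt K t) =
      (∫ t in (-ρ)..e', (derivative p).eval t * ((cnt L t : ℝ) - cnt K t)) +
      ∫ t in e'..ρ, (derivative p).eval t * ((cnt L t : ℝ) - cnt K t) := by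
    have i3 : ∀ x y, IntervalIntegrable
        (fun t => (derivative p).eval t * ((cnt L t : ℝ) - cnt K t)) MeasureTheory.volume x y := by
      intro x y
      have := (i1 x y).sub (i2 x y)
      refine this.congr_ae ?_
      exact Filter.Eventually.of_forall fun t => (mul_sub _ _ _).symm
    rw [intervalIntegral.integral_add_adjacent_intervals (i3 _ _) (i3 _ _),
      ← intervalIntegral.integral_sub (i1 _ _) (i2 _ _)]
    congr 1
    funext t
    ring
  have hsecond : ∫ t in e'..ρ, (derivative p).eval t * ((cnt L t : ℝ) - cnt K t) = 0 := by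
    apply intervalIntegral.integral_zero_ae
    filter_upwards [hae] with t ht htI
    rw [Set.uIoc_of_le he'2] at htI
    have hte : e < t := by
      rcases min_lt_iff.mp htI.1 with h | h
      · exact h
      · exact absurd htI.2 (not_le.mpr h)
    have hL0 : cnt L t = 0 := by
      unfold cnt
      rw [Multiset.card_eq_zero, Multiset.filter_eq_nil]
      intro l hl
      exact not_lt.mpr (le_trans (he l hl) hte.le)
    have hK0 : (cnt K t : ℝ) = 0 := by
      have h1 := (hcnt t ht).1
      rw [hL0] at h1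
      have h2 : (0 : ℝ) ≤ cnt K t := Nat.cast_nonneg _
      simp only [Nat.cast_zero, zero_sub, Left.nonneg_neg_iff] at h1
      linarith only [h1]
    rw [hL0, hK0]
    simp
  have hfirst : ∫ t in (-ρ)..e', (derivative p).eval t * ((cnt L t : ℝ) - cnt K t) ≤
      ∫ t in (-ρ)..e', (η / ((u - t) ^ 2 + η ^ 2) + κ) := by
    have i3 : IntervalIntegrable
        (fun t => (derivative p).eval t * ((cnt L t : ℝ) - cnt K t)) MeasureTheory.volume
        (-ρ) e' := by
      have := (i1 (-ρ) e').sub (i2 (-ρ) e')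
      refine this.congr_ae ?_
      exact Filter.Eventually.of_forall fun t => (mul_sub _ _ _).symm
    apply intervalIntegral.integral_mono_ae_restrict he'1 i3
      ((hc2.add continuous_const).intervalIntegrable _ _)
    rw [Filter.EventuallyLE, MeasureTheory.ae_restrict_iff' measurableSet_Icc]
    filter_upwards [hae] with t ht htI
    have hIcc : t ∈ Set.Icc (-ρ) ρ := ⟨htI.1, le_trans htI.2 he'2⟩
    have h1 := (abs_le.mp (hp.deriv t hIcc)).2
    have h2 := hcnt t ht
    have h3 : 0 ≤ η / ((u - t) ^ 2 + η ^ 2) := by (clear * - hη; (clear * - hη; positivity))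
    calc (derivative p).eval t * ((cnt L t : ℝ) - cnt K t)
        ≤ (η / ((u - t) ^ 2 + η ^ 2) + κ) * ((cnt L t : ℝ) - cnt K t) :=
          mul_le_mul_of_nonneg_right (by linarith only [h1]) h2.1
      _ ≤ (η / ((u - t) ^ 2 + η ^ 2) + κ) * 1 := mul_le_mul_of_nonneg_left h2.2 (by linarith only [hκ, h3])
      _ = _ := mul_one _
  have hval : ∫ t in (-ρ)..e', (η / ((u - t) ^ 2 + η ^ 2) + κ) =
      gf u η e' - gf u η (-ρ) + κ * (e' + ρ) := by
    rw [intervalIntegral.integral_add (hc2.intervalIntegrable _ _)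
      (continuous_const.intervalIntegrable _ _), intervalIntegral.integral_const,
      intervalIntegral.integral_eq_sub_of_hasDerivAt (fun t _ => gf_hasDerivAt hη t)
        (hc2.intervalIntegrable _ _), smul_eq_mul]
    ring
  have hgf : gf u η e' ≤ η / (u - e) := by
    refine le_trans (gf_le hη (lt_of_le_of_lt he'3 heu)) ?_
    exact div_le_div_of_nonneg_left hη.le (by linarith only [heu]) (by linarith only [he'3])
  have h6 : SP p y s W = (L.map fun l => p.eval l).sum := rfl
  have h7 : SP p y s (W.erase w) = (K.map fun l => p.eval l).sum := rfl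
  have h8 : (Multiset.card L : ℝ) = Multiset.card K + 1 := by
    rw [hcL]
    push_cast
    ring
  have h9 : κ * (e' + ρ) ≤ 2 * ρ * κ := by linarith only [mul_nonneg (sub_nonneg.2 hκ) (sub_nonneg.2 he'2)]
  have h10 : 0 ≤ (Multiset.card K : ℝ) := Nat.cast_nonneg _
  rw [h6, h7, e1, e2, h8, hp.left]
  rw [hsecond, add_zero] at hdiff
  linarith only [h9, hdiff, hfirst, hval, hgf]

end Vale.Agent.P078.C
end

section

/-! The selection inequality, the initial inequality and monotonicity for the model with random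
signs. -/

namespace Vale.Agent.P078.D

open Finset Polynomial
open Vale.Agent.P078.C (Herm ZD qf FB yc pw gf GoodPoly Th pr cnt Th_sub cnt_sub sum_eq_integral
  cnt_intervalIntegrable exists_arg_le gf_eq_arctan gf_nonneg gf_ge gf_le gf_hasDerivAt Th_eq_gf
  SP_sub_gf GoodPoly.lower)

variable {α : Type*} [DecidableEq α] {r : ℕ}
variable {y : α → α → ℂ} {s : α → Option (Fin r)} {W : Finset α} {w : α}
variable {a b : ℝ}

theorem rts_bd (hr : 0 < r) (hy : Herm y) (hb : FB a b y) {ρ : ℝ} (hρ : 2 * max a b ≤ ρ) :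
    ∀ l ∈ rts (tw r y) (sl s) W, -ρ ≤ l ∧ l ≤ ρ := by
  intro l hl
  have h := rts_mem (card_slot_pos hr) (herm_tw hy) (fb_tw hb) hl
  constructor <;> linarith only [hρ, h.1, h.2]

theorem pr_rts (hr : 0 < r) (hy : Herm y) (t : ℂ) : pr (rts (tw r y) (sl s) W) t = Q (tw r y) (sl s) (fun _ => t) W :=
  (Q_eq_prod (card_slot_pos hr) (herm_tw hy) t).symm

theorem ratio_pos (hr : 0 < r) (hy : Herm y) (hw : w ∈ W) :
    ∀ z : ℂ, 0 < z.im → 0 < (pr (rts (tw r y) (sl s) W) z / pr (rts (tw r y) (sl s) (W.erase w)) z).im := by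
  intro z hz
  rw [pr_rts hr hy, pr_rts hr hy]
  exact lt_of_lt_of_le hz (Q_ratio_im (z := fun _ => z) (card_slot_pos hr) (herm_tw hy) (fun _ _ => hz) hw)

theorem rts_erase_update (c : Fin r) :
    rts (tw r y) (sl (Function.update s w (some c))) (W.erase w) = rts (tw r y) (sl s) (W.erase w) := by
  apply rts_congr
  · intro k i _ j _
    rfl
  · intro i hi
    exact sl_congr (Function.update_of_ne (Finset.ne_of_mem_erase hi) _ _)

theorem card_rts_erase (hr : 0 < r) (hw : w ∈ W) :
    Multiset.card (rts (tw r y) (sl s) W) = Multiset.card (rts (tw r y) (sl s) (W.erase w)) + 1 := by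
  rw [card_rts (card_slot_pos hr), card_rts (card_slot_pos hr), Finset.card_erase_add_one hw]

theorem sel (hr : 0 < r) (hy : Herm y) (hb : FB a b y) {p : ℝ[X]} {u η ρ κ : ℝ} (hη : 0 < η)
    (hab : 2 * max a b ≤ ρ) (hρ : 0 < ρ) (hp : GoodPoly p u η ρ κ) (hw : w ∈ W)
    (hs : s w = none) :
    ∃ c, sp p y (Function.update s w (some c)) W ≤ sp p y s W + 2 * ρ * κ := by
  have hz : 0 < ((u : ℂ) + η * Complex.I).im := by simpa only [Complex.add_im, Complex.ofReal_im, Complex.mul_im, Complex.ofReal_re, Complex.I_im, mul_one,     Complex.I_re, mul_zero, add_zero, zero_add] using hη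
  set z0 : ℂ := (u : ℂ) + η * Complex.I with hz0
  set K := rts (tw r y) (sl s) (W.erase w) with hK
  set L := rts (tw r y) (sl s) W with hL
  -- the ratios
  have hcL : Multiset.card L = Multiset.card K + 1 := card_rts_erase hr hw
  have hpL : ∀ z : ℂ, 0 < z.im → 0 < (pr L z / pr K z).im := ratio_pos hr hy hw
  have hcA : ∀ c : Fin r, Multiset.card (rts (tw r y) (sl (Function.update s w (some c))) W) =
      Multiset.card K + 1 := fun c => by
    rw [card_rts_erase hr hw, rts_erase_update]
  have hpA : ∀ c : Fin r, ∀ z : ℂ, 0 < z.im →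
      0 < (pr (rts (tw r y) (sl (Function.update s w (some c))) W) z / pr K z).im := fun c z hz => by
    have := ratio_pos (s := Function.update s w (some c)) hr hy hw z hz
    rwa [rts_erase_update] at this
  have havg : (r : ℂ)⁻¹ * ∑ c : Fin r,
      pr (rts (tw r y) (sl (Function.update s w (some c))) W) z0 / pr K z0 = pr L z0 / pr K z0 := by
    rw [← Finset.sum_div, ← mul_div_assoc]
    congr 1
    rw [hL, pr_rts hr hy, Q_sl_avg hr hw hs]
    congr 1
    apply Finset.sum_congr rfl
    intro c _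
    exact pr_rts hr hy _
  obtain ⟨c, hc⟩ := exists_arg_le hr
    (fun c : Fin r => pr (rts (tw r y) (sl (Function.update s w (some c))) W) z0 / pr K z0)
    (fun c => hpA c z0 hz)
  rw [havg] at hc
  refine ⟨c, ?_⟩
  have hTh : Th (rts (tw r y) (sl (Function.update s w (some c))) W) z0 ≤ Th L z0 := by
    have h1 := Th_sub (hcA c) (hpA c) hz
    have h2 := Th_sub hcL hpL hz
    linarith only [hc, h1, h2]
  rw [hz0, Th_eq_gf, Th_eq_gf] at hTh
  set M := rts (tw r y) (sl (Function.update s w (some c))) W with hM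
  have hLb : ∀ l ∈ L, -ρ ≤ l ∧ l ≤ ρ := rts_bd hr hy hb hab
  have hMb : ∀ l ∈ M, -ρ ≤ l ∧ l ≤ ρ := rts_bd hr hy hb hab
  have e1 := SP_sub_gf hη hp hLb
  have e2 := SP_sub_gf hη hp hMb
  have hc2 : Continuous (fun t : ℝ => (derivative p).eval t - η / ((u - t) ^ 2 + η ^ 2)) := by
    apply Continuous.sub (derivative p).continuous
    apply Continuous.div continuous_const (by fun_prop)
    intro x
    (clear * - hη; (clear * - hη; positivity))
  have h3 : (∫ t in (-ρ)..ρ, ((derivative p).eval t - η / ((u - t) ^ 2 + η ^ 2)) * cnt M t) -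
      (∫ t in (-ρ)..ρ, ((derivative p).eval t - η / ((u - t) ^ 2 + η ^ 2)) * cnt L t) ≤
      2 * ρ * κ := by
    rw [← intervalIntegral.integral_sub (cnt_intervalIntegrable M hc2 _ _)
      (cnt_intervalIntegrable L hc2 _ _)]
    have hfin : ((K.toFinset ∪ L.toFinset ∪ M.toFinset : Finset ℝ) : Set ℝ).Finite :=
      Finset.finite_toSet _
    have hae : ∀ᵐ t : ℝ, t ∉ ((K.toFinset ∪ L.toFinset ∪ M.toFinset : Finset ℝ) : Set ℝ) :=
      MeasureTheory.measure_eq_zero_iff_ae_notMem.mp (hfin.measure_zero _)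
    have h4 := intervalIntegral.norm_integral_le_of_norm_le_const_ae (a := -ρ) (b := ρ) (C := κ)
      (f := fun t => ((derivative p).eval t - η / ((u - t) ^ 2 + η ^ 2)) * (cnt M t : ℝ) -
        ((derivative p).eval t - η / ((u - t) ^ 2 + η ^ 2)) * (cnt L t : ℝ)) ?_
    · have h5 : |ρ - -ρ| = 2 * ρ := by
        rw [sub_neg_eq_add, abs_of_pos (by linarith only [hρ])]
        ring
      rw [h5] at h4
      calc _ ≤ _ := le_trans (le_abs_self _) h4
        _ = 2 * ρ * κ := by ring
    · filter_upwards [hae] with t ht htI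
      have htK : t ∉ K := fun h => ht (by simp [h])
      have htL : t ∉ L := fun h => ht (by simp [h])
      have htM : t ∉ M := fun h => ht (by simp [h])
      have hIcc : t ∈ Set.Icc (-ρ) ρ := by
        rw [Set.uIoc_of_le (by linarith only [hρ])] at htI
        exact ⟨htI.1.le, htI.2⟩
      rw [← mul_sub, norm_mul, Real.norm_eq_abs, Real.norm_eq_abs]
      have k1 := cnt_sub hcL hpL htL htK
      have k2 := cnt_sub (hcA c) (hpA c) htM htK
      have k3 : |(cnt M t : ℝ) - cnt L t| ≤ 1 := by
        have a1 : (cnt K t : ℝ) ≤ cnt L t := by exact_mod_cast k1.1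
        have a2 : (cnt L t : ℝ) ≤ cnt K t + 1 := by exact_mod_cast k1.2
        have a3 : (cnt K t : ℝ) ≤ cnt M t := by exact_mod_cast k2.1
        have a4 : (cnt M t : ℝ) ≤ cnt K t + 1 := by exact_mod_cast k2.2
        rw [abs_le]
        constructor <;> linarith only [a1, a4, a2, a3]
      calc _ ≤ κ * 1 := mul_le_mul (hp.deriv t hIcc) k3 (abs_nonneg _)
            (le_trans (abs_nonneg _) (hp.deriv t hIcc))
        _ = κ := mul_one κ
  have h6 : sp p y (Function.update s w (some c)) W = (M.map fun l => p.eval l).sum := rfl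
  have h7 : sp p y s W = (L.map fun l => p.eval l).sum := rfl
  rw [h6, h7]
  linarith only [h3, e2, e1, hTh]

theorem ini (hr : 0 < r) (hy : Herm y) (hb : FB a b y) {p : ℝ[X]} {u η ρ κ e : ℝ} (hη : 0 < η)
    (hab : 2 * max a b ≤ ρ) (hρ : 0 < ρ) (hκ : 0 ≤ κ) (hp : GoodPoly p u η ρ κ) (hw : w ∈ W)
    (he : ∀ l ∈ rts (tw r y) (sl s) W, l ≤ e) (heu : e < u) :
    sp p y s W ≤ sp p y s (W.erase w) + (η / (u - e) + 2 * ρ * κ) := by
  set K := rts (tw r y) (sl s) (W.erase w) with hK
  set L := rts (tw r y) (sl s) W with hL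
  have hcL : Multiset.card L = Multiset.card K + 1 := card_rts_erase hr hw
  have hpL : ∀ z : ℂ, 0 < z.im → 0 < (pr L z / pr K z).im := ratio_pos hr hy hw
  have hLb : ∀ l ∈ L, -ρ ≤ l ∧ l ≤ ρ := rts_bd hr hy hb hab
  have hKb : ∀ l ∈ K, -ρ ≤ l ∧ l ≤ ρ := rts_bd hr hy hb hab
  have hc1 : Continuous fun t : ℝ => (derivative p).eval t := (derivative p).continuous
  have hc2 : Continuous (fun t : ℝ => η / ((u - t) ^ 2 + η ^ 2)) := by
    apply Continuous.div continuous_const (by (clear * -; fun_prop))
    intro x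
    (clear * - hη; (clear * - hη; positivity))
  -- e ≥ -ρ
  have heρ : -ρ ≤ e := by
    have hne : L ≠ 0 := by
      intro h
      rw [h] at hcL
      simp at hcL
    obtain ⟨l, hl⟩ := Multiset.exists_mem_of_ne_zero hne
    exact le_trans (hLb l hl).1 (he l hl)
  have e1 := sum_eq_integral (h := fun t => p.eval t) (h' := fun t => (derivative p).eval t) hLb
    (fun t => p.hasDerivAt t) hc1
  have e2 := sum_eq_integral (h := fun t => p.eval t) (h' := fun t => (derivative p).eval t) hKb
    (fun t => p.hasDerivAt t) hc1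
  have i1 := fun x y => cnt_intervalIntegrable L hc1 x y
  have i2 := fun x y => cnt_intervalIntegrable K hc1 x y
  set e' := min e ρ with he'
  have he'1 : -ρ ≤ e' := le_min heρ (by linarith only [hρ])
  have he'2 : e' ≤ ρ := min_le_right _ _
  have he'3 : e' ≤ e := min_le_left _ _
  have hae : ∀ᵐ t : ℝ, t ∉ ((K.toFinset ∪ L.toFinset : Finset ℝ) : Set ℝ) :=
    MeasureTheory.measure_eq_zero_iff_ae_notMem.mp ((Finset.finite_toSet _).measure_zero _)
  have hcnt : ∀ t, t ∉ ((K.toFinset ∪ L.toFinset : Finset ℝ) : Set ℝ) →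
      (0 : ℝ) ≤ (cnt L t : ℝ) - cnt K t ∧ (cnt L t : ℝ) - cnt K t ≤ 1 := by
    intro t ht
    have htK : t ∉ K := fun h => ht (by simp [h])
    have htL : t ∉ L := fun h => ht (by simp [h])
    have k1 := cnt_sub hcL hpL htL htK
    have a1 : (cnt K t : ℝ) ≤ cnt L t := by exact_mod_cast k1.1
    have a2 : (cnt L t : ℝ) ≤ cnt K t + 1 := by exact_mod_cast k1.2
    constructor <;> linarith only [a1, a2]
  have hdiff : (∫ t in (-ρ)..ρ, (derivative p).eval t * cnt L t) -
      (∫ t in (-ρ)..ρ, (derivative p).eval t * cnt K t) =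
      (∫ t in (-ρ)..e', (derivative p).eval t * ((cnt L t : ℝ) - cnt K t)) +
      ∫ t in e'..ρ, (derivative p).eval t * ((cnt L t : ℝ) - cnt K t) := by
    have i3 : ∀ x y, IntervalIntegrable
        (fun t => (derivative p).eval t * ((cnt L t : ℝ) - cnt K t)) MeasureTheory.volume x y := by
      intro x y
      have := (i1 x y).sub (i2 x y)
      refine this.congr_ae ?_
      exact Filter.Eventually.of_forall fun t => (mul_sub _ _ _).symm
    rw [intervalIntegral.integral_add_adjacent_intervals (i3 _ _) (i3 _ _),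
      ← intervalIntegral.integral_sub (i1 _ _) (i2 _ _)]
    congr 1
    funext t
    ring
  have hsecond : ∫ t in e'..ρ, (derivative p).eval t * ((cnt L t : ℝ) - cnt K t) = 0 := by
    apply intervalIntegral.integral_zero_ae
    filter_upwards [hae] with t ht htI
    rw [Set.uIoc_of_le he'2] at htI
    have hte : e < t := by
      rcases min_lt_iff.mp htI.1 with h | h
      · exact h
      · exact absurd htI.2 (not_le.mpr h)
    have hL0 : cnt L t = 0 := by
      unfold cnt
      rw [Multiset.card_eq_zero, Multiset.filter_eq_nil]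
      intro l hl
      exact not_lt.mpr (le_trans (he l hl) hte.le)
    have hK0 : (cnt K t : ℝ) = 0 := by
      have h1 := (hcnt t ht).1
      rw [hL0] at h1
      have h2 : (0 : ℝ) ≤ cnt K t := Nat.cast_nonneg _
      simp only [Nat.cast_zero, zero_sub, Left.nonneg_neg_iff] at h1
      linarith only [h1]
    rw [hL0, hK0]
    simp
  have hfirst : ∫ t in (-ρ)..e', (derivative p).eval t * ((cnt L t : ℝ) - cnt K t) ≤
      ∫ t in (-ρ)..e', (η / ((u - t) ^ 2 + η ^ 2) + κ) := by
    have i3 : IntervalIntegrable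
        (fun t => (derivative p).eval t * ((cnt L t : ℝ) - cnt K t)) MeasureTheory.volume
        (-ρ) e' := by
      have := (i1 (-ρ) e').sub (i2 (-ρ) e')
      refine this.congr_ae ?_
      exact Filter.Eventually.of_forall fun t => (mul_sub _ _ _).symm
    apply intervalIntegral.integral_mono_ae_restrict he'1 i3
      ((hc2.add continuous_const).intervalIntegrable _ _)
    rw [Filter.EventuallyLE, MeasureTheory.ae_restrict_iff' measurableSet_Icc]
    filter_upwards [hae] with t ht htI
    have hIcc : t ∈ Set.Icc (-ρ) ρ := ⟨htI.1, le_trans htI.2 he'2⟩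
    have h1 := (abs_le.mp (hp.deriv t hIcc)).2
    have h2 := hcnt t ht
    have h3 : 0 ≤ η / ((u - t) ^ 2 + η ^ 2) := by (clear * - hη; (clear * - hη; positivity))
    calc (derivative p).eval t * ((cnt L t : ℝ) - cnt K t)
        ≤ (η / ((u - t) ^ 2 + η ^ 2) + κ) * ((cnt L t : ℝ) - cnt K t) :=
          mul_le_mul_of_nonneg_right (by linarith only [h1]) h2.1
      _ ≤ (η / ((u - t) ^ 2 + η ^ 2) + κ) * 1 := mul_le_mul_of_nonneg_left h2.2 (by linarith only [hκ, h3])
      _ = _ := mul_one _
  have hval : ∫ t in (-ρ)..e', (η / ((u - t) ^ 2 + η ^ 2) + κ) =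
      gf u η e' - gf u η (-ρ) + κ * (e' + ρ) := by
    rw [intervalIntegral.integral_add (hc2.intervalIntegrable _ _)
      (continuous_const.intervalIntegrable _ _), intervalIntegral.integral_const,
      intervalIntegral.integral_eq_sub_of_hasDerivAt (fun t _ => gf_hasDerivAt hη t)
        (hc2.intervalIntegrable _ _), smul_eq_mul]
    ring
  have hgf : gf u η e' ≤ η / (u - e) := by
    refine le_trans (gf_le hη (lt_of_le_of_lt he'3 heu)) ?_
    exact div_le_div_of_nonneg_left hη.le (by linarith only [heu]) (by linarith only [he'3])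
  have h6 : sp p y s W = (L.map fun l => p.eval l).sum := rfl
  have h7 : sp p y s (W.erase w) = (K.map fun l => p.eval l).sum := rfl
  have h8 : (Multiset.card L : ℝ) = Multiset.card K + 1 := by
    rw [hcL]
    push_cast
    ring
  have h9 : κ * (e' + ρ) ≤ 2 * ρ * κ := by linarith only [mul_nonneg (sub_nonneg.2 hκ) (sub_nonneg.2 he'2)]
  have h10 : 0 ≤ (Multiset.card K : ℝ) := Nat.cast_nonneg _
  rw [h6, h7, e1, e2, h8, hp.left]
  rw [hsecond, add_zero] at hdiff
  linarith only [h9, hdiff, hfirst, hval, hgf]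

/-- adding a vertex does not decrease the functional (up to the error of the polynomial) -/
theorem erase_le (hr : 0 < r) (hy : Herm y) (hb : FB a b y) {p : ℝ[X]} {u η ρ κ : ℝ} (hη : 0 < η)
    (hab : 2 * max a b ≤ ρ) (hρ : 0 < ρ) (hκ : 0 ≤ κ) (hp : GoodPoly p u η ρ κ) (hw : w ∈ W) :
    sp p y s (W.erase w) ≤ sp p y s W + 2 * ρ * κ := by
  set K := rts (tw r y) (sl s) (W.erase w) with hK
  set L := rts (tw r y) (sl s) W with hL
  have hcL : Multiset.card L = Multiset.card K + 1 := card_rts_erase hr hw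
  have hpL : ∀ z : ℂ, 0 < z.im → 0 < (pr L z / pr K z).im := ratio_pos hr hy hw
  have hLb : ∀ l ∈ L, -ρ ≤ l ∧ l ≤ ρ := rts_bd hr hy hb hab
  have hKb : ∀ l ∈ K, -ρ ≤ l ∧ l ≤ ρ := rts_bd hr hy hb hab
  have hc1 : Continuous fun t : ℝ => (derivative p).eval t := (derivative p).continuous
  have e1 := sum_eq_integral (h := fun t => p.eval t) (h' := fun t => (derivative p).eval t) hLb
    (fun t => p.hasDerivAt t) hc1
  have e2 := sum_eq_integral (h := fun t => p.eval t) (h' := fun t => (derivative p).eval t) hKb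
    (fun t => p.hasDerivAt t) hc1
  have i1 := fun x y => cnt_intervalIntegrable L hc1 x y
  have i2 := fun x y => cnt_intervalIntegrable K hc1 x y
  have hae : ∀ᵐ t : ℝ, t ∉ ((K.toFinset ∪ L.toFinset : Finset ℝ) : Set ℝ) :=
    MeasureTheory.measure_eq_zero_iff_ae_notMem.mp ((Finset.finite_toSet _).measure_zero _)
  have hcnt : ∀ t, t ∉ ((K.toFinset ∪ L.toFinset : Finset ℝ) : Set ℝ) →
      (0 : ℝ) ≤ (cnt L t : ℝ) - cnt K t ∧ (cnt L t : ℝ) - cnt K t ≤ 1 := by
    intro t ht
    have htK : t ∉ K := fun h => ht (by simp [h])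
    have htL : t ∉ L := fun h => ht (by simp [h])
    have k1 := cnt_sub hcL hpL htL htK
    have a1 : (cnt K t : ℝ) ≤ cnt L t := by exact_mod_cast k1.1
    have a2 : (cnt L t : ℝ) ≤ cnt K t + 1 := by exact_mod_cast k1.2
    constructor <;> linarith only [a1, a2]
  have hdiff : ∫ t in (-ρ)..ρ, (-κ : ℝ) ≤ (∫ t in (-ρ)..ρ, (derivative p).eval t * cnt L t) -
      (∫ t in (-ρ)..ρ, (derivative p).eval t * cnt K t) := by
    rw [← intervalIntegral.integral_sub (i1 _ _) (i2 _ _)]
    apply intervalIntegral.integral_mono_ae_restrict (by linarith only [hρ])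
      (continuous_const.intervalIntegrable _ _) ((i1 _ _).sub (i2 _ _))
    rw [Filter.EventuallyLE, MeasureTheory.ae_restrict_iff' measurableSet_Icc]
    filter_upwards [hae] with t ht htI
    have h1 := (abs_le.mp (hp.deriv t htI)).1
    have h2 := hcnt t ht
    have h3 : 0 ≤ η / ((u - t) ^ 2 + η ^ 2) := by (clear * - hη; (clear * - hη; positivity))
    have h4 : -κ ≤ (derivative p).eval t := by linarith only [h1, h3]
    rw [← mul_sub]
    nlinarith only [hκ, h2, h1, h3]
  rw [intervalIntegral.integral_const, smul_eq_mul] at hdiff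
  have h6 : sp p y s W = (L.map fun l => p.eval l).sum := rfl
  have h7 : sp p y s (W.erase w) = (K.map fun l => p.eval l).sum := rfl
  have h8 : (Multiset.card L : ℝ) = Multiset.card K + 1 := by
    rw [hcL]
    push_cast
    ring
  have h9 := gf_nonneg (u := u) hη (-ρ)
  rw [h6, h7, e1, e2, h8, hp.left]
  linarith only [h9, hdiff]

/-- if there is a root above `u`, then the functional is large -/
theorem sp_ge (hr : 0 < r) (hy : Herm y) (hb : FB a b y) {p : ℝ[X]} {u η ρ κ : ℝ} (hη : 0 < η)
    (hab : 2 * max a b ≤ ρ) (hp : GoodPoly p u η ρ κ) {l : ℝ}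
    (hl : l ∈ rts (tw r y) (sl s) W) (hul : u ≤ l) :
    Real.pi / 2 - 2 * ρ * κ * W.card ≤ sp p y s W := by
  have hLb : ∀ l ∈ rts (tw r y) (sl s) W, -ρ ≤ l ∧ l ≤ ρ := rts_bd hr hy hb hab
  have h6 : sp p y s W = ((rts (tw r y) (sl s) W).map fun l => p.eval l).sum := rfl
  have hc := card_rts (y := tw r y) (s := sl s) (W := W) (card_slot_pos hr)
  obtain ⟨R, hR⟩ := Multiset.exists_cons_of_mem hl
  rw [h6, ← hc]
  rw [hR] at hLb ⊢
  have h1 := hp.lower hη (hLb l (Multiset.mem_cons_self _ _))
  have h2 := gf_ge hη hul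
  have h3 : ∀ R' : Multiset ℝ, (∀ l ∈ R', -ρ ≤ l ∧ l ≤ ρ) →
      - (2 * ρ * κ * Multiset.card R') ≤ (R'.map fun l => p.eval l).sum := by
    intro R' h
    induction R' using Multiset.induction_on with
    | empty => simp
    | cons m R' ih =>
      have h4 := hp.lower hη (h m (Multiset.mem_cons_self _ _))
      have h5 := ih fun l hl => h l (Multiset.mem_cons_of_mem hl)
      have h7 := gf_nonneg (u := u) hη m
      rw [Multiset.map_cons, Multiset.sum_cons, Multiset.card_cons]
      push_cast
      linarith only [h4, h5, h7]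
  have h4 := h3 R fun l hl => hLb l (Multiset.mem_cons_of_mem hl)
  rw [Multiset.map_cons, Multiset.sum_cons, Multiset.card_cons]
  push_cast
  linarith only [h1, h2, h4]

end Vale.Agent.P078.D
end

end
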