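import Vale.Agent.P078.Bdl.B3
import Vale.Agent.P078.Bdl.Fast

set_option linter.all false
attribute [local instance] Vale.Agent.P078.Fast.a01 Vale.Agent.P078.Fast.a02
  Vale.Agent.P078.Fast.a03 Vale.Agent.P078.Fast.a04 Vale.Agent.P078.Fast.a05
  Vale.Agent.P078.Fast.a06 Vale.Agent.P078.Fast.a07 Vale.Agent.P078.Fast.a08
  Vale.Agent.P078.Fast.a09 Vale.Agent.P078.Fast.a10 Vale.Agent.P078.Fast.a11
  Vale.Agent.P078.Fast.a12 Vale.Agent.P078.Fast.a13 Vale.Agent.P078.Fast.a14
  Vale.Agent.P078.Fast.a15 Vale.Agent.P078.Fast.a16 Vale.Agent.P078.Fast.a17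
  Vale.Agent.P078.Fast.a18 Vale.Agent.P078.Fast.a19 Vale.Agent.P078.Fast.a20
  Vale.Agent.P078.Fast.a21 Vale.Agent.P078.Fast.a22 Vale.Agent.P078.Fast.a23
  Vale.Agent.P078.Fast.a24 Vale.Agent.P078.Fast.a25 Vale.Agent.P078.Fast.a26
  Vale.Agent.P078.Fast.a27 Vale.Agent.P078.Fast.a28 Vale.Agent.P078.Fast.a29
  Vale.Agent.P078.Fast.a30 Vale.Agent.P078.Fast.a31 Vale.Agent.P078.Fast.a32
  Vale.Agent.P078.Fast.a33 Vale.Agent.P078.Fast.a34 Vale.Agent.P078.Fast.a35
  Vale.Agent.P078.Fast.a36 Vale.Agent.P078.Fast.a37 Vale.Agent.P078.Fast.a38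
  Vale.Agent.P078.Fast.a39 Vale.Agent.P078.Fast.a40 Vale.Agent.P078.Fast.a41
  Vale.Agent.P078.Fast.a42 Vale.Agent.P078.Fast.a43 Vale.Agent.P078.Fast.a44
  Vale.Agent.P078.Fast.a45 Vale.Agent.P078.Fast.a46 Vale.Agent.P078.Fast.a47
  Vale.Agent.P078.Fast.a48 Vale.Agent.P078.Fast.a49 Vale.Agent.P078.Fast.a50
  Vale.Agent.P078.Fast.a51 Vale.Agent.P078.Fast.a52 Vale.Agent.P078.Fast.a53
  Vale.Agent.P078.Fast.a54

section
local instance (priority := 1100) fastSMul {G X : Type*} [Group G] [MulAction G X] : SMul G X :=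
  inferInstance


section

/-! T4: cluster coefficients and properties of `SP`. -/

namespace Vale.Agent.P078.C

open Finset Polynomial

variable {α β : Type*} [DecidableEq α] [DecidableEq β] {r : ℕ}
variable {p : ℝ[X]} {y y' : α → α → ℂ} {s s' : α → Option (Fin r)} {W W' T T' : Finset α}

theorem SP_congr (hy : ∀ i ∈ W, ∀ j ∈ W, y i j = y' i j) (hs : ∀ i ∈ W, s i = s' i) :
    SP p y s W = SP p y' s' W := by
  unfold SP
  rw [rts_congr hy hs]

private theorem rts_of_chi {β : Type*} [DecidableEq β] {y : α → α → ℂ} {y' : β → β → ℂ}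
    {s : α → Option (Fin r)}
    {s' : β → Option (Fin r)} {W : Finset α} {W' : Finset β} (h : chi y s W = chi y' s' W') :
    rts y s W = rts y' s' W' := by
  unfold rts
  rw [h]

theorem SP_map (f : β ↪ α) (W : Finset β) :
    SP p y s (W.map f) = SP p (fun i j => y (f i) (f j)) (fun i => s (f i)) W := by
  have h : chi y s (W.map f) = chi (fun i j => y (f i) (f j)) (fun i => s (f i)) W := by
    have hp : (W.map f).powerset = W.powerset.map (Finset.mapEmbedding f).toEmbedding := by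
      ext S
      simp only [Finset.mem_powerset, Finset.subset_map_iff, Finset.mem_map,
        RelEmbedding.coe_toEmbedding, Finset.mapEmbedding_apply]
      exact ⟨fun ⟨u, hu, h⟩ => ⟨u, hu, h.symm⟩, fun ⟨u, hu, h⟩ => ⟨u, hu, h.symm⟩⟩
    unfold chi
    rw [hp, Finset.sum_map]
    refine Finset.sum_congr rfl fun S _ => ?_
    simp only [Finset.mapEmbedding_apply, RelEmbedding.coe_toEmbedding, Finset.card_map]
    rw [Q_map]
    rfl
  unfold SP
  rw [rts_of_chi h]

theorem SP_gauge (u : α → ℂ) (hu : ∀ i ∈ W, ‖u i‖ = 1)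
    (h : ∀ i ∈ W, ∀ j ∈ W, y' i j = star (u i) * y i j * u j) : SP p y' s W = SP p y s W := by
  have h : chi y' s W = chi y s W := by
    unfold chi
    refine Finset.sum_congr rfl fun S hS => ?_
    rw [Finset.mem_powerset] at hS
    rw [Q_gauge u (fun i hi => hu i (hS hi)) (fun i hi j hj => h i (hS hi) j (hS hj))]
  unfold SP
  rw [rts_of_chi h]

theorem SP_union (hr : 0 < r) (hy : Herm y) (hd : Disjoint W W')
    (h : ∀ i ∈ W, ∀ j ∈ W', y i j = 0 ∧ y j i = 0) :
    SP p y s (W ∪ W') = SP p y s W + SP p y s W' := by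
  unfold SP
  rw [rts_union hr hy hd h, Multiset.map_add, Multiset.sum_add]

/-! ### power sums and Newton's identities -/

/-- power sums of the roots -/
private noncomputable def ps (y : α → α → ℂ) (s : α → Option (Fin r)) (W : Finset α) (k : ℕ) : ℂ :=
  ((rts y s W).map fun l : ℝ => ((l : ℂ)) ^ k).sum

/-- elementary symmetric functions of the roots, up to sign -/
private noncomputable def cles (y : α → α → ℂ) (s : α → Option (Fin r)) (k : ℕ) (W : Finset α) : ℂ :=
  ∑ S ∈ W.powerset, if S.card = k then Q y s 0 S else 0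

private theorem newton (R : Multiset ℂ) (k : ℕ) (hk : 0 < k) :
    (R.map (fun l => l ^ k)).sum = (-1) ^ (k + 1) * k * R.esymm k -
      ∑ a ∈ (antidiagonal k).filter (fun a => a.1 ∈ Set.Ioo 0 k),
        (-1) ^ a.1 * R.esymm a.1 * (R.map (fun l => l ^ a.2)).sum := by
  obtain ⟨n, f, rfl⟩ : ∃ (n : ℕ) (f : Fin n → ℂ), R = (Finset.univ : Finset (Fin n)).val.map f := by
    induction R using Quotient.inductionOn with
    | h l =>
      refine ⟨l.length, l.get, ?_⟩
      rw [Fin.univ_val_map, List.ofFn_get]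
      rfl
  have h := congrArg (MvPolynomial.aeval f) (MvPolynomial.psum_eq_mul_esymm_sub_sum (Fin n) ℂ k hk)
  simp only [map_sub, map_mul, map_pow, map_neg, map_one, map_natCast, map_sum,
    MvPolynomial.aeval_esymm_eq_multiset_esymm, MvPolynomial.psum, MvPolynomial.aeval_X] at h
  simp only [Multiset.map_map, Function.comp_def]
  exact h

private theorem chi_eq_prod (hr : 0 < r) (hy : Herm y) :
    chi y s W = (((rts y s W).map (fun l : ℝ => (l : ℂ))).map fun l => X - C l).prod := by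
  refine Polynomial.funext fun t => ?_
  rw [eval_chi hr, Q_eq_prod hr hy, Polynomial.eval_multiset_prod, Multiset.map_map,
    Multiset.map_map]
  simp only [Function.comp_def, eval_sub, eval_X, eval_C, Function.comp_apply]

private theorem esymm_rts (hr : 0 < r) (hy : Herm y) (k : ℕ) :
    ((rts y s W).map (fun l : ℝ => (l : ℂ))).esymm k = (-1) ^ k * cles y s k W := by
  have hc : Multiset.card ((rts y s W).map (fun l : ℝ => (l : ℂ))) = W.card := by
    rw [Multiset.card_map, card_rts hr]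
  by_cases hk : k ≤ W.card
  · have h1 := Multiset.prod_X_sub_C_coeff ((rts y s W).map (fun l : ℝ => (l : ℂ)))
      (k := W.card - k) (by rw [hc]; exact Nat.sub_le _ _)
    rw [hc, Nat.sub_sub_self hk, ← chi_eq_prod hr hy] at h1
    have h2 : (chi y s W).coeff (W.card - k) = cles y s k W := by
      unfold chi cles
      rw [Polynomial.finsetSum_coeff]
      refine Finset.sum_congr rfl fun S hS => ?_
      rw [Finset.mem_powerset] at hS
      have h3 := Finset.card_le_card hS
      rw [Polynomial.coeff_C_mul_X_pow]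
      refine if_congr ?_ rfl rfl
      (clear * - hk h3; omega)
    rw [← h2, h1, ← mul_assoc, ← pow_add, Even.neg_one_pow ⟨k, rfl⟩, one_mul]
  · have h1 : cles y s k W = 0 := by
      unfold cles
      refine Finset.sum_eq_zero fun S hS => ?_
      rw [Finset.mem_powerset] at hS
      have h3 := Finset.card_le_card hS
      rw [if_neg (by omega)]
    rw [h1, mul_zero]
    unfold Multiset.esymm
    rw [Multiset.powersetCard_eq_empty _ (by rw [hc]; omega)]
    rfl

private theorem ps_newton (hr : 0 < r) (hy : Herm y) (k : ℕ) (hk : 0 < k) :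
    ps y s W k = (-1) ^ (k + 1) * k * ((-1) ^ k * cles y s k W) -
      ∑ a ∈ (antidiagonal k).filter (fun a => a.1 ∈ Set.Ioo 0 k),
        (-1) ^ a.1 * ((-1) ^ a.1 * cles y s a.1 W) * ps y s W a.2 := by
  have h := newton ((rts y s W).map (fun l : ℝ => (l : ℂ))) k hk
  simp only [Multiset.map_map, Function.comp_def, esymm_rts hr hy] at h
  exact h

private theorem ps_zero (hr : 0 < r) : ps y s W 0 = W.card := by
  unfold ps
  simp [card_rts hr]

private theorem SP_eq_ps : (SP p y s W : ℂ) =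
    ∑ k ∈ range (p.natDegree + 1), (p.coeff k : ℂ) * ps y s W k := by
  unfold SP ps
  induction rts y s W using Multiset.induction_on with
  | empty => simp only [Multiset.map_zero, Multiset.sum_zero, Complex.ofReal_zero, mul_zero, sum_const_zero]
  | cons a R ih =>
    simp only [Multiset.map_cons, Multiset.sum_cons, mul_add, Finset.sum_add_distrib]
    rw [← ih, Complex.ofReal_add, Polynomial.eval_eq_sum_range]
    simp only [Complex.ofReal_sum, Complex.ofReal_mul, Complex.ofReal_pow]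

/-- the power sums of the roots depend continuously on the kernel -/
theorem continuous_SP (hr : 0 < r) {Z : Type*} [TopologicalSpace Z] {y : Z → α → α → ℂ}
    (hh : ∀ t, Herm (y t)) (hy : ∀ i ∈ W, ∀ j ∈ W, Continuous fun t => y t i j) :
    Continuous fun t => SP p (y t) s W := by
  have h1 : ∀ k, Continuous fun t => cles (y t) s k W := by
    intro k
    unfold cles
    refine continuous_finsetSum _ fun S hS => ?_
    rw [Finset.mem_powerset] at hS
    by_cases hk : S.card = k
    · simp only [hk, if_true]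
      exact continuous_Q (fun i hi j hj => hy i (hS hi) j (hS hj)) (fun i _ => continuous_const)
    · simp only [hk, if_false]
      exact continuous_const
  have h2 : ∀ k, Continuous fun t => ps (y t) s W k := by
    intro k
    induction k using Nat.strong_induction_on with
    | _ k ih =>
      rcases Nat.eq_zero_or_pos k with rfl | hk
      · simp only [ps_zero hr]
        exact continuous_const
      · have h3 : (fun t => ps (y t) s W k) = fun t =>
          (-1) ^ (k + 1) * k * ((-1) ^ k * cles (y t) s k W) -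
          ∑ a ∈ (antidiagonal k).filter (fun a => a.1 ∈ Set.Ioo 0 k),
          (-1) ^ a.1 * ((-1) ^ a.1 * cles (y t) s a.1 W) * ps (y t) s W a.2 :=
          funext fun t => ps_newton hr (hh t) k hk
        rw [h3]
        refine Continuous.sub (continuous_const.mul (continuous_const.mul (h1 k))) ?_
        refine continuous_finsetSum _ fun a ha => ?_
        rw [Finset.mem_filter, HasAntidiagonal.mem_antidiagonal, Set.mem_Ioo] at ha
        exact (continuous_const.mul (continuous_const.mul (h1 a.1))).mul (ih a.2 (by omega))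
  have h4 : Continuous fun t => (SP p (y t) s W : ℂ) := by
    have h5 : (fun t => (SP p (y t) s W : ℂ)) = fun t =>
      ∑ k ∈ range (p.natDegree + 1), (p.coeff k : ℂ) * ps (y t) s W k :=
      funext fun t => SP_eq_ps
    rw [h5]
    exact continuous_finsetSum _ fun k _ => continuous_const.mul (h2 k)
  have h6 := Complex.continuous_re.comp h4
  simpa [Function.comp_def] using h6

/-! ### fully decided states -/

private theorem trace_pow_herm {n : Type*} [Fintype n] [DecidableEq n] {A : Matrix n n ℂ}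
    (hA : A.IsHermitian) (k : ℕ) : (A ^ k).trace = ∑ i, ((hA.eigenvalues i : ℝ) : ℂ) ^ k := by
  have h1 := hA.spectral_theorem
  have h2 : A ^ k = (hA.eigenvectorUnitary : Matrix n n ℂ) *
      (Matrix.diagonal (fun i => ((hA.eigenvalues i : ℝ) : ℂ))) ^ k *
      star (hA.eigenvectorUnitary : Matrix n n ℂ) := by
    conv_lhs => rw [h1, ← map_pow]
    rw [Unitary.conjStarAlgAut_apply]
    rfl
  rw [h2, Matrix.trace_mul_comm, ← mul_assoc, Unitary.coe_star_mul_self, one_mul,
    Matrix.diagonal_pow, Matrix.trace_diagonal]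
  rfl

private theorem pw_eq (t : α → α → ℂ) (W : Finset α) (k : ℕ) (v w : W) :
    pw t W k v w = ((Matrix.of fun i j : W => t i j) ^ k) v w := by
  induction k generalizing v with
  | zero =>
    rw [pow_zero, Matrix.one_apply]
    unfold pw
    refine if_congr ?_ rfl rfl
    exact Subtype.coe_inj
  | succ k ih =>
    rw [pow_succ', Matrix.mul_apply]
    unfold pw
    rw [← Finset.sum_coe_sort]
    refine Finset.sum_congr rfl fun u _ => ?_
    rw [ih u]
    rfl

theorem SP_some (hr : 0 < r) (hy : Herm y) (c : α → Fin r) (hs : ∀ i ∈ W, s i = some (c i)) :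
    SP p y s W = ∑ v ∈ W, locmom p y c W v := by
  set A : Matrix W W ℂ := Matrix.of fun i j : W => yc y c i j with hAdef
  have hA : A.IsHermitian := by
    refine Matrix.IsHermitian.ext fun i j => ?_
    simp only [hAdef, yc, Matrix.of_apply]
    by_cases h : c i = c j
    · rw [if_pos h, if_pos h.symm, ← hy]
    · rw [if_neg h, if_neg (fun h' => h h'.symm), star_zero]
  have h1 : rts y s W = (Finset.univ : Finset W).val.map hA.eigenvalues := by
    refine rts_unique hr _ fun t => ?_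
    rw [Q_some hr c hs, Multiset.map_map]
    have h2 : (A.charpoly).eval t = ((Finset.univ : Finset W).val.map
        ((fun l : ℝ => t - (l : ℂ)) ∘ hA.eigenvalues)).prod := by
      rw [hA.charpoly_eq, Polynomial.eval_prod]
      simp only [Finset.prod, univ_eq_attach, attach_val, Complex.coe_algebraMap, eval_sub, eval_X, eval_C, Function.comp_apply]
    rw [← h2, Matrix.eval_charpoly]
    congr 1
  have h3 : ∀ k, (∑ i, (hA.eigenvalues i) ^ k) = ∑ v ∈ W, (pw (yc y c) W k v v).re := by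
    intro k
    have h4 := trace_pow_herm hA k
    have h5 : ((∑ i, (hA.eigenvalues i) ^ k : ℝ) : ℂ) = (A ^ k).trace := by
      rw [h4]
      push_cast
      rfl
    have h6 : (∑ i, (hA.eigenvalues i) ^ k : ℝ) = ((A ^ k).trace).re := by
      rw [← h5, Complex.ofReal_re]
    rw [h6, Matrix.trace, Complex.re_sum, ← Finset.sum_coe_sort W]
    refine Finset.sum_congr rfl fun v _ => ?_
    rw [pw_eq]
    rfl
  unfold SP locmom
  rw [h1, Multiset.map_map, Finset.sum_comm]
  simp only [← mul_sum, ← h3]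
  simp only [Finset.mul_sum]
  rw [Finset.sum_comm]
  simp only [Function.comp_def, Polynomial.eval_eq_sum_range]
  rfl

/-! ### cluster coefficients -/

theorem kap_congr (hy : ∀ i ∈ T, ∀ j ∈ T, y i j = y' i j) (hs : ∀ i ∈ T, s i = s' i) :
    kap p y s T = kap p y' s' T := by
  unfold kap
  refine Finset.sum_congr rfl fun W hW => ?_
  rw [Finset.mem_powerset] at hW
  rw [SP_congr (fun i hi j hj => hy i (hW hi) j (hW hj)) (fun i hi => hs i (hW hi))]

private theorem sum_toggle {R : Type*} [CommRing R] {S : Finset α} {x : α} (hx : x ∈ S)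
    (G : Finset α → R) (hG : ∀ W ⊆ S.erase x, G (insert x W) = G W) :
    ∑ W ∈ S.powerset, (-1 : R) ^ (S.card - W.card) * G W = 0 := by
  obtain ⟨S', hx', rfl⟩ : ∃ S', x ∉ S' ∧ S = insert x S' :=
    ⟨S.erase x, Finset.notMem_erase _ _, (Finset.insert_erase hx).symm⟩
  rw [Finset.erase_insert hx'] at hG
  rw [Finset.sum_powerset_insert hx', ← Finset.sum_add_distrib]
  refine Finset.sum_eq_zero fun W hW => ?_
  rw [Finset.mem_powerset] at hW
  have h1 : x ∉ W := fun h => hx' (hW h)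
  rw [hG W hW, Finset.card_insert_of_notMem hx', Finset.card_insert_of_notMem h1]
  have h2 := Finset.card_le_card hW
  rw [show S'.card + 1 - W.card = (S'.card - W.card) + 1 by omega,
    show S'.card + 1 - (W.card + 1) = S'.card - W.card by (clear * - h2; omega)]
  ring

private theorem sum_sign {R : Type*} [CommRing R] {V W : Finset α} (h : V ⊆ W) :
    ∑ T ∈ W.powerset.filter (fun T => V ⊆ T), (-1 : R) ^ (W.card - T.card) =
      if V = W then 1 else 0 := by
  split_ifs with hVW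
  · subst hVW
    rw [Finset.sum_eq_single V]
    · simp only [tsub_self, pow_zero]
    · intro T hT hne
      exfalso
      rw [Finset.mem_filter, Finset.mem_powerset] at hT
      exact hne (Finset.Subset.antisymm hT.1 hT.2)
    · intro hV
      exact absurd (by simp only [mem_filter, mem_powerset, Std.le_refl, and_self]) hV
  · obtain ⟨x, hxW, hxV⟩ := Finset.exists_of_ssubset (Finset.ssubset_iff_subset_ne.2 ⟨h, hVW⟩)
    rw [Finset.sum_filter]
    have h1 := sum_toggle (R := R) hxW (fun T => if V ⊆ T then 1 else 0) (by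
      intro T _
      refine if_congr ?_ rfl rfl
      rw [Finset.subset_insert_iff_of_notMem hxV])
    refine Eq.trans (Finset.sum_congr rfl fun T _ => ?_) h1
    by_cases h2 : V ⊆ T
    · rw [if_pos h2, if_pos h2, mul_one]
    · rw [if_neg h2, if_neg h2, mul_zero]

private theorem sum_sign' {R : Type*} [CommRing R] {V W : Finset α} (h : V ⊆ W) :
    ∑ T ∈ W.powerset.filter (fun T => V ⊆ T), (-1 : R) ^ (T.card - V.card) =
      if V = W then 1 else 0 := by
  have h1 : ∑ T ∈ W.powerset.filter (fun T => V ⊆ T), (-1 : R) ^ (T.card - V.card) =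
      (-1) ^ (W.card - V.card) *
      ∑ T ∈ W.powerset.filter (fun T => V ⊆ T), (-1 : R) ^ (W.card - T.card) := by
    rw [Finset.mul_sum]
    refine Finset.sum_congr rfl fun T hT => ?_
    rw [Finset.mem_filter, Finset.mem_powerset] at hT
    have h2 := Finset.card_le_card hT.1
    have h3 := Finset.card_le_card hT.2
    rw [← pow_add, show W.card - V.card + (W.card - T.card) =
      (T.card - V.card) + 2 * (W.card - T.card) by omega, pow_add, pow_mul]
    simp only [even_two, Even.neg_pow, one_pow, mul_one]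
  rw [h1, sum_sign h]
  split_ifs with h2
  · subst h2
    simp only [tsub_self, pow_zero, mul_one]
  · simp only [mul_zero]

private theorem mobius {R : Type*} [CommRing R] (g : Finset α → R) (W : Finset α) :
    ∑ T ∈ W.powerset, (-1 : R) ^ (W.card - T.card) * ∑ U ∈ T.powerset, g U = g W := by
  have h1 : ∑ T ∈ W.powerset, (-1 : R) ^ (W.card - T.card) * ∑ U ∈ T.powerset, g U =
      ∑ U ∈ W.powerset, ∑ T ∈ W.powerset.filter (fun T => U ⊆ T),
        (-1 : R) ^ (W.card - T.card) * g U := by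
    simp only [Finset.mul_sum]
    refine Finset.sum_comm' fun T U => ?_
    simp only [Finset.mem_powerset, Finset.mem_filter]
    exact ⟨fun ⟨h1, h2⟩ => ⟨⟨h1, h2⟩, h2.trans h1⟩, fun ⟨⟨h1, h2⟩, _⟩ => ⟨h1, h2⟩⟩
  rw [h1, Finset.sum_eq_single W]
  · rw [← Finset.sum_mul, sum_sign (Finset.Subset.refl W), if_pos rfl, one_mul]
  · intro U hU hne
    rw [Finset.mem_powerset] at hU
    rw [← Finset.sum_mul, sum_sign hU, if_neg hne, zero_mul]
  · intro h
    exact absurd (by simp) h

theorem sum_kap (W : Finset α) : ∑ T ∈ W.powerset, kap p y s T = SP p y s W := by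
  unfold kap
  have h1 : ∑ T ∈ W.powerset, ∑ V ∈ T.powerset, (-1 : ℝ) ^ (T.card - V.card) * SP p y s V =
      ∑ V ∈ W.powerset, ∑ T ∈ W.powerset.filter (fun T => V ⊆ T),
        (-1 : ℝ) ^ (T.card - V.card) * SP p y s V := by
    refine Finset.sum_comm' fun T U => ?_
    simp only [Finset.mem_powerset, Finset.mem_filter]
    exact ⟨fun ⟨h1, h2⟩ => ⟨⟨h1, h2⟩, h2.trans h1⟩, fun ⟨⟨h1, h2⟩, _⟩ => ⟨h1, h2⟩⟩
  rw [h1, Finset.sum_eq_single W]
  · rw [← Finset.sum_mul, sum_sign' (Finset.Subset.refl W), if_pos rfl, one_mul]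
  · intro U hU hne
    rw [Finset.mem_powerset] at hU
    rw [← Finset.sum_mul, sum_sign' hU, if_neg hne, zero_mul]
  · intro h
    exact absurd (by simp) h

theorem kap_disconn (hr : 0 < r) (hy : Herm y) (hT : T.Nonempty) (hT' : T'.Nonempty)
    (hd : Disjoint T T') (h : ∀ i ∈ T, ∀ j ∈ T', y i j = 0) : kap p y s (T ∪ T') = 0 := by
  obtain ⟨x, hx⟩ := hT
  obtain ⟨x', hx'⟩ := hT'
  have hxT' : x ∉ T' := Finset.disjoint_left.1 hd hx
  have hxT : x' ∉ T := Finset.disjoint_right.1 hd hx'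
  have h1 : ∀ W ∈ (T ∪ T').powerset, SP p y s W = SP p y s (W ∩ T) + SP p y s (W ∩ T') := by
    intro W hW
    rw [Finset.mem_powerset] at hW
    have h2 : W = (W ∩ T) ∪ (W ∩ T') := by
      rw [← Finset.inter_union_distrib_left]
      exact (Finset.inter_eq_left.2 hW).symm
    conv_lhs => rw [h2]
    refine SP_union hr hy ?_ ?_
    · exact Finset.disjoint_of_subset_left Finset.inter_subset_right
        (Finset.disjoint_of_subset_right Finset.inter_subset_right hd)
    · intro i hi j hj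
      have h3 := h i (Finset.mem_inter.1 hi).2 j (Finset.mem_inter.1 hj).2
      exact ⟨h3, by rw [hy i j, h3, star_zero]⟩
  unfold kap
  rw [Finset.sum_congr rfl fun W hW => by rw [h1 W hW, mul_add], Finset.sum_add_distrib,
    sum_toggle (Finset.mem_union_right T hx') (fun W => SP p y s (W ∩ T)) (by
      intro W _
      simp only [Finset.insert_inter_of_notMem hxT]),
    sum_toggle (Finset.mem_union_left T' hx) (fun W => SP p y s (W ∩ T')) (by
      intro W _
      simp only [Finset.insert_inter_of_notMem hxT']), add_zero]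

/-! ### set functions of bounded degree -/

private def Deg (k : ℕ) (F : Finset α → ℂ) : Prop :=
  ∃ g : Finset α → ℂ, (∀ T, k < T.card → g T = 0) ∧ ∀ W, F W = ∑ T ∈ W.powerset, g T

omit [DecidableEq α] in
private theorem Deg.mono {k k' : ℕ} {F : Finset α → ℂ} (h : Deg k F) (hk : k ≤ k') : Deg k' F := by
  obtain ⟨g, h1, h2⟩ := h
  exact ⟨g, fun T hT => h1 T (by omega), h2⟩

omit [DecidableEq α] in
private theorem Deg.const_mul {k : ℕ} {F : Finset α → ℂ} (h : Deg k F) (c : ℂ) :
    Deg k (fun W => c * F W) := by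
  obtain ⟨g, h1, h2⟩ := h
  refine ⟨fun T => c * g T, fun T hT => ?_, fun W => ?_⟩
  · simp only [h1 T hT, mul_zero]
  · simp only [h2 W, Finset.mul_sum]

omit [DecidableEq α] in
private theorem Deg.sum {ι : Type*} {k : ℕ} (I : Finset ι) (F : ι → Finset α → ℂ)
    (h : ∀ i ∈ I, Deg k (F i)) : Deg k (fun W => ∑ i ∈ I, F i W) := by
  classical
  choose! g hg using h
  refine ⟨fun T => ∑ i ∈ I, g i T, fun T hT => ?_, fun W => ?_⟩
  · exact Finset.sum_eq_zero fun i hi => (hg i hi).1 T hT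
  · rw [Finset.sum_comm]
    exact Finset.sum_congr rfl fun i hi => (hg i hi).2 W

omit [DecidableEq α] in
private theorem Deg.sub {k : ℕ} {F G : Finset α → ℂ} (h : Deg k F) (h' : Deg k G) :
    Deg k (fun W => F W - G W) := by
  obtain ⟨g, h1, h2⟩ := h
  obtain ⟨g', h1', h2'⟩ := h'
  refine ⟨fun T => g T - g' T, fun T hT => ?_, fun W => ?_⟩
  · simp only [h1 T hT, h1' T hT, sub_zero]
  · simp only [h2 W, h2' W, Finset.sum_sub_distrib]

private theorem Deg.mul {k k' : ℕ} {F G : Finset α → ℂ} (h : Deg k F) (h' : Deg k' G) :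
    Deg (k + k') (fun W => F W * G W) := by
  obtain ⟨g, h1, h2⟩ := h
  obtain ⟨g', h1', h2'⟩ := h'
  refine ⟨fun U => ∑ q ∈ (U.powerset ×ˢ U.powerset).filter (fun q => q.1 ∪ q.2 = U),
    g q.1 * g' q.2, fun U hU => ?_, fun W => ?_⟩
  · refine Finset.sum_eq_zero fun q hq => ?_
    rw [Finset.mem_filter] at hq
    have h3 := Finset.card_union_le q.1 q.2
    rw [hq.2] at h3
    by_cases h4 : k < q.1.card
    · rw [h1 _ h4, zero_mul]
    · rw [h1' q.2 (by omega), mul_zero]
  · simp only [h2 W, h2' W]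
    rw [Finset.sum_mul_sum, ← Finset.sum_product']
    rw [← Finset.sum_fiberwise_of_maps_to (s := W.powerset ×ˢ W.powerset) (t := W.powerset)
      (g := fun q => q.1 ∪ q.2)]
    · refine Finset.sum_congr rfl fun U hU => ?_
      rw [Finset.mem_powerset] at hU
      refine Finset.sum_congr ?_ fun _ _ => rfl
      ext q
      simp only [Finset.mem_filter, Finset.mem_product, Finset.mem_powerset]
      refine ⟨fun ⟨_, h⟩ => ⟨⟨?_, ?_⟩, h⟩, fun ⟨h, h'⟩ => ⟨⟨h.1.trans hU, h.2.trans hU⟩, h'⟩⟩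
      · rw [← h]
        exact Finset.subset_union_left
      · rw [← h]
        exact Finset.subset_union_right
    · intro q hq
      rw [Finset.mem_product, Finset.mem_powerset, Finset.mem_powerset] at hq
      rw [Finset.mem_powerset]
      exact Finset.union_subset hq.1 hq.2

private theorem Deg.kap {k : ℕ} {F : Finset α → ℂ} (h : Deg k F) {T : Finset α}
    (hT : k < T.card) : ∑ W ∈ T.powerset, (-1 : ℂ) ^ (T.card - W.card) * F W = 0 := by
  obtain ⟨g, h1, h2⟩ := h
  simp only [h2]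
  rw [mobius, h1 T hT]

private theorem deg_es (k : ℕ) : Deg k (cles y s k) := by
  refine ⟨fun S => if S.card = k then Q y s 0 S else 0, fun T hT => ?_, fun W => rfl⟩
  exact if_neg (by omega)

private theorem deg_ps_zero (hr : 0 < r) : Deg 1 (fun W => ps y s W 0) := by
  refine ⟨fun S => if S.card = 1 then 1 else 0, fun T hT => ?_, fun W => ?_⟩
  · exact if_neg (by omega)
  · simp only
    rw [ps_zero hr, Finset.sum_ite, Finset.sum_const_zero, add_zero, Finset.sum_const,
      ← Finset.powersetCard_eq_filter]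
    simp

private theorem deg_ps (hr : 0 < r) (hy : Herm y) (k : ℕ) (hk : 0 < k) :
    Deg k (fun W => ps y s W k) := by
  induction k using Nat.strong_induction_on with
  | _ k ih =>
    have h3 : (fun W => ps y s W k) = fun W =>
      (-1) ^ (k + 1) * k * ((-1) ^ k * cles y s k W) -
      ∑ a ∈ (antidiagonal k).filter (fun a => a.1 ∈ Set.Ioo 0 k),
      (-1) ^ a.1 * ((-1) ^ a.1 * cles y s a.1 W) * ps y s W a.2 :=
      funext fun t => ps_newton hr hy k hk
    rw [h3]
    refine Deg.sub (Deg.const_mul (Deg.const_mul (deg_es k) _) _) ?_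
    refine Deg.sum _ _ fun a ha => ?_
    rw [Finset.mem_filter, HasAntidiagonal.mem_antidiagonal, Set.mem_Ioo] at ha
    have h4 := ih a.2 (by omega) (by omega)
    have h5 := Deg.mul (Deg.const_mul (Deg.const_mul (deg_es (y := y) (s := s) a.1) ((-1) ^ a.1))
      ((-1) ^ a.1)) h4
    rw [ha.1] at h5
    exact h5

theorem kap_large (hr : 0 < r) (hy : Herm y) (h : p.natDegree < T.card) (h1 : 1 < T.card) :
    kap p y s T = 0 := by
  have h2 : ((kap p y s T : ℝ) : ℂ) = 0 := by
    unfold kap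
    push_cast
    refine Deg.kap (k := max p.natDegree 1) ?_ (by omega)
    have h3 : (fun W => (SP p y s W : ℂ)) = fun W =>
      ∑ k ∈ range (p.natDegree + 1), (p.coeff k : ℂ) * ps y s W k := funext fun W => SP_eq_ps
    rw [h3]
    refine Deg.sum _ _ fun k hk => Deg.const_mul ?_ _
    rw [Finset.mem_range] at hk
    rcases Nat.eq_zero_or_pos k with rfl | hk'
    · exact (deg_ps_zero hr).mono (le_max_right _ _)
    · exact (deg_ps hr hy k hk').mono (le_trans (by omega) (le_max_left _ _))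
  exact_mod_cast h2

end Vale.Agent.P078.C
end

section

/-! T5: infinite volume. -/

namespace Vale.Agent.P078.C

open Finset Polynomial
open scoped Pointwise Classical

/-- A local system: a group acting on a space, an invariant mean, a kernel of finite range along
the orbits, continuous up to gauge. -/
structure Sys (X G : Type*) [TopologicalSpace X] [Group G] [MulAction G X] where
  cont : ∀ g : G, Continuous fun x : X => g • x
  fixc : ∀ g : G, IsClopen {x : X | g • x = x}
  I : C(X, ℝ) →ₗ[ℝ] ℝ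
  I_nonneg : ∀ f : C(X, ℝ), (∀ x, 0 ≤ f x) → 0 ≤ I f
  I_one : I 1 = 1
  I_inv : ∀ (g : G) (f f' : C(X, ℝ)), (∀ x, f' x = f (g • x)) → I f' = I f
  S : Finset G
  one_mem : (1 : G) ∈ S
  inv_mem : ∀ g ∈ S, g⁻¹ ∈ S
  y : X → X → ℂ
  herm : Herm y
  zd : ZD y
  range : ∀ v w, y v w ≠ 0 → ∃ g ∈ S, v = g • w
  a : ℝ
  b : ℝ
  bound : FB a b y
  k : G → G → X → ℂ
  k_cont : ∀ g h, Continuous (k g h)
  gauge : ∀ x, ∃ u : G → ℂ, (∀ g, ‖u g‖ = 1) ∧
    ∀ g h, y (g • x) (h • x) = star (u g) * k g h x * u h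

namespace Sys

variable {X G : Type*} [TopologicalSpace X] [Group G] [MulAction G X]

/-- the set of products of `n` elements of `S` -/
noncomputable def ballG (𝔖 : Sys X G) (n : ℕ) : Finset G := 𝔖.S ^ n

/-- the ball of radius `n` around `x` -/
noncomputable def ball (𝔖 : Sys X G) (n : ℕ) (x : X) : Finset X :=
  (𝔖.ballG n).image fun g => g • x

/-- finite sets of diameter at most `n` -/
def TT (𝔖 : Sys X G) (n : ℕ) (T : Finset X) : Prop := ∀ v ∈ T, ∀ w ∈ T, v ∈ 𝔖.ball n w

/-- finite sets of diameter at most `n` containing `x` -/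
noncomputable def TTs (𝔖 : Sys X G) (n : ℕ) (x : X) : Finset (Finset X) :=
  (𝔖.ball n x).powerset.filter fun T => 𝔖.TT n T ∧ x ∈ T

/-- the local density of the functional -/
noncomputable def dens (𝔖 : Sys X G) {r : ℕ} (p : ℝ[X]) (n : ℕ) (s : X → Option (Fin r))
    (x : X) : ℝ := ∑ T ∈ 𝔖.TTs n x, kap p 𝔖.y s T / T.card

theorem one_mem_ballG (𝔖 : Sys X G) (n : ℕ) : (1 : G) ∈ 𝔖.ballG n := by
  unfold ballG
  induction n with
  | zero => simp
  | succ n ih =>
    rw [pow_succ]
    exact Finset.mem_mul.mpr ⟨1, ih, 1, 𝔖.one_mem, by simp⟩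

theorem inv_mem_ballG (𝔖 : Sys X G) {n : ℕ} {g : G} (hg : g ∈ 𝔖.ballG n) : g⁻¹ ∈ 𝔖.ballG n := by
  unfold ballG at hg ⊢
  induction n generalizing g with
  | zero =>
    simp only [pow_zero, Finset.mem_one] at hg ⊢
    simp [hg]
  | succ n ih =>
    rw [pow_succ] at hg
    obtain ⟨a, ha, b, hb, rfl⟩ := Finset.mem_mul.mp hg
    rw [pow_succ']
    exact Finset.mem_mul.mpr ⟨b⁻¹, 𝔖.inv_mem b hb, a⁻¹, ih ha, by simp only [mul_inv_rev]⟩

theorem mem_ball {𝔖 : Sys X G} {n : ℕ} {x v : X} : v ∈ 𝔖.ball n x ↔ ∃ g ∈ 𝔖.ballG n, v = g • x := by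
  unfold ball
  rw [Finset.mem_image]
  constructor
  · rintro ⟨g, hg, h⟩
    exact ⟨g, hg, h.symm⟩
  · rintro ⟨g, hg, h⟩
    exact ⟨g, hg, h.symm⟩

theorem mem_ball_comm {𝔖 : Sys X G} {n : ℕ} {x v : X} : v ∈ 𝔖.ball n x ↔ x ∈ 𝔖.ball n v := by
  have key : ∀ x v : X, v ∈ 𝔖.ball n x → x ∈ 𝔖.ball n v := by
    intro x v h
    obtain ⟨g, hg, rfl⟩ := mem_ball.mp h
    exact mem_ball.mpr ⟨g⁻¹, 𝔖.inv_mem_ballG hg, by simp⟩
  exact ⟨key x v, key v x⟩

theorem mem_ball_self (𝔖 : Sys X G) (n : ℕ) (x : X) : x ∈ 𝔖.ball n x :=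
  mem_ball.mpr ⟨1, 𝔖.one_mem_ballG n, by simp⟩

theorem ballG_mono {𝔖 : Sys X G} {m n : ℕ} (h : m ≤ n) : 𝔖.ballG m ⊆ 𝔖.ballG n := by
  obtain ⟨k, rfl⟩ := Nat.exists_eq_add_of_le h
  intro g hg
  unfold ballG at hg ⊢
  rw [pow_add]
  exact Finset.mem_mul.mpr ⟨g, hg, 1, 𝔖.one_mem_ballG k, by simp⟩

theorem ball_mono {𝔖 : Sys X G} {m n : ℕ} (h : m ≤ n) (x : X) : 𝔖.ball m x ⊆ 𝔖.ball n x := by
  intro v hv
  obtain ⟨g, hg, rfl⟩ := mem_ball.mp hv
  exact mem_ball.mpr ⟨g, ballG_mono h hg, rfl⟩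

theorem ball_trans {𝔖 : Sys X G} {m n : ℕ} {x v w : X} (h1 : v ∈ 𝔖.ball m x)
    (h2 : w ∈ 𝔖.ball n v) : w ∈ 𝔖.ball (m + n) x := by
  obtain ⟨g, hg, rfl⟩ := mem_ball.mp h1
  obtain ⟨h, hh, rfl⟩ := mem_ball.mp h2
  refine mem_ball.mpr ⟨h * g, ?_, by rw [mul_smul]⟩
  unfold ballG at hg hh ⊢
  rw [add_comm m n, pow_add]
  exact Finset.mul_mem_mul hh hg

theorem ball_of_edge {𝔖 : Sys X G} {v w : X} (h : 𝔖.y v w ≠ 0) : v ∈ 𝔖.ball 1 w := by
  obtain ⟨g, hg, hv⟩ := 𝔖.range v w h
  exact mem_ball.mpr ⟨g, by unfold ballG; simpa using hg, hv⟩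

end Sys

end Vale.Agent.P078.C
end

section

namespace Vale.Agent.P078.C

open Finset Polynomial
open scoped Pointwise Classical

namespace Sys

variable {X G : Type*} [TopologicalSpace X] [Group G] [MulAction G X]

/-! ### T5a: mass transport -/

/-- the number of elements of the ball in the group which move `x` to `v` -/
noncomputable def mult (𝔖 : Sys X G) (n : ℕ) (x v : X) : ℕ :=
  ((𝔖.ballG n).filter fun g => g • x = v).card

theorem mult_comm (𝔖 : Sys X G) (n : ℕ) (x v : X) : 𝔖.mult n x v = 𝔖.mult n v x := by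
  unfold mult
  refine Finset.card_bij' (fun g _ => g⁻¹) (fun g _ => g⁻¹) ?_ ?_ ?_ ?_
  · intro g hg
    rw [Finset.mem_filter] at hg ⊢
    exact ⟨𝔖.inv_mem_ballG hg.1, by rw [← hg.2]; simp⟩
  · intro g hg
    rw [Finset.mem_filter] at hg ⊢
    exact ⟨𝔖.inv_mem_ballG hg.1, by rw [← hg.2]; simp⟩
  · intro g _
    simp
  · intro g _
    simp

theorem mult_pos (𝔖 : Sys X G) {n : ℕ} {x : X} {g : G} (hg : g ∈ 𝔖.ballG n) :
    0 < 𝔖.mult n x (g • x) := by
  unfold mult
  exact Finset.card_pos.mpr ⟨g, Finset.mem_filter.mpr ⟨hg, rfl⟩⟩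

theorem isLocallyConstant_mult (𝔖 : Sys X G) (n : ℕ) (g : G) :
    IsLocallyConstant fun x => 𝔖.mult n x (g • x) := by
  have h1 : ∀ h : G, IsLocallyConstant fun x : X => if h • x = g • x then (1 : ℕ) else 0 := by
    intro h
    have hc : IsClopen {x : X | h • x = g • x} := by
      have := 𝔖.fixc (g⁻¹ * h)
      have he : {x : X | h • x = g • x} = {x : X | (g⁻¹ * h) • x = x} := by
        ext x
        simp only [Set.mem_ofPred_eq, mul_smul]
        constructor
        · intro hx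
          rw [hx]
          simp
        · intro hx
          have := congrArg (fun z => g • z) hx
          simpa only [smul_inv_smul] using this
      rw [he]
      exact this
    rw [IsLocallyConstant.iff_eventually_eq]
    intro x
    by_cases hx : h • x = g • x
    · filter_upwards [hc.isOpen.mem_nhds hx] with z hz
      have hz' : h • z = g • z := hz
      simp [hz', hx]
    · filter_upwards [hc.compl.isOpen.mem_nhds hx] with z hz
      have hz' : ¬ h • z = g • z := hz
      simp [hz', hx]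
  have h2 : (fun x => 𝔖.mult n x (g • x)) =
      fun x => ∑ h ∈ 𝔖.ballG n, if h • x = g • x then (1 : ℕ) else 0 := by
    funext x
    unfold mult
    rw [Finset.card_filter]
  rw [h2, IsLocallyConstant.iff_eventually_eq]
  intro x
  have : ∀ᶠ z in nhds x, ∀ h ∈ 𝔖.ballG n,
      (if h • z = g • z then (1 : ℕ) else 0) = if h • x = g • x then (1 : ℕ) else 0 := by
    rw [Filter.eventually_all_finset]
    intro h _
    exact (IsLocallyConstant.iff_eventually_eq _).mp (h1 h) x
  filter_upwards [this] with z hz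
  exact Finset.sum_congr rfl hz

/-- sums over the ball as weighted sums over the group ball -/
theorem sum_ball (𝔖 : Sys X G) (n : ℕ) (x : X) (φ : X → ℝ) :
    ∑ v ∈ 𝔖.ball n x, φ v = ∑ g ∈ 𝔖.ballG n, φ (g • x) / 𝔖.mult n x (g • x) := by
  unfold ball
  rw [← Finset.sum_fiberwise_of_maps_to (s := 𝔖.ballG n)
    (t := (𝔖.ballG n).image fun g => g • x) (g := fun g => g • x)
    (fun g hg => Finset.mem_image_of_mem _ hg)]
  refine Finset.sum_congr rfl fun v hv => ?_
  have h1 : ∀ g ∈ (𝔖.ballG n).filter (fun g => g • x = v),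
      φ (g • x) / 𝔖.mult n x (g • x) = φ v / 𝔖.mult n x v := by
    intro g hg
    rw [(Finset.mem_filter.mp hg).2]
  rw [Finset.sum_congr rfl h1, Finset.sum_const, nsmul_eq_mul]
  change φ v = (𝔖.mult n x v : ℝ) * (φ v / 𝔖.mult n x v)
  obtain ⟨g, hg, rfl⟩ := Finset.mem_image.mp hv
  have := 𝔖.mult_pos (x := x) hg
  have h0 : (𝔖.mult n x (g • x) : ℝ) ≠ 0 := by
    exact_mod_cast this.ne'
  (clear * - h0; field_simp)

theorem continuous_term (𝔖 : Sys X G) (n : ℕ) (f : X → X → ℝ) (g : G)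
    (hf : Continuous fun x => f x (g • x)) :
    Continuous fun x => f x (g • x) / (𝔖.mult n x (g • x) : ℝ) := by
  have h2 : Continuous fun x => ((𝔖.mult n x (g • x) : ℝ))⁻¹ :=
    ((𝔖.isLocallyConstant_mult n g).comp (fun k : ℕ => ((k : ℝ))⁻¹)).continuous
  have h3 : (fun x => f x (g • x) / (𝔖.mult n x (g • x) : ℝ)) =
      fun x => f x (g • x) * ((𝔖.mult n x (g • x) : ℝ))⁻¹ := by
    funext x
    exact div_eq_mul_inv _ _
  rw [h3]
  exact hf.mul h2

theorem continuous_term' (𝔖 : Sys X G) (n : ℕ) (f : X → X → ℝ) (g : G)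
    (hf : Continuous fun x => f x (g⁻¹ • x)) :
    Continuous fun x => f (g • x) x / (𝔖.mult n x (g • x) : ℝ) := by
  have h1 := (𝔖.continuous_term n f g⁻¹ hf).comp (𝔖.cont g)
  have h2 : ((fun x => f x (g⁻¹ • x) / (𝔖.mult n x (g⁻¹ • x) : ℝ)) ∘ fun x => g • x) =
      fun x => f (g • x) x / (𝔖.mult n x (g • x) : ℝ) := by
    funext x
    simp only [Function.comp_apply, inv_smul_smul]
    rw [𝔖.mult_comm n (g • x) x]
  rwa [h2] at h1

theorem mtp_continuous (𝔖 : Sys X G) (n : ℕ) (f : X → X → ℝ)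
    (hf : ∀ g ∈ 𝔖.ballG n, Continuous fun x => f x (g • x)) :
    Continuous (fun x => ∑ v ∈ 𝔖.ball n x, f x v) ∧
    Continuous (fun x => ∑ v ∈ 𝔖.ball n x, f v x) := by
  constructor
  · have h : (fun x => ∑ v ∈ 𝔖.ball n x, f x v) =
        fun x => ∑ g ∈ 𝔖.ballG n, f x (g • x) / 𝔖.mult n x (g • x) := by
      funext x
      exact 𝔖.sum_ball n x (fun v => f x v)
    rw [h]
    exact continuous_finsetSum _ fun g hg => 𝔖.continuous_term n f g (hf g hg)
  · have h : (fun x => ∑ v ∈ 𝔖.ball n x, f v x) =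
        fun x => ∑ g ∈ 𝔖.ballG n, f (g • x) x / 𝔖.mult n x (g • x) := by
      funext x
      exact 𝔖.sum_ball n x (fun v => f v x)
    rw [h]
    exact continuous_finsetSum _ fun g hg =>
      𝔖.continuous_term' n f g (hf _ (𝔖.inv_mem_ballG hg))

/-- mass transport: here `f` is a function on pairs of points at distance at most `n` -/
theorem mtp (𝔖 : Sys X G) (n : ℕ) (f : X → X → ℝ)
    (hf : ∀ g ∈ 𝔖.ballG n, Continuous fun x => f x (g • x)) (F F' : C(X, ℝ))
    (hF : ∀ x, F x = ∑ v ∈ 𝔖.ball n x, f x v) (hF' : ∀ x, F' x = ∑ v ∈ 𝔖.ball n x, f v x) :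
    𝔖.I F = 𝔖.I F' := by
  let B := {g : G // g ∈ 𝔖.ballG n}
  let φ : B → C(X, ℝ) := fun g =>
    ⟨fun x => f x (g.1 • x) / (𝔖.mult n x (g.1 • x) : ℝ), 𝔖.continuous_term n f g.1 (hf g.1 g.2)⟩
  let ψ : B → C(X, ℝ) := fun g =>
    ⟨fun x => f (g.1 • x) x / (𝔖.mult n x (g.1 • x) : ℝ),
      𝔖.continuous_term' n f g.1 (hf _ (𝔖.inv_mem_ballG g.2))⟩
  have hFs : F = ∑ g : B, φ g := by
    ext x
    rw [ContinuousMap.sum_apply, hF x, 𝔖.sum_ball n x (fun v => f x v)]
    exact (Finset.sum_coe_sort (𝔖.ballG n)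
      (fun g => f x (g • x) / (𝔖.mult n x (g • x) : ℝ))).symm
  have hFs' : F' = ∑ g : B, ψ g := by
    ext x
    rw [ContinuousMap.sum_apply, hF' x, 𝔖.sum_ball n x (fun v => f v x)]
    exact (Finset.sum_coe_sort (𝔖.ballG n)
      (fun g => f (g • x) x / (𝔖.mult n x (g • x) : ℝ))).symm
  let inv : B ≃ B :=
    { toFun := fun g => ⟨g.1⁻¹, 𝔖.inv_mem_ballG g.2⟩
      invFun := fun g => ⟨g.1⁻¹, 𝔖.inv_mem_ballG g.2⟩
      left_inv := fun g => by simp
      right_inv := fun g => by simp }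
  have hI : ∀ g : B, 𝔖.I (ψ g) = 𝔖.I (φ (inv g)) := by
    intro g
    refine 𝔖.I_inv g.1 (φ (inv g)) (ψ g) fun x => ?_
    change f (g.1 • x) x / (𝔖.mult n x (g.1 • x) : ℝ) =
      f (g.1 • x) (g.1⁻¹ • g.1 • x) / (𝔖.mult n (g.1 • x) (g.1⁻¹ • g.1 • x) : ℝ)
    rw [inv_smul_smul, 𝔖.mult_comm n (g.1 • x) x]
  rw [hFs, hFs', map_sum, map_sum, Finset.sum_congr rfl (fun g _ => hI g)]
  exact (Equiv.sum_comp inv (fun g => 𝔖.I (φ g))).symm

end Sys

end Vale.Agent.P078.C
end

section

namespace Vale.Agent.P078.C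

open Finset Polynomial
open scoped Pointwise Classical

namespace Sys

variable {X G : Type*} [TopologicalSpace X] [Group G] [MulAction G X]

/-! ### T5b: sparse partitions, locally constant selections -/

/-- a set is `n`-sparse if two different points of it are never at distance at most `n` -/
def Sparse (𝔖 : Sys X G) (n : ℕ) (C : Set X) : Prop := ∀ v ∈ C, ∀ w ∈ C, v ∈ 𝔖.ball n w → v = w

/-- a cover by clopen neighbourhoods has a locally constant selection with finitely many values -/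
theorem exists_lc_cover {Y : Type*} [TopologicalSpace Y] [CompactSpace Y] (U : Y → Set Y)
    (hU : ∀ x, IsClopen (U x)) (hx : ∀ x, x ∈ U x) :
    ∃ (m : ℕ) (j : Y → Fin m) (i : Fin m → Y), IsLocallyConstant j ∧ ∀ x, x ∈ U (i (j x)) := by
  obtain ⟨t, ht⟩ := isCompact_univ.elim_nhds_subcover U
    (fun x _ => (hU x).isOpen.mem_nhds (hx x))
  obtain ⟨_, ht⟩ := ht
  let e := t.equivFin
  have hex : ∀ x : Y, ∃ k : Fin t.card, x ∈ U (e.symm k).1 := by
    intro x
    have h1 := ht (Set.mem_univ x)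
    simp only [Set.mem_iUnion] at h1
    obtain ⟨z, hz, hxz⟩ := h1
    exact ⟨e ⟨z, hz⟩, by simpa using hxz⟩
  have hne : ∀ x : Y, (Finset.univ.filter fun k : Fin t.card => x ∈ U (e.symm k).1).Nonempty := by
    intro x
    obtain ⟨k, hk⟩ := hex x
    exact ⟨k, by simpa only [mem_filter, mem_univ, true_and] using hk⟩
  let j : Y → Fin t.card := fun x =>
    (Finset.univ.filter fun k : Fin t.card => x ∈ U (e.symm k).1).min' (hne x)
  refine ⟨t.card, j, fun k => (e.symm k).1, ?_, ?_⟩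
  · rw [IsLocallyConstant.iff_eventually_eq]
    intro x
    have h1 : ∀ᶠ z in nhds x, ∀ k : Fin t.card,
        (z ∈ U (e.symm k).1 ↔ x ∈ U (e.symm k).1) := by
      rw [Filter.eventually_all]
      intro k
      by_cases hk : x ∈ U (e.symm k).1
      · filter_upwards [(hU (e.symm k).1).isOpen.mem_nhds hk] with z hz
        exact ⟨fun _ => hk, fun _ => hz⟩
      · filter_upwards [(hU (e.symm k).1).compl.isOpen.mem_nhds hk] with z hz
        exact ⟨fun h => absurd h hz, fun h => absurd h hk⟩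
    filter_upwards [h1] with z hz
    have h2 : (Finset.univ.filter fun k : Fin t.card => z ∈ U (e.symm k).1) =
        (Finset.univ.filter fun k : Fin t.card => x ∈ U (e.symm k).1) := by
      ext k
      simp only [mem_filter, mem_univ, hz k, true_and]
    simp only [j, h2]
  · intro x
    have := Finset.min'_mem _ (hne x)
    rw [Finset.mem_filter] at this
    exact this.2

theorem exists_sparse [CompactSpace X] [T2Space X] [TotallyDisconnectedSpace X] (𝔖 : Sys X G)
    (n : ℕ) : ∃ (m : ℕ) (j : X → Fin m), IsLocallyConstant j ∧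
      ∀ i, 𝔖.Sparse n (j ⁻¹' {i}) := by
  have h1 : ∀ x : X, ∀ g : G, ∃ U : Set X, IsClopen U ∧ x ∈ U ∧
      ∀ z ∈ U, g • z ∈ U → g • z = z := by
    intro x g
    by_cases hg : g • x = x
    · exact ⟨{z | g • z = z}, 𝔖.fixc g, hg, fun z hz _ => hz⟩
    · obtain ⟨V, W, hV, hW, hxV, hgW, hVW⟩ := t2_separation (Ne.symm hg)
      have hopen : IsOpen (V ∩ (fun z : X => g • z) ⁻¹' W) :=
        hV.inter (hW.preimage (𝔖.cont g))
      obtain ⟨U, hU, hxU, hUs⟩ := compact_exists_isClopen_in_isOpen hopen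
        (⟨hxV, hgW⟩ : x ∈ V ∩ (fun z : X => g • z) ⁻¹' W)
      refine ⟨U, hU, hxU, fun z hz hgz => ?_⟩
      exfalso
      exact Set.disjoint_left.mp hVW (hUs hgz).1 (hUs hz).2
  choose U hU hxU hUs using h1
  have hW : ∀ x : X, IsClopen (⋂ g ∈ 𝔖.ballG n, U x g) := fun x =>
    isClopen_biInter_finset fun g _ => hU x g
  obtain ⟨m, j, i, hj, hi⟩ := exists_lc_cover (fun x => ⋂ g ∈ 𝔖.ballG n, U x g) hW
    (fun x => Set.mem_iInter₂.mpr fun g _ => hxU x g)
  refine ⟨m, j, hj, fun k => ?_⟩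
  intro v hv w hw hvw
  obtain ⟨g, hg, rfl⟩ := mem_ball.mp hvw
  have hv' := hi (g • w)
  have hw' := hi w
  have e1 : j (g • w) = k := hv
  have e2 : j w = k := hw
  rw [e1] at hv'
  rw [e2] at hw'
  exact hUs (i k) g w (Set.mem_iInter₂.mp hw' g hg) (Set.mem_iInter₂.mp hv' g hg)

theorem exists_selection [CompactSpace X] [T2Space X] [TotallyDisconnectedSpace X] {r : ℕ}
    (C : Set X) (hC : IsClopen C) (D : Fin r → X → ℝ) (hD : ∀ a, ContinuousOn (D a) C) (κ κ' : ℝ)
    (hκ' : 0 < κ') (h : ∀ x ∈ C, ∃ a, D a x ≤ κ) (hr : 0 < r) :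
    ∃ c : X → Fin r, IsLocallyConstant c ∧ ∀ x ∈ C, D (c x) x ≤ κ + κ' := by
  have h1 : ∀ x : X, ∃ (U : Set X) (a : Fin r), IsClopen U ∧ x ∈ U ∧
      (x ∉ C → U = Cᶜ) ∧ (x ∈ C → ∀ z ∈ U, D a z ≤ κ + κ') := by
    intro x
    by_cases hx : x ∈ C
    · obtain ⟨a, ha⟩ := h x hx
      have hopen : ∀ᶠ z in nhds x, z ∈ C ∧ D a z < κ + κ' := by
        have hc : ContinuousAt (D a) x := (hD a).continuousAt (hC.isOpen.mem_nhds hx)
        have h2 : ∀ᶠ z in nhds x, D a z < κ + κ' :=
          hc.eventually_lt continuousAt_const (by linarith only [hκ', ha])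
        have h3 : ∀ᶠ z in nhds x, z ∈ C := hC.isOpen.mem_nhds hx
        exact h3.and h2
      obtain ⟨V, hVs, hV, hxV⟩ := mem_nhds_iff.mp hopen
      obtain ⟨U, hU, hxU, hUs⟩ := compact_exists_isClopen_in_isOpen hV hxV
      exact ⟨U, a, hU, hxU, fun hn => absurd hx hn, fun _ z hz => (hVs (hUs hz)).2.le⟩
    · exact ⟨Cᶜ, ⟨0, hr⟩, hC.compl, hx, fun _ => rfl, fun hn => absurd hn hx⟩
  choose U a hU hxU hout hin using h1
  obtain ⟨m, j, i, hj, hi⟩ := exists_lc_cover U hU hxU
  refine ⟨fun x => a (i (j x)), hj.comp (fun k => a (i k)), fun x hx => ?_⟩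
  have hz := hi x
  by_cases hzC : i (j x) ∈ C
  · exact hin _ hzC x hz
  · rw [hout _ hzC] at hz
    exact absurd hx hz

end Sys

end Vale.Agent.P078.C
end

section

namespace Vale.Agent.P078.C

open Finset Polynomial
open scoped Pointwise Classical

namespace Sys

variable {X G : Type*} [TopologicalSpace X] [Group G] [MulAction G X]

/-! ### T5c: continuity of local sums -/

/-- a function of finite sets that is continuous along the orbits -/
def Nice (f : Finset X → ℝ) : Prop :=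
  ∀ J : Finset G, Continuous fun x : X => f (J.image fun g => g • x)

variable {r : ℕ}

theorem nice_ev_clopen {s : Set X} (hs : IsClopen s) (x0 : X) :
    ∀ᶠ x in nhds x0, (x ∈ s ↔ x0 ∈ s) := by
  by_cases h : x0 ∈ s
  · filter_upwards [hs.isOpen.mem_nhds h] with x hx
    exact iff_of_true hx h
  · filter_upwards [hs.isClosed.isOpen_compl.mem_nhds h] with x hx
    exact iff_of_false hx h

theorem nice_ev_eq (𝔖 : Sys X G) (g h : G) (x0 : X) :
    ∀ᶠ x in nhds x0, (g • x = h • x ↔ g • x0 = h • x0) := by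
  have key : ∀ x : X, g • x = h • x ↔ (h⁻¹ * g) • x = x := by
    intro x
    rw [mul_smul, inv_smul_eq_iff]
  filter_upwards [nice_ev_clopen (𝔖.fixc (h⁻¹ * g)) x0] with x hx
  rw [key x, key x0]
  exact hx

/-- local representatives for the coincidences `g • x = h • x`, `g, h ∈ J` -/
theorem nice_rep (𝔖 : Sys X G) (J : Finset G) (x0 : X) :
    ∃ ρ : G → G, (∀ h ∈ J, ρ h ∈ J) ∧ (∀ h ∈ J, ρ (ρ h) = ρ h) ∧ ∀ᶠ x in nhds x0,
      (∀ h ∈ J, ρ h • x = h • x) ∧ (∀ g ∈ J, ∀ h ∈ J, g • x = h • x → ρ g = ρ h) := by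
  let σ : X → G := fun v => if hv : ∃ g ∈ J, g • x0 = v then hv.choose else 1
  have hσ : ∀ h ∈ J, σ (h • x0) ∈ J ∧ σ (h • x0) • x0 = h • x0 := by
    intro h hh
    have hv : ∃ g ∈ J, g • x0 = h • x0 := ⟨h, hh, rfl⟩
    have : σ (h • x0) = hv.choose := dif_pos hv
    rw [this]
    exact hv.choose_spec
  refine ⟨fun h => σ (h • x0), fun h hh => (hσ h hh).1, fun h hh => ?_, ?_⟩
  · show σ (σ (h • x0) • x0) = σ (h • x0)
    rw [(hσ h hh).2]
  · have h1 : ∀ᶠ x in nhds x0, ∀ g ∈ J, ∀ h ∈ J, (g • x = h • x ↔ g • x0 = h • x0) := by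
      refine (Filter.eventually_all_finset J).2 (fun g _ => ?_)
      exact (Filter.eventually_all_finset J).2 (fun h _ => 𝔖.nice_ev_eq g h x0)
    filter_upwards [h1] with x hx
    refine ⟨fun h hh => ?_, fun g hg h hh hgh => ?_⟩
    · exact (hx _ (hσ h hh).1 h hh).2 (hσ h hh).2
    · show σ (g • x0) = σ (h • x0)
      rw [(hx g hg h hh).1 hgh]

theorem nice_k_herm (𝔖 : Sys X G) (x : X) : Herm fun g h => 𝔖.k g h x := by
  obtain ⟨u, hu, hy⟩ := 𝔖.gauge x
  have hk : ∀ g h, 𝔖.k g h x = u g * 𝔖.y (g • x) (h • x) * star (u h) := by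
    intro g h
    have h1 : ∀ g, u g * star (u g) = 1 := by
      intro g
      rw [Complex.star_def, Complex.mul_conj, Complex.normSq_eq_norm_sq, hu g]
      simp
    have h2 : ∀ g, star (u g) * u g = 1 := fun g => by rw [mul_comm]; exact h1 g
    rw [hy g h]
    calc 𝔖.k g h x = (u g * star (u g)) * 𝔖.k g h x * (u h * star (u h)) := by
          rw [h1, h1]; ring
      _ = _ := by ring
  intro g h
  show 𝔖.k h g x = star (𝔖.k g h x)
  rw [hk g h, hk h g, 𝔖.herm (g • x) (h • x)]
  simp only [StarMul.star_mul, star_star]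
  ring

/-- `SP` along an orbit, in terms of the continuous kernel -/
theorem nice_SP_local (𝔖 : Sys X G) (p : ℝ[X]) (J : Finset G) (s : X → Option (Fin r)) (x : X)
    (hinj : Set.InjOn (fun g : G => g • x) J) :
    SP p 𝔖.y s (J.image fun g => g • x) =
      SP p (fun g h : {g // g ∈ J} => 𝔖.k g h x) (fun g => s (g.1 • x)) Finset.univ := by
  let f : {g // g ∈ J} ↪ X := ⟨fun g => g.1 • x, fun g h hgh => Subtype.ext (hinj g.2 h.2 hgh)⟩
  have h1 : (J.image fun g => g • x) = Finset.univ.map f := by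
    ext v
    simp only [Finset.mem_image, Finset.mem_map, Finset.mem_univ, true_and]
    constructor
    · rintro ⟨g, hg, rfl⟩
      exact ⟨⟨g, hg⟩, rfl⟩
    · rintro ⟨g, rfl⟩
      exact ⟨g.1, g.2, rfl⟩
  rw [h1, SP_map f Finset.univ]
  obtain ⟨u, hu, hy⟩ := 𝔖.gauge x
  exact SP_gauge (fun g => u g.1) (fun g _ => hu g.1) (fun g _ h _ => hy g.1 h.1)

theorem nice_SP_contAt (𝔖 : Sys X G) (hr : 0 < r) (p : ℝ[X]) (J : Finset G) (x0 : X)
    (s : X → X → Option (Fin r))
    (hs : ∀ g ∈ J, ∀ᶠ x in nhds x0, s x (g • x) = s x0 (g • x0)) :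
    ContinuousAt (fun x => SP p 𝔖.y (s x) (J.image fun g => g • x)) x0 := by
  obtain ⟨ρ, h1, h2, h3⟩ := 𝔖.nice_rep J x0
  set J' : Finset G := J.image ρ with hJ'
  have hsub : ∀ g ∈ J', g ∈ J := by
    intro g hg
    obtain ⟨h, hh, rfl⟩ := Finset.mem_image.1 hg
    exact h1 h hh
  have hs' : ∀ᶠ x in nhds x0, ∀ g ∈ J, s x (g • x) = s x0 (g • x0) :=
    (Filter.eventually_all_finset J).2 hs
  have heq : (fun x => SP p 𝔖.y (s x) (J.image fun g => g • x)) =ᶠ[nhds x0]
      fun x => SP p (fun g h : {g // g ∈ J'} => 𝔖.k g h x) (fun g => s x0 (g.1 • x0))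
        Finset.univ := by
    filter_upwards [h3, hs'] with x hx hsx
    have himg : (J.image fun g => g • x) = J'.image fun g => g • x := by
      rw [hJ', Finset.image_image]
      exact Finset.image_congr (fun g hg => ((hx.1 g hg).symm : _))
    have hinj : Set.InjOn (fun g : G => g • x) J' := by
      intro g hg h hh hgh
      obtain ⟨g', hg', rfl⟩ := Finset.mem_image.1 (Finset.mem_coe.1 hg)
      obtain ⟨h', hh', rfl⟩ := Finset.mem_image.1 (Finset.mem_coe.1 hh)
      have := hx.2 _ (h1 _ hg') _ (h1 _ hh') hgh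
      rwa [h2 _ hg', h2 _ hh'] at this
    rw [himg, 𝔖.nice_SP_local p J' (s x) x hinj]
    exact SP_congr (fun _ _ _ _ => rfl) (fun g _ => hsx g.1 (hsub g.1 g.2))
  refine ContinuousAt.congr ?_ heq.symm
  refine Continuous.continuousAt ?_
  exact continuous_SP hr (y := fun (x : X) (g h : {g // g ∈ J'}) => 𝔖.k g h x)
    (fun x g h => 𝔖.nice_k_herm x g.1 h.1) (fun g _ h _ => 𝔖.k_cont g.1 h.1)

theorem nice_locConst (𝔖 : Sys X G) {Y : Type*} {s : X → Y} (hs : IsLocallyConstant s) (g : G) :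
    IsLocallyConstant fun x => s (g • x) :=
  hs.comp_continuous (𝔖.cont g)

theorem nice_SP (𝔖 : Sys X G) (hr : 0 < r) (p : ℝ[X]) {s : X → Option (Fin r)}
    (hs : IsLocallyConstant s) : Nice (G := G) (fun T => SP p 𝔖.y s T) := by
  intro J
  rw [continuous_iff_continuousAt]
  intro x0
  exact 𝔖.nice_SP_contAt hr p J x0 (fun _ => s)
    (fun g _ => (𝔖.nice_locConst hs g).eventually_eq x0)

omit [TopologicalSpace X] in
theorem nice_sum_powerset_image {J : Finset G} {x : X}
    (hinj : Set.InjOn (fun g : G => g • x) J) (F : Finset X → ℝ) :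
    ∑ W ∈ (J.image fun g => g • x).powerset, F W = ∑ K ∈ J.powerset, F (K.image fun g => g • x) := by
  rw [Finset.powerset_image]
  exact Finset.sum_image (fun K hK K' hK' h => Finset.image_injOn_powerset_of_injOn hinj hK hK' h)

/-- Local representation: near `x0` the sets `J.image (· • x)` are the images of a fixed set on
which the action map is injective. -/
theorem nice_rep' (𝔖 : Sys X G) (J : Finset G) (x0 : X) :
    ∃ J' : Finset G, J' ⊆ J ∧ ∀ᶠ x in nhds x0, Set.InjOn (fun g : G => g • x) J' ∧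
      (J.image fun g => g • x) = J'.image fun g => g • x := by
  obtain ⟨ρ, h1, h2, h3⟩ := 𝔖.nice_rep J x0
  refine ⟨J.image ρ, ?_, ?_⟩
  · intro g hg
    obtain ⟨h, hh, rfl⟩ := Finset.mem_image.1 hg
    exact h1 h hh
  · filter_upwards [h3] with x hx
    constructor
    · intro g hg h hh hgh
      obtain ⟨g', hg', rfl⟩ := Finset.mem_image.1 (Finset.mem_coe.1 hg)
      obtain ⟨h', hh', rfl⟩ := Finset.mem_image.1 (Finset.mem_coe.1 hh)
      have := hx.2 _ (h1 _ hg') _ (h1 _ hh') hgh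
      rwa [h2 _ hg', h2 _ hh'] at this
    · rw [Finset.image_image]
      exact Finset.image_congr (fun g hg => ((hx.1 g hg).symm : _))

theorem nice_kap (𝔖 : Sys X G) (hr : 0 < r) (p : ℝ[X]) {s : X → Option (Fin r)}
    (hs : IsLocallyConstant s) : Nice (G := G) (fun T => kap p 𝔖.y s T) := by
  intro J
  rw [continuous_iff_continuousAt]
  intro x0
  obtain ⟨J', -, h3⟩ := 𝔖.nice_rep' J x0
  have heq : (fun x => kap p 𝔖.y s (J.image fun g => g • x)) =ᶠ[nhds x0]
      fun x => ∑ K ∈ J'.powerset, (-1) ^ (J'.card - K.card) *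
        SP p 𝔖.y s (K.image fun g => g • x) := by
    filter_upwards [h3] with x hx
    rw [hx.2]
    unfold kap
    rw [nice_sum_powerset_image hx.1
      (fun W => (-1) ^ ((J'.image fun g => g • x).card - W.card) * SP p 𝔖.y s W)]
    refine Finset.sum_congr rfl (fun K hK => ?_)
    have hK' := Finset.mem_powerset.1 hK
    rw [Finset.card_image_of_injOn hx.1,
      Finset.card_image_of_injOn (hx.1.mono (by exact_mod_cast hK'))]
  refine ContinuousAt.congr ?_ heq.symm
  refine Continuous.continuousAt ?_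
  exact continuous_finsetSum _ (fun K _ => continuous_const.mul (𝔖.nice_SP hr p hs K))

theorem nice_ev_mem_ball (𝔖 : Sys X G) (n : ℕ) (g h : G) (x0 : X) :
    ∀ᶠ x in nhds x0, (g • x ∈ 𝔖.ball n (h • x) ↔ g • x0 ∈ 𝔖.ball n (h • x0)) := by
  have h1 : ∀ᶠ x in nhds x0, ∀ l ∈ 𝔖.ballG n,
      (g • x = (l * h) • x ↔ g • x0 = (l * h) • x0) :=
    (Filter.eventually_all_finset _).2 (fun l _ => 𝔖.nice_ev_eq g (l * h) x0)
  filter_upwards [h1] with x hx
  rw [mem_ball, mem_ball]
  constructor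
  · rintro ⟨l, hl, h2⟩
    refine ⟨l, hl, ?_⟩
    rw [← mul_smul] at h2 ⊢
    exact (hx l hl).1 h2
  · rintro ⟨l, hl, h2⟩
    refine ⟨l, hl, ?_⟩
    rw [← mul_smul] at h2 ⊢
    exact (hx l hl).2 h2

theorem nice_ev_TT (𝔖 : Sys X G) (n : ℕ) (K : Finset G) (x0 : X) :
    ∀ᶠ x in nhds x0, (𝔖.TT n (K.image fun g => g • x) ↔ 𝔖.TT n (K.image fun g => g • x0)) := by
  have h1 : ∀ᶠ x in nhds x0, ∀ g ∈ K, ∀ h ∈ K,
      (g • x ∈ 𝔖.ball n (h • x) ↔ g • x0 ∈ 𝔖.ball n (h • x0)) :=
    (Filter.eventually_all_finset _).2 (fun g _ => (Filter.eventually_all_finset _).2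
      (fun h _ => 𝔖.nice_ev_mem_ball n g h x0))
  filter_upwards [h1] with x hx
  unfold TT
  simp only [Finset.mem_image, forall_exists_index, and_imp, forall_apply_eq_imp_iff₂]
  exact forall₂_congr fun g hg => forall₂_congr fun h hh => hx g hg h hh

theorem nice_ev_mem_image (𝔖 : Sys X G) (K : Finset G) (g : G) (x0 : X) :
    ∀ᶠ x in nhds x0, (g • x ∈ (K.image fun g => g • x) ↔ g • x0 ∈ (K.image fun g => g • x0)) := by
  have h1 : ∀ᶠ x in nhds x0, ∀ h ∈ K, (h • x = g • x ↔ h • x0 = g • x0) :=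
    (Filter.eventually_all_finset _).2 (fun h _ => 𝔖.nice_ev_eq h g x0)
  filter_upwards [h1] with x hx
  simp only [Finset.mem_image]
  exact exists_congr fun h => and_congr_right fun hh => hx h hh

/-- the general continuity statement, with a summand depending on the point -/
theorem continuous_sum_TTs' (𝔖 : Sys X G) (n : ℕ) {f : X → Finset X → ℝ}
    (hf : ∀ J : Finset G, Continuous fun x : X => f x (J.image fun g => g • x))
    (P : X → Finset X → Prop)
    (hP : ∀ (J : Finset G) (x0 : X), ∀ᶠ x in nhds x0,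
      (P x (J.image fun h => h • x) ↔ P x0 (J.image fun h => h • x0))) :
    Continuous fun x => ∑ T ∈ (𝔖.TTs n x).filter (P x), f x T := by
  rw [continuous_iff_continuousAt]
  intro x0
  obtain ⟨J', -, h3⟩ := 𝔖.nice_rep' (𝔖.ballG n) x0
  have h4 : ∀ᶠ x in nhds x0, ∀ K ∈ J'.powerset,
      ((𝔖.TT n (K.image fun g => g • x) ∧ (1 : G) • x ∈ (K.image fun g => g • x)) ∧
        P x (K.image fun g => g • x) ↔
      (𝔖.TT n (K.image fun g => g • x0) ∧ (1 : G) • x0 ∈ (K.image fun g => g • x0)) ∧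
        P x0 (K.image fun g => g • x0)) := by
    refine (Filter.eventually_all_finset _).2 (fun K _ => ?_)
    filter_upwards [𝔖.nice_ev_TT n K x0, 𝔖.nice_ev_mem_image K 1 x0, hP K x0] with x a1 a2 a3
    rw [a1, a2, a3]
  have heq : (fun x => ∑ T ∈ (𝔖.TTs n x).filter (P x), f x T) =ᶠ[nhds x0]
      fun x => ∑ K ∈ J'.powerset, if ((𝔖.TT n (K.image fun g => g • x0) ∧
        (1 : G) • x0 ∈ (K.image fun g => g • x0)) ∧ P x0 (K.image fun g => g • x0)) then
        f x (K.image fun g => g • x) else 0 := by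
    filter_upwards [h3, h4] with x hx hx4
    unfold TTs ball
    rw [Finset.filter_filter, Finset.sum_filter, hx.2,
      nice_sum_powerset_image hx.1 (fun T => if (𝔖.TT n T ∧ x ∈ T) ∧ P x T then f x T else 0)]
    refine Finset.sum_congr rfl (fun K hK => ?_)
    have h5 := hx4 K hK
    rw [one_smul] at h5
    exact if_congr h5 rfl rfl
  refine ContinuousAt.congr ?_ heq.symm
  refine Continuous.continuousAt ?_
  refine continuous_finsetSum _ (fun K _ => ?_)
  split_ifs
  · exact hf K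
  · exact continuous_const

/-- the general continuity statement: sums over the subsets `T` of the ball around `x` of a nice
function, restricted by a condition which is locally constant along the orbits -/
theorem continuous_sum_TTs (𝔖 : Sys X G) (n : ℕ) {f : Finset X → ℝ} (hf : Nice (G := G) f)
    (P : X → X → Finset X → Prop)
    (hP : ∀ (g : G) (J : Finset G), IsLocallyConstant
      fun x => P x (g • x) (J.image fun h => h • x)) (g : G) :
    Continuous fun x => ∑ T ∈ (𝔖.TTs n x).filter (fun T => P x (g • x) T), f T := by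
  refine 𝔖.continuous_sum_TTs' n (f := fun _ T => f T) hf (fun x T => P x (g • x) T) ?_
  intro J x0
  filter_upwards [(hP g J).eventually_eq x0] with x hx
  rw [hx]

/-- `SP` of a point-dependent subset of the ball is continuous if the subset and the
point-dependent state are locally constant along the orbits -/
theorem continuous_SP_ball (𝔖 : Sys X G) (hr : 0 < r) (p : ℝ[X]) (n : ℕ)
    (s : X → X → Option (Fin r)) (hs : ∀ g : G, IsLocallyConstant fun x => s x (g • x))
    (P : X → X → Prop) (hP : ∀ g : G, IsLocallyConstant fun x => P x (g • x)) :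
    Continuous fun x => SP p 𝔖.y (s x) ((𝔖.ball n x).filter (P x)) := by
  rw [continuous_iff_continuousAt]
  intro x0
  have h1 : ∀ᶠ x in nhds x0, ∀ g ∈ 𝔖.ballG n, P x (g • x) = P x0 (g • x0) :=
    (Filter.eventually_all_finset _).2 (fun g _ => (hP g).eventually_eq x0)
  have heq : (fun x => SP p 𝔖.y (s x) ((𝔖.ball n x).filter (P x))) =ᶠ[nhds x0]
      fun x => SP p 𝔖.y (s x)
        (((𝔖.ballG n).filter fun g => P x0 (g • x0)).image fun g => g • x) := by
    filter_upwards [h1] with x hx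
    congr 1
    unfold ball
    rw [Finset.filter_image]
    refine congrArg (Finset.image _) (Finset.filter_congr (fun g hg => ?_))
    rw [hx g hg]
  exact ContinuousAt.congr (𝔖.nice_SP_contAt hr p _ x0 s
    (fun g _ => (hs g).eventually_eq x0)) heq.symm

omit [TopologicalSpace X] in
/-- powers of the kernel along an orbit -/
theorem nice_pw_local (t : X → X → ℂ) (k : G → G → ℂ) (u : G → ℂ) (hu : ∀ g, ‖u g‖ = 1)
    (J : Finset G) (x : X) (hinj : Set.InjOn (fun g : G => g • x) J)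
    (h : ∀ g ∈ J, ∀ h ∈ J, t (g • x) (h • x) = star (u g) * k g h * u h) (n : ℕ) :
    ∀ g ∈ J, ∀ h ∈ J, pw t (J.image fun g => g • x) n (g • x) (h • x) =
      star (u g) * pw k J n g h * u h := by
  have h2 : ∀ g, star (u g) * u g = 1 := by
    intro g
    rw [mul_comm, Complex.star_def, Complex.mul_conj, Complex.normSq_eq_norm_sq, hu g]
    simp
  have h1 : ∀ g, u g * star (u g) = 1 := fun g => by rw [mul_comm]; exact h2 g
  induction n with
  | zero =>
    intro g hg h hh
    unfold pw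
    by_cases hgh : g = h
    · subst hgh
      rw [if_pos rfl, if_pos rfl, mul_one, h2]
    · rw [if_neg hgh, if_neg (fun h' => hgh (hinj hg hh h'))]
      ring
  | succ n ih =>
    intro g hg l hl
    unfold pw
    rw [Finset.sum_image hinj, Finset.mul_sum, Finset.sum_mul]
    refine Finset.sum_congr rfl (fun m hm => ?_)
    rw [h g hg m hm, ih m hm l hl]
    calc star (u g) * k g m * u m * (star (u m) * pw k J n m l * u l)
        = star (u g) * (k g m * pw k J n m l) * u l * (u m * star (u m)) := by ring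
      _ = _ := by rw [h1]; ring

omit [Group G] [MulAction G X] in
theorem nice_continuous_pw {k : X → G → G → ℂ} (hk : ∀ g h, Continuous fun x => k x g h)
    (J : Finset G) (n : ℕ) : ∀ g h, Continuous fun x => pw (k x) J n g h := by
  induction n with
  | zero =>
    intro g h
    unfold pw
    exact continuous_const
  | succ n ih =>
    intro g h
    unfold pw
    exact continuous_finsetSum _ (fun m _ => (hk g m).mul (ih m h))

/-- local moments along the orbits are continuous -/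
theorem nice_locmom (𝔖 : Sys X G) (p : ℝ[X]) {c : X → Fin r} (hc : IsLocallyConstant c)
    (J : Finset G) (g : G) (hg : g ∈ J) :
    Continuous fun x => locmom p 𝔖.y c (J.image fun g => g • x) (g • x) := by
  rw [continuous_iff_continuousAt]
  intro x0
  obtain ⟨ρ, h1, h2, h3⟩ := 𝔖.nice_rep J x0
  set J' : Finset G := J.image ρ with hJ'
  have hc' : ∀ᶠ x in nhds x0, ∀ g ∈ J, c (g • x) = c (g • x0) :=
    (Filter.eventually_all_finset J).2 (fun g _ => (𝔖.nice_locConst hc g).eventually_eq x0)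
  have hsub : ∀ g ∈ J', g ∈ J := by
    intro g hg
    obtain ⟨h, hh, rfl⟩ := Finset.mem_image.1 hg
    exact h1 h hh
  have heq : (fun x => locmom p 𝔖.y c (J.image fun g => g • x) (g • x)) =ᶠ[nhds x0]
      fun x => ∑ n ∈ Finset.range (p.natDegree + 1), p.coeff n *
        (pw (fun g h => if c (g • x0) = c (h • x0) then 𝔖.k g h x else 0) J' n
          (ρ g) (ρ g)).re := by
    filter_upwards [h3, hc'] with x hx hcx
    have himg : (J.image fun g => g • x) = J'.image fun g => g • x := by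
      rw [hJ', Finset.image_image]
      exact Finset.image_congr (fun g hg => ((hx.1 g hg).symm : _))
    have hinj : Set.InjOn (fun g : G => g • x) J' := by
      intro g hg h hh hgh
      obtain ⟨g', hg', rfl⟩ := Finset.mem_image.1 (Finset.mem_coe.1 hg)
      obtain ⟨h', hh', rfl⟩ := Finset.mem_image.1 (Finset.mem_coe.1 hh)
      have := hx.2 _ (h1 _ hg') _ (h1 _ hh') hgh
      rwa [h2 _ hg', h2 _ hh'] at this
    obtain ⟨u, hu, hy⟩ := 𝔖.gauge x
    have hyc : ∀ a ∈ J', ∀ b ∈ J', yc 𝔖.y c (a • x) (b • x) =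
        star (u a) * (if c (a • x0) = c (b • x0) then 𝔖.k a b x else 0) * u b := by
      intro a ha b hb
      unfold yc
      rw [hcx a (hsub a ha), hcx b (hsub b hb)]
      split_ifs
      · exact hy a b
      · ring
    have hρ : ρ g ∈ J' := Finset.mem_image_of_mem ρ hg
    have hu2 : star (u (ρ g)) * u (ρ g) = 1 := by
      rw [mul_comm, Complex.star_def, Complex.mul_conj, Complex.normSq_eq_norm_sq, hu (ρ g)]
      simp
    unfold locmom
    refine Finset.sum_congr rfl (fun n _ => ?_)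
    rw [himg, ← hx.1 g hg, nice_pw_local (yc 𝔖.y c)
      (fun g h => if c (g • x0) = c (h • x0) then 𝔖.k g h x else 0) u hu J' x hinj hyc n
      (ρ g) hρ (ρ g) hρ]
    congr 2
    calc star (u (ρ g)) * _ * u (ρ g)
        = (star (u (ρ g)) * u (ρ g)) *
          (pw (fun g h => if c (g • x0) = c (h • x0) then 𝔖.k g h x else 0) J' n
          (ρ g) (ρ g)) := by ring
      _ = _ := by rw [hu2, one_mul]
  refine ContinuousAt.congr ?_ heq.symm
  refine Continuous.continuousAt ?_
  refine continuous_finsetSum _ (fun n _ => continuous_const.mul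
    (Complex.continuous_re.comp ?_))
  refine nice_continuous_pw
    (k := fun x g h => if c (g • x0) = c (h • x0) then 𝔖.k g h x else 0) (fun a b => ?_) J' n _ _
  by_cases hab : c (a • x0) = c (b • x0)
  · simp only [if_pos hab]
    exact 𝔖.k_cont a b
  · simp only [if_neg hab]
    exact continuous_const

theorem continuous_locmom (𝔖 : Sys X G) (p : ℝ[X]) (n : ℕ) {c : X → Fin r}
    (hc : IsLocallyConstant c) : Continuous fun x => locmom p 𝔖.y c (𝔖.ball n x) x := by
  have h := 𝔖.nice_locmom p hc (𝔖.ballG n) 1 (𝔖.one_mem_ballG n)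
  simp only [one_smul] at h
  exact h

theorem nice_div_card {f : Finset X → ℝ} (𝔖 : Sys X G) (hf : Nice (G := G) f) :
    Nice (G := G) (fun T => f T / T.card) := by
  intro J
  rw [continuous_iff_continuousAt]
  intro x0
  obtain ⟨J', -, h3⟩ := 𝔖.nice_rep' J x0
  have heq : (fun x => f (J.image fun g => g • x) / ((J.image fun g => g • x).card : ℝ))
      =ᶠ[nhds x0] fun x => f (J.image fun g => g • x) / (J'.card : ℝ) := by
    filter_upwards [h3] with x hx
    have h5 : (J.image fun g => g • x).card = J'.card := by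
      rw [hx.2, Finset.card_image_of_injOn hx.1]
    rw [h5]
  exact ContinuousAt.congr ((hf J).div_const _).continuousAt heq.symm

theorem continuous_dens (𝔖 : Sys X G) (hr : 0 < r) (p : ℝ[X]) (n : ℕ) {s : X → Option (Fin r)}
    (hs : IsLocallyConstant s) : Continuous fun x => 𝔖.dens p n s x := by
  have h := 𝔖.continuous_sum_TTs' n
    (f := fun _ T => kap p 𝔖.y s T / T.card)
    (𝔖.nice_div_card (𝔖.nice_kap hr p hs)) (fun _ _ => True)
    (fun _ _ => Filter.Eventually.of_forall fun _ => Iff.rfl)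
  simp only [Finset.filter_true] at h
  exact h

end Sys

end Vale.Agent.P078.C
end

section

namespace Vale.Agent.P078.C

open Finset Polynomial
open scoped Pointwise Classical

namespace Sys

variable {X G : Type*} [TopologicalSpace X] [Group G] [MulAction G X]

variable {r : ℕ}

/-! ### T5d: vanishing of cluster coefficients, sums of cluster coefficients over a ball -/

/-- if no splitting of `T` is without edges, then `T` has diameter less than its cardinality -/
theorem kapTT_diam (𝔖 : Sys X G) {T : Finset X}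
    (h : ∀ A ⊆ T, A.Nonempty → A ≠ T → ∃ i ∈ A, ∃ j ∈ T \ A, 𝔖.y i j ≠ 0)
    {v w : X} (hv : v ∈ T) (hw : w ∈ T) : v ∈ 𝔖.ball (T.card - 1) w := by
  let D : ℕ → Finset X := fun m => T.filter fun u => u ∈ 𝔖.ball m w
  have hD : ∀ m, min (m + 1) T.card ≤ (D m).card := by
    intro m
    induction m with
    | zero =>
      have h1 : w ∈ D 0 := Finset.mem_filter.2 ⟨hw, 𝔖.mem_ball_self 0 w⟩
      have h2 : 0 < (D 0).card := Finset.card_pos.2 ⟨w, h1⟩
      omega
    | succ m ih =>
      by_cases hT : D m = T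
      · have h1 : T ⊆ D (m + 1) := by
          intro u hu
          rw [← hT] at hu
          have h2 := Finset.mem_filter.1 hu
          exact Finset.mem_filter.2 ⟨h2.1, 𝔖.ball_mono (Nat.le_succ m) w h2.2⟩
        have h2 := Finset.card_le_card h1
        omega
      · have hne : (D m).Nonempty := ⟨w, Finset.mem_filter.2 ⟨hw, 𝔖.mem_ball_self m w⟩⟩
        obtain ⟨i, hi, j, hj, hij⟩ := h (D m) (Finset.filter_subset _ _) hne hT
        have hj' := Finset.mem_sdiff.1 hj
        have hi' := Finset.mem_filter.1 hi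
        have hji : 𝔖.y j i ≠ 0 := by
          intro h0
          apply hij
          rw [𝔖.herm j i, h0, star_zero]
        have h1 : j ∈ 𝔖.ball 1 i := 𝔖.ball_of_edge hji
        have h2 : j ∈ 𝔖.ball (m + 1) w := 𝔖.ball_trans hi'.2 h1
        have h3 : insert j (D m) ⊆ D (m + 1) := by
          intro u hu
          rcases Finset.mem_insert.1 hu with rfl | hu
          · exact Finset.mem_filter.2 ⟨hj'.1, h2⟩
          · have h4 := Finset.mem_filter.1 hu
            exact Finset.mem_filter.2 ⟨h4.1, 𝔖.ball_mono (Nat.le_succ m) w h4.2⟩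
        have h4 := Finset.card_le_card h3
        rw [Finset.card_insert_of_notMem hj'.2] at h4
        (clear * - ih h4; (clear * - ih h4; omega))
  have hpos : 0 < T.card := Finset.card_pos.2 ⟨w, hw⟩
  have h1 := hD (T.card - 1)
  have h2 : D (T.card - 1) = T := by
    refine Finset.eq_of_subset_of_card_le (Finset.filter_subset _ _) ?_
    omega
  have h3 : v ∈ D (T.card - 1) := by rw [h2]; exact hv
  exact (Finset.mem_filter.1 h3).2

theorem TT_of_kap_ne_zero (𝔖 : Sys X G) (hr : 0 < r) {p : ℝ[X]} {s : X → Option (Fin r)}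
    {T : Finset X} (h : kap p 𝔖.y s T ≠ 0) : 𝔖.TT p.natDegree T := by
  intro v hv w hw
  by_cases h1 : 1 < T.card
  · have h2 : T.card ≤ p.natDegree := by
      by_contra h3
      exact h (kap_large hr 𝔖.herm (not_le.1 h3) h1)
    have h3 : v ∈ 𝔖.ball (T.card - 1) w := by
      refine 𝔖.kapTT_diam ?_ hv hw
      intro A hA hne hAT
      by_contra hcon
      push Not at hcon
      have hne' : (T \ A).Nonempty := by
        rw [Finset.sdiff_nonempty]
        exact fun hTA => hAT (Finset.Subset.antisymm hA hTA)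
      have h4 := kap_disconn (p := p) (s := s) hr 𝔖.herm hne hne' Finset.disjoint_sdiff hcon
      rw [Finset.union_sdiff_of_subset hA] at h4
      exact h h4
    exact 𝔖.ball_mono (by omega) w h3
  · have h2 : v = w := Finset.card_le_one.1 (not_lt.1 h1) v hv w hw
    rw [h2]
    exact 𝔖.mem_ball_self _ w

theorem mem_TTs (𝔖 : Sys X G) {n : ℕ} {x : X} {T : Finset X} :
    T ∈ 𝔖.TTs n x ↔ 𝔖.TT n T ∧ x ∈ T := by
  unfold TTs
  rw [Finset.mem_filter, Finset.mem_powerset]
  constructor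
  · rintro ⟨_, h⟩
    exact h
  · rintro ⟨h1, h2⟩
    exact ⟨fun v hv => h1 v hv x h2, h1, h2⟩

/-- the cluster coefficients containing `x`, inside `W ⊆ ball`, sum to a difference of `SP` -/
theorem sum_kap_mem (𝔖 : Sys X G) (hr : 0 < r) (p : ℝ[X]) (s : X → Option (Fin r)) (x : X)
    (P : X → Prop) (hx : P x) :
    ∑ T ∈ (𝔖.TTs p.natDegree x).filter (fun T => ∀ v ∈ T, P v), kap p 𝔖.y s T =
      SP p 𝔖.y s ((𝔖.ball p.natDegree x).filter P) -
        SP p 𝔖.y s (((𝔖.ball p.natDegree x).filter P).erase x) := by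
  set W := (𝔖.ball p.natDegree x).filter P with hW
  have hxW : x ∈ W := Finset.mem_filter.2 ⟨𝔖.mem_ball_self _ x, hx⟩
  rw [← sum_kap W, ← sum_kap (W.erase x)]
  have h1 : (W.erase x).powerset ⊆ W.powerset :=
    Finset.powerset_mono.2 (Finset.erase_subset x W)
  rw [← Finset.sum_sdiff h1, add_sub_cancel_right]
  refine Finset.sum_subset ?_ ?_
  · intro T hT
    obtain ⟨h2, h3⟩ := Finset.mem_filter.1 hT
    obtain ⟨h4, h5⟩ := 𝔖.mem_TTs.1 h2
    rw [Finset.mem_sdiff, Finset.mem_powerset, Finset.mem_powerset]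
    refine ⟨fun v hv => Finset.mem_filter.2 ⟨h4 v hv x h5, h3 v hv⟩, fun h6 => ?_⟩
    exact Finset.notMem_erase x W (h6 h5)
  · intro T hT hT'
    rw [Finset.mem_sdiff, Finset.mem_powerset, Finset.mem_powerset] at hT
    by_contra h2
    apply hT'
    have h3 := 𝔖.TT_of_kap_ne_zero hr h2
    have hxT : x ∈ T := by
      by_contra h4
      apply hT.2
      intro v hv
      refine Finset.mem_erase.2 ⟨fun h5 => h4 (h5 ▸ hv), hT.1 hv⟩
    exact Finset.mem_filter.2 ⟨𝔖.mem_TTs.2 ⟨h3, hxT⟩, fun v hv => (Finset.mem_filter.1 (hT.1 hv)).2⟩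

end Sys

end Vale.Agent.P078.C
end

section

namespace Vale.Agent.P078.C

open Finset Polynomial
open scoped Pointwise Classical Topology

namespace Sys

variable {X G : Type*} [TopologicalSpace X] [Group G] [MulAction G X]

/-! ### transport of sums over clusters -/

theorem aux_mem_TTs {𝔖 : Sys X G} {n : ℕ} {x : X} {T : Finset X} :
    T ∈ 𝔖.TTs n x ↔ 𝔖.TT n T ∧ x ∈ T := by
  unfold TTs
  rw [Finset.mem_filter, Finset.mem_powerset]
  constructor
  · rintro ⟨_, h⟩
    exact h
  · rintro ⟨h, hx⟩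
    exact ⟨fun v hv => h v hv x hx, h, hx⟩

theorem aux_isLocallyConstant_mem {C : Set X} (hC : IsClopen C) :
    IsLocallyConstant fun x => x ∈ C := by
  rw [IsLocallyConstant.iff_eventually_eq]
  intro x
  by_cases hx : x ∈ C
  · filter_upwards [hC.isOpen.mem_nhds hx] with y hy
    simp [hx, hy]
  · filter_upwards [hC.compl.isOpen.mem_nhds hx] with y hy
    have hy' : y ∉ C := hy
    simp [hx, hy']

theorem aux_isLocallyConstant_smul_eq (𝔖 : Sys X G) (g h : G) :
    IsLocallyConstant fun x : X => g • x = h • x := by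
  have h1 : (fun x : X => g • x = h • x) = fun x => x ∈ {x : X | (h⁻¹ * g) • x = x} := by
    funext x
    rw [Set.mem_ofPred_eq, mul_smul, inv_smul_eq_iff]
  rw [h1]
  exact aux_isLocallyConstant_mem (𝔖.fixc _)

theorem aux_eventually_pattern (𝔖 : Sys X G) (J : Finset G) (x : X) :
    ∀ᶠ x' in 𝓝 x, ∀ h ∈ J, ∀ h' ∈ J, (h • x' = h' • x') = (h • x = h' • x) := by
  have h1 : ∀ h ∈ J, ∀ᶠ x' in 𝓝 x, ∀ h' ∈ J, (h • x' = h' • x') = (h • x = h' • x) := by
    intro h _
    rw [Finset.eventually_all]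
    intro h' _
    exact (IsLocallyConstant.iff_eventually_eq _).1 (𝔖.aux_isLocallyConstant_smul_eq h h') x
  exact (Finset.eventually_all J).2 h1

theorem aux_card_image_key {ι W : Type*} (J : Finset ι) (e : ι → W) : (J.image e).card =
    (J.image fun g => J.filter fun h => e h = e g).card := by
  have h1 : (J.image fun g => J.filter fun h => e h = e g) =
      (J.image e).image (fun v => J.filter fun h => e h = v) := by
    rw [Finset.image_image]
    rfl
  rw [h1]
  refine (Finset.card_image_of_injOn ?_).symm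
  intro v hv w hw hvw
  simp only [Finset.coe_image, Set.mem_image, Finset.mem_coe] at hv hw
  obtain ⟨i, hi, rfl⟩ := hv
  obtain ⟨j, hj, rfl⟩ := hw
  have h2 : i ∈ J.filter fun h => e h = e i := Finset.mem_filter.2 ⟨hi, rfl⟩
  have h3 : (J.filter fun h => e h = e i) = J.filter fun h => e h = e j := hvw
  rw [h3] at h2
  exact (Finset.mem_filter.1 h2).2

theorem aux_card_image_eq {ι Y Z : Type*} (J : Finset ι) (f : ι → Y)
    (f' : ι → Z) (h : ∀ i ∈ J, ∀ j ∈ J, (f i = f j) = (f' i = f' j)) :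
    (J.image f).card = (J.image f').card := by
  rw [aux_card_image_key J f, aux_card_image_key J f']
  have h3 : ∀ g ∈ J, (J.filter fun h => f h = f g) = J.filter fun h => f' h = f' g := by
    intro g hg
    apply Finset.filter_congr
    intro i hi
    exact iff_of_eq (h i hi g hg)
  have h4 : (J.image fun g => J.filter fun h => f h = f g) =
      J.image fun g => J.filter fun h => f' h = f' g := Finset.image_congr h3
  rw [h4]

theorem aux_isLocallyConstant_card (𝔖 : Sys X G) (J : Finset G) :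
    IsLocallyConstant fun x : X => (J.image fun g => g • x).card := by
  rw [IsLocallyConstant.iff_eventually_eq]
  intro x
  filter_upwards [𝔖.aux_eventually_pattern J x] with x' hx'
  exact aux_card_image_eq J _ _ hx'

theorem aux_isLocallyConstant_smul_mem_image (𝔖 : Sys X G) (g : G) (J : Finset G) :
    IsLocallyConstant fun x : X => g • x ∈ J.image fun h => h • x := by
  rw [IsLocallyConstant.iff_eventually_eq]
  intro x
  filter_upwards [𝔖.aux_eventually_pattern (insert g J) x] with x' hx'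
  simp only [Finset.mem_image, eq_iff_iff]
  constructor
  · rintro ⟨h, hh, he⟩
    refine ⟨h, hh, ?_⟩
    rw [← hx' h (Finset.mem_insert_of_mem hh) g (Finset.mem_insert_self _ _)]
    exact he
  · rintro ⟨h, hh, he⟩
    refine ⟨h, hh, ?_⟩
    rw [hx' h (Finset.mem_insert_of_mem hh) g (Finset.mem_insert_self _ _)]
    exact he

theorem aux_nice_div_card (𝔖 : Sys X G) {φ : Finset X → ℝ} (hφ : Nice (G := G) φ) :
    Nice (G := G) fun T => φ T / T.card := by
  intro J
  have h1 : Continuous fun x : X => ((J.image fun g => g • x).card : ℝ)⁻¹ :=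
    ((𝔖.aux_isLocallyConstant_card J).comp fun k : ℕ => ((k : ℝ))⁻¹).continuous
  exact ((hφ J).mul h1).congr fun x => (div_eq_mul_inv _ _).symm

/-- mass transport for cluster sums -/
theorem aux_transport (𝔖 : Sys X G) (n : ℕ) (R : X → Finset X → Prop) (φ : Finset X → ℝ)
    (hφ : Nice (G := G) φ)
    (hR : ∀ J : Finset G, IsLocallyConstant fun x => R x (J.image fun h => h • x))
    (F F' : C(X, ℝ))
    (hF : ∀ x, F x = ∑ T ∈ 𝔖.TTs n x, (((T.filter fun v => R v T).card : ℝ) * φ T) / T.card)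
    (hF' : ∀ x, F' x = ∑ T ∈ (𝔖.TTs n x).filter (fun T => R x T), φ T) : 𝔖.I F = 𝔖.I F' := by
  symm
  refine 𝔖.mtp n (fun x v => ∑ T ∈ (𝔖.TTs n x).filter (fun T => R x T ∧ v ∈ T),
    φ T / T.card) ?_ F' F ?_ ?_
  · intro g _
    have key := 𝔖.continuous_sum_TTs n (𝔖.aux_nice_div_card hφ) (fun x v T => R x T ∧ v ∈ T)
      ?_ g
    · convert key
    intro g J
    have h1 := hR J
    have h2 := 𝔖.aux_isLocallyConstant_smul_mem_image g J
    rw [IsLocallyConstant.iff_eventually_eq] at h1 h2 ⊢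
    intro x
    filter_upwards [h1 x, h2 x] with x' e1 e2
    show (_ ∧ _) = (_ ∧ _)
    rw [e1, e2]
  · intro x
    rw [hF' x]
    have h1 : ∀ T ∈ (𝔖.TTs n x).filter (fun T => R x T), φ T = ∑ v ∈ T, φ T / T.card := by
      intro T hT
      have hx : x ∈ T := (aux_mem_TTs.1 (Finset.mem_filter.1 hT).1).2
      have hc : (T.card : ℝ) ≠ 0 := by
        have : T.card ≠ 0 := Finset.card_ne_zero_of_mem hx
        exact_mod_cast this
      rw [Finset.sum_const, nsmul_eq_mul]
      field_simp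
    rw [Finset.sum_congr rfl h1]
    rw [Finset.sum_comm' (s' := fun v => (𝔖.TTs n x).filter (fun T => R x T ∧ v ∈ T))
      (t' := 𝔖.ball n x)]
    intro T v
    simp only [Finset.mem_filter, aux_mem_TTs]
    constructor
    · rintro ⟨⟨⟨h1, h2⟩, h3⟩, h4⟩
      exact ⟨⟨⟨h1, h2⟩, h3, h4⟩, h1 v h4 x h2⟩
    · rintro ⟨⟨⟨h1, h2⟩, h3, h4⟩, h5⟩
      exact ⟨⟨⟨h1, h2⟩, h3⟩, h4⟩
  · intro x
    rw [hF x]
    have h1 : ∀ T ∈ 𝔖.TTs n x, (((T.filter fun v => R v T).card : ℝ) * φ T) / T.card =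
        ∑ v ∈ T.filter (fun v => R v T), φ T / T.card := by
      intro T _
      rw [Finset.sum_const, nsmul_eq_mul, mul_div_assoc]
    rw [Finset.sum_congr rfl h1]
    rw [Finset.sum_comm' (s' := fun v => (𝔖.TTs n v).filter (fun T => R v T ∧ x ∈ T))
      (t' := 𝔖.ball n x)]
    intro T v
    simp only [Finset.mem_filter, aux_mem_TTs]
    constructor
    · rintro ⟨⟨h1, h2⟩, h3, h4⟩
      exact ⟨⟨⟨h1, h3⟩, h4, h2⟩, h1 v h3 x h2⟩
    · rintro ⟨⟨⟨h1, h3⟩, h4, h2⟩, _⟩
      exact ⟨⟨h1, h2⟩, h3, h4⟩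

end Sys

end Vale.Agent.P078.C
end

section

namespace Vale.Agent.P078.C

open Finset Polynomial
open scoped Pointwise Classical

namespace Sys

variable {X G : Type*} [TopologicalSpace X] [Group G] [MulAction G X]

variable {r : ℕ}

/-! ### T5e: one stage -/

theorem stage_smul_lc (𝔖 : Sys X G) {Y : Type*} {s : X → Y} (hs : IsLocallyConstant s) (g : G) :
    IsLocallyConstant fun x => s (g • x) := hs.comp_continuous (𝔖.cont g)

theorem stage_update_lc (𝔖 : Sys X G) {s : X → Option (Fin r)} (hs : IsLocallyConstant s)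
    (a : Fin r) (g : G) :
    IsLocallyConstant fun x => Function.update s x (some a) (g • x) := by
  have h1 := 𝔖.stage_smul_lc hs g
  have h2 := 𝔖.aux_isLocallyConstant_smul_eq g 1
  rw [IsLocallyConstant.iff_eventually_eq] at h1 h2 ⊢
  intro x
  filter_upwards [h1 x, h2 x] with x' e1 e2
  simp only [one_smul] at e2
  by_cases hx : g • x = x
  · have hx' : g • x' = x' := by
      rw [e2]
      exact hx
    rw [hx, hx']
    simp
  · have hx' : g • x' ≠ x' := by
      intro h
      rw [e2] at h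
      exact hx h
    rw [Function.update_of_ne hx, Function.update_of_ne hx', e1]

/-- the change of `SP` of the ball around `x` when `x` gets the colour `a` -/
noncomputable def stageD (𝔖 : Sys X G) (p : ℝ[X]) (s : X → Option (Fin r)) (a : Fin r) (x : X) :
    ℝ :=
  SP p 𝔖.y (Function.update s x (some a)) (𝔖.ball p.natDegree x) -
    SP p 𝔖.y s (𝔖.ball p.natDegree x)

theorem stageD_continuous (𝔖 : Sys X G) (hr : 0 < r) (p : ℝ[X]) {s : X → Option (Fin r)}
    (hs : IsLocallyConstant s) (a : Fin r) : Continuous (𝔖.stageD p s a) := by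
  have hT : ∀ g : G, IsLocallyConstant fun x : X => (fun _ _ : X => True) x (g • x) := fun g =>
    IsLocallyConstant.const _
  have h1 := 𝔖.continuous_SP_ball hr p p.natDegree (fun x => Function.update s x (some a))
    (𝔖.stage_update_lc hs a) (fun _ _ => True) hT
  have h2 := 𝔖.continuous_SP_ball hr p p.natDegree (fun _ => s)
    (𝔖.stage_smul_lc hs) (fun _ _ => True) hT
  have h3 := h1.sub h2
  refine h3.congr fun x => ?_
  simp only [Pi.sub_apply, Finset.filter_true]
  rfl

/-- the new state -/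
noncomputable def stageS (C : Set X) (s : X → Option (Fin r)) (c : X → Fin r) :
    X → Option (Fin r) := fun x => if x ∈ C then some (c x) else s x

theorem stageS_lc {C : Set X} (hC : IsClopen C) {s : X → Option (Fin r)}
    (hs : IsLocallyConstant s) {c : X → Fin r} (hc : IsLocallyConstant c) :
    IsLocallyConstant (stageS C s c) := by
  have h1 := aux_isLocallyConstant_mem hC
  rw [IsLocallyConstant.iff_eventually_eq] at h1 hs hc ⊢
  intro x
  filter_upwards [h1 x, hs x, hc x] with x' e1 e2 e3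
  have e4 : (x' ∈ C) = (x ∈ C) := e1
  unfold stageS
  simp only [e2, e3, e4]

theorem stage_kap_of_disjoint (𝔖 : Sys X G) (p : ℝ[X]) {C : Set X} {s : X → Option (Fin r)}
    {c : X → Fin r} {T : Finset X} (hT : ∀ v ∈ T, v ∉ C) :
    kap p 𝔖.y (stageS C s c) T = kap p 𝔖.y s T := by
  refine kap_congr (fun i _ j _ => rfl) fun i hi => ?_
  unfold stageS
  rw [if_neg (hT i hi)]

theorem stage_kap_of_mem (𝔖 : Sys X G) (p : ℝ[X]) {n : ℕ} {C : Set X}
    (hsp : 𝔖.Sparse n C) {s : X → Option (Fin r)} {c : X → Fin r} {T : Finset X}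
    (hTT : 𝔖.TT n T) {x : X} (hx : x ∈ C) (hxT : x ∈ T) :
    kap p 𝔖.y (stageS C s c) T = kap p 𝔖.y (Function.update s x (some (c x))) T := by
  refine kap_congr (fun i _ j _ => rfl) fun i hi => ?_
  unfold stageS
  by_cases hix : i = x
  · subst hix
    rw [if_pos hx, Function.update_self]
  · have hiC : i ∉ C := fun h => hix (hsp i h x hx (hTT i hi x hxT))
    rw [if_neg hiC, Function.update_of_ne hix]

theorem stage_card (𝔖 : Sys X G) {n : ℕ} {C : Set X} (hsp : 𝔖.Sparse n C) {T : Finset X}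
    (hTT : 𝔖.TT n T) {x : X} (hx : x ∈ C) (hxT : x ∈ T) :
    (T.filter fun v => v ∈ C).card = 1 := by
  rw [Finset.card_eq_one]
  refine ⟨x, ?_⟩
  ext i
  simp only [Finset.mem_filter, Finset.mem_singleton]
  constructor
  · rintro ⟨h1, h2⟩
    exact hsp i h2 x hx (hTT i h1 x hxT)
  · rintro rfl
    exact ⟨hxT, hx⟩

theorem stage_sum (𝔖 : Sys X G) (hr : 0 < r) (p : ℝ[X]) {C : Set X}
    (hsp : 𝔖.Sparse p.natDegree C) {s : X → Option (Fin r)} {c : X → Fin r} {x : X}
    (hx : x ∈ C) :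
    ∑ T ∈ 𝔖.TTs p.natDegree x, (kap p 𝔖.y (stageS C s c) T - kap p 𝔖.y s T) =
      𝔖.stageD p s (c x) x := by
  have h0 : ∀ s' : X → Option (Fin r), ∑ T ∈ 𝔖.TTs p.natDegree x, kap p 𝔖.y s' T =
      SP p 𝔖.y s' (𝔖.ball p.natDegree x) - SP p 𝔖.y s' ((𝔖.ball p.natDegree x).erase x) := by
    intro s'
    have h := 𝔖.sum_kap_mem hr p s' x (fun _ => True) trivial
    simpa only [implies_true, filter_true] using h
  have h1 : ∑ T ∈ 𝔖.TTs p.natDegree x, kap p 𝔖.y (stageS C s c) T =
      ∑ T ∈ 𝔖.TTs p.natDegree x, kap p 𝔖.y (Function.update s x (some (c x))) T := by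
    refine Finset.sum_congr rfl fun T hT => ?_
    obtain ⟨h2, h3⟩ := aux_mem_TTs.1 hT
    exact 𝔖.stage_kap_of_mem p hsp h2 hx h3
  rw [Finset.sum_sub_distrib, h1, h0, h0]
  have h4 : SP p 𝔖.y (Function.update s x (some (c x))) ((𝔖.ball p.natDegree x).erase x) =
      SP p 𝔖.y s ((𝔖.ball p.natDegree x).erase x) := by
    refine SP_congr (fun i _ j _ => rfl) fun i hi => ?_
    rw [Function.update_of_ne (Finset.ne_of_mem_erase hi)]
  unfold stageD
  rw [h4]
  ring

theorem stage [CompactSpace X] [T2Space X] [TotallyDisconnectedSpace X] (𝔖 : Sys X G) (hr : 0 < r)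
    (p : ℝ[X]) {κ κ' : ℝ} (hκ' : 0 < κ')
    (hsel : ∀ (s : X → Option (Fin r)) (W : Finset X), ∀ w ∈ W, s w = none →
      ∃ c, SP p 𝔖.y (Function.update s w (some c)) W ≤ SP p 𝔖.y s W + κ)
    (C : Set X) (hC : IsClopen C) (hsp : 𝔖.Sparse p.natDegree C) (s : X → Option (Fin r))
    (hs : IsLocallyConstant s) (hsC : ∀ x ∈ C, s x = none)
    (F : C(X, ℝ)) (hF : ∀ x, F x = 𝔖.dens p p.natDegree s x)
    (χ : C(X, ℝ)) (hχ : ∀ x, χ x = if x ∈ C then 1 else 0) :
    ∃ s' : X → Option (Fin r), IsLocallyConstant s' ∧ (∀ x ∉ C, s' x = s x) ∧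
      (∀ x ∈ C, (s' x).isSome) ∧ ∃ F' : C(X, ℝ), (∀ x, F' x = 𝔖.dens p p.natDegree s' x) ∧
        𝔖.I F' ≤ 𝔖.I F + (κ + κ') * 𝔖.I χ := by
  obtain ⟨c, hc, hcD⟩ := exists_selection C hC (fun a => 𝔖.stageD p s a)
    (fun a => (𝔖.stageD_continuous hr p hs a).continuousOn) κ κ' hκ' (by
      intro x hx
      obtain ⟨a, ha⟩ := hsel s (𝔖.ball p.natDegree x) x (𝔖.mem_ball_self _ _) (hsC x hx)
      refine ⟨a, ?_⟩
      show 𝔖.stageD p s a x ≤ κ
      unfold stageD
      linarith only [ha]) hr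
  have hs' : IsLocallyConstant (stageS C s c) := stageS_lc hC hs hc
  refine ⟨stageS C s c, hs', ?_, ?_, ⟨_, 𝔖.continuous_dens hr p p.natDegree hs'⟩,
    fun x => rfl, ?_⟩
  · intro x hx
    unfold stageS
    rw [if_neg hx]
  · intro x hx
    unfold stageS
    rw [if_pos hx]
    rfl
  set F' : C(X, ℝ) := ⟨_, 𝔖.continuous_dens hr p p.natDegree hs'⟩ with hF'def
  have hF' : ∀ x, F' x = 𝔖.dens p p.natDegree (stageS C s c) x := fun x => rfl
  have hDc : Continuous fun x => 𝔖.stageD p s (c x) x := by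
    rw [continuous_iff_continuousAt]
    intro x
    have h1 := (IsLocallyConstant.iff_eventually_eq _).1 hc x
    refine ((𝔖.stageD_continuous hr p hs (c x)).continuousAt (x := x)).congr ?_
    filter_upwards [h1] with y hy
    rw [hy]
  have hφ : Nice (G := G) fun T => kap p 𝔖.y (stageS C s c) T - kap p 𝔖.y s T := by
    intro J
    exact (𝔖.nice_kap hr p hs' J).sub (𝔖.nice_kap hr p hs J)
  set H : C(X, ℝ) := χ * ⟨_, hDc⟩ with hH
  have hHx : ∀ x, H x = (if x ∈ C then 1 else 0) * 𝔖.stageD p s (c x) x := by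
    intro x
    rw [hH, ContinuousMap.mul_apply, hχ]
    rfl
  have key : 𝔖.I (F' - F) = 𝔖.I H := by
    refine 𝔖.aux_transport p.natDegree (fun v _ => v ∈ C)
      (fun T => kap p 𝔖.y (stageS C s c) T - kap p 𝔖.y s T) hφ
      (fun _ => aux_isLocallyConstant_mem hC) _ _ ?_ ?_
    · intro x
      rw [ContinuousMap.sub_apply, hF, hF']
      unfold dens
      rw [← Finset.sum_sub_distrib]
      refine Finset.sum_congr rfl fun T hT => ?_
      obtain ⟨h2, h3⟩ := aux_mem_TTs.1 hT
      rw [← sub_div]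
      congr 1
      by_cases hTC : ∃ v ∈ T, v ∈ C
      · obtain ⟨v, hv, hvC⟩ := hTC
        rw [𝔖.stage_card hsp h2 hvC hv]
        simp
      · have hTC' : ∀ v ∈ T, v ∉ C := fun v hv hvC => hTC ⟨v, hv, hvC⟩
        rw [𝔖.stage_kap_of_disjoint p hTC']
        simp
    · intro x
      rw [hHx]
      by_cases hx : x ∈ C
      · rw [if_pos hx, one_mul, Finset.filter_true_of_mem (fun _ _ => hx),
          𝔖.stage_sum hr p hsp hx]
      · rw [if_neg hx, zero_mul, Finset.filter_false_of_mem (fun _ _ => hx), Finset.sum_empty]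
  have hle : 𝔖.I H ≤ (κ + κ') * 𝔖.I χ := by
    have h1 : 0 ≤ 𝔖.I ((κ + κ') • χ - H) := by
      refine 𝔖.I_nonneg _ fun x => ?_
      rw [ContinuousMap.sub_apply, ContinuousMap.smul_apply, hHx, hχ, smul_eq_mul]
      by_cases hx : x ∈ C
      · rw [if_pos hx]
        have := hcD x hx
        have h2 : 𝔖.stageD p s (c x) x ≤ κ + κ' := this
        linarith only [this]
      · rw [if_neg hx]
        simp
    rw [map_sub, map_smul, smul_eq_mul] at h1
    linarith only [h1]
  rw [map_sub] at key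
  linarith only [key, hle]

end Sys

end Vale.Agent.P078.C
end

section

namespace Vale.Agent.P078.C

open Finset Polynomial
open scoped Pointwise Classical

namespace Sys

variable {X G : Type*} [TopologicalSpace X] [Group G] [MulAction G X]

variable {r : ℕ}

/-! ### T5f: the initial state -/

theorem init_card (𝔖 : Sys X G) {n m : ℕ} {j : X → Fin m}
    (hj : ∀ i, 𝔖.Sparse n (j ⁻¹' {i})) {T : Finset X} (hTT : 𝔖.TT n T) {x : X} (hxT : x ∈ T) :
    (T.filter fun v => ∀ w ∈ T, j w ≤ j v).card = 1 := by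
  obtain ⟨v, hv, hmax⟩ := Finset.exists_max_image T j ⟨x, hxT⟩
  rw [Finset.card_eq_one]
  refine ⟨v, ?_⟩
  ext i
  simp only [Finset.mem_filter, Finset.mem_singleton]
  constructor
  · rintro ⟨h1, h2⟩
    have h3 : j i = j v := le_antisymm (hmax i h1) (h2 v hv)
    exact hj (j v) i h3 v rfl (hTT i h1 v hv)
  · rintro rfl
    exact ⟨hv, hmax⟩

theorem init_lc {m : ℕ} (𝔖 : Sys X G) {j : X → Fin m} (hj : IsLocallyConstant j) (J : Finset G) :
    IsLocallyConstant fun x => ∀ w ∈ J.image (fun h => h • x), j w ≤ j x := by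
  rw [IsLocallyConstant.iff_eventually_eq]
  intro x
  have h1 : ∀ᶠ x' in nhds x, ∀ h ∈ J, j (h • x') = j (h • x) := by
    rw [Finset.eventually_all]
    intro h _
    exact (IsLocallyConstant.iff_eventually_eq _).1 (hj.comp_continuous (𝔖.cont h)) x
  filter_upwards [h1, (IsLocallyConstant.iff_eventually_eq _).1 hj x] with x' e1 e2
  rw [eq_iff_iff]
  simp only [Finset.mem_image, forall_exists_index, and_imp, forall_apply_eq_imp_iff₂]
  constructor
  · intro h g hg
    have h2 := h g hg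
    rwa [e1 g hg, e2] at h2
  · intro h g hg
    rw [e1 g hg, e2]
    exact h g hg

theorem initial [CompactSpace X] [T2Space X] [TotallyDisconnectedSpace X] (𝔖 : Sys X G)
    (hr : 0 < r) (p : ℝ[X]) {β : ℝ}
    (hini : ∀ (W : Finset X), ∀ w ∈ W, SP p 𝔖.y (fun _ => (none : Option (Fin r))) W ≤
      SP p 𝔖.y (fun _ => (none : Option (Fin r))) (W.erase w) + β)
    (F : C(X, ℝ)) (hF : ∀ x, F x = 𝔖.dens p p.natDegree (fun _ => (none : Option (Fin r))) x) :
    𝔖.I F ≤ β := by
  obtain ⟨m, j, hjc, hj⟩ := 𝔖.exists_sparse p.natDegree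
  set s : X → Option (Fin r) := fun _ => none with hs
  have hslc : IsLocallyConstant s := IsLocallyConstant.const _
  have hcont : Continuous fun x => ∑ T ∈ (𝔖.TTs p.natDegree x).filter
      (fun T => ∀ w ∈ T, j w ≤ j x), kap p 𝔖.y s T := by
    have h := 𝔖.continuous_sum_TTs p.natDegree (𝔖.nice_kap hr p hslc)
      (fun x _ T => ∀ w ∈ T, j w ≤ j x) (fun _ J => 𝔖.init_lc hjc J) 1
    convert h
  set F' : C(X, ℝ) := ⟨_, hcont⟩ with hF'def
  have hF' : ∀ x, F' x = ∑ T ∈ (𝔖.TTs p.natDegree x).filter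
      (fun T => ∀ w ∈ T, j w ≤ j x), kap p 𝔖.y s T := fun x => rfl
  have key : 𝔖.I F = 𝔖.I F' := by
    refine 𝔖.aux_transport p.natDegree (fun v T => ∀ w ∈ T, j w ≤ j v) (kap p 𝔖.y s)
      (𝔖.nice_kap hr p hslc) (fun J => 𝔖.init_lc hjc J) F F' ?_ ?_
    · intro x
      rw [hF x]
      unfold dens
      refine Finset.sum_congr rfl fun T hT => ?_
      obtain ⟨h1, h2⟩ := aux_mem_TTs.1 hT
      have h3 := 𝔖.init_card hj h1 h2
      have h4 : (T.filter fun v => ∀ w ∈ T, j w ≤ j v).card = 1 := h3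
      congr 1
      have h5 : ((@Finset.filter X (fun v => ∀ w ∈ T, j w ≤ j v)
          (fun a => Classical.propDecidable _) T).card : ℝ) = 1 := by
        have : (@Finset.filter X (fun v => ∀ w ∈ T, j w ≤ j v)
          (fun a => Classical.propDecidable _) T).card = 1 := by
          convert h4
        rw [this]
        norm_num
      rw [h5, one_mul]
    · intro x
      rw [hF' x]
      congr!
  have hle : ∀ x, F' x ≤ β := by
    intro x
    have h := 𝔖.sum_kap_mem hr p s x (fun v => j v ≤ j x) le_rfl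
    have h1 : F' x = SP p 𝔖.y s ((𝔖.ball p.natDegree x).filter fun v => j v ≤ j x) -
        SP p 𝔖.y s (((𝔖.ball p.natDegree x).filter fun v => j v ≤ j x).erase x) := by
      rw [hF' x]
      convert h
    rw [h1]
    have h2 := hini ((𝔖.ball p.natDegree x).filter fun v => j v ≤ j x) x
      (Finset.mem_filter.2 ⟨𝔖.mem_ball_self _ _, le_rfl⟩)
    linarith only [h2]
  have h2 : 0 ≤ 𝔖.I (β • (1 : C(X, ℝ)) - F') := by
    refine 𝔖.I_nonneg _ fun x => ?_
    rw [ContinuousMap.sub_apply, ContinuousMap.smul_apply, ContinuousMap.one_apply, smul_eq_mul,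
      mul_one]
    have := hle x
    linarith only [this]
  rw [map_sub, map_smul, 𝔖.I_one, smul_eq_mul, mul_one] at h2
  linarith only [key, h2]

end Sys

end Vale.Agent.P078.C
end

end

section
section

namespace Vale.Agent.P078.C

open Finset Polynomial
open scoped Pointwise Classical

/-! ### Möbius inversion on finite sets -/

section Mobius

variable {α : Type*}

/-- the Möbius transform -/
noncomputable def mob (φ : Finset α → ℝ) (T : Finset α) : ℝ :=
  ∑ W ∈ T.powerset, (-1) ^ (T.card - W.card) * φ W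

theorem mob_insert (φ : Finset α → ℝ) {a : α} {T : Finset α} (ha : a ∉ T) :
    mob φ (insert a T) = - mob φ T + mob (fun W => φ (insert a W)) T := by
  unfold mob
  rw [Finset.sum_powerset_insert ha, ← Finset.sum_neg_distrib]
  congr 1
  · refine Finset.sum_congr rfl (fun W hW => ?_)
    have h1 := Finset.card_le_card (Finset.mem_powerset.1 hW)
    rw [Finset.card_insert_of_notMem ha, Nat.succ_sub h1, pow_succ]
    ring
  · refine Finset.sum_congr rfl (fun W hW => ?_)
    have h2 : a ∉ W := fun h => ha (Finset.mem_powerset.1 hW h)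
    rw [Finset.card_insert_of_notMem ha, Finset.card_insert_of_notMem h2, Nat.add_sub_add_right]

theorem sum_mob (B : Finset α) : ∀ φ : Finset α → ℝ, ∑ T ∈ B.powerset, mob φ T = φ B := by
  induction B using Finset.induction_on with
  | empty =>
    intro φ
    simp only [powerset_empty, mob, sum_singleton, card_empty, zero_tsub, pow_zero, one_mul]
  | insert a B ha ih =>
    intro φ
    rw [Finset.sum_powerset_insert ha, ← Finset.sum_add_distrib, ← ih (fun W => φ (insert a W))]
    refine Finset.sum_congr rfl (fun T hT => ?_)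
    have h2 : a ∉ T := fun h => ha (Finset.mem_powerset.1 hT h)
    rw [mob_insert φ h2]
    ring

theorem mob_unique {g g' : Finset α → ℝ}
    (h : ∀ B : Finset α, ∑ T ∈ B.powerset, g T = ∑ T ∈ B.powerset, g' T) (T : Finset α) :
    g T = g' T := by
  induction T using Finset.strongInduction with
  | H T ih =>
    have h1 := h T
    rw [← Finset.add_sum_erase _ _ (Finset.mem_powerset_self T),
      ← Finset.add_sum_erase _ g' (Finset.mem_powerset_self T)] at h1
    have h2 : ∑ S ∈ T.powerset.erase T, g S = ∑ S ∈ T.powerset.erase T, g' S := by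
      refine Finset.sum_congr rfl (fun S hS => ?_)
      obtain ⟨h3, h4⟩ := Finset.mem_erase.1 hS
      exact ih S (Finset.ssubset_iff_subset_ne.2 ⟨Finset.mem_powerset.1 h4, h3⟩)
    linarith only [h1, h2]

theorem mob_eq {φ g : Finset α → ℝ} (h : ∀ W : Finset α, φ W = ∑ S ∈ W.powerset, g S)
    (T : Finset α) : mob φ T = g T :=
  mob_unique (fun B => by rw [sum_mob, h]) T

/-- sums over sets, forcing an element -/
theorem sum_force {M : Type*} [AddCommMonoid M] (g : Finset α → M) {u : α} {W : Finset α}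
    (hu : u ∈ W) :
    ∑ S ∈ W.powerset, (if u ∈ S then g S + g (S.erase u) else 0) = ∑ S ∈ W.powerset, g S := by
  obtain ⟨W', hu', rfl⟩ : ∃ W', u ∉ W' ∧ W = insert u W' :=
    ⟨W.erase u, Finset.notMem_erase u W, (Finset.insert_erase hu).symm⟩
  rw [Finset.sum_powerset_insert hu', Finset.sum_powerset_insert hu']
  have h1 : ∀ S ∈ W'.powerset, (if u ∈ S then g S + g (S.erase u) else 0) = 0 := by
    intro S hS
    exact if_neg (fun h => hu' (Finset.mem_powerset.1 hS h))
  have h2 : ∀ S ∈ W'.powerset, (if u ∈ insert u S then g (insert u S) +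
      g ((insert u S).erase u) else 0) = g S + g (insert u S) := by
    intro S hS
    have h3 : u ∉ S := fun h => hu' (Finset.mem_powerset.1 hS h)
    rw [if_pos (Finset.mem_insert_self u S), Finset.erase_insert h3, add_comm]
  rw [Finset.sum_congr rfl h1, Finset.sum_congr rfl h2, Finset.sum_const_zero, zero_add,
    Finset.sum_add_distrib]

end Mobius

namespace Sys

variable {X G : Type*} [TopologicalSpace X] [Group G] [MulAction G X]

variable {r : ℕ}

/-! ### T5g: the final state -/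

/-- walk expansion of the powers of a kernel -/
theorem final_walks (𝔖 : Sys X G) (t : X → X → ℂ) (ht : ∀ v w, t v w ≠ 0 → v ∈ 𝔖.ball 1 w)
    (w : X) (n : ℕ) : ∀ v, ∃ g : Finset X → ℂ,
      (∀ W, pw t W n v w = ∑ S ∈ W.powerset, g S) ∧
      ∀ S, g S ≠ 0 → ∀ a ∈ insert v (insert w S), ∀ b ∈ insert v (insert w S),
        a ∈ 𝔖.ball n b := by
  induction n with
  | zero =>
    intro v
    refine ⟨fun S => if S = ∅ then (if v = w then 1 else 0) else 0, fun W => ?_, ?_⟩
    · rw [Finset.sum_ite_eq' W.powerset ∅ (fun _ => if v = w then (1 : ℂ) else 0),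
        if_pos (Finset.empty_mem_powerset W)]
      rfl
    · intro S hS a ha b hb
      have h1 : S = ∅ := by
        by_contra h
        exact hS (if_neg h)
      have h2 : v = w := by
        by_contra h
        apply hS
        show (if S = ∅ then (if v = w then (1 : ℂ) else 0) else 0) = 0
        rw [if_pos h1, if_neg h]
      subst h1
      subst h2
      simp only [Finset.mem_insert, Finset.notMem_empty, or_false, or_self] at ha hb
      rw [ha, hb]
      exact 𝔖.mem_ball_self 0 v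
  | succ n ih =>
    intro v
    choose g hg1 hg2 using ih
    refine ⟨fun S => ∑ u ∈ S, t v u * (g u S + g u (S.erase u)), fun W => ?_, ?_⟩
    · have h1 : ∀ S ∈ W.powerset, ∑ u ∈ S, t v u * (g u S + g u (S.erase u)) =
          ∑ u ∈ W, t v u * (if u ∈ S then g u S + g u (S.erase u) else 0) := by
        intro S hS
        rw [← Finset.sum_filter_add_sum_filter_not W (fun u => u ∈ S)]
        have h2 : W.filter (fun u => u ∈ S) = S :=
          (Finset.filter_mem_eq_inter (s := W) (t := S)).trans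
            (Finset.inter_eq_right.2 (Finset.mem_powerset.1 hS))
        rw [h2]
        have h3 : ∑ u ∈ W with ¬u ∈ S, t v u * (if u ∈ S then g u S + g u (S.erase u) else 0) =
            0 := by
          refine Finset.sum_eq_zero (fun u hu => ?_)
          rw [if_neg (Finset.mem_filter.1 hu).2, mul_zero]
        rw [h3, add_zero]
        refine Finset.sum_congr rfl (fun u hu => ?_)
        rw [if_pos hu]
      rw [Finset.sum_congr rfl h1, Finset.sum_comm]
      show ∑ u ∈ W, t v u * pw t W n u w = _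
      refine Finset.sum_congr rfl (fun u hu => ?_)
      rw [← Finset.mul_sum, sum_force (g u) hu, hg1 u W]
    · intro S hS
      obtain ⟨u, hu, hne⟩ := Finset.exists_ne_zero_of_sum_ne_zero hS
      have htu : v ∈ 𝔖.ball 1 u := ht v u (left_ne_zero_of_mul hne)
      have hgu : g u S + g u (S.erase u) ≠ 0 := right_ne_zero_of_mul hne
      have key : ∀ a ∈ insert w S, ∀ b ∈ insert w S, a ∈ 𝔖.ball n b := by
        intro a ha b hb
        by_cases h0 : g u S = 0
        · rw [h0, zero_add] at hgu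
          have h4 : ∀ a ∈ insert w S, a ∈ insert u (insert w (S.erase u)) := by
            intro a ha
            rcases Finset.mem_insert.1 ha with rfl | ha
            · exact Finset.mem_insert_of_mem (Finset.mem_insert_self _ _)
            · by_cases h5 : a = u
              · subst h5
                exact Finset.mem_insert_self _ _
              · exact Finset.mem_insert_of_mem (Finset.mem_insert_of_mem
                  (Finset.mem_erase.2 ⟨h5, ha⟩))
          exact hg2 u _ hgu a (h4 a ha) b (h4 b hb)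
        · exact hg2 u _ h0 a (Finset.mem_insert_of_mem ha) b (Finset.mem_insert_of_mem hb)
      have huS : u ∈ insert w S := Finset.mem_insert_of_mem hu
      intro a ha b hb
      rcases Finset.mem_insert.1 ha with ha' | ha'
      · rcases Finset.mem_insert.1 hb with hb' | hb'
        · rw [ha', hb']
          exact 𝔖.mem_ball_self _ _
        · rw [ha']
          exact 𝔖.ball_trans (key u huS b hb') htu
      · rcases Finset.mem_insert.1 hb with hb' | hb'
        · rw [hb']
          exact 𝔖.mem_ball_comm.1 (𝔖.ball_trans (key u huS a ha') htu)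
        · exact 𝔖.ball_mono (Nat.le_succ n) b (key a ha' b hb')

/-- the contribution of `v` to the cluster coefficient of `T` -/
noncomputable def fkap (𝔖 : Sys X G) (p : ℝ[X]) (c : X → Fin r) (v : X) (T : Finset X) : ℝ :=
  mob (fun W => if v ∈ W then locmom p 𝔖.y c W v else 0) T

theorem TT_of_fkap (𝔖 : Sys X G) (p : ℝ[X]) (c : X → Fin r) {v : X} {T : Finset X}
    (h : 𝔖.fkap p c v T ≠ 0) : 𝔖.TT p.natDegree T ∧ v ∈ T := by
  have ht : ∀ a b, yc 𝔖.y c a b ≠ 0 → a ∈ 𝔖.ball 1 b := by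
    intro a b hab
    refine 𝔖.ball_of_edge (fun h0 => hab ?_)
    unfold yc
    rw [h0, ite_self]
  have h1 := fun n => 𝔖.final_walks (yc 𝔖.y c) ht v n v
  choose g hg1 hg2 using h1
  let H : Finset X → ℝ := fun S => ∑ n ∈ Finset.range (p.natDegree + 1), p.coeff n * (g n S).re
  have hH : ∀ W, locmom p 𝔖.y c W v = ∑ S ∈ W.powerset, H S := by
    intro W
    unfold locmom
    rw [Finset.sum_comm]
    refine Finset.sum_congr rfl (fun n _ => ?_)
    rw [hg1 n W, Complex.re_sum, Finset.mul_sum]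
  have hH2 : ∀ S, H S ≠ 0 → ∀ a ∈ insert v S, ∀ b ∈ insert v S, a ∈ 𝔖.ball p.natDegree b := by
    intro S hS a ha b hb
    obtain ⟨n, hn, hne⟩ := Finset.exists_ne_zero_of_sum_ne_zero hS
    have h3 : g n S ≠ 0 := by
      intro h0
      apply hne
      rw [h0, Complex.zero_re, mul_zero]
    have h4 := hg2 n S h3 a (Finset.mem_insert_of_mem ha) b (Finset.mem_insert_of_mem hb)
    exact 𝔖.ball_mono (Nat.lt_succ_iff.1 (Finset.mem_range.1 hn)) b h4
  have h2 : ∀ W : Finset X, (if v ∈ W then locmom p 𝔖.y c W v else 0) =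
      ∑ S ∈ W.powerset, (if v ∈ S then H S + H (S.erase v) else 0) := by
    intro W
    by_cases hv : v ∈ W
    · rw [if_pos hv, sum_force H hv, hH]
    · rw [if_neg hv]
      symm
      refine Finset.sum_eq_zero (fun S hS => ?_)
      exact if_neg (fun h => hv (Finset.mem_powerset.1 hS h))
  unfold fkap at h
  rw [mob_eq h2] at h
  have hv : v ∈ T := by
    by_contra h0
    exact h (if_neg h0)
  rw [if_pos hv] at h
  refine ⟨?_, hv⟩
  by_cases h0 : H T = 0
  · rw [h0, zero_add] at h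
    have h3 := hH2 _ h
    rw [Finset.insert_erase hv] at h3
    exact h3
  · have h3 := hH2 _ h0
    rw [Finset.insert_eq_of_mem hv] at h3
    exact h3

theorem kap_eq_sum_fkap (𝔖 : Sys X G) (hr : 0 < r) (p : ℝ[X]) (c : X → Fin r) (T : Finset X) :
    kap p 𝔖.y (fun x => some (c x)) T = ∑ v ∈ T, 𝔖.fkap p c v T := by
  unfold kap fkap mob
  rw [Finset.sum_comm]
  refine Finset.sum_congr rfl (fun W hW => ?_)
  rw [← Finset.mul_sum, SP_some hr 𝔖.herm c (fun _ _ => rfl)]
  congr 1
  rw [← Finset.sum_filter]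
  refine Finset.sum_congr ?_ (fun _ _ => rfl)
  exact ((Finset.filter_mem_eq_inter (s := T) (t := W)).trans
    (Finset.inter_eq_right.2 (Finset.mem_powerset.1 hW))).symm

theorem sum_fkap (𝔖 : Sys X G) (p : ℝ[X]) (c : X → Fin r) (x : X) :
    ∑ T ∈ 𝔖.TTs p.natDegree x, 𝔖.fkap p c x T =
      locmom p 𝔖.y c (𝔖.ball p.natDegree x) x := by
  have h1 : ∑ T ∈ (𝔖.ball p.natDegree x).powerset, 𝔖.fkap p c x T =
      locmom p 𝔖.y c (𝔖.ball p.natDegree x) x := by
    unfold fkap
    rw [sum_mob, if_pos (𝔖.mem_ball_self _ x)]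
  rw [← h1]
  refine Finset.sum_subset (fun T hT => ?_) (fun T _ hT => ?_)
  · obtain ⟨h2, h3⟩ := 𝔖.mem_TTs.1 hT
    exact Finset.mem_powerset.2 (fun v hv => h2 v hv x h3)
  · by_contra h2
    exact hT (𝔖.mem_TTs.2 (𝔖.TT_of_fkap p c h2))

/-- the transport function -/
noncomputable def ftr (𝔖 : Sys X G) (p : ℝ[X]) (c : X → Fin r) (x v : X) : ℝ :=
  ∑ T ∈ (𝔖.TTs p.natDegree x).filter (fun T => v ∈ T), 𝔖.fkap p c v T / T.card

theorem continuous_fkap (𝔖 : Sys X G) (p : ℝ[X]) {c : X → Fin r} (hc : IsLocallyConstant c)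
    (g : G) (J : Finset G) :
    Continuous fun x => 𝔖.fkap p c (g • x) (J.image fun h => h • x) /
      ((J.image fun h => h • x).card : ℝ) := by
  rw [continuous_iff_continuousAt]
  intro x0
  obtain ⟨J', -, h3⟩ := 𝔖.nice_rep' J x0
  have h4 : ∀ᶠ x in nhds x0, ∀ K ∈ J'.powerset,
      (g • x ∈ (K.image fun h => h • x) ↔ g • x0 ∈ (K.image fun h => h • x0)) :=
    (Filter.eventually_all_finset _).2 (fun K _ => 𝔖.nice_ev_mem_image K g x0)
  have heq : (fun x => 𝔖.fkap p c (g • x) (J.image fun h => h • x) /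
      ((J.image fun h => h • x).card : ℝ)) =ᶠ[nhds x0]
      fun x => (∑ K ∈ J'.powerset, (-1) ^ (J'.card - K.card) *
        (if g • x0 ∈ (K.image fun h => h • x0) then
          locmom p 𝔖.y c (K.image fun h => h • x) (g • x) else 0)) / (J'.card : ℝ) := by
    filter_upwards [h3, h4] with x hx hx4
    have h5 : (J.image fun g => g • x).card = J'.card := by
      rw [hx.2, Finset.card_image_of_injOn hx.1]
    rw [h5]
    congr 1
    unfold fkap mob
    rw [h5, hx.2, nice_sum_powerset_image hx.1 (fun W => (-1) ^ (J'.card - W.card) *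
      (if g • x ∈ W then locmom p 𝔖.y c W (g • x) else 0))]
    refine Finset.sum_congr rfl (fun K hK => ?_)
    have hK' := Finset.mem_powerset.1 hK
    rw [Finset.card_image_of_injOn (hx.1.mono (by exact_mod_cast hK'))]
    congr 1
    exact if_congr (hx4 K hK) rfl rfl
  refine ContinuousAt.congr ?_ heq.symm
  refine ContinuousAt.div_const ?_ _
  refine tendsto_finsetSum _ (fun K _ => ?_)
  refine ContinuousAt.mul continuousAt_const ?_
  by_cases hg : g • x0 ∈ (K.image fun h => h • x0)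
  · simp only [if_pos hg]
    obtain ⟨h, hh, hhg⟩ := Finset.mem_image.1 hg
    refine ContinuousAt.congr (𝔖.nice_locmom p hc K h hh).continuousAt ?_
    filter_upwards [𝔖.nice_ev_eq h g x0] with x hx
    rw [hx.2 hhg]
  · simp only [if_neg hg]
    exact continuousAt_const

theorem continuous_ftr (𝔖 : Sys X G) (p : ℝ[X]) {c : X → Fin r} (hc : IsLocallyConstant c)
    (g : G) : Continuous fun x => 𝔖.ftr p c x (g • x) := by
  have h := 𝔖.continuous_sum_TTs' p.natDegree
    (f := fun x T => 𝔖.fkap p c (g • x) T / T.card)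
    (𝔖.continuous_fkap p hc g) (fun x T => g • x ∈ T)
    (fun J x0 => 𝔖.nice_ev_mem_image J g x0)
  refine h.congr (fun x => ?_)
  unfold ftr
  refine Finset.sum_congr ?_ (fun _ _ => rfl)
  ext T
  simp only [Finset.mem_filter]

theorem final (𝔖 : Sys X G) (hr : 0 < r) (p : ℝ[X]) {c : X → Fin r} (hc : IsLocallyConstant c)
    (F m : C(X, ℝ)) (hF : ∀ x, F x = 𝔖.dens p p.natDegree (fun x => some (c x)) x)
    (hm : ∀ x, m x = locmom p 𝔖.y c (𝔖.ball p.natDegree x) x) : 𝔖.I F = 𝔖.I m := by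
  refine 𝔖.mtp p.natDegree (𝔖.ftr p c) (fun g _ => 𝔖.continuous_ftr p hc g) F m ?_ ?_
  · intro x
    rw [hF x]
    unfold dens ftr
    have h1 : ∀ T ∈ 𝔖.TTs p.natDegree x, kap p 𝔖.y (fun x => some (c x)) T / T.card =
        ∑ v ∈ 𝔖.ball p.natDegree x, if v ∈ T then 𝔖.fkap p c v T / T.card else 0 := by
      intro T hT
      obtain ⟨h2, h3⟩ := 𝔖.mem_TTs.1 hT
      have h4 : T ⊆ 𝔖.ball p.natDegree x := fun v hv => h2 v hv x h3
      rw [𝔖.kap_eq_sum_fkap hr, Finset.sum_div, ← Finset.sum_filter]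
      refine Finset.sum_congr ?_ (fun _ _ => rfl)
      exact ((Finset.filter_mem_eq_inter (s := 𝔖.ball p.natDegree x) (t := T)).trans
        (Finset.inter_eq_right.2 h4)).symm
    rw [Finset.sum_congr rfl h1, Finset.sum_comm]
    refine Finset.sum_congr rfl (fun v _ => ?_)
    rw [Finset.sum_filter]
  · intro x
    rw [hm x, ← 𝔖.sum_fkap p c x]
    unfold ftr
    have h1 : ∀ v ∈ 𝔖.ball p.natDegree x,
        ∑ T ∈ (𝔖.TTs p.natDegree v).filter (fun T => x ∈ T), 𝔖.fkap p c x T / T.card =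
        ∑ T ∈ 𝔖.TTs p.natDegree x, if v ∈ T then 𝔖.fkap p c x T / T.card else 0 := by
      intro v _
      rw [← Finset.sum_filter]
      refine Finset.sum_congr ?_ (fun _ _ => rfl)
      ext T
      rw [Finset.mem_filter, Finset.mem_filter, 𝔖.mem_TTs, 𝔖.mem_TTs]
      (clear * -; tauto)
    rw [Finset.sum_congr rfl h1, Finset.sum_comm]
    refine Finset.sum_congr rfl (fun T hT => ?_)
    obtain ⟨h2, h3⟩ := 𝔖.mem_TTs.1 hT
    have h4 : T ⊆ 𝔖.ball p.natDegree x := fun v hv => h2 v hv x h3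
    rw [← Finset.sum_filter]
    have h5 : (𝔖.ball p.natDegree x).filter (fun v => v ∈ T) = T :=
      (Finset.filter_mem_eq_inter (s := 𝔖.ball p.natDegree x) (t := T)).trans
        (Finset.inter_eq_right.2 h4)
    rw [h5, Finset.sum_const, nsmul_eq_mul]
    have h6 : (T.card : ℝ) ≠ 0 := by
      have := Finset.card_pos.2 ⟨x, h3⟩
      (clear * - this; positivity)
    (clear * - h6; field_simp)

end Sys

end Vale.Agent.P078.C
end

section

namespace Vale.Agent.P078.C

open Finset Polynomial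
open scoped Pointwise Classical

namespace Sys

variable {X G : Type*} [TopologicalSpace X] [Group G] [MulAction G X]

variable {r : ℕ}

/-! ### T5: main -/

theorem main_clopen {m : ℕ} {j : X → Fin m} (hj : IsLocallyConstant j) (i : Fin m) :
    IsClopen (j ⁻¹' {i}) := hj.isClopen_fiber i

theorem main_ind {C : Set X} (hC : IsClopen C) :
    ∃ χ : C(X, ℝ), ∀ x, χ x = if x ∈ C then 1 else 0 := by
  have h := ((aux_isLocallyConstant_mem hC).comp fun q : Prop => if q then (1 : ℝ) else 0).continuous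
  exact ⟨⟨_, h⟩, fun x => rfl⟩

theorem main_steps [CompactSpace X] [T2Space X] [TotallyDisconnectedSpace X] (𝔖 : Sys X G)
    (hr : 0 < r) (p : ℝ[X]) {κ κ' β : ℝ} (hκ' : 0 < κ')
    (hsel : ∀ (s : X → Option (Fin r)) (W : Finset X), ∀ w ∈ W, s w = none →
      ∃ c, SP p 𝔖.y (Function.update s w (some c)) W ≤ SP p 𝔖.y s W + κ)
    (hini : ∀ (W : Finset X), ∀ w ∈ W, SP p 𝔖.y (fun _ => (none : Option (Fin r))) W ≤
      SP p 𝔖.y (fun _ => (none : Option (Fin r))) (W.erase w) + β)
    {m : ℕ} {j : X → Fin m} (hj : IsLocallyConstant j)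
    (hsp : ∀ i, 𝔖.Sparse p.natDegree (j ⁻¹' {i})) (k : ℕ) (hk : k ≤ m) :
    ∃ s : X → Option (Fin r), IsLocallyConstant s ∧ (∀ x, k ≤ (j x : ℕ) → s x = none) ∧
      (∀ x, (j x : ℕ) < k → (s x).isSome) ∧ ∃ F : C(X, ℝ),
      (∀ x, F x = 𝔖.dens p p.natDegree s x) ∧ ∃ χ : C(X, ℝ),
      (∀ x, χ x = if (j x : ℕ) < k then 1 else 0) ∧ 𝔖.I F ≤ β + (κ + κ') * 𝔖.I χ := by
  induction k with
  | zero =>
    have hslc : IsLocallyConstant (fun _ : X => (none : Option (Fin r))) :=
      IsLocallyConstant.const _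
    refine ⟨fun _ => none, hslc, fun _ _ => rfl, fun x hx => absurd hx (Nat.not_lt_zero _),
      ⟨_, 𝔖.continuous_dens hr p p.natDegree hslc⟩, fun x => rfl, 0, fun x => ?_, ?_⟩
    · simp
    · rw [map_zero, mul_zero, add_zero]
      exact 𝔖.initial hr p hini _ fun x => rfl
  | succ k ih =>
    obtain ⟨s, hs, hs0, hs1, F, hF, χ, hχ, hle⟩ := ih (Nat.le_of_succ_le hk)
    have hC := main_clopen hj ⟨k, hk⟩
    obtain ⟨χ', hχ'⟩ := main_ind hC
    have hmem : ∀ x, x ∈ j ⁻¹' {(⟨k, hk⟩ : Fin m)} ↔ (j x : ℕ) = k := by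
      intro x
      rw [Set.mem_preimage, Set.mem_singleton_iff, Fin.ext_iff]
    obtain ⟨s', hs', hs'1, hs'2, F', hF', hle'⟩ := 𝔖.stage hr p hκ' hsel (j ⁻¹' {⟨k, hk⟩}) hC
      (hsp _) s hs (fun x hx => hs0 x ((hmem x).1 hx).ge) F hF χ' (fun x => by
        rw [hχ' x])
    refine ⟨s', hs', ?_, ?_, F', hF', χ + χ', ?_, ?_⟩
    · intro x hx
      rw [hs'1 x (fun h => by have := (hmem x).1 h; (clear * - hx this; omega))]
      exact hs0 x (by (clear * - hx; omega))
    · intro x hx
      by_cases h : (j x : ℕ) = k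
      · exact hs'2 x ((hmem x).2 h)
      · rw [hs'1 x (fun h' => h ((hmem x).1 h'))]
        exact hs1 x (by (clear * - hx h; omega))
    · intro x
      rw [ContinuousMap.add_apply, hχ, hχ']
      by_cases h : (j x : ℕ) = k
      · have h1 : ¬ (j x : ℕ) < k := by (clear * - h; omega)
        have h2 : (j x : ℕ) < k + 1 := by (clear * - h; omega)
        have h3 := (hmem x).2 h
        simp only [h1, h2, h3, if_true, if_false]
        norm_num
      · have h3 : ¬ x ∈ j ⁻¹' {(⟨k, hk⟩ : Fin m)} := fun h' => h ((hmem x).1 h')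
        by_cases h4 : (j x : ℕ) < k
        · have h2 : (j x : ℕ) < k + 1 := by (clear * - h4; omega)
          simp only [h2, h3, h4, if_true, if_false]
          norm_num
        · have h2 : ¬ (j x : ℕ) < k + 1 := by (clear * - h h4; omega)
          simp only [h2, h3, h4, if_false]
          norm_num
    · rw [map_add]
      have e : (κ + κ') * (𝔖.I χ + 𝔖.I χ') = (κ + κ') * 𝔖.I χ + (κ + κ') * 𝔖.I χ' := by ring
      rw [e]
      linarith only [hle, hle']

theorem main [CompactSpace X] [T2Space X] [TotallyDisconnectedSpace X] (𝔖 : Sys X G)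
    (hr : 0 < r) (p : ℝ[X]) {κ κ' β : ℝ} (hκ' : 0 < κ')
    (hsel : ∀ (s : X → Option (Fin r)) (W : Finset X), ∀ w ∈ W, s w = none →
      ∃ c, SP p 𝔖.y (Function.update s w (some c)) W ≤ SP p 𝔖.y s W + κ)
    (hini : ∀ (W : Finset X), ∀ w ∈ W, SP p 𝔖.y (fun _ => (none : Option (Fin r))) W ≤
      SP p 𝔖.y (fun _ => (none : Option (Fin r))) (W.erase w) + β) :
    ∃ c : X → Fin r, IsLocallyConstant c ∧ ∃ m : C(X, ℝ),
      (∀ x, m x = locmom p 𝔖.y c (𝔖.ball p.natDegree x) x) ∧ 𝔖.I m ≤ β + κ + κ' := by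
  obtain ⟨m, j, hj, hsp⟩ := 𝔖.exists_sparse p.natDegree
  obtain ⟨s, hs, -, hs1, F, hF, χ, hχ, hle⟩ := 𝔖.main_steps hr p hκ' hsel hini hj hsp m le_rfl
  have hsome : ∀ x, (s x).isSome := fun x => hs1 x (j x).isLt
  have hχ1 : χ = 1 := by
    ext x
    rw [hχ x, if_pos (j x).isLt, ContinuousMap.one_apply]
  set c : X → Fin r := fun x => (s x).getD ⟨0, hr⟩ with hcdef
  have hc : IsLocallyConstant c := hs.comp fun o => o.getD ⟨0, hr⟩
  have hsc : s = fun x => some (c x) := by
    funext x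
    obtain ⟨a, ha⟩ := Option.isSome_iff_exists.1 (hsome x)
    rw [hcdef]
    simp only [ha, Option.getD_some]
  refine ⟨c, hc, ⟨_, 𝔖.continuous_locmom p p.natDegree hc⟩, fun x => rfl, ?_⟩
  rw [← 𝔖.final hr p hc F ⟨_, 𝔖.continuous_locmom p p.natDegree hc⟩ (fun x => by
    rw [hF x, ← hsc]) fun x => rfl]
  rw [hχ1, 𝔖.I_one, mul_one] at hle
  linarith only [hle]

end Sys

end Vale.Agent.P078.C
end

section

/-! The infinite volume theory of `Vale.Agent.P078.C` for the functional `sp` of the model with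
random signs. -/

namespace Vale.Agent.P078.C

open Finset Polynomial
open scoped Pointwise Classical Topology
open Vale.Agent.P078.D (sp kp sp_congr sp_map sp_gauge continuous_sp sum_kp kp_congr kp_disconn kp_large)

namespace Sys

variable {X G : Type*} [TopologicalSpace X] [Group G] [MulAction G X]

variable {r : ℕ}

/-! ### densities -/

/-- the local density of the functional -/
noncomputable def dens2 (𝔖 : Sys X G) {r : ℕ} (p : ℝ[X]) (n : ℕ) (s : X → Option (Fin r))
    (x : X) : ℝ := ∑ T ∈ 𝔖.TTs n x, kp p 𝔖.y s T / T.card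

/-- `sp` along an orbit, in terms of the continuous kernel -/
theorem nice_sp_local (𝔖 : Sys X G) (p : ℝ[X]) (J : Finset G) (s : X → Option (Fin r)) (x : X)
    (hinj : Set.InjOn (fun g : G => g • x) J) :
    sp p 𝔖.y s (J.image fun g => g • x) =
      sp p (fun g h : {g // g ∈ J} => 𝔖.k g h x) (fun g => s (g.1 • x)) Finset.univ := by
  let f : {g // g ∈ J} ↪ X := ⟨fun g => g.1 • x, fun g h hgh => Subtype.ext (hinj g.2 h.2 hgh)⟩
  have h1 : (J.image fun g => g • x) = Finset.univ.map f := by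
    ext v
    simp only [Finset.mem_image, Finset.mem_map, Finset.mem_univ, true_and]
    constructor
    · rintro ⟨g, hg, rfl⟩
      exact ⟨⟨g, hg⟩, rfl⟩
    · rintro ⟨g, rfl⟩
      exact ⟨g.1, g.2, rfl⟩
  rw [h1, sp_map f Finset.univ]
  obtain ⟨u, hu, hy⟩ := 𝔖.gauge x
  exact sp_gauge (fun g => u g.1) (fun g _ => hu g.1) (fun g _ h _ => hy g.1 h.1)

theorem nice_sp_contAt (𝔖 : Sys X G) (hr : 0 < r) (p : ℝ[X]) (J : Finset G) (x0 : X)
    (s : X → X → Option (Fin r))
    (hs : ∀ g ∈ J, ∀ᶠ x in nhds x0, s x (g • x) = s x0 (g • x0)) :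
    ContinuousAt (fun x => sp p 𝔖.y (s x) (J.image fun g => g • x)) x0 := by
  obtain ⟨ρ, h1, h2, h3⟩ := 𝔖.nice_rep J x0
  set J' : Finset G := J.image ρ with hJ'
  have hsub : ∀ g ∈ J', g ∈ J := by
    intro g hg
    obtain ⟨h, hh, rfl⟩ := Finset.mem_image.1 hg
    exact h1 h hh
  have hs' : ∀ᶠ x in nhds x0, ∀ g ∈ J, s x (g • x) = s x0 (g • x0) :=
    (Filter.eventually_all_finset J).2 hs
  have heq : (fun x => sp p 𝔖.y (s x) (J.image fun g => g • x)) =ᶠ[nhds x0]
      fun x => sp p (fun g h : {g // g ∈ J'} => 𝔖.k g h x) (fun g => s x0 (g.1 • x0))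
        Finset.univ := by
    filter_upwards [h3, hs'] with x hx hsx
    have himg : (J.image fun g => g • x) = J'.image fun g => g • x := by
      rw [hJ', Finset.image_image]
      exact Finset.image_congr (fun g hg => ((hx.1 g hg).symm : _))
    have hinj : Set.InjOn (fun g : G => g • x) J' := by
      intro g hg h hh hgh
      obtain ⟨g', hg', rfl⟩ := Finset.mem_image.1 (Finset.mem_coe.1 hg)
      obtain ⟨h', hh', rfl⟩ := Finset.mem_image.1 (Finset.mem_coe.1 hh)
      have := hx.2 _ (h1 _ hg') _ (h1 _ hh') hgh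
      rwa [h2 _ hg', h2 _ hh'] at this
    rw [himg, 𝔖.nice_sp_local p J' (s x) x hinj]
    exact sp_congr (fun _ _ _ _ => rfl) (fun g _ => hsx g.1 (hsub g.1 g.2))
  refine ContinuousAt.congr ?_ heq.symm
  refine Continuous.continuousAt ?_
  exact continuous_sp hr (y := fun (x : X) (g h : {g // g ∈ J'}) => 𝔖.k g h x)
    (fun x g h => 𝔖.nice_k_herm x g.1 h.1) (fun g _ h _ => 𝔖.k_cont g.1 h.1)

theorem nice_sp (𝔖 : Sys X G) (hr : 0 < r) (p : ℝ[X]) {s : X → Option (Fin r)}
    (hs : IsLocallyConstant s) : Nice (G := G) (fun T => sp p 𝔖.y s T) := by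
  intro J
  rw [continuous_iff_continuousAt]
  intro x0
  exact 𝔖.nice_sp_contAt hr p J x0 (fun _ => s)
    (fun g _ => (𝔖.nice_locConst hs g).eventually_eq x0)

theorem nice_kp (𝔖 : Sys X G) (hr : 0 < r) (p : ℝ[X]) {s : X → Option (Fin r)}
    (hs : IsLocallyConstant s) : Nice (G := G) (fun T => kp p 𝔖.y s T) := by
  intro J
  rw [continuous_iff_continuousAt]
  intro x0
  obtain ⟨J', -, h3⟩ := 𝔖.nice_rep' J x0
  have heq : (fun x => kp p 𝔖.y s (J.image fun g => g • x)) =ᶠ[nhds x0]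
      fun x => ∑ K ∈ J'.powerset, (-1) ^ (J'.card - K.card) *
        sp p 𝔖.y s (K.image fun g => g • x) := by
    filter_upwards [h3] with x hx
    rw [hx.2]
    unfold kp
    rw [nice_sum_powerset_image hx.1
      (fun W => (-1) ^ ((J'.image fun g => g • x).card - W.card) * sp p 𝔖.y s W)]
    refine Finset.sum_congr rfl (fun K hK => ?_)
    have hK' := Finset.mem_powerset.1 hK
    rw [Finset.card_image_of_injOn hx.1,
      Finset.card_image_of_injOn (hx.1.mono (by exact_mod_cast hK'))]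
  refine ContinuousAt.congr ?_ heq.symm
  refine Continuous.continuousAt ?_
  exact continuous_finsetSum _ (fun K _ => continuous_const.mul (𝔖.nice_sp hr p hs K))

/-- `sp` of a point-dependent subset of the ball is continuous if the subset and the
point-dependent state are locally constant along the orbits -/
theorem continuous_sp_ball (𝔖 : Sys X G) (hr : 0 < r) (p : ℝ[X]) (n : ℕ)
    (s : X → X → Option (Fin r)) (hs : ∀ g : G, IsLocallyConstant fun x => s x (g • x))
    (P : X → X → Prop) (hP : ∀ g : G, IsLocallyConstant fun x => P x (g • x)) :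
    Continuous fun x => sp p 𝔖.y (s x) ((𝔖.ball n x).filter (P x)) := by
  rw [continuous_iff_continuousAt]
  intro x0
  have h1 : ∀ᶠ x in nhds x0, ∀ g ∈ 𝔖.ballG n, P x (g • x) = P x0 (g • x0) :=
    (Filter.eventually_all_finset _).2 (fun g _ => (hP g).eventually_eq x0)
  have heq : (fun x => sp p 𝔖.y (s x) ((𝔖.ball n x).filter (P x))) =ᶠ[nhds x0]
      fun x => sp p 𝔖.y (s x)
        (((𝔖.ballG n).filter fun g => P x0 (g • x0)).image fun g => g • x) := by
    filter_upwards [h1] with x hx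
    congr 1
    unfold ball
    rw [Finset.filter_image]
    refine congrArg (Finset.image _) (Finset.filter_congr (fun g hg => ?_))
    rw [hx g hg]
  exact ContinuousAt.congr (𝔖.nice_sp_contAt hr p _ x0 s
    (fun g _ => (hs g).eventually_eq x0)) heq.symm

theorem continuous_dens2 (𝔖 : Sys X G) (hr : 0 < r) (p : ℝ[X]) (n : ℕ) {s : X → Option (Fin r)}
    (hs : IsLocallyConstant s) : Continuous fun x => 𝔖.dens2 p n s x := by
  have h := 𝔖.continuous_sum_TTs' n
    (f := fun _ T => kp p 𝔖.y s T / T.card)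
    (𝔖.nice_div_card (𝔖.nice_kp hr p hs)) (fun _ _ => True)
    (fun _ _ => Filter.Eventually.of_forall fun _ => Iff.rfl)
  simp only [Finset.filter_true] at h
  exact h

theorem TT_of_kp_ne_zero (𝔖 : Sys X G) (hr : 0 < r) {p : ℝ[X]} {s : X → Option (Fin r)}
    {T : Finset X} (h : kp p 𝔖.y s T ≠ 0) : 𝔖.TT p.natDegree T := by
  intro v hv w hw
  by_cases h1 : 1 < T.card
  · have h2 : T.card ≤ p.natDegree := by
      by_contra h3
      exact h (kp_large hr 𝔖.herm (not_le.1 h3) h1)
    have h3 : v ∈ 𝔖.ball (T.card - 1) w := by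
      refine 𝔖.kapTT_diam ?_ hv hw
      intro A hA hne hAT
      by_contra hcon
      push Not at hcon
      have hne' : (T \ A).Nonempty := by
        rw [Finset.sdiff_nonempty]
        exact fun hTA => hAT (Finset.Subset.antisymm hA hTA)
      have h4 := kp_disconn (p := p) (s := s) hr 𝔖.herm hne hne' Finset.disjoint_sdiff hcon
      rw [Finset.union_sdiff_of_subset hA] at h4
      exact h h4
    exact 𝔖.ball_mono (by omega) w h3
  · have h2 : v = w := Finset.card_le_one.1 (not_lt.1 h1) v hv w hw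
    rw [h2]
    exact 𝔖.mem_ball_self _ w

/-- the cluster coefficients containing `x`, inside `W ⊆ ball`, sum to a difference of `sp` -/
theorem sum_kp_mem (𝔖 : Sys X G) (hr : 0 < r) (p : ℝ[X]) (s : X → Option (Fin r)) (x : X)
    (P : X → Prop) (hx : P x) :
    ∑ T ∈ (𝔖.TTs p.natDegree x).filter (fun T => ∀ v ∈ T, P v), kp p 𝔖.y s T =
      sp p 𝔖.y s ((𝔖.ball p.natDegree x).filter P) -
        sp p 𝔖.y s (((𝔖.ball p.natDegree x).filter P).erase x) := by
  set W := (𝔖.ball p.natDegree x).filter P with hW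
  have hxW : x ∈ W := Finset.mem_filter.2 ⟨𝔖.mem_ball_self _ x, hx⟩
  rw [← sum_kp W, ← sum_kp (W.erase x)]
  have h1 : (W.erase x).powerset ⊆ W.powerset :=
    Finset.powerset_mono.2 (Finset.erase_subset x W)
  rw [← Finset.sum_sdiff h1, add_sub_cancel_right]
  refine Finset.sum_subset ?_ ?_
  · intro T hT
    obtain ⟨h2, h3⟩ := Finset.mem_filter.1 hT
    obtain ⟨h4, h5⟩ := 𝔖.mem_TTs.1 h2
    rw [Finset.mem_sdiff, Finset.mem_powerset, Finset.mem_powerset]
    refine ⟨fun v hv => Finset.mem_filter.2 ⟨h4 v hv x h5, h3 v hv⟩, fun h6 => ?_⟩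
    exact Finset.notMem_erase x W (h6 h5)
  · intro T hT hT'
    rw [Finset.mem_sdiff, Finset.mem_powerset, Finset.mem_powerset] at hT
    by_contra h2
    apply hT'
    have h3 := 𝔖.TT_of_kp_ne_zero hr h2
    have hxT : x ∈ T := by
      by_contra h4
      apply hT.2
      intro v hv
      refine Finset.mem_erase.2 ⟨fun h5 => h4 (h5 ▸ hv), hT.1 hv⟩
    exact Finset.mem_filter.2 ⟨𝔖.mem_TTs.2 ⟨h3, hxT⟩, fun v hv => (Finset.mem_filter.1 (hT.1 hv)).2⟩

/-- the change of `sp` of the ball around `x` when `x` gets the colour `a` -/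
noncomputable def stageD2 (𝔖 : Sys X G) (p : ℝ[X]) (s : X → Option (Fin r)) (a : Fin r) (x : X) :
    ℝ :=
  sp p 𝔖.y (Function.update s x (some a)) (𝔖.ball p.natDegree x) -
    sp p 𝔖.y s (𝔖.ball p.natDegree x)

theorem stageD2_continuous (𝔖 : Sys X G) (hr : 0 < r) (p : ℝ[X]) {s : X → Option (Fin r)}
    (hs : IsLocallyConstant s) (a : Fin r) : Continuous (𝔖.stageD2 p s a) := by
  have hT : ∀ g : G, IsLocallyConstant fun x : X => (fun _ _ : X => True) x (g • x) := fun g =>
    IsLocallyConstant.const _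
  have h1 := 𝔖.continuous_sp_ball hr p p.natDegree (fun x => Function.update s x (some a))
    (𝔖.stage_update_lc hs a) (fun _ _ => True) hT
  have h2 := 𝔖.continuous_sp_ball hr p p.natDegree (fun _ => s)
    (𝔖.stage_smul_lc hs) (fun _ _ => True) hT
  have h3 := h1.sub h2
  refine h3.congr fun x => ?_
  simp only [Pi.sub_apply, Finset.filter_true]
  rfl

theorem stage_kp_of_disjoint (𝔖 : Sys X G) (p : ℝ[X]) {C : Set X} {s : X → Option (Fin r)}
    {c : X → Fin r} {T : Finset X} (hT : ∀ v ∈ T, v ∉ C) :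
    kp p 𝔖.y (stageS C s c) T = kp p 𝔖.y s T := by
  refine kp_congr (fun i _ j _ => rfl) fun i hi => ?_
  unfold stageS
  rw [if_neg (hT i hi)]

theorem stage_kp_of_mem (𝔖 : Sys X G) (p : ℝ[X]) {n : ℕ} {C : Set X}
    (hsp : 𝔖.Sparse n C) {s : X → Option (Fin r)} {c : X → Fin r} {T : Finset X}
    (hTT : 𝔖.TT n T) {x : X} (hx : x ∈ C) (hxT : x ∈ T) :
    kp p 𝔖.y (stageS C s c) T = kp p 𝔖.y (Function.update s x (some (c x))) T := by
  refine kp_congr (fun i _ j _ => rfl) fun i hi => ?_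
  unfold stageS
  by_cases hix : i = x
  · subst hix
    rw [if_pos hx, Function.update_self]
  · have hiC : i ∉ C := fun h => hix (hsp i h x hx (hTT i hi x hxT))
    rw [if_neg hiC, Function.update_of_ne hix]

theorem stage_sum2 (𝔖 : Sys X G) (hr : 0 < r) (p : ℝ[X]) {C : Set X}
    (hsp : 𝔖.Sparse p.natDegree C) {s : X → Option (Fin r)} {c : X → Fin r} {x : X}
    (hx : x ∈ C) :
    ∑ T ∈ 𝔖.TTs p.natDegree x, (kp p 𝔖.y (stageS C s c) T - kp p 𝔖.y s T) =
      𝔖.stageD2 p s (c x) x := by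
  have h0 : ∀ s' : X → Option (Fin r), ∑ T ∈ 𝔖.TTs p.natDegree x, kp p 𝔖.y s' T =
      sp p 𝔖.y s' (𝔖.ball p.natDegree x) - sp p 𝔖.y s' ((𝔖.ball p.natDegree x).erase x) := by
    intro s'
    have h := 𝔖.sum_kp_mem hr p s' x (fun _ => True) trivial
    simpa only [Finset.filter_true, implies_true] using h
  have h1 : ∑ T ∈ 𝔖.TTs p.natDegree x, kp p 𝔖.y (stageS C s c) T =
      ∑ T ∈ 𝔖.TTs p.natDegree x, kp p 𝔖.y (Function.update s x (some (c x))) T := by
    refine Finset.sum_congr rfl fun T hT => ?_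
    obtain ⟨h2, h3⟩ := aux_mem_TTs.1 hT
    exact 𝔖.stage_kp_of_mem p hsp h2 hx h3
  rw [Finset.sum_sub_distrib, h1, h0, h0]
  have h4 : sp p 𝔖.y (Function.update s x (some (c x))) ((𝔖.ball p.natDegree x).erase x) =
      sp p 𝔖.y s ((𝔖.ball p.natDegree x).erase x) := by
    refine sp_congr (fun i _ j _ => rfl) fun i hi => ?_
    rw [Function.update_of_ne (Finset.ne_of_mem_erase hi)]
  unfold stageD2
  rw [h4]
  ring

theorem stage2 [CompactSpace X] [T2Space X] [TotallyDisconnectedSpace X] (𝔖 : Sys X G) (hr : 0 < r)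
    (p : ℝ[X]) {κ κ' : ℝ} (hκ' : 0 < κ')
    (hsel : ∀ (s : X → Option (Fin r)) (W : Finset X), ∀ w ∈ W, s w = none →
      ∃ c, sp p 𝔖.y (Function.update s w (some c)) W ≤ sp p 𝔖.y s W + κ)
    (C : Set X) (hC : IsClopen C) (hsp : 𝔖.Sparse p.natDegree C) (s : X → Option (Fin r))
    (hs : IsLocallyConstant s) (hsC : ∀ x ∈ C, s x = none)
    (F : C(X, ℝ)) (hF : ∀ x, F x = 𝔖.dens2 p p.natDegree s x)
    (χ : C(X, ℝ)) (hχ : ∀ x, χ x = if x ∈ C then 1 else 0) :
    ∃ s' : X → Option (Fin r), IsLocallyConstant s' ∧ (∀ x ∉ C, s' x = s x) ∧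
      (∀ x ∈ C, (s' x).isSome) ∧ ∃ F' : C(X, ℝ), (∀ x, F' x = 𝔖.dens2 p p.natDegree s' x) ∧
        𝔖.I F' ≤ 𝔖.I F + (κ + κ') * 𝔖.I χ := by
  obtain ⟨c, hc, hcD⟩ := exists_selection C hC (fun a => 𝔖.stageD2 p s a)
    (fun a => (𝔖.stageD2_continuous hr p hs a).continuousOn) κ κ' hκ' (by
      intro x hx
      obtain ⟨a, ha⟩ := hsel s (𝔖.ball p.natDegree x) x (𝔖.mem_ball_self _ _) (hsC x hx)
      refine ⟨a, ?_⟩
      show 𝔖.stageD2 p s a x ≤ κ
      unfold stageD2
      linarith only [ha]) hr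
  have hs' : IsLocallyConstant (stageS C s c) := stageS_lc hC hs hc
  refine ⟨stageS C s c, hs', ?_, ?_, ⟨_, 𝔖.continuous_dens2 hr p p.natDegree hs'⟩,
    fun x => rfl, ?_⟩
  · intro x hx
    unfold stageS
    rw [if_neg hx]
  · intro x hx
    unfold stageS
    rw [if_pos hx]
    rfl
  set F' : C(X, ℝ) := ⟨_, 𝔖.continuous_dens2 hr p p.natDegree hs'⟩ with hF'def
  have hF' : ∀ x, F' x = 𝔖.dens2 p p.natDegree (stageS C s c) x := fun x => rfl
  have hDc : Continuous fun x => 𝔖.stageD2 p s (c x) x := by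
    rw [continuous_iff_continuousAt]
    intro x
    have h1 := (IsLocallyConstant.iff_eventually_eq _).1 hc x
    refine ((𝔖.stageD2_continuous hr p hs (c x)).continuousAt (x := x)).congr ?_
    filter_upwards [h1] with y hy
    rw [hy]
  have hφ : Nice (G := G) fun T => kp p 𝔖.y (stageS C s c) T - kp p 𝔖.y s T := by
    intro J
    exact (𝔖.nice_kp hr p hs' J).sub (𝔖.nice_kp hr p hs J)
  set H : C(X, ℝ) := χ * ⟨_, hDc⟩ with hH
  have hHx : ∀ x, H x = (if x ∈ C then 1 else 0) * 𝔖.stageD2 p s (c x) x := by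
    intro x
    rw [hH, ContinuousMap.mul_apply, hχ]
    rfl
  have key : 𝔖.I (F' - F) = 𝔖.I H := by
    refine 𝔖.aux_transport p.natDegree (fun v _ => v ∈ C)
      (fun T => kp p 𝔖.y (stageS C s c) T - kp p 𝔖.y s T) hφ
      (fun _ => aux_isLocallyConstant_mem hC) _ _ ?_ ?_
    · intro x
      rw [ContinuousMap.sub_apply, hF, hF']
      unfold dens2
      rw [← Finset.sum_sub_distrib]
      refine Finset.sum_congr rfl fun T hT => ?_
      obtain ⟨h2, h3⟩ := aux_mem_TTs.1 hT
      rw [← sub_div]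
      congr 1
      by_cases hTC : ∃ v ∈ T, v ∈ C
      · obtain ⟨v, hv, hvC⟩ := hTC
        rw [𝔖.stage_card hsp h2 hvC hv]
        simp
      · have hTC' : ∀ v ∈ T, v ∉ C := fun v hv hvC => hTC ⟨v, hv, hvC⟩
        rw [𝔖.stage_kp_of_disjoint p hTC']
        simp
    · intro x
      rw [hHx]
      by_cases hx : x ∈ C
      · rw [if_pos hx, one_mul, Finset.filter_true_of_mem (fun _ _ => hx),
          𝔖.stage_sum2 hr p hsp hx]
      · rw [if_neg hx, zero_mul, Finset.filter_false_of_mem (fun _ _ => hx), Finset.sum_empty]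
  have hle : 𝔖.I H ≤ (κ + κ') * 𝔖.I χ := by
    have h1 : 0 ≤ 𝔖.I ((κ + κ') • χ - H) := by
      refine 𝔖.I_nonneg _ fun x => ?_
      rw [ContinuousMap.sub_apply, ContinuousMap.smul_apply, hHx, hχ, smul_eq_mul]
      by_cases hx : x ∈ C
      · rw [if_pos hx]
        have := hcD x hx
        have h2 : 𝔖.stageD2 p s (c x) x ≤ κ + κ' := this
        linarith only [this]
      · rw [if_neg hx]
        simp
    rw [map_sub, map_smul, smul_eq_mul] at h1
    linarith only [h1]
  rw [map_sub] at key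
  linarith only [key, hle]

theorem initial2 [CompactSpace X] [T2Space X] [TotallyDisconnectedSpace X] (𝔖 : Sys X G)
    (hr : 0 < r) (p : ℝ[X]) {β : ℝ}
    (hini : ∀ (W : Finset X), ∀ w ∈ W, sp p 𝔖.y (fun _ => (none : Option (Fin r))) W ≤
      sp p 𝔖.y (fun _ => (none : Option (Fin r))) (W.erase w) + β)
    (F : C(X, ℝ)) (hF : ∀ x, F x = 𝔖.dens2 p p.natDegree (fun _ => (none : Option (Fin r))) x) :
    𝔖.I F ≤ β := by
  obtain ⟨m, j, hjc, hj⟩ := 𝔖.exists_sparse p.natDegree
  set s : X → Option (Fin r) := fun _ => none with hs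
  have hslc : IsLocallyConstant s := IsLocallyConstant.const _
  have hcont : Continuous fun x => ∑ T ∈ (𝔖.TTs p.natDegree x).filter
      (fun T => ∀ w ∈ T, j w ≤ j x), kp p 𝔖.y s T := by
    have h := 𝔖.continuous_sum_TTs p.natDegree (𝔖.nice_kp hr p hslc)
      (fun x _ T => ∀ w ∈ T, j w ≤ j x) (fun _ J => 𝔖.init_lc hjc J) 1
    convert h
  set F' : C(X, ℝ) := ⟨_, hcont⟩ with hF'def
  have hF' : ∀ x, F' x = ∑ T ∈ (𝔖.TTs p.natDegree x).filter
      (fun T => ∀ w ∈ T, j w ≤ j x), kp p 𝔖.y s T := fun x => rfl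
  have key : 𝔖.I F = 𝔖.I F' := by
    refine 𝔖.aux_transport p.natDegree (fun v T => ∀ w ∈ T, j w ≤ j v) (kp p 𝔖.y s)
      (𝔖.nice_kp hr p hslc) (fun J => 𝔖.init_lc hjc J) F F' ?_ ?_
    · intro x
      rw [hF x]
      unfold dens2
      refine Finset.sum_congr rfl fun T hT => ?_
      obtain ⟨h1, h2⟩ := aux_mem_TTs.1 hT
      have h3 := 𝔖.init_card hj h1 h2
      have h4 : (T.filter fun v => ∀ w ∈ T, j w ≤ j v).card = 1 := h3
      congr 1
      have h5 : ((@Finset.filter X (fun v => ∀ w ∈ T, j w ≤ j v)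
          (fun a => Classical.propDecidable _) T).card : ℝ) = 1 := by
        have : (@Finset.filter X (fun v => ∀ w ∈ T, j w ≤ j v)
          (fun a => Classical.propDecidable _) T).card = 1 := by
          convert h4
        rw [this]
        norm_num
      rw [h5, one_mul]
    · intro x
      rw [hF' x]
      congr!
  have hle : ∀ x, F' x ≤ β := by
    intro x
    have h := 𝔖.sum_kp_mem hr p s x (fun v => j v ≤ j x) le_rfl
    have h1 : F' x = sp p 𝔖.y s ((𝔖.ball p.natDegree x).filter fun v => j v ≤ j x) -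
        sp p 𝔖.y s (((𝔖.ball p.natDegree x).filter fun v => j v ≤ j x).erase x) := by
      rw [hF' x]
      convert h
    rw [h1]
    have h2 := hini ((𝔖.ball p.natDegree x).filter fun v => j v ≤ j x) x
      (Finset.mem_filter.2 ⟨𝔖.mem_ball_self _ _, le_rfl⟩)
    linarith only [h2]
  have h2 : 0 ≤ 𝔖.I (β • (1 : C(X, ℝ)) - F') := by
    refine 𝔖.I_nonneg _ fun x => ?_
    rw [ContinuousMap.sub_apply, ContinuousMap.smul_apply, ContinuousMap.one_apply, smul_eq_mul,
      mul_one]
    have := hle x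
    linarith only [this]
  rw [map_sub, map_smul, 𝔖.I_one, smul_eq_mul, mul_one] at h2
  linarith only [key, h2]

theorem main_steps2 [CompactSpace X] [T2Space X] [TotallyDisconnectedSpace X] (𝔖 : Sys X G)
    (hr : 0 < r) (p : ℝ[X]) {κ κ' β : ℝ} (hκ' : 0 < κ')
    (hsel : ∀ (s : X → Option (Fin r)) (W : Finset X), ∀ w ∈ W, s w = none →
      ∃ c, sp p 𝔖.y (Function.update s w (some c)) W ≤ sp p 𝔖.y s W + κ)
    (hini : ∀ (W : Finset X), ∀ w ∈ W, sp p 𝔖.y (fun _ => (none : Option (Fin r))) W ≤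
      sp p 𝔖.y (fun _ => (none : Option (Fin r))) (W.erase w) + β)
    {m : ℕ} {j : X → Fin m} (hj : IsLocallyConstant j)
    (hsp : ∀ i, 𝔖.Sparse p.natDegree (j ⁻¹' {i})) (k : ℕ) (hk : k ≤ m) :
    ∃ s : X → Option (Fin r), IsLocallyConstant s ∧ (∀ x, k ≤ (j x : ℕ) → s x = none) ∧
      (∀ x, (j x : ℕ) < k → (s x).isSome) ∧ ∃ F : C(X, ℝ),
      (∀ x, F x = 𝔖.dens2 p p.natDegree s x) ∧ ∃ χ : C(X, ℝ),
      (∀ x, χ x = if (j x : ℕ) < k then 1 else 0) ∧ 𝔖.I F ≤ β + (κ + κ') * 𝔖.I χ := by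
  induction k with
  | zero =>
    have hslc : IsLocallyConstant (fun _ : X => (none : Option (Fin r))) :=
      IsLocallyConstant.const _
    refine ⟨fun _ => none, hslc, fun _ _ => rfl, fun x hx => absurd hx (Nat.not_lt_zero _),
      ⟨_, 𝔖.continuous_dens2 hr p p.natDegree hslc⟩, fun x => rfl, 0, fun x => ?_, ?_⟩
    · simp
    · rw [map_zero, mul_zero, add_zero]
      exact 𝔖.initial2 hr p hini _ fun x => rfl
  | succ k ih =>
    obtain ⟨s, hs, hs0, hs1, F, hF, χ, hχ, hle⟩ := ih (Nat.le_of_succ_le hk)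
    have hC := main_clopen hj ⟨k, hk⟩
    obtain ⟨χ', hχ'⟩ := main_ind hC
    have hmem : ∀ x, x ∈ j ⁻¹' {(⟨k, hk⟩ : Fin m)} ↔ (j x : ℕ) = k := by
      intro x
      rw [Set.mem_preimage, Set.mem_singleton_iff, Fin.ext_iff]
    obtain ⟨s', hs', hs'1, hs'2, F', hF', hle'⟩ := 𝔖.stage2 hr p hκ' hsel (j ⁻¹' {⟨k, hk⟩}) hC
      (hsp _) s hs (fun x hx => hs0 x ((hmem x).1 hx).ge) F hF χ' (fun x => by
        rw [hχ' x])
    refine ⟨s', hs', ?_, ?_, F', hF', χ + χ', ?_, ?_⟩
    · intro x hx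
      rw [hs'1 x (fun h => by have := (hmem x).1 h; (clear * - hx this; omega))]
      exact hs0 x (by (clear * - hx; omega))
    · intro x hx
      by_cases h : (j x : ℕ) = k
      · exact hs'2 x ((hmem x).2 h)
      · rw [hs'1 x (fun h' => h ((hmem x).1 h'))]
        exact hs1 x (by (clear * - hx h; omega))
    · intro x
      rw [ContinuousMap.add_apply, hχ, hχ']
      by_cases h : (j x : ℕ) = k
      · have h1 : ¬ (j x : ℕ) < k := by (clear * - h; omega)
        have h2 : (j x : ℕ) < k + 1 := by (clear * - h; omega)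
        have h3 := (hmem x).2 h
        simp only [h1, h2, h3, if_true, if_false]
        norm_num
      · have h3 : ¬ x ∈ j ⁻¹' {(⟨k, hk⟩ : Fin m)} := fun h' => h ((hmem x).1 h')
        by_cases h4 : (j x : ℕ) < k
        · have h2 : (j x : ℕ) < k + 1 := by (clear * - h4; omega)
          simp only [h2, h3, h4, if_true, if_false]
          norm_num
        · have h2 : ¬ (j x : ℕ) < k + 1 := by (clear * - h h4; omega)
          simp only [h2, h3, h4, if_false]
          norm_num
    · rw [map_add]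
      have e : (κ + κ') * (𝔖.I χ + 𝔖.I χ') = (κ + κ') * 𝔖.I χ + (κ + κ') * 𝔖.I χ' := by ring
      rw [e]
      linarith only [hle, hle']

theorem main2 [CompactSpace X] [T2Space X] [TotallyDisconnectedSpace X] (𝔖 : Sys X G)
    (hr : 0 < r) (p : ℝ[X]) {κ κ' β : ℝ} (hκ' : 0 < κ')
    (hsel : ∀ (s : X → Option (Fin r)) (W : Finset X), ∀ w ∈ W, s w = none →
      ∃ c, sp p 𝔖.y (Function.update s w (some c)) W ≤ sp p 𝔖.y s W + κ)
    (hini : ∀ (W : Finset X), ∀ w ∈ W, sp p 𝔖.y (fun _ => (none : Option (Fin r))) W ≤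
      sp p 𝔖.y (fun _ => (none : Option (Fin r))) (W.erase w) + β) :
    ∃ c : X → Fin r, IsLocallyConstant c ∧ ∃ F : C(X, ℝ),
      (∀ x, F x = 𝔖.dens2 p p.natDegree (fun x => some (c x)) x) ∧ 𝔖.I F ≤ β + κ + κ' := by
  obtain ⟨m, j, hj, hsp⟩ := 𝔖.exists_sparse p.natDegree
  obtain ⟨s, hs, -, hs1, F, hF, χ, hχ, hle⟩ := 𝔖.main_steps2 hr p hκ' hsel hini hj hsp m le_rfl
  have hsome : ∀ x, (s x).isSome := fun x => hs1 x (j x).isLt
  have hχ1 : χ = 1 := by
    ext x
    rw [hχ x, if_pos (j x).isLt, ContinuousMap.one_apply]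
  set c : X → Fin r := fun x => (s x).getD ⟨0, hr⟩ with hcdef
  have hc : IsLocallyConstant c := hs.comp fun o => o.getD ⟨0, hr⟩
  have hsc : s = fun x => some (c x) := by
    funext x
    obtain ⟨a, ha⟩ := Option.isSome_iff_exists.1 (hsome x)
    rw [hcdef]
    simp only [ha, Option.getD_some]
  refine ⟨c, hc, F, fun x => by rw [hF x, ← hsc], ?_⟩
  rw [hχ1, 𝔖.I_one, mul_one] at hle
  linarith only [hle]

end Sys

end Vale.Agent.P078.C
end

section

/-! R: the functional restricted to a clopen set of vertices (first part). -/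

namespace Vale.Agent.P078.C

open Finset Polynomial
open scoped Pointwise Classical Topology
open Vale.Agent.P078.D (sp kp sp_congr sp_map sp_gauge continuous_sp sum_kp kp_congr kp_disconn kp_large)

namespace Sys

variable {X G : Type*} [TopologicalSpace X] [Group G] [MulAction G X]

variable {r : ℕ}

/-- the local density of the functional restricted to the set `V` of vertices -/
noncomputable def densV (𝔖 : Sys X G) {r : ℕ} (p : ℝ[X]) (n : ℕ) (s : X → Option (Fin r))
    (V : Set X) (x : X) : ℝ :=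
  ∑ T ∈ (𝔖.TTs n x).filter (fun T => ∀ v ∈ T, v ∈ V), kp p 𝔖.y s T / T.card

theorem densV_univ (𝔖 : Sys X G) (p : ℝ[X]) (n : ℕ) (s : X → Option (Fin r)) (x : X) :
    𝔖.densV p n s Set.univ x = 𝔖.dens2 p n s x := by
  unfold densV dens2
  refine Finset.sum_congr ?_ fun _ _ => rfl
  ext T
  simp

theorem densV_ev_subset (𝔖 : Sys X G) {V : Set X} (hV : IsClopen V) (J : Finset G) (x0 : X) :
    ∀ᶠ x in nhds x0, ((∀ v ∈ J.image (fun h => h • x), v ∈ V) ↔
      ∀ v ∈ J.image (fun h => h • x0), v ∈ V) := by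
  have h1 : ∀ᶠ x in nhds x0, ∀ h ∈ J, (h • x ∈ V) = (h • x0 ∈ V) :=
    (Filter.eventually_all_finset J).2 fun h _ =>
      (𝔖.nice_locConst (aux_isLocallyConstant_mem hV) h).eventually_eq x0
  filter_upwards [h1] with x hx
  simp only [Finset.mem_image, forall_exists_index, and_imp, forall_apply_eq_imp_iff₂]
  exact forall₂_congr fun h hh => iff_of_eq (hx h hh)

theorem continuous_densV (𝔖 : Sys X G) (hr : 0 < r) (p : ℝ[X]) (n : ℕ) {s : X → Option (Fin r)}
    (hs : IsLocallyConstant s) {V : Set X} (hV : IsClopen V) :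
    Continuous fun x => 𝔖.densV p n s V x := by
  have h := 𝔖.continuous_sum_TTs' n
    (f := fun _ T => kp p 𝔖.y s T / T.card)
    (𝔖.nice_div_card (𝔖.nice_kp hr p hs)) (fun _ T => ∀ v ∈ T, v ∈ V)
    (fun J x0 => 𝔖.densV_ev_subset hV J x0)
  unfold densV
  convert h

/-- adding a sparse set of vertices -/
theorem densV_step (𝔖 : Sys X G) (hr : 0 < r) (p : ℝ[X]) {s : X → Option (Fin r)}
    (hs : IsLocallyConstant s) {κ₁ : ℝ}
    (herase : ∀ (W : Finset X), ∀ w ∈ W, sp p 𝔖.y s (W.erase w) ≤ sp p 𝔖.y s W + κ₁)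
    {V A : Set X} (hV : IsClopen V) (hA : IsClopen A) (hd : Disjoint V A)
    (hsp : 𝔖.Sparse p.natDegree A) (F F' χ : C(X, ℝ))
    (hF : ∀ x, F x = 𝔖.densV p p.natDegree s V x)
    (hF' : ∀ x, F' x = 𝔖.densV p p.natDegree s (V ∪ A) x)
    (hχ : ∀ x, χ x = if x ∈ A then 1 else 0) : 𝔖.I F ≤ 𝔖.I F' + κ₁ * 𝔖.I χ := by
  have hVA : IsClopen (V ∪ A) := hV.union hA
  have hR : ∀ J : Finset G, IsLocallyConstant fun x : X =>
      (x ∈ A ∧ ∀ u ∈ J.image (fun h => h • x), u ∈ V ∪ A) := by
    intro J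
    rw [IsLocallyConstant.iff_eventually_eq]
    intro x
    filter_upwards [(aux_isLocallyConstant_mem hA).eventually_eq x,
      𝔖.densV_ev_subset hVA J x] with x' e1 e2
    exact congrArg₂ And e1 (propext e2)
  have hcont : Continuous fun x => ∑ T ∈ (𝔖.TTs p.natDegree x).filter
      (fun T => x ∈ A ∧ ∀ u ∈ T, u ∈ V ∪ A), kp p 𝔖.y s T := by
    have h := 𝔖.continuous_sum_TTs p.natDegree (𝔖.nice_kp hr p hs)
      (fun x _ T => x ∈ A ∧ ∀ u ∈ T, u ∈ V ∪ A) (fun _ J => hR J) 1
    convert h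
  set H : C(X, ℝ) := ⟨_, hcont⟩ with hHdef
  have hH : ∀ x, H x = ∑ T ∈ (𝔖.TTs p.natDegree x).filter
      (fun T => x ∈ A ∧ ∀ u ∈ T, u ∈ V ∪ A), kp p 𝔖.y s T := fun x => rfl
  have key : 𝔖.I (F' - F) = 𝔖.I H := by
    refine 𝔖.aux_transport p.natDegree (fun v T => v ∈ A ∧ ∀ u ∈ T, u ∈ V ∪ A) (kp p 𝔖.y s)
      (𝔖.nice_kp hr p hs) hR _ _ ?_ ?_
    · intro x
      rw [ContinuousMap.sub_apply, hF, hF']
      unfold densV
      rw [Finset.sum_filter, Finset.sum_filter, ← Finset.sum_sub_distrib]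
      refine Finset.sum_congr rfl fun T hT => ?_
      obtain ⟨h1, h2⟩ := aux_mem_TTs.1 hT
      by_cases hTA : ∀ u ∈ T, u ∈ V ∪ A
      · rw [if_pos hTA]
        have h3 : ∀ inst : DecidablePred (fun v => v ∈ A ∧ ∀ u ∈ T, u ∈ V ∪ A),
            @Finset.filter X (fun v => v ∈ A ∧ ∀ u ∈ T, u ∈ V ∪ A) inst T =
              T.filter fun v => v ∈ A := by
          intro inst
          ext v
          rw [Finset.mem_filter, Finset.mem_filter]
          exact and_congr_right fun _ => and_iff_left hTA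
        rw [h3]
        by_cases hex : ∃ v ∈ T, v ∈ A
        · obtain ⟨v, hv, hvA⟩ := hex
          have h4 : ¬ ∀ u ∈ T, u ∈ V := fun h => Set.disjoint_left.1 hd (h v hv) hvA
          rw [if_neg h4, 𝔖.stage_card hsp h1 hvA hv]
          simp
        · have h4 : ∀ u ∈ T, u ∈ V := by
            intro u hu
            rcases hTA u hu with h | h
            · exact h
            · exact absurd ⟨u, hu, h⟩ hex
          have h5 : (T.filter fun v => v ∈ A) = ∅ :=
            Finset.filter_false_of_mem fun v hv hvA => hex ⟨v, hv, hvA⟩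
          rw [if_pos h4, h5]
          simp
      · have h4 : ¬ ∀ u ∈ T, u ∈ V := fun h => hTA fun u hu => Or.inl (h u hu)
        have h5 : ∀ inst : DecidablePred (fun v => v ∈ A ∧ ∀ u ∈ T, u ∈ V ∪ A),
            @Finset.filter X (fun v => v ∈ A ∧ ∀ u ∈ T, u ∈ V ∪ A) inst T = ∅ :=
          fun inst => Finset.filter_false_of_mem fun v _ h => hTA h.2
        rw [if_neg hTA, if_neg h4, h5]
        simp
    · intro x
      rw [hH x]
      congr!
  have hle : -(κ₁ * 𝔖.I χ) ≤ 𝔖.I H := by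
    have h1 : 0 ≤ 𝔖.I (H + κ₁ • χ) := by
      refine 𝔖.I_nonneg _ fun x => ?_
      rw [ContinuousMap.add_apply, ContinuousMap.smul_apply, hH, hχ, smul_eq_mul]
      by_cases hx : x ∈ A
      · rw [if_pos hx]
        have h2 : ((𝔖.TTs p.natDegree x).filter fun T => x ∈ A ∧ ∀ u ∈ T, u ∈ V ∪ A) =
            (𝔖.TTs p.natDegree x).filter fun T => ∀ u ∈ T, u ∈ V ∪ A :=
          Finset.filter_congr fun T _ => and_iff_right hx
        have h3 := 𝔖.sum_kp_mem hr p s x (fun v => v ∈ V ∪ A) (Or.inr hx)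
        have h4 := herase ((𝔖.ball p.natDegree x).filter fun v => v ∈ V ∪ A) x
          (Finset.mem_filter.2 ⟨𝔖.mem_ball_self _ _, Or.inr hx⟩)
        have h5 : ∑ T ∈ (𝔖.TTs p.natDegree x).filter (fun T => ∀ u ∈ T, u ∈ V ∪ A),
            kp p 𝔖.y s T = sp p 𝔖.y s ((𝔖.ball p.natDegree x).filter fun v => v ∈ V ∪ A) -
              sp p 𝔖.y s (((𝔖.ball p.natDegree x).filter fun v => v ∈ V ∪ A).erase x) := by
          convert h3
        rw [h2, h5]
        linarith only [h4]
      · rw [if_neg hx, Finset.filter_false_of_mem (fun T _ h => hx h.1), Finset.sum_empty]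
        simp
    rw [map_add, map_smul, smul_eq_mul] at h1
    linarith only [h1]
  rw [map_sub] at key
  linarith only [key, hle]

/-- comparison of the restricted functional with the full one: the induction -/
theorem densV_steps [CompactSpace X] [T2Space X] [TotallyDisconnectedSpace X] (𝔖 : Sys X G)
    (hr : 0 < r) (p : ℝ[X]) {s : X → Option (Fin r)} (hs : IsLocallyConstant s) {κ₁ : ℝ}
    (herase : ∀ (W : Finset X), ∀ w ∈ W, sp p 𝔖.y s (W.erase w) ≤ sp p 𝔖.y s W + κ₁)
    {V : Set X} (hV : IsClopen V) (F : C(X, ℝ))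
    (hF : ∀ x, F x = 𝔖.densV p p.natDegree s V x)
    {m : ℕ} {j : X → Fin m} (hj : IsLocallyConstant j)
    (hsp : ∀ i, 𝔖.Sparse p.natDegree (j ⁻¹' {i})) (k : ℕ) (hk : k ≤ m) :
    IsClopen (V ∪ {x | (j x : ℕ) < k}) ∧ ∃ Fk χ : C(X, ℝ),
      (∀ x, Fk x = 𝔖.densV p p.natDegree s (V ∪ {x | (j x : ℕ) < k}) x) ∧
      (∀ x, χ x = if x ∉ V ∧ (j x : ℕ) < k then 1 else 0) ∧
      𝔖.I F ≤ 𝔖.I Fk + κ₁ * 𝔖.I χ := by
  induction k with
  | zero =>
    have h0 : (V ∪ {x | (j x : ℕ) < 0}) = V := by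
      ext x
      simp
    rw [h0]
    refine ⟨hV, F, 0, hF, fun x => ?_, ?_⟩
    · simp
    · rw [map_zero, mul_zero, add_zero]
  | succ k ih =>
    obtain ⟨hVk, Fk, χ, hFk, hχ, hle⟩ := ih (Nat.le_of_succ_le hk)
    set A : Set X := j ⁻¹' {(⟨k, hk⟩ : Fin m)} ∩ Vᶜ with hAdef
    have hA : IsClopen A := (main_clopen hj ⟨k, hk⟩).inter hV.compl
    have hmem : ∀ x, x ∈ A ↔ (x ∉ V ∧ (j x : ℕ) = k) := by
      intro x
      rw [hAdef, Set.mem_inter_iff, Set.mem_preimage, Set.mem_singleton_iff, Fin.ext_iff,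
        Set.mem_compl_iff, and_comm]
    have hun : (V ∪ {x | (j x : ℕ) < k}) ∪ A = V ∪ {x | (j x : ℕ) < k + 1} := by
      ext x
      simp only [Set.mem_union, Set.mem_ofPred_eq, hmem]
      by_cases hx : x ∈ V
      · simp only [hx, true_or, not_true_eq_false, false_and, or_false, Order.lt_add_one_iff]
      · simp only [hx, false_or, not_false_eq_true, true_and]
        (clear * -; omega)
    have hd : Disjoint (V ∪ {x | (j x : ℕ) < k}) A := by
      rw [Set.disjoint_left]
      intro x hx hxA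
      obtain ⟨h1, h2⟩ := (hmem x).1 hxA
      rcases hx with h | h
      · exact h1 h
      · rw [Set.mem_ofPred_eq] at h
        (clear * - h2 h; omega)
    have hspA : 𝔖.Sparse p.natDegree A := fun v hv w hw h => hsp ⟨k, hk⟩ v hv.1 w hw.1 h
    obtain ⟨χ', hχ'⟩ := main_ind hA
    have hcl : IsClopen (V ∪ {x | (j x : ℕ) < k + 1}) := hun ▸ hVk.union hA
    set Fk' : C(X, ℝ) := ⟨_, 𝔖.continuous_densV hr p p.natDegree hs hcl⟩ with hFk'
    have h1 := 𝔖.densV_step hr p hs herase hVk hA hd hspA Fk Fk' χ' hFk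
      (fun x => by rw [hun]; rfl) (fun x => by rw [hχ' x])
    refine ⟨hcl, Fk', χ + χ', fun x => rfl, ?_, ?_⟩
    · intro x
      rw [ContinuousMap.add_apply, hχ, hχ']
      by_cases hx : x ∈ V
      · have h2 : x ∉ A := fun h => ((hmem x).1 h).1 hx
        simp only [hx, not_true_eq_false, false_and, ↓reduceIte, h2, add_zero, Order.lt_add_one_iff]
      · by_cases h : (j x : ℕ) = k
        · have h2 : x ∈ A := (hmem x).2 ⟨hx, h⟩
          simp [hx, h, h2]
        · have h2 : x ∉ A := fun h' => h ((hmem x).1 h').2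
          by_cases h4 : (j x : ℕ) < k
          · have h5 : (j x : ℕ) < k + 1 := by (clear * - h4; omega)
            simp [hx, h2, h4, h5]
          · have h5 : ¬ (j x : ℕ) < k + 1 := by (clear * - h h4; omega)
            simp [hx, h2, h4, h5]
    · rw [map_add]
      have e : κ₁ * (𝔖.I χ + 𝔖.I χ') = κ₁ * 𝔖.I χ + κ₁ * 𝔖.I χ' := by ring
      rw [e]
      linarith only [hle, h1]

/-- comparison of the restricted functional with the full one -/
theorem densV_le [CompactSpace X] [T2Space X] [TotallyDisconnectedSpace X] (𝔖 : Sys X G)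
    (hr : 0 < r) (p : ℝ[X]) {s : X → Option (Fin r)} (hs : IsLocallyConstant s) {κ₁ : ℝ}
    (hκ₁ : 0 ≤ κ₁)
    (herase : ∀ (W : Finset X), ∀ w ∈ W, sp p 𝔖.y s (W.erase w) ≤ sp p 𝔖.y s W + κ₁)
    {V : Set X} (hV : IsClopen V) (F F' : C(X, ℝ))
    (hF : ∀ x, F x = 𝔖.densV p p.natDegree s V x)
    (hF' : ∀ x, F' x = 𝔖.dens2 p p.natDegree s x) : 𝔖.I F ≤ 𝔖.I F' + κ₁ := by
  obtain ⟨m, j, hj, hsp⟩ := 𝔖.exists_sparse p.natDegree
  obtain ⟨-, Fk, χ, hFk, hχ, hle⟩ := 𝔖.densV_steps hr p hs herase hV F hF hj hsp m le_rfl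
  have hun : (V ∪ {x | (j x : ℕ) < m}) = Set.univ := by
    ext x
    simp
  have h1 : Fk = F' := by
    ext x
    rw [hFk x, hF' x, hun, 𝔖.densV_univ]
  have h2 : 𝔖.I χ ≤ 1 := by
    have h3 : 0 ≤ 𝔖.I (1 - χ) := by
      refine 𝔖.I_nonneg _ fun x => ?_
      rw [ContinuousMap.sub_apply, ContinuousMap.one_apply, hχ]
      split_ifs
      · simp
      · simp
    rw [map_sub, 𝔖.I_one] at h3
    linarith only [h3]
  rw [h1] at hle
  have h3 : κ₁ * 𝔖.I χ ≤ κ₁ * 1 := mul_le_mul_of_nonneg_left h2 hκ₁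
  linarith only [hle, h3]

end Sys

end Vale.Agent.P078.C
end

section

/-! R: the functional restricted to a clopen set of vertices. -/

namespace Vale.Agent.P078.C

open Finset Polynomial
open scoped Pointwise Classical Topology
open Vale.Agent.P078.D (sp kp sp_congr sp_map sp_gauge continuous_sp sum_kp kp_congr kp_disconn kp_large)

namespace Sys

variable {X G : Type*} [TopologicalSpace X] [Group G] [MulAction G X]

variable {r : ℕ}

/-- the points at distance at most `R` from `D` -/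
def nbhd (𝔖 : Sys X G) (R : ℕ) (D : Set X) : Set X := {x | ∃ w ∈ D, x ∈ 𝔖.ball R w}

theorem isClopen_nbhd (𝔖 : Sys X G) (R : ℕ) {D : Set X} (hD : IsClopen D) :
    IsClopen (𝔖.nbhd R D) := by
  have h : 𝔖.nbhd R D = ⋃ g ∈ 𝔖.ballG R, (fun x => g • x) ⁻¹' D := by
    ext x
    simp only [Set.mem_iUnion, Set.mem_preimage, exists_prop]
    constructor
    · rintro ⟨w, hw, hx⟩
      obtain ⟨g, hg, rfl⟩ := mem_ball.1 (mem_ball_comm.1 hx)
      exact ⟨g, hg, hw⟩
    · rintro ⟨g, hg, hw⟩
      exact ⟨g • x, hw, mem_ball_comm.1 (mem_ball.2 ⟨g, hg, rfl⟩)⟩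
  rw [h]
  exact Set.Finite.isClopen_biUnion (Finset.finite_toSet _) fun g _ => hD.preimage (𝔖.cont g)

theorem densV_nbhd_sp_empty (𝔖 : Sys X G) (hr : 0 < r) (p : ℝ[X]) (s : X → Option (Fin r)) :
    sp p 𝔖.y s (∅ : Finset X) = 0 := by
  have h := Vale.Agent.P078.D.sp_union (p := p) (s := s) (W := (∅ : Finset X)) (W' := ∅) hr 𝔖.herm
    (Finset.disjoint_empty_left _) (fun i hi => absurd hi (Finset.notMem_empty i))
  rw [Finset.union_empty] at h
  linarith only [h]

theorem densV_nbhd_kp_empty (𝔖 : Sys X G) (hr : 0 < r) (p : ℝ[X]) (s : X → Option (Fin r)) :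
    kp p 𝔖.y s (∅ : Finset X) = 0 := by
  have h := sum_kp (p := p) (y := 𝔖.y) (s := s) (∅ : Finset X)
  rw [Finset.powerset_empty, Finset.sum_singleton, 𝔖.densV_nbhd_sp_empty hr] at h
  exact h

/-- a set in the neighbourhood of `D` with non zero coefficient lies in one ball -/
theorem densV_nbhd_aux (𝔖 : Sys X G) (hr : 0 < r) (p : ℝ[X]) {s : X → Option (Fin r)} {D : Set X}
    (R : ℕ) (hsp : 𝔖.Sparse (2 * R + 1) D) {T : Finset X} {x : X} (hx : x ∈ T)
    (hT : ∀ v ∈ T, v ∈ 𝔖.nbhd R D) (hk : kp p 𝔖.y s T ≠ 0) :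
    ∃ w ∈ D, ∀ v ∈ T, v ∈ 𝔖.ball R w := by
  obtain ⟨w, hw, hxw⟩ := hT x hx
  refine ⟨w, hw, ?_⟩
  by_contra hcon
  push Not at hcon
  obtain ⟨u, hu, huw⟩ := hcon
  apply hk
  have hAT : (T.filter fun v => v ∈ 𝔖.ball R w) ⊆ T := Finset.filter_subset _ _
  have hne : (T.filter fun v => v ∈ 𝔖.ball R w).Nonempty := ⟨x, Finset.mem_filter.2 ⟨hx, hxw⟩⟩
  have hne' : (T \ T.filter fun v => v ∈ 𝔖.ball R w).Nonempty :=
    ⟨u, Finset.mem_sdiff.2 ⟨hu, fun h => huw (Finset.mem_filter.1 h).2⟩⟩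
  have h4 := kp_disconn (p := p) (y := 𝔖.y) (s := s) hr 𝔖.herm hne hne' Finset.disjoint_sdiff ?_
  · rwa [Finset.union_sdiff_of_subset hAT] at h4
  intro i hi j hj
  by_contra hij
  have hi' := (Finset.mem_filter.1 hi).2
  obtain ⟨hjT, hj'⟩ := Finset.mem_sdiff.1 hj
  obtain ⟨w', hw', hjw'⟩ := hT j hjT
  have h1 : i ∈ 𝔖.ball 1 j := 𝔖.ball_of_edge hij
  have h2 : j ∈ 𝔖.ball (R + 1) w := 𝔖.ball_trans hi' (mem_ball_comm.1 h1)
  have h3 : w' ∈ 𝔖.ball (R + 1 + R) w := 𝔖.ball_trans h2 (mem_ball_comm.1 hjw')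
  have h5 : w' = w := hsp w' hw' w hw (𝔖.ball_mono (by (clear * -; omega)) w h3)
  subst h5
  exact hj' (Finset.mem_filter.2 ⟨hjT, hjw'⟩)

/-- the functional restricted to the union of far away balls -/
theorem densV_nbhd (𝔖 : Sys X G) (hr : 0 < r) (p : ℝ[X]) {s : X → Option (Fin r)}
    (hs : IsLocallyConstant s) {D : Set X} (hD : IsClopen D) (R : ℕ)
    (hsp : 𝔖.Sparse (2 * R + 1) D) (F H : C(X, ℝ))
    (hF : ∀ x, F x = 𝔖.densV p p.natDegree s (𝔖.nbhd R D) x)
    (hH : ∀ x, H x = if x ∈ D then sp p 𝔖.y s (𝔖.ball R x) else 0) : 𝔖.I F = 𝔖.I H := by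
  refine 𝔖.mtp R (fun x w => ∑ T ∈ (𝔖.TTs p.natDegree x).filter
    (fun T => w ∈ D ∧ ∀ v ∈ T, v ∈ 𝔖.ball R w), kp p 𝔖.y s T / T.card) ?_ F H ?_ ?_
  · intro g _
    have key := 𝔖.continuous_sum_TTs p.natDegree (𝔖.aux_nice_div_card (𝔖.nice_kp hr p hs))
      (fun _ w T => w ∈ D ∧ ∀ v ∈ T, v ∈ 𝔖.ball R w) ?_ g
    · convert key
    intro g J
    rw [IsLocallyConstant.iff_eventually_eq]
    intro x
    have h1 : ∀ᶠ x' in nhds x, (g • x' ∈ D ↔ g • x ∈ D) :=
      nice_ev_clopen (hD.preimage (𝔖.cont g)) x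
    have h2 : ∀ᶠ x' in nhds x, ∀ h ∈ J, (h • x' ∈ 𝔖.ball R (g • x') ↔ h • x ∈ 𝔖.ball R (g • x)) :=
      (Filter.eventually_all_finset _).2 fun h _ => 𝔖.nice_ev_mem_ball R h g x
    filter_upwards [h1, h2] with x' e1 e2
    rw [eq_iff_iff]
    refine and_congr e1 ?_
    simp only [Finset.mem_image, forall_exists_index, and_imp, forall_apply_eq_imp_iff₂]
    exact forall₂_congr e2
  · intro x
    rw [hF x]
    unfold densV
    simp only [sum_filter]
    rw [Finset.sum_comm]
    refine Finset.sum_congr rfl fun T hT => ?_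
    obtain ⟨hTT, hxT⟩ := aux_mem_TTs.1 hT
    by_cases hw : ∃ w ∈ D, ∀ v ∈ T, v ∈ 𝔖.ball R w
    · obtain ⟨w, hwD, hTw⟩ := hw
      rw [if_pos (fun v hv => ⟨w, hwD, hTw v hv⟩)]
      rw [Finset.sum_eq_single w, if_pos ⟨hwD, hTw⟩]
      · intro w' hw' hne
        refine if_neg fun h => hne ?_
        have h3 : w' ∈ 𝔖.ball (R + R) w :=
          𝔖.ball_trans (hTw x hxT) (mem_ball_comm.1 (h.2 x hxT))
        exact hsp w' h.1 w hwD (𝔖.ball_mono (by (clear * -; omega)) w h3)
      · intro h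
        exact absurd (mem_ball_comm.1 (hTw x hxT)) h
    · have h1 : ∑ w ∈ 𝔖.ball R x, (if w ∈ D ∧ ∀ v ∈ T, v ∈ 𝔖.ball R w then
          kp p 𝔖.y s T / (T.card : ℝ) else 0) = 0 :=
        Finset.sum_eq_zero fun w _ => if_neg fun h => hw ⟨w, h.1, h.2⟩
      rw [h1]
      by_cases hn : ∀ v ∈ T, v ∈ 𝔖.nbhd R D
      · rw [if_pos hn]
        have h2 : kp p 𝔖.y s T = 0 := by
          by_contra hk
          exact hw (𝔖.densV_nbhd_aux hr p R hsp hxT hn hk)
        rw [h2, zero_div]
      · rw [if_neg hn]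
  · intro x
    rw [hH x]
    by_cases hx : x ∈ D
    · rw [if_pos hx, ← sum_kp (𝔖.ball R x)]
      have h1 : ∀ T ∈ (𝔖.ball R x).powerset, kp p 𝔖.y s T =
          ∑ v ∈ T, if 𝔖.TT p.natDegree T then kp p 𝔖.y s T / (T.card : ℝ) else 0 := by
        intro T _
        rcases T.eq_empty_or_nonempty with rfl | hne
        · rw [Finset.sum_empty, 𝔖.densV_nbhd_kp_empty hr]
        · by_cases hTT : 𝔖.TT p.natDegree T
          · have hc : (T.card : ℝ) ≠ 0 := by
              exact_mod_cast (Finset.card_pos.2 hne).ne'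
            rw [Finset.sum_const, nsmul_eq_mul, if_pos hTT]
            (clear * - hc; field_simp)
          · have h2 : kp p 𝔖.y s T = 0 := by
              by_contra hk
              exact hTT (𝔖.TT_of_kp_ne_zero hr hk)
            simp [h2]
      rw [Finset.sum_congr rfl h1]
      rw [Finset.sum_comm' (s' := fun v => (𝔖.ball R x).powerset.filter fun T => v ∈ T)
        (t' := 𝔖.ball R x)]
      · refine Finset.sum_congr rfl fun v hv => ?_
        rw [← Finset.sum_filter]
        refine Finset.sum_congr ?_ fun _ _ => rfl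
        ext T
        simp only [Finset.mem_filter, Finset.mem_powerset, aux_mem_TTs]
        constructor
        · rintro ⟨⟨h2, h3⟩, h4⟩
          exact ⟨⟨h4, h3⟩, hx, fun v hv => h2 hv⟩
        · rintro ⟨⟨h4, h3⟩, -, h2⟩
          exact ⟨⟨fun v hv => h2 v hv, h3⟩, h4⟩
      · intro T v
        simp only [Finset.mem_filter, Finset.mem_powerset]
        constructor
        · rintro ⟨h2, h3⟩
          exact ⟨⟨h2, h3⟩, h2 h3⟩
        · rintro ⟨⟨h2, h3⟩, -⟩
          exact ⟨h2, h3⟩
    · rw [if_neg hx]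
      symm
      refine Finset.sum_eq_zero fun v _ => ?_
      rw [Finset.filter_false_of_mem (fun T _ h => hx h.1), Finset.sum_empty]

end Sys

end Vale.Agent.P078.C
end

section

/-! R3: the density of bad balls. -/

namespace Vale.Agent.P078.C

open Finset Polynomial
open scoped Pointwise Classical Topology
open Vale.Agent.P078.D (sp kp sp_congr sp_map sp_gauge continuous_sp sum_kp kp_congr kp_disconn kp_large)

namespace Sys

variable {X G : Type*} [TopologicalSpace X] [Group G] [MulAction G X]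

variable {r : ℕ}

/-- continuity of the functional of the ball -/
theorem bad_continuous (𝔖 : Sys X G) (hr : 0 < r) (p : ℝ[X]) {s : X → Option (Fin r)}
    (hs : IsLocallyConstant s) (R : ℕ) : Continuous fun x => sp p 𝔖.y s (𝔖.ball R x) := by
  have hT : ∀ g : G, IsLocallyConstant fun x : X => (fun _ _ : X => True) x (g • x) := fun g =>
    IsLocallyConstant.const _
  have h2 := 𝔖.continuous_sp_ball hr p R (fun _ => s) (𝔖.stage_smul_lc hs) (fun _ _ => True) hT
  refine h2.congr fun x => ?_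
  simp only [Finset.filter_true]

/-- the density of bad balls -/
theorem bad_le [CompactSpace X] [T2Space X] [TotallyDisconnectedSpace X] (𝔖 : Sys X G)
    (hr : 0 < r) (p : ℝ[X]) {s : X → Option (Fin r)} (hs : IsLocallyConstant s) {κ₁ b₀ : ℝ}
    (hκ₁ : 0 ≤ κ₁)
    (herase : ∀ (W : Finset X), ∀ w ∈ W, sp p 𝔖.y s (W.erase w) ≤ sp p 𝔖.y s W + κ₁)
    (R : ℕ) {m : ℕ} {j : X → Fin m} (hj : IsLocallyConstant j)
    (hsp : ∀ i, 𝔖.Sparse (2 * R + 1) (j ⁻¹' {i})) {D : Set X} (hD : IsClopen D)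
    (hDb : ∀ x ∈ D, b₀ ≤ sp p 𝔖.y s (𝔖.ball R x)) (F χ : C(X, ℝ))
    (hF : ∀ x, F x = 𝔖.dens2 p p.natDegree s x) (hχ : ∀ x, χ x = if x ∈ D then 1 else 0) :
    b₀ * 𝔖.I χ ≤ m * (𝔖.I F + κ₁) := by
  have hcl : ∀ i, IsClopen (D ∩ j ⁻¹' {i}) := fun i => hD.inter (main_clopen hj i)
  choose ξ hξ using fun i => main_ind (hcl i)
  have hone : ∀ i, b₀ * 𝔖.I (ξ i) ≤ 𝔖.I F + κ₁ := by
    intro i
    have hspi : 𝔖.Sparse (2 * R + 1) (D ∩ j ⁻¹' {i}) := fun v hv w hw hvw =>
      hsp i v hv.2 w hw.2 hvw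
    have hV := 𝔖.isClopen_nbhd R (hcl i)
    set Fi : C(X, ℝ) := ⟨_, 𝔖.continuous_densV hr p p.natDegree hs hV⟩ with hFi
    have hFi' : ∀ x, Fi x = 𝔖.densV p p.natDegree s (𝔖.nbhd R (D ∩ j ⁻¹' {i})) x := fun x => rfl
    set Hi : C(X, ℝ) := ξ i * ⟨_, 𝔖.bad_continuous hr p hs R⟩ with hHi
    have hHi' : ∀ x, Hi x = if x ∈ D ∩ j ⁻¹' {i} then sp p 𝔖.y s (𝔖.ball R x) else 0 := by
      intro x
      rw [hHi, ContinuousMap.mul_apply, hξ]
      by_cases hx : x ∈ D ∩ j ⁻¹' {i}
      · rw [if_pos hx, if_pos hx, one_mul]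
        rfl
      · rw [if_neg hx, if_neg hx, zero_mul]
    have h1 := 𝔖.densV_nbhd hr p hs (hcl i) R hspi Fi Hi hFi' (by
      intro x
      rw [hHi' x]
      congr)
    have h2 := 𝔖.densV_le hr p hs hκ₁ herase hV Fi F hFi' hF
    have h3 : 0 ≤ 𝔖.I (Hi - b₀ • ξ i) := by
      refine 𝔖.I_nonneg _ fun x => ?_
      rw [ContinuousMap.sub_apply, ContinuousMap.smul_apply, hHi', hξ, smul_eq_mul]
      by_cases hx : x ∈ D ∩ j ⁻¹' {i}
      · rw [if_pos hx, if_pos hx, mul_one]
        have := hDb x hx.1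
        linarith only [this]
      · rw [if_neg hx, if_neg hx]
        simp
    rw [map_sub, map_smul, smul_eq_mul] at h3
    linarith only [h1, h2, h3]
  have hsum : χ = ∑ i, ξ i := by
    ext x
    rw [ContinuousMap.sum_apply, hχ]
    simp only [hξ]
    by_cases hx : x ∈ D
    · rw [if_pos hx, Finset.sum_eq_single (j x)]
      · rw [if_pos ⟨hx, rfl⟩]
      · intro i _ hi
        rw [if_neg]
        rintro ⟨-, h⟩
        exact hi h.symm
      · intro h
        exact absurd (Finset.mem_univ _) h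
    · rw [if_neg hx]
      symm
      refine Finset.sum_eq_zero fun i _ => ?_
      rw [if_neg]
      exact fun h => hx h.1
  rw [hsum, map_sum, Finset.mul_sum]
  refine (Finset.sum_le_sum fun i _ => hone i).trans (le_of_eq ?_)
  rw [Finset.sum_const, Finset.card_univ, Fintype.card_fin, nsmul_eq_mul]

/-- a clopen set between the superlevel sets of the functional of the balls -/
theorem exists_bad [CompactSpace X] [T2Space X] [TotallyDisconnectedSpace X] (𝔖 : Sys X G)
    (hr : 0 < r) (p : ℝ[X]) {s : X → Option (Fin r)} (hs : IsLocallyConstant s) {b₀ b₁ : ℝ}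
    (hb : b₀ < b₁) (R : ℕ) :
    ∃ D : Set X, IsClopen D ∧ (∀ x ∈ D, b₀ ≤ sp p 𝔖.y s (𝔖.ball R x)) ∧
      ∀ x ∉ D, sp p 𝔖.y s (𝔖.ball R x) < b₁ := by
  have hc := 𝔖.bad_continuous hr p hs R
  have h1 : ∀ x : X, ∃ U : Set X, IsClopen U ∧ x ∈ U ∧
      (b₀ < sp p 𝔖.y s (𝔖.ball R x) → ∀ z ∈ U, b₀ < sp p 𝔖.y s (𝔖.ball R z)) ∧
      (¬ b₀ < sp p 𝔖.y s (𝔖.ball R x) → ∀ z ∈ U, sp p 𝔖.y s (𝔖.ball R z) < b₁) := by
    intro x
    by_cases hx : b₀ < sp p 𝔖.y s (𝔖.ball R x)
    · obtain ⟨U, hU, hxU, hUs⟩ := compact_exists_isClopen_in_isOpen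
        (isOpen_lt continuous_const hc : IsOpen {z | b₀ < sp p 𝔖.y s (𝔖.ball R z)}) hx
      exact ⟨U, hU, hxU, fun _ z hz => hUs hz, fun hn => absurd hx hn⟩
    · obtain ⟨U, hU, hxU, hUs⟩ := compact_exists_isClopen_in_isOpen
        (isOpen_lt hc continuous_const : IsOpen {z | sp p 𝔖.y s (𝔖.ball R z) < b₁})
        (lt_of_le_of_lt (not_lt.1 hx) hb : x ∈ {z | sp p 𝔖.y s (𝔖.ball R z) < b₁})
      exact ⟨U, hU, hxU, fun hn => absurd hn hx, fun _ z hz => hUs hz⟩
  choose U hU hxU hU1 hU2 using h1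
  obtain ⟨m, j, i, hj, hi⟩ := exists_lc_cover U hU hxU
  refine ⟨{x | b₀ < sp p 𝔖.y s (𝔖.ball R (i (j x)))}, ?_, ?_, ?_⟩
  · have h : IsClopen (j ⁻¹' {k | b₀ < sp p 𝔖.y s (𝔖.ball R (i k))}) :=
      ⟨⟨by rw [← Set.preimage_compl]; exact hj _⟩, hj _⟩
    exact h
  · intro x hx
    exact (hU1 _ hx x (hi x)).le
  · intro x hx
    exact hU2 _ hx x (hi x)

end Sys

end Vale.Agent.P078.C
end

section

/-! L: local moments are controlled by form bounds; the separating polynomial. -/

namespace Vale.Agent.P078.D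

open Finset Polynomial
open Vale.Agent.P078.C (Herm ZD qf FB yc pw locmom)

variable {α : Type*} [DecidableEq α] {r : ℕ}

theorem pow_herm_apply {n : Type*} [Fintype n] [DecidableEq n] {A : Matrix n n ℂ}
    (hA : A.IsHermitian) (k : ℕ) (w : n) : ((A ^ k) w w).re =
      ∑ i, hA.eigenvalues i ^ k * ‖(hA.eigenvectorUnitary : Matrix n n ℂ) w i‖ ^ 2 := by
  have h1 := hA.spectral_theorem
  have h2 : A ^ k = (hA.eigenvectorUnitary : Matrix n n ℂ) *
      (Matrix.diagonal (fun i => ((hA.eigenvalues i : ℝ) : ℂ))) ^ k *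
      star (hA.eigenvectorUnitary : Matrix n n ℂ) := by
    conv_lhs => rw [h1, ← map_pow]
    rw [Unitary.conjStarAlgAut_apply]
    rfl
  rw [h2, Matrix.diagonal_pow, Matrix.mul_apply, Complex.re_sum]
  refine Finset.sum_congr rfl fun i _ => ?_
  rw [Matrix.mul_diagonal, Matrix.star_apply]
  simp only [Pi.pow_apply]
  rw [mul_assoc, mul_comm, mul_assoc, mul_comm (star _) _]
  have h3 : ∀ z : ℂ, z * star z = ((‖z‖ ^ 2 : ℝ) : ℂ) := by
    intro z
    rw [Complex.star_def, Complex.mul_conj, Complex.normSq_eq_norm_sq]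
  rw [h3, ← Complex.ofReal_pow, ← Complex.ofReal_mul, Complex.ofReal_re]

theorem row_unitary {n : Type*} [Fintype n] [DecidableEq n] {A : Matrix n n ℂ}
    (hA : A.IsHermitian) (w : n) :
    ∑ i, ‖(hA.eigenvectorUnitary : Matrix n n ℂ) w i‖ ^ 2 = 1 := by
  have h := pow_herm_apply hA 0 w
  simp only [pow_zero, one_mul, Matrix.one_apply_eq, Complex.one_re] at h
  exact h.symm

theorem pw_apply (t : α → α → ℂ) (W : Finset α) (k : ℕ) (v w : W) :
    pw t W k v w = ((Matrix.of fun i j : W => t i j) ^ k) v w := by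
  induction k generalizing v with
  | zero =>
    rw [pow_zero, Matrix.one_apply]
    unfold pw
    refine if_congr ?_ rfl rfl
    exact Subtype.coe_inj
  | succ k ih =>
    rw [pow_succ', Matrix.mul_apply]
    unfold pw
    rw [← Finset.sum_coe_sort]
    refine Finset.sum_congr rfl fun u _ => ?_
    rw [ih u]
    rfl

/-- the eigenvalues of a Hermitian kernel cut down to `W` are values of the form -/
theorem exists_qf_eigenvalue (t : α → α → ℂ) (W : Finset α)
    (hA : (Matrix.of fun i j : W => t i j).IsHermitian) (i : W) :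
    ∃ v : α → ℂ, ∑ i ∈ W, ‖v i‖ ^ 2 = 1 ∧ qf t W v = hA.eigenvalues i := by
  refine ⟨fun a => if h : a ∈ W then hA.eigenvectorBasis i ⟨a, h⟩ else 0, ?_, ?_⟩
  · have h1 : ‖hA.eigenvectorBasis i‖ = 1 := hA.eigenvectorBasis.orthonormal.1 i
    rw [EuclideanSpace.norm_eq, Real.sqrt_eq_one] at h1
    rw [← h1, ← Finset.sum_coe_sort W]
    refine Finset.sum_congr rfl fun a _ => ?_
    simp only [SetLike.coe_mem, ↓reduceDIte, SetLike.eta]
  · rw [hA.eigenvalues_eq]
    unfold qf
    rw [← Finset.sum_coe_sort W]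
    simp only [dotProduct, Matrix.mulVec]
    congr 1
    refine Finset.sum_congr rfl fun a _ => ?_
    rw [← Finset.sum_coe_sort W, Finset.mul_sum]
    refine Finset.sum_congr rfl fun b _ => ?_
    simp only [SetLike.coe_mem, ↓reduceDIte, Subtype.coe_eta, RCLike.star_def, mul_assoc, Pi.star_apply, Matrix.of_apply]

/-- if the pinched kernel has its form bounds in `[lo, hi]` on `W` and `p ≤ C` on `[lo, hi]`,
then the diagonal entries of `p` of it are at most `C` -/
theorem locmom_le {y : α → α → ℂ} (hy : Herm y) (c : α → Fin r) {W : Finset α} {w : α}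
    (hw : w ∈ W) {lo hi C : ℝ}
    (h1 : ∀ v : α → ℂ, lo * ∑ i ∈ W, ‖v i‖ ^ 2 ≤ qf (yc y c) W v)
    (h2 : ∀ v : α → ℂ, qf (yc y c) W v ≤ hi * ∑ i ∈ W, ‖v i‖ ^ 2) (p : ℝ[X])
    (hp : ∀ t ∈ Set.Icc lo hi, p.eval t ≤ C) : locmom p y c W w ≤ C := by
  set A : Matrix W W ℂ := Matrix.of fun i j : W => yc y c i j with hAdef
  have hA : A.IsHermitian := by
    refine Matrix.IsHermitian.ext fun i j => ?_
    simp only [hAdef, Matrix.of_apply, yc]
    by_cases h : c i = c j
    · rw [if_pos h, if_pos h.symm, ← hy]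
    · rw [if_neg h, if_neg (fun h' => h h'.symm), star_zero]
  have hev : ∀ i, p.eval (hA.eigenvalues i) ≤ C := by
    intro i
    obtain ⟨v, hv1, hv2⟩ := exists_qf_eigenvalue (yc y c) W hA i
    have a1 := h1 v
    have a2 := h2 v
    rw [hv1, hv2, mul_one] at a1 a2
    exact hp _ ⟨a1, a2⟩
  have hloc : locmom p y c W w = ∑ i, p.eval (hA.eigenvalues i) *
      ‖(hA.eigenvectorUnitary : Matrix W W ℂ) ⟨w, hw⟩ i‖ ^ 2 := by
    unfold locmom
    have h3 : ∀ k, (pw (yc y c) W k w w).re = ∑ i, hA.eigenvalues i ^ k *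
        ‖(hA.eigenvectorUnitary : Matrix W W ℂ) ⟨w, hw⟩ i‖ ^ 2 := by
      intro k
      rw [← pow_herm_apply hA k ⟨w, hw⟩]
      exact congrArg Complex.re (pw_apply (yc y c) W k ⟨w, hw⟩ ⟨w, hw⟩)
    simp only [h3, Finset.mul_sum]
    rw [Finset.sum_comm]
    refine Finset.sum_congr rfl fun i _ => ?_
    rw [Polynomial.eval_eq_sum_range, Finset.sum_mul]
    refine Finset.sum_congr rfl fun k _ => ?_
    ring
  rw [hloc]
  calc ∑ i, p.eval (hA.eigenvalues i) *
        ‖(hA.eigenvectorUnitary : Matrix W W ℂ) ⟨w, hw⟩ i‖ ^ 2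
      ≤ ∑ i, C * ‖(hA.eigenvectorUnitary : Matrix W W ℂ) ⟨w, hw⟩ i‖ ^ 2 :=
        Finset.sum_le_sum fun i _ => mul_le_mul_of_nonneg_right (hev i) (by (clear * - hA hw; positivity))
    _ = C := by rw [← Finset.mul_sum, row_unitary hA, mul_one]

/-- the separating polynomial `(t² - u²) (t / v) ^ (2 k) / (v² - u²)`, for `0 < u < v` -/
theorem exists_sepPoly {u v γ : ℝ} (hu : 0 < u) (huv : u < v) (hγ : 0 < γ) :
    ∃ P : ℝ[X], (∀ t, |t| ≤ u → P.eval t ≤ 0) ∧ (∀ t, -γ ≤ P.eval t) ∧
      ∀ t, v ≤ |t| → 1 ≤ P.eval t := by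
  have hv : 0 < v := hu.trans huv
  have hd : 0 < v ^ 2 - u ^ 2 := by linarith [mul_pos (sub_pos.2 huv) (sub_pos.2 huv), mul_pos (sub_pos.2 hu) (sub_pos.2 huv)]
  have hq0 : 0 ≤ (u / v) ^ 2 := by (clear * - hu hv; positivity)
  have hq1 : (u / v) ^ 2 < 1 := by
    rw [div_pow, div_lt_one (by positivity)]
    linarith only [hd]
  obtain ⟨k, hk⟩ := exists_pow_lt_of_lt_one (show 0 < γ * (v ^ 2 - u ^ 2) / u ^ 2 by (clear * - hγ hd hu; positivity)) hq1
  have hk' : ((u / v) ^ 2) ^ k * u ^ 2 ≤ γ * (v ^ 2 - u ^ 2) := by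
    rw [lt_div_iff₀ (by positivity)] at hk
    exact hk.le
  refine ⟨C (1 / (v ^ 2 - u ^ 2)) * (X ^ 2 - C (u ^ 2)) * ((C (1 / v) * X) ^ 2) ^ k, ?_, ?_, ?_⟩
  · intro t ht
    have ht2 : t ^ 2 ≤ u ^ 2 := sq_le_sq' (by linarith only [ht, neg_abs_le t]) (by linarith only [ht, le_abs_self t])
    simp only [eval_mul, eval_C, eval_sub, eval_pow, eval_X]
    have : 1 / (v ^ 2 - u ^ 2) * (t ^ 2 - u ^ 2) ≤ 0 :=
      mul_nonpos_of_nonneg_of_nonpos (by (clear * - hd; positivity)) (by linarith only [ht2])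
    exact mul_nonpos_of_nonpos_of_nonneg this (by (clear * -; positivity))
  · intro t
    simp only [eval_mul, eval_C, eval_sub, eval_pow, eval_X]
    rcases le_total (u ^ 2) (t ^ 2) with h | h
    · have : 0 ≤ 1 / (v ^ 2 - u ^ 2) * (t ^ 2 - u ^ 2) * ((1 / v * t) ^ 2) ^ k := by
        have : 0 ≤ t ^ 2 - u ^ 2 := by linarith only [h]
        (clear * - hd h; positivity)
      linarith only [this, hγ]
    · have h1 : ((1 / v * t) ^ 2) ^ k ≤ ((u / v) ^ 2) ^ k := by
        refine pow_le_pow_left₀ (by positivity) ?_ k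
        rw [div_pow, mul_pow, div_pow, one_pow, one_div_mul_eq_div]
        (clear * - h hv; gcongr)
      have h2 : (u ^ 2 - t ^ 2) * ((1 / v * t) ^ 2) ^ k ≤ u ^ 2 * ((u / v) ^ 2) ^ k := by
        have : 0 ≤ u ^ 2 - t ^ 2 := by linarith only [h]
        have h3 : u ^ 2 - t ^ 2 ≤ u ^ 2 := by linarith only [sq_nonneg t]
        exact mul_le_mul h3 h1 (by (clear * -; positivity)) (by positivity)
      have h4 : (u ^ 2 - t ^ 2) * ((1 / v * t) ^ 2) ^ k ≤ γ * (v ^ 2 - u ^ 2) := by
        refine h2.trans ?_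
        rw [mul_comm]
        exact hk'
      have h5 : 1 / (v ^ 2 - u ^ 2) * (t ^ 2 - u ^ 2) * ((1 / v * t) ^ 2) ^ k =
          -((u ^ 2 - t ^ 2) * ((1 / v * t) ^ 2) ^ k / (v ^ 2 - u ^ 2)) := by
        field_simp
        ring
      rw [h5, neg_le_neg_iff, div_le_iff₀ hd]
      exact h4
  · intro t ht
    simp only [eval_mul, eval_C, eval_sub, eval_pow, eval_X]
    have ht2 : v ^ 2 ≤ t ^ 2 := by
      rw [← sq_abs t]
      exact pow_le_pow_left₀ hv.le ht 2
    have h1 : 1 ≤ 1 / (v ^ 2 - u ^ 2) * (t ^ 2 - u ^ 2) := by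
      rw [one_div_mul_eq_div, le_div_iff₀ hd]
      linarith only [ht2]
    have h2 : 1 ≤ ((1 / v * t) ^ 2) ^ k := by
      refine one_le_pow₀ ?_
      rw [mul_pow, div_pow, one_pow, one_div_mul_eq_div, le_div_iff₀ (by positivity)]
      linarith only [ht2]
    calc (1 : ℝ) = 1 * 1 := (one_mul 1).symm
      _ ≤ _ := mul_le_mul h1 h2 (by norm_num) (by linarith only [h1])

end Vale.Agent.P078.D
end

section

/-! Rayleigh inequality and monotonicity of the largest root. -/

namespace Vale.Agent.P078.D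

open Finset Polynomial
open Vale.Agent.P078.C (Herm ZD qf FB yc pw gf GoodPoly Th pr cnt Th_sub cnt_sub)

variable {α : Type*} [DecidableEq α] {Ω : Type*} [Fintype Ω] [DecidableEq Ω]
variable {y : Ω → α → α → ℂ} {s : α → Ω → Ω} {z : α → ℂ} {W W' : Finset α} {w v : α}

theorem Q_herm_im (hr : 0 < Fintype.card Ω) (hy : ∀ k, Herm (y k))
    (hz : ∀ i ∈ W, 0 ≤ (z i).im) (hw : w ∈ W) :
    (z w).im * ‖Q y s z (W.erase w)‖ ^ 2 ≤ (Q y s z W * star (Q y s z (W.erase w))).im := by
  have key : ∀ ε : ℝ, 0 < ε → ((z w).im + ε) * ‖Q y s (fun i => z i + ε * Complex.I) (W.erase w)‖ ^ 2 ≤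
      (Q y s (fun i => z i + ε * Complex.I) W *
        star (Q y s (fun i => z i + ε * Complex.I) (W.erase w))).im := by
    intro ε hε
    have him : ∀ i, (z i + ε * Complex.I).im = (z i).im + ε := fun i => by simp
    have h0 : ∀ i ∈ W, 0 < (z i + ε * Complex.I).im := by
      intro i hi
      rw [him]
      have := hz i hi
      linarith only [hε, this]
    have h1 := Q_ratio_im (s := s) (z := fun i => z i + ε * Complex.I) hr hy h0 hw
    have h2 : Q y s (fun i => z i + ε * Complex.I) (W.erase w) ≠ 0 :=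
      Q_ne_zero hr hy fun i hi => h0 i (mem_of_mem_erase hi)
    set A := Q y s (fun i => z i + ε * Complex.I) W
    set B := Q y s (fun i => z i + ε * Complex.I) (W.erase w)
    have h3 : (A * star B) = (A / B) * ((‖B‖ ^ 2 : ℝ) : ℂ) := by
      rw [Complex.ofReal_pow, ← Complex.conj_mul', Complex.star_def]
      field_simp
    rw [h3, Complex.mul_im, Complex.ofReal_re, Complex.ofReal_im, mul_zero, zero_add]
    rw [him] at h1
    have h4 : 0 ≤ ‖B‖ ^ 2 := by positivity
    exact mul_le_mul_of_nonneg_right h1 h4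
  have c1 : ∀ V : Finset α, Continuous fun ε : ℝ => Q y s (fun i => z i + ε * Complex.I) V := by
    intro V
    exact continuous_Q (fun _ _ _ _ _ => continuous_const) fun i _ => by (clear * -; fun_prop)
  have c2 : Continuous fun ε : ℝ => ((z w).im + ε) *
      ‖Q y s (fun i => z i + ε * Complex.I) (W.erase w)‖ ^ 2 := by
    have := c1 (W.erase w)
    (clear * - this; fun_prop)
  have c3 : Continuous fun ε : ℝ => (Q y s (fun i => z i + ε * Complex.I) W *
        star (Q y s (fun i => z i + ε * Complex.I) (W.erase w))).im :=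
    Complex.continuous_im.comp ((c1 W).mul (continuous_star.comp (c1 (W.erase w))))
  have h5 := le_of_tendsto_of_tendsto ((c2.tendsto 0).mono_left nhdsWithin_le_nhds)
    ((c3.tendsto 0).mono_left nhdsWithin_le_nhds)
    (Filter.eventually_of_mem (self_mem_nhdsWithin (s := Set.Ioi (0 : ℝ))) fun ε hε => key ε hε)
  simpa only [RCLike.star_def, Complex.mul_im, Complex.conj_im, mul_neg, Complex.conj_re, le_neg_add_iff_add_le,     ge_iff_le, add_zero, Complex.ofReal_zero, zero_mul] using h5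

theorem Q_real (hy : ∀ k, Herm (y k)) (x : α → ℝ) :
    Q y s (fun i => (x i : ℂ)) W = (((Q y s (fun i => (x i : ℂ)) W).re : ℝ) : ℂ) :=
  Complex.ext (by simp) (by rw [Q_real_im hy, Complex.ofReal_im])

/-- Rayleigh inequality -/
theorem rayleigh (hr : 0 < Fintype.card Ω) (hy : ∀ k, Herm (y k)) (x : α → ℝ) (hw : w ∈ W)
    (hv : v ∈ W) (hne : v ≠ w) :
    (Q y s (fun i => (x i : ℂ)) W).re * (Q y s (fun i => (x i : ℂ)) ((W.erase w).erase v)).re ≤
      (Q y s (fun i => (x i : ℂ)) (W.erase w)).re * (Q y s (fun i => (x i : ℂ)) (W.erase v)).re := by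
  have hv' : v ∈ W.erase w := mem_erase.2 ⟨hne, hv⟩
  have h1 := Q_herm_im (s := s) (z := Function.update (fun i => (x i : ℂ)) v ((x v : ℂ) + Complex.I))
    hr hy (W := W) (w := w) ?_ hw
  · have e1 := Q_update_add (y := y) (s := s) hr (fun i => (x i : ℂ)) Complex.I hv
    have e2 := Q_update_add (y := y) (s := s) hr (fun i => (x i : ℂ)) Complex.I hv'
    rw [e1, e2, Function.update_of_ne hne.symm, Complex.ofReal_im, zero_mul,
      Q_real (s := s) (W := W) hy x, Q_real (s := s) (W := W.erase v) hy x,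
      Q_real (s := s) (W := W.erase w) hy x, Q_real (s := s) (W := (W.erase w).erase v) hy x] at h1
    simp only [Complex.star_def, map_add, map_mul, Complex.conj_ofReal, Complex.conj_I,
      Complex.mul_im, Complex.add_re, Complex.add_im, Complex.mul_re, Complex.ofReal_re,
      Complex.ofReal_im, Complex.I_re, Complex.I_im, Complex.neg_re, Complex.neg_im] at h1
    linarith only [h1]
  · intro i _
    by_cases hi : i = v
    · subst hi
      simp only [Function.update_self, Complex.add_im, Complex.ofReal_im, Complex.I_im, zero_add, zero_le_one]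
    · rw [Function.update_of_ne hi]
      simp

/-! ### monotonicity of the roots -/

theorem pr_rts' (hr : 0 < Fintype.card Ω) (hy : ∀ k, Herm (y k)) (t : ℂ) :
    pr (rts y s W) t = Q y s (fun _ => t) W := (Q_eq_prod hr hy t).symm

theorem rts_erase_lt (hr : 0 < Fintype.card Ω) (hy : ∀ k, Herm (y k)) {u : ℝ} (hw : w ∈ W)
    (h : ∀ l ∈ rts y s W, l < u) : ∀ l ∈ rts y s (W.erase w), l < u := by
  intro l hl
  by_contra hlu
  push Not at hlu
  set L := rts y s W with hL
  set K := rts y s (W.erase w) with hK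
  have hc : Multiset.card L = Multiset.card K + 1 := by
    rw [hL, hK, card_rts hr, card_rts hr, Finset.card_erase_add_one hw]
  have hp : ∀ z : ℂ, 0 < z.im → 0 < (pr L z / pr K z).im := by
    intro z hz
    rw [pr_rts' hr hy, pr_rts' hr hy]
    exact lt_of_lt_of_le hz (Q_ratio_im (z := fun _ => z) hr hy (fun _ _ => hz) hw)
  -- a point below `l`, above all elements of `L`, outside `K`
  have hfin : ((K.toFinset ∪ L.toFinset : Finset ℝ) : Set ℝ).Finite := Finset.finite_toSet _
  obtain ⟨m, hm1, hm2⟩ : ∃ m, m < l ∧ ∀ k ∈ L, k ≤ m := by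
    rcases L.toFinset.eq_empty_or_nonempty with h0 | h0
    · refine ⟨l - 1, by linarith only [], fun k hk => ?_⟩
      have : k ∈ L.toFinset := Multiset.mem_toFinset.2 hk
      rw [h0] at this
      exact absurd this (Finset.notMem_empty _)
    · refine ⟨L.toFinset.max' h0, ?_, fun k hk => Finset.le_max' _ _ (Multiset.mem_toFinset.2 hk)⟩
      exact (h _ (Multiset.mem_toFinset.1 (Finset.max'_mem _ h0))).trans_le hlu
  obtain ⟨t, ht, htn⟩ : ∃ t ∈ Set.Ioo m l, t ∉ ((K.toFinset ∪ L.toFinset : Finset ℝ) : Set ℝ) := by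
    by_contra hcon
    push Not at hcon
    exact (Set.Ioo_infinite hm1) (hfin.subset fun t ht => hcon t ht)
  have htK : t ∉ K := fun h => htn (by simp [h])
  have htL : t ∉ L := fun h => htn (by simp [h])
  have k1 := (cnt_sub hc hp htL htK).1
  have hL0 : cnt L t = 0 := by
    unfold cnt
    rw [Multiset.card_eq_zero, Multiset.filter_eq_nil]
    intro k hk
    exact not_lt.2 ((hm2 k hk).trans ht.1.le)
  have hK0 : 0 < cnt K t := by
    unfold cnt
    rw [Multiset.card_pos_iff_exists_mem]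
    exact ⟨l, Multiset.mem_filter.2 ⟨hl, ht.2⟩⟩
  (clear * - k1 hL0 hK0; omega)

theorem rts_subset_lt (hr : 0 < Fintype.card Ω) (hy : ∀ k, Herm (y k)) {u : ℝ} (hW : W' ⊆ W)
    (h : ∀ l ∈ rts y s W, l < u) : ∀ l ∈ rts y s W', l < u := by
  obtain ⟨n, hn⟩ : ∃ n, (W \ W').card = n := ⟨_, rfl⟩
  induction n generalizing W with
  | zero =>
    have h1 : W \ W' = ∅ := Finset.card_eq_zero.1 hn
    have h2 : W = W' := Finset.Subset.antisymm (Finset.sdiff_eq_empty_iff_subset.1 h1) hW
    rw [← h2]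
    exact h
  | succ n ih =>
    obtain ⟨w, hw⟩ : (W \ W').Nonempty := by
      rw [← Finset.card_pos]
      omega
    obtain ⟨hw1, hw2⟩ := Finset.mem_sdiff.1 hw
    refine ih (W := W.erase w) ?_ (rts_erase_lt hr hy hw1 h) ?_
    · exact fun i hi => mem_erase.2 ⟨fun h => hw2 (h ▸ hi), hW hi⟩
    · rw [Finset.erase_sdiff_comm, Finset.card_erase_of_mem hw, hn]
      rfl

theorem Q_pos_of_rts (hr : 0 < Fintype.card Ω) (hy : ∀ k, Herm (y k)) {u : ℝ}
    (h : ∀ l ∈ rts y s W, l < u) : 0 < (Q y s (fun _ => (u : ℂ)) W).re := by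
  rw [Q_eq_prod hr hy]
  have h1 : ∀ L : Multiset ℝ, (∀ l ∈ L, l < u) →
      (L.map fun l : ℝ => (u : ℂ) - (l : ℂ)).prod = (((L.map fun l : ℝ => u - l).prod : ℝ) : ℂ) ∧
      0 < (L.map fun l : ℝ => u - l).prod := by
    intro L hL
    induction L using Multiset.induction_on with
    | empty => simp only [Multiset.map_zero, Multiset.prod_zero, Complex.ofReal_one, zero_lt_one, and_self]
    | cons a L ih =>
      obtain ⟨h2, h3⟩ := ih fun l hl => hL l (Multiset.mem_cons_of_mem hl)
      have h4 := hL a (Multiset.mem_cons_self _ _)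
      rw [Multiset.map_cons, Multiset.prod_cons, Multiset.map_cons, Multiset.prod_cons, h2]
      refine ⟨by push_cast; ring, mul_pos (by linarith only [h4]) h3⟩
  obtain ⟨h2, h3⟩ := h1 _ h
  rw [h2, Complex.ofReal_re]
  exact h3

end Vale.Agent.P078.D
end

end
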