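import Vale.Agent.P078.MathlibUsed
import Vale.Agent.P078.Bdl.B3
import Vale.Agent.P078.Bdl.B5
import Vale.Agent.P078.Bdl.Fast

set_option linter.all false
attribute [local instance] Vale.Agent.P078.Fast.a01 Vale.Agent.P078.Fast.a02
  Vale.Agent.P078.Fast.a03 Vale.Agent.P078.Fast.a04 Vale.Agent.P078.Fast.a05
  Vale.Agent.P078.Fast.a06 Vale.Agent.P078.Fast.a07 Vale.Agent.P078.Fast.a08
  Vale.Agent.P078.Fast.a09 Vale.Agent.P078.Fast.a10 Vale.Agent.P078.Fast.a11
  Vale.Agent.P078.Fast.a12 Vale.Agent.P078.Fast.a13 Vale.Agent.P078.Fast.a14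
  Vale.Agent.P078.Fast.a15 Vale.Agent.P078.Fast.a16 Vale.Agent.P078.Fast.a17
  Vale.Agent.P078.Fast.a18 Vale.Agent.P078.Fast.a19 Vale.Agent.P078.Fast.a20
  Vale.Agent.P078.Fast.a21 Vale.Agent.P078.Fast.a22 Vale.Agent.P078.Fast.a23
  Vale.Agent.P078.Fast.a24 Vale.Agent.P078.Fast.a25 Vale.Agent.P078.Fast.a26
  Vale.Agent.P078.Fast.a27 Vale.Agent.P078.Fast.a28 Vale.Agent.P078.Fast.a29
  Vale.Agent.P078.Fast.a30 Vale.Agent.P078.Fast.a31 Vale.Agent.P078.Fast.a32
  Vale.Agent.P078.Fast.a33 Vale.Agent.P078.Fast.a34 Vale.Agent.P078.Fast.a35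
  Vale.Agent.P078.Fast.a36 Vale.Agent.P078.Fast.a37 Vale.Agent.P078.Fast.a38
  Vale.Agent.P078.Fast.a39 Vale.Agent.P078.Fast.a40 Vale.Agent.P078.Fast.a41
  Vale.Agent.P078.Fast.a42 Vale.Agent.P078.Fast.a43 Vale.Agent.P078.Fast.a44
  Vale.Agent.P078.Fast.a45 Vale.Agent.P078.Fast.a46 Vale.Agent.P078.Fast.a47
  Vale.Agent.P078.Fast.a48 Vale.Agent.P078.Fast.a49 Vale.Agent.P078.Fast.a50
  Vale.Agent.P078.Fast.a51 Vale.Agent.P078.Fast.a52 Vale.Agent.P078.Fast.a53
  Vale.Agent.P078.Fast.a54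

section
section

/-! F: the final states control the form of the pinched kernel from both sides. -/

namespace Vale.Agent.P078.D

open Finset Polynomial
open scoped ComplexOrder
open Vale.Agent.P078.C (Herm ZD qf FB yc pw gf GoodPoly)

variable {α : Type*} [DecidableEq α] {r : ℕ}

/-! ### averages -/

theorem sum_arrow_prod {A B : Type*} [Fintype A] [Fintype B] {ι : Type*} [Fintype ι]
    [DecidableEq ι] (F : (ι → B) → ℂ) :
    ∑ c : ι → A × B, F (fun i => (c i).2) =
      (Fintype.card A : ℂ) ^ Fintype.card ι * ∑ d, F d := by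
  rw [Fintype.sum_equiv (Equiv.arrowProdEquivProdArrow ι (fun _ => A) (fun _ => B))
    (fun c => F (fun i => (c i).2)) (fun d : (ι → A) × (ι → B) => F d.2) (fun c => rfl),
    Fintype.sum_prod_type]
  simp only [sum_const, card_univ, Fintype.card_pi, prod_const, nsmul_eq_mul, Nat.cast_pow]

theorem sum_arrow_prod' {A B : Type*} [Fintype A] [Fintype B] {ι : Type*} [Fintype ι]
    [DecidableEq ι] (F : (ι → A) → ℂ) :
    ∑ c : ι → A × B, F (fun i => (c i).1) =
      (Fintype.card B : ℂ) ^ Fintype.card ι * ∑ d, F d := by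
  rw [Fintype.sum_equiv (Equiv.arrowProdEquivProdArrow ι (fun _ => A) (fun _ => B))
    (fun c => F (fun i => (c i).1)) (fun d : (ι → A) × (ι → B) => F d.1) (fun c => rfl),
    Fintype.sum_prod_type_right]
  simp only [sum_const, card_univ, Fintype.card_pi, prod_const, nsmul_eq_mul, Nat.cast_pow]

/-! ### the model with signs, weak form -/

/-- kernels -/
def mx (y : α → α → ℂ) : Bool × Bool → α → α → ℂ :=
  fun b i j => if b.1 then (if b.2 then 2 else -2) * y i j else 0

/-- states: `none` is a random sign, `some β` is the sign `β` with probability one half -/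
def ms (τ : α → Option Bool) : α → Bool × Bool → Bool × Bool :=
  fun i c => match τ i with
    | none => (true, c.2)
    | some β => (c.1, β)

variable {y : α → α → ℂ} {τ : α → Option Bool} {z : α → ℂ} {W W' : Finset α} {w : α}

theorem herm_mx (hy : Herm y) (k : Bool × Bool) : Herm (mx y k) := by
  intro i j
  unfold mx
  rw [hy i j]
  cases k.1 <;> cases k.2 <;> simp

theorem card_bb : 0 < Fintype.card (Bool × Bool) := Fintype.card_pos

theorem ms_congr {τ τ' : α → Option Bool} (h : τ w = τ' w) : ms τ w = ms τ' w := by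
  funext c
  unfold ms
  rw [h]

/-- an isolated vertex -/
theorem Q_zero_slot (hy : Herm y) (s : α → Bool × Bool → Bool × Bool) (β : Bool) (hw : w ∈ W)
    (hs : s w = fun _ => (false, β)) :
    Q (mx y) s z W = z w * Q (mx y) s z (W.erase w) := by
  have hz' : Q (mx y) s (Function.update z w 0) W = 0 := by
    unfold Q
    refine mul_eq_zero_of_right _ (Finset.sum_eq_zero fun c _ => ?_)
    refine Matrix.det_eq_zero_of_row_eq_zero ⟨w, hw⟩ fun j => ?_
    simp only [Matrix.of_apply]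
    rw [hs]
    by_cases h : (⟨w, hw⟩ : W) = j
    · subst h
      simp only [↓reduceIte, Function.update_self, mx, Bool.false_eq_true, ite_self, sub_self]
    · simp [mx, h]
  conv_lhs => rw [← Finset.insert_erase hw]
  rw [Q_insert card_bb (Finset.notMem_erase w W), Finset.insert_erase hw, hz', add_zero]

/-- splitting of the random sign -/
theorem mix_add (hy : Herm y) (hw : w ∈ W) :
    Q (mx y) (ms (Function.update τ w none)) z W =
      Q (mx y) (ms (Function.update τ w (some true))) z W +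
      Q (mx y) (ms (Function.update τ w (some false))) z W -
      z w * Q (mx y) (ms τ) z (W.erase w) := by
  have hup : ∀ (o : Option Bool) (k : Bool × Bool),
      Q (mx y) (Function.update (ms (Function.update τ w o)) w fun _ => k) z W =
      Q (mx y) (Function.update (ms τ) w fun _ => k) z W := by
    intro o k
    refine Q_congr (fun _ _ _ _ _ => rfl) (fun i _ => ?_) (fun _ _ => rfl)
    by_cases hi : i = w
    · subst hi
      rw [Function.update_self, Function.update_self]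
    · rw [Function.update_of_ne hi, Function.update_of_ne hi]
      exact ms_congr (Function.update_of_ne hi _ _)
  have hz0 : ∀ β : Bool, Q (mx y) (Function.update (ms τ) w fun _ => (false, β)) z W =
      z w * Q (mx y) (ms τ) z (W.erase w) := by
    intro β
    rw [Q_zero_slot hy _ β hw (Function.update_self _ _ _)]
    congr 1
    refine Q_congr (fun _ _ _ _ _ => rfl) (fun i hi => ?_) (fun _ _ => rfl)
    rw [Function.update_of_ne (Finset.ne_of_mem_erase hi)]
  have hn : ∀ k : Bool × Bool, ms (Function.update τ w none) w k = (true, k.2) := by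
    intro k
    simp [ms]
  have hs : ∀ (β : Bool) (k : Bool × Bool), ms (Function.update τ w (some β)) w k = (k.1, β) := by
    intro β k
    simp [ms]
  rw [Q_avg card_bb hw, Q_avg card_bb hw, Q_avg (s := ms (Function.update τ w (some false))) card_bb hw]
  simp only [hn, hs, hup, Fintype.sum_prod_type, Fintype.sum_bool, Fintype.card_prod,
    Fintype.card_bool, hz0]
  push_cast
  ring

/-- the real value at the real point `t` -/
noncomputable def NN (y : α → α → ℂ) (τ : α → Option Bool) (t : ℝ) (W : Finset α) : ℝ :=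
  (Q (mx y) (ms τ) (fun _ => (t : ℂ)) W).re

theorem NN_congr {τ τ' : α → Option Bool} {t : ℝ} (h : ∀ i ∈ W, τ i = τ' i) :
    NN y τ t W = NN y τ' t W := by
  unfold NN
  rw [Q_congr (fun _ _ _ _ _ => rfl) (fun i hi => ms_congr (h i hi)) (fun _ _ => rfl)]

theorem NN_mix_add (hy : Herm y) {t : ℝ} (hw : w ∈ W) :
    NN y (Function.update τ w none) t W = NN y (Function.update τ w (some true)) t W +
      NN y (Function.update τ w (some false)) t W - t * NN y τ t (W.erase w) := by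
  unfold NN
  rw [mix_add hy hw, Complex.sub_re, Complex.add_re, Complex.re_ofReal_mul]

/-- a plain negative vertex -/
theorem NN_minus_le (hy : Herm y) (hz : ZD y) {t : ℝ} {β : Bool} (n : ℕ) :
    ∀ W : Finset α, W.card = n → ∀ w ∈ W, (∀ V ⊆ W.erase w, 0 < NN y τ t V) →
    NN y (Function.update τ w (some β)) t W ≤ t * NN y τ t (W.erase w) := by
  induction n with
  | zero =>
    intro W hW w hw
    rw [Finset.card_eq_zero.1 hW] at hw
    exact absurd hw (Finset.notMem_empty _)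
  | succ n ih =>
    intro W hW w hw hpos
    rcases (W.erase w).eq_empty_or_nonempty with h0 | ⟨v, hv⟩
    · -- a single vertex
      have hWw : W = {w} := by
        rw [← Finset.insert_erase hw, h0]
        rfl
      rw [h0]
      unfold NN
      have e1 : Q (mx y) (ms (Function.update τ w (some β))) (fun _ => (t : ℂ)) W = t := by
        rw [hWw]
        rw [← insert_empty_eq w]
        rw [Q_insert card_bb (Finset.notMem_empty w), Q_empty, mul_one]
        have e2 : Q (mx y) (ms (Function.update τ w (some β)))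
            (Function.update (fun _ => (t : ℂ)) w 0) (insert w ∅) = 0 := by
          unfold Q
          refine mul_eq_zero_of_right _ (Finset.sum_eq_zero fun c _ => ?_)
          refine Matrix.det_eq_zero_of_row_eq_zero ⟨w, Finset.mem_insert_self _ _⟩ fun j => ?_
          have hj : j = ⟨w, Finset.mem_insert_self _ _⟩ := by
            apply Subtype.ext
            have := j.2
            rw [Finset.mem_insert] at this
            rcases this with h | h
            · exact h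
            · exact absurd h (Finset.notMem_empty _)
          subst hj
          rw [Matrix.of_apply, if_pos rfl, if_pos rfl, Function.update_self]
          simp [mx, hz w]
        rw [e2, add_zero]
      rw [e1, Q_empty]
      simp
    · have hvw : v ≠ w := Finset.ne_of_mem_erase hv
      have hvW : v ∈ W := Finset.mem_of_mem_erase hv
      set σ := Function.update τ w (some β) with hσ
      have hcg : ∀ V ⊆ W.erase w, NN y σ t V = NN y τ t V := by
        intro V hV
        refine NN_congr fun i hi => ?_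
        rw [hσ, Function.update_of_ne (Finset.ne_of_mem_erase (hV hi))]
      have hray := rayleigh (s := ms σ) card_bb (herm_mx hy) (fun _ => t) hw hvW hvw
      have h1 : NN y σ t (W.erase v) ≤ t * NN y τ t ((W.erase w).erase v) := by
        have h2 := ih (W.erase v) (by rw [Finset.card_erase_of_mem hvW, hW]; rfl) w
          (Finset.mem_erase.2 ⟨hvw.symm, hw⟩) ?_
        · rwa [Finset.erase_right_comm] at h2
        · intro V hV
          refine hpos V (hV.trans ?_)
          exact Finset.erase_subset_erase _ (Finset.erase_subset _ _)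
      have hg : 0 < NN y τ t (W.erase w) := hpos _ subset_rfl
      have hg' : 0 < NN y τ t ((W.erase w).erase v) := hpos _ (Finset.erase_subset _ _)
      have h3 : NN y σ t W * NN y τ t ((W.erase w).erase v) ≤
          NN y τ t (W.erase w) * NN y σ t (W.erase v) := by
        rw [← hcg _ (Finset.erase_subset _ _), ← hcg _ subset_rfl]
        exact hray
      have h4 : NN y τ t (W.erase w) * NN y σ t (W.erase v) ≤
          NN y τ t (W.erase w) * (t * NN y τ t ((W.erase w).erase v)) :=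
        mul_le_mul_of_nonneg_left h1 hg.le
      have h5 : NN y σ t W * NN y τ t ((W.erase w).erase v) ≤
          (t * NN y τ t (W.erase w)) * NN y τ t ((W.erase w).erase v) := by linarith only [h3, h4]
      exact le_of_mul_le_mul_right h5 hg'

/-- conversion of random signs into plain positive ones -/
theorem NN_pos (hy : Herm y) (hz : ZD y) {t : ℝ}
    (h : ∀ V ⊆ W, 0 < NN y (fun _ => none) t V) (n : ℕ) :
    ∀ (B V : Finset α), V ⊆ W → (V \ B).card = n →
      0 < NN y (fun i => if i ∈ B then none else some true) t V := by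
  induction n using Nat.strong_induction_on with
  | _ n ih =>
    intro B V hV hn
    rcases (V \ B).eq_empty_or_nonempty with h0 | ⟨w, hw⟩
    · have h1 : NN y (fun i => if i ∈ B then none else some true) t V =
          NN y (fun _ => none) t V :=
        NN_congr fun i hi => if_pos (Finset.sdiff_eq_empty_iff_subset.1 h0 hi)
      rw [h1]
      exact h V hV
    · obtain ⟨hw1, hw2⟩ := Finset.mem_sdiff.1 hw
      set τ : α → Option Bool := fun i => if i ∈ B then none else some true with hτ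
      have e1 : Function.update τ w none = fun i => if i ∈ insert w B then none else some true := by
        funext i
        by_cases hi : i = w
        · subst hi
          simp
        · rw [Function.update_of_ne hi, hτ]
          simp [hi]
      have e2 : Function.update τ w (some true) = τ := by
        rw [Function.update_eq_self_iff, hτ]
        simp [hw2]
      have h1 := ih (V \ insert w B).card (by
        rw [← hn]
        refine Finset.card_lt_card ?_
        refine (Finset.ssubset_iff_of_subset ?_).2 ⟨w, hw, ?_⟩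
        · exact Finset.sdiff_subset_sdiff subset_rfl (Finset.subset_insert _ _)
        · simp) (insert w B) V hV rfl
      rw [← e1, NN_mix_add hy hw1, e2] at h1
      have h2 := NN_minus_le (τ := τ) (β := false) hy hz (t := t) V.card V rfl w hw1 ?_
      · linarith only [h1, h2]
      · intro V' hV'
        refine ih (V' \ B).card ?_ B V' (hV'.trans ((Finset.erase_subset _ _).trans hV)) rfl
        rw [← hn]
        refine Finset.card_lt_card ?_
        refine (Finset.ssubset_iff_of_subset ?_).2 ⟨w, hw, ?_⟩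
        · exact Finset.sdiff_subset_sdiff (hV'.trans (Finset.erase_subset _ _)) subset_rfl
        · intro hc
          exact Finset.ne_of_mem_erase (hV' (Finset.mem_sdiff.1 hc).1) rfl

/-- all signs plain positive: the determinant -/
theorem Q_plain (y : α → α → ℂ) (z : α → ℂ) (W : Finset α) :
    Q (mx y) (ms fun _ => some true) z W =
      Matrix.det (Matrix.of fun i j : W => (if i = j then z i else 0) - y i j) := by
  -- the value at `z = 0`
  have h0 : ∀ S : Finset α, Q (mx y) (ms fun _ => some true) 0 S =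
      Matrix.det (Matrix.of fun i j : S => - y i j) := by
    intro S
    obtain ⟨F, hF⟩ : ∃ F : (S → Bool) → ℂ, F = fun d : S → Bool => Matrix.det (Matrix.of fun i j : S =>
          if d i = d j then - (mx y (d i, true) i j) else 0) := ⟨_, rfl⟩
    have e1 : Q (mx y) (ms fun _ => some true) 0 S = ((4 : ℂ) ^ S.card)⁻¹ *
        ∑ c : S → Bool × Bool, F (fun i => (c i).1) := by
      rw [hF]
      unfold Q
      have h4 : (Fintype.card (Bool × Bool) : ℂ) = 4 := by
        rw [Fintype.card_prod, Fintype.card_bool]; norm_num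
      rw [h4]
      congr 1
      refine Finset.sum_congr rfl fun c _ => ?_
      congr 1
      ext i j
      simp only [Matrix.of_apply, ms, Pi.zero_apply, Prod.mk.injEq, and_true, ite_self, zero_sub]
      split_ifs
      · rfl
      · exact neg_zero
    rw [e1, sum_arrow_prod' F, hF]
    rw [Finset.sum_eq_single (fun _ => true)]
    · have e2 : (Matrix.of fun i j : S => if (true : Bool) = true then - (mx y (true, true) i j) else 0) =
          (2 : ℂ) • (Matrix.of fun i j : S => - y i j) := by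
        ext i j
        simp [mx]
      rw [e2, Matrix.det_smul]
      simp only [Fintype.card_coe, Fintype.card_bool]
      push_cast
      have : (4 : ℂ) ^ S.card = 2 ^ S.card * 2 ^ S.card := by rw [← mul_pow]; norm_num
      rw [this]
      field_simp
    · intro d _ hd
      obtain ⟨i, hi⟩ : ∃ i, d i = false := by
        by_contra hcon
        push Not at hcon
        refine hd (funext fun i => ?_)
        have := hcon i
        simpa using this
      refine Matrix.det_eq_zero_of_row_eq_zero i fun j => ?_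
      simp [hi, mx]
    · intro hd
      exact absurd (Finset.mem_univ _) hd
  -- the expansion
  have h1 : ∀ S : Finset α, Q (fun _ : Unit => y) (fun _ => id) 0 S =
      Matrix.det (Matrix.of fun i j : S => - y i j) := by
    intro S
    rw [Q_const (by simp) (fun _ => ()) (fun i _ => rfl)]
    congr 1
    ext i j
    simp only [Pi.zero_apply, ite_self, kc, ↓reduceIte, zero_sub, Matrix.of_apply]
  have h2 : Q (fun _ : Unit => y) (fun _ => id) z W =
      Matrix.det (Matrix.of fun i j : W => (if i = j then z i else 0) - y i j) := by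
    rw [Q_const (by simp) (fun _ => ()) (fun i _ => rfl)]
    rfl
  rw [← h2, Q_expand card_bb, Q_expand (by simp)]
  refine Finset.sum_congr rfl fun S _ => ?_
  rw [h0, h1]

/-- decided states of the slot model -/
theorem Q_tw_some (hr : 0 < r) (y : α → α → ℂ) (c : α → Fin r) (z : α → ℂ) (W : Finset α) :
    Q (tw r y) (sl fun i => some (c i)) z W = Q (mx (yc y c)) (ms fun _ => none) z W := by
  obtain ⟨F, hF⟩ : ∃ F : (W → Bool) → ℂ, F = fun d : W → Bool => Matrix.det (Matrix.of fun i j : W =>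
        (if i = j then z i else 0) - if d i = d j then (if d i then 2 else -2) * yc y c i j else 0) :=
    ⟨_, rfl⟩
  have e1 : Q (tw r y) (sl fun i => some (c i)) z W = ((2 : ℂ) ^ W.card)⁻¹ * ∑ d : W → Bool, F d := by
    have e2 : Q (tw r y) (sl fun i => some (c i)) z W = ((2 * r : ℂ) ^ W.card)⁻¹ *
        ∑ k : W → Fin r × Bool, F (fun i => (k i).2) := by
      rw [hF]
      unfold Q
      rw [card_slot]
      push_cast
      congr 1
      refine Finset.sum_congr rfl fun k _ => ?_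
      congr 1
      ext i j
      simp only [Matrix.of_apply, sl, Option.getD_some, tw, yc, Prod.mk.injEq]
      by_cases h1 : c i = c j
      · by_cases h2 : (k i).2 = (k j).2 <;> simp [h1, h2]
      · by_cases h2 : (k i).2 = (k j).2 <;> simp [h1, h2]
    rw [e2, sum_arrow_prod F]
    have hr' : (r : ℂ) ≠ 0 := by exact_mod_cast hr.ne'
    simp only [Fintype.card_coe, Fintype.card_fin]
    rw [mul_pow]
    field_simp
  have e3 : Q (mx (yc y c)) (ms fun _ => none) z W = ((2 : ℂ) ^ W.card)⁻¹ * ∑ d : W → Bool, F d := by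
    have e2 : Q (mx (yc y c)) (ms fun _ => none) z W = ((2 * 2 : ℂ) ^ W.card)⁻¹ *
        ∑ k : W → Bool × Bool, F (fun i => (k i).2) := by
      rw [hF]
      unfold Q
      have h4 : (Fintype.card (Bool × Bool) : ℂ) = 2 * 2 := by
        rw [Fintype.card_prod, Fintype.card_bool]; norm_num
      rw [h4]
      congr 1
      refine Finset.sum_congr rfl fun k _ => ?_
      congr 1
      ext i j
      simp only [Matrix.of_apply, ms, mx, Prod.mk.injEq, true_and, if_true]
      by_cases h2 : (k i).2 = (k j).2 <;> simp only [h2, ↓reduceIte, ite_mul, neg_mul]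
    rw [e2, sum_arrow_prod F]
    simp only [Fintype.card_coe, Fintype.card_bool]
    rw [mul_pow]
    push_cast
    field_simp
  rw [e1, e3]

/-- the determinants are positive if all roots of the final polynomial are less than `u` -/
theorem det_pos_of_rts (hr : 0 < r) (hy : Herm y) (hz : ZD y) (c : α → Fin r) {u : ℝ}
    (h : ∀ l ∈ rts (tw r y) (sl fun i => some (c i)) W, l < u) {t : ℝ} (ht : u ≤ t) :
    0 < (Matrix.det (Matrix.of fun i j : W => (if i = j then (t : ℂ) else 0) - yc y c i j)).re := by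
  have hyc : Herm (yc y c) := by
    intro i j
    unfold yc
    by_cases h : c i = c j
    · rw [if_pos h, if_pos h.symm, hy i j]
    · rw [if_neg h, if_neg fun h' => h h'.symm, star_zero]
  have hzc : ZD (yc y c) := by
    intro i
    unfold yc
    rw [if_pos rfl, hz i]
  have h1 : ∀ V ⊆ W, 0 < NN (yc y c) (fun _ => none) t V := by
    intro V hV
    unfold NN
    rw [← Q_tw_some hr]
    refine Q_pos_of_rts (card_slot_pos hr) (herm_tw hy) fun l hl => ?_
    exact (rts_subset_lt (card_slot_pos hr) (herm_tw hy) hV h l hl).trans_le ht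
  have h2 := NN_pos hyc hzc h1 (W \ ∅).card ∅ W subset_rfl rfl
  unfold NN at h2
  simp only [Finset.notMem_empty, if_false] at h2
  rwa [Q_plain] at h2

/-- upper form bound -/
theorem form_le_of_rts (hr : 0 < r) (hy : Herm y) (hz : ZD y) (c : α → Fin r) {u : ℝ}
    (h : ∀ l ∈ rts (tw r y) (sl fun i => some (c i)) W, l < u) (v : α → ℂ) :
    qf (yc y c) W v ≤ u * ∑ i ∈ W, ‖v i‖ ^ 2 := by
  have hyc : Herm (yc y c) := by
    intro i j
    unfold yc
    by_cases h : c i = c j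
    · rw [if_pos h, if_pos h.symm, hy i j]
    · rw [if_neg h, if_neg fun h' => h h'.symm, star_zero]
  set B : Matrix W W ℂ := Matrix.of fun i j : W => (if i = j then (u : ℂ) else 0) - yc y c i j
    with hBdef
  have hB : B.IsHermitian := by
    ext i j
    rw [Matrix.conjTranspose_apply, hBdef, Matrix.of_apply, Matrix.of_apply, star_sub,
      ← hyc j i]
    congr 1
    by_cases hij : i = j
    · subst hij; simp
    · rw [if_neg hij, if_neg fun h => hij h.symm, star_zero]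
  have hev : ∀ k, 0 ≤ hB.eigenvalues k := by
    intro k
    by_contra hcon
    push Not at hcon
    set μ := hB.eigenvalues k with hμ
    have h1 : (B.charpoly).eval (μ : ℂ) = 0 := by
      rw [hB.charpoly_eq, Polynomial.eval_prod]
      refine Finset.prod_eq_zero (Finset.mem_univ k) ?_
      simp [hμ]
    rw [Matrix.eval_charpoly] at h1
    have h2 : Matrix.scalar W (μ : ℂ) - B = -(Matrix.of fun i j : W =>
        (if i = j then (((u - μ : ℝ)) : ℂ) else 0) - yc y c i j) := by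
      ext i j
      rw [hBdef]
      by_cases hij : i = j
      · subst hij
        simp only [Matrix.scalar_apply, Matrix.sub_apply, Matrix.diagonal_apply_eq, Matrix.of_apply, ↓reduceIte, Complex.ofReal_sub, Matrix.neg_apply, neg_sub]
        ring
      · simp only [Matrix.scalar_apply, Matrix.sub_apply, ne_eq, hij, not_false_eq_true, Matrix.diagonal_apply_ne, Matrix.of_apply, ↓reduceIte, zero_sub, sub_neg_eq_add, zero_add, Complex.ofReal_sub, Matrix.neg_apply, neg_neg]
    rw [h2, Matrix.det_neg] at h1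
    have h3 := det_pos_of_rts hr hy hz c h (t := u - μ) (by linarith only [hcon])
    have h4 : Matrix.det (Matrix.of fun i j : W =>
        (if i = j then (((u - μ : ℝ)) : ℂ) else 0) - yc y c i j) = 0 := by
      rcases mul_eq_zero.1 h1 with h5 | h5
      · exact absurd h5 (pow_ne_zero _ (by norm_num))
      · exact h5
    rw [h4] at h3
    simp at h3
  have hpos := hB.posSemidef_iff_eigenvalues_nonneg.2 hev
  have h1 := hpos.dotProduct_mulVec_nonneg (fun i : W => v i)
  have e : star (fun i : W => v i) ⬝ᵥ B.mulVec (fun i : W => v i)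
      = ∑ i ∈ W, ((u * ‖v i‖ ^ 2 : ℝ) : ℂ) -
        ∑ i ∈ W, ∑ j ∈ W, star (v i) * yc y c i j * v j := by
    simp only [hBdef, dotProduct, Matrix.mulVec, Matrix.of_apply, sub_mul, ite_mul, zero_mul,
      Finset.sum_sub_distrib, Finset.sum_ite_eq, mem_univ, if_true, mul_sub, Pi.star_apply]
    congr 1
    · rw [← Finset.sum_coe_sort W]
      refine Finset.sum_congr rfl fun i _ => ?_
      have : star (v i) * v i = ((‖v i‖ ^ 2 : ℝ) : ℂ) := by
        rw [Complex.star_def, Complex.conj_mul']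
        push_cast
        rfl
      rw [Complex.ofReal_mul, ← this]
      ring
    · rw [← Finset.sum_coe_sort W]
      refine Finset.sum_congr rfl fun i _ => ?_
      rw [← Finset.sum_coe_sort W, Finset.mul_sum]
      refine Finset.sum_congr rfl fun j _ => ?_
      ring
  rw [e] at h1
  have h2 := (Complex.nonneg_iff.1 h1).1
  rw [Complex.sub_re, ← Complex.ofReal_sum, Complex.ofReal_re, ← Finset.mul_sum] at h2
  unfold qf
  linarith only [h2]

/-- symmetry of the model -/
theorem rts_tw_neg (y : α → α → ℂ) (s : α → Option (Fin r)) :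
    rts (tw r fun i j => - y i j) (sl s) W = rts (tw r y) (sl s) W := by
  let e : Fin r × Bool ≃ Fin r × Bool := Equiv.prodCongr (Equiv.refl _) Equiv.boolNot
  rw [rts_relabel e (tw r y) (sl s)]
  have h1 : (fun k => tw r y (e.symm k)) = tw r fun i j => - y i j := by
    funext k i j
    obtain ⟨k1, k2⟩ := k
    cases k2 <;> simp [tw, e]
  have h2 : (fun i k => e (sl s i (e.symm k))) = sl s := by
    funext i k
    obtain ⟨k1, k2⟩ := k
    cases k2 <;> simp [sl, e]
  rw [h1, h2]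

/-- final states: if all roots are less than `u`, then the pinched kernel is between `-u` and `u` -/
theorem form_of_rts (hr : 0 < r) {y : α → α → ℂ} (hy : Herm y) (hz : ZD y)
    (c : α → Fin r) {u : ℝ} {W : Finset α}
    (h : ∀ l ∈ rts (tw r y) (sl fun i => some (c i)) W, l < u) (v : α → ℂ) :
    -u * ∑ i ∈ W, ‖v i‖ ^ 2 ≤ qf (yc y c) W v ∧ qf (yc y c) W v ≤ u * ∑ i ∈ W, ‖v i‖ ^ 2 := by
  refine ⟨?_, form_le_of_rts hr hy hz c h v⟩
  have hy' : Herm fun i j => - y i j := by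
    intro i j
    simp only [star_neg]
    rw [hy i j]
  have hz' : ZD fun i j => - y i j := by
    intro i
    simp only
    rw [hz i, neg_zero]
  have h1 := form_le_of_rts hr hy' hz' c (W := W) (u := u) (by rwa [rts_tw_neg]) v
  have h2 : qf (yc (fun i j => - y i j) c) W v = - qf (yc y c) W v := by
    unfold qf
    rw [← Complex.neg_re]
    congr 1
    rw [← Finset.sum_neg_distrib]
    refine Finset.sum_congr rfl fun i _ => ?_
    rw [← Finset.sum_neg_distrib]
    refine Finset.sum_congr rfl fun j _ => ?_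
    unfold yc
    by_cases hc : c i = c j
    · rw [if_pos hc, if_pos hc]
      ring
    · rw [if_neg hc, if_neg hc]
      ring
  rw [h2] at h1
  linarith only [h1]

end Vale.Agent.P078.D
end

section

/-! Two-sided control of the pinched kernel in infinite volume. -/

namespace Vale.Agent.P078.D

open Finset Polynomial
open scoped Pointwise Classical Topology
open Vale.Agent.P078.C (Sys Herm ZD FB qf yc locmom GoodPoly eb exists_goodPoly)

variable {X G : Type*} [TopologicalSpace X] [Group G] [MulAction G X]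

variable {r : ℕ}

/-- constants -/
theorem two_constants {ρ e u C θ N m : ℝ} (hρ : 0 < ρ) (heu : e < u) (hC : 0 ≤ C) (hθ : 0 < θ)
    (hN : 0 ≤ N) (hm : 0 ≤ m) : ∃ η κ : ℝ, 0 < η ∧ 0 < κ ∧ 1 ≤ Real.pi / 2 - 2 * ρ * κ * N ∧
      C * (2 * (m * (η / (u - e) + 2 * ρ * κ + 2 * ρ * κ + κ + 2 * ρ * κ))) ≤ θ := by
  have hue : 0 < u - e := by linarith
  have hpi := Real.pi_gt_three
  obtain ⟨ν, hν⟩ : ∃ ν, ν = θ / (2 * m * C + 1) := ⟨_, rfl⟩
  have hmC : 0 ≤ m * C := mul_nonneg hm hC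
  have hν0 : 0 < ν := by rw [hν]; (clear * - hθ hm hC; positivity)
  have hν1 : 2 * m * C * ν ≤ θ := by
    rw [hν, mul_div_assoc', div_le_iff₀ (by positivity)]
    nlinarith only [hθ]
  obtain ⟨κ, hκ⟩ : ∃ κ, κ = min (ν / (2 * (6 * ρ + 1))) (1 / (4 * ρ * N + 1)) := ⟨_, rfl⟩
  have hκ0 : 0 < κ := by
    rw [hκ]
    refine lt_min (by positivity) (by positivity)
  refine ⟨(u - e) * (ν / 2), κ, by positivity, hκ0, ?_, ?_⟩
  · have h1 : κ ≤ 1 / (4 * ρ * N + 1) := by rw [hκ]; exact min_le_right _ _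
    have h2 : 4 * ρ * N * κ ≤ 1 := by
      calc 4 * ρ * N * κ ≤ 4 * ρ * N * (1 / (4 * ρ * N + 1)) := by gcongr
        _ = 4 * ρ * N / (4 * ρ * N + 1) := by ring
        _ ≤ 1 := by
          rw [div_le_one (by positivity)]
          linarith only []
    nlinarith only [hpi, h2]
  · have h1 : κ ≤ ν / (2 * (6 * ρ + 1)) := by rw [hκ]; exact min_le_left _ _
    have h2 : (6 * ρ + 1) * κ ≤ ν / 2 := by
      calc (6 * ρ + 1) * κ ≤ (6 * ρ + 1) * (ν / (2 * (6 * ρ + 1))) := by (clear * - h1 hρ; gcongr)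
        _ = ν / 2 := by field_simp
    have h3 : (u - e) * (ν / 2) / (u - e) = ν / 2 := by (clear * - hue hν0; field_simp)
    rw [h3]
    have h4 : ν / 2 + 2 * ρ * κ + 2 * ρ * κ + κ + 2 * ρ * κ ≤ ν := by linarith only [h2]
    calc C * (2 * (m * (ν / 2 + 2 * ρ * κ + 2 * ρ * κ + κ + 2 * ρ * κ)))
        = 2 * (m * C) * (ν / 2 + 2 * ρ * κ + 2 * ρ * κ + κ + 2 * ρ * κ) := by ring
      _ ≤ 2 * (m * C) * ν := by (clear * - h4 hm hC; gcongr)
      _ = 2 * m * C * ν := by ring
      _ ≤ θ := hν1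

theorem two_sided_sys [CompactSpace X] [T2Space X] [TotallyDisconnectedSpace X] (𝔖 : Sys X G)
    (hr : 0 < r) {a : ℝ} (ha0 : 0 < a) (hFB : FB a a 𝔖.y) {t₀ u : ℝ} (ht : 2 * a < t₀)
    (hu : eb (2 * r) (2 * a) (2 * a) t₀ < u) (P : ℝ[X]) {C : ℝ} (hC : 0 ≤ C)
    (hP0 : ∀ t, |t| ≤ u → P.eval t ≤ 0) (hPC : ∀ t, |t| ≤ a → P.eval t ≤ C) {θ : ℝ}
    (hθ : 0 < θ) :
    ∃ c : X → Fin r, IsLocallyConstant c ∧ ∃ m : C(X, ℝ),
      (∀ x, m x = locmom P 𝔖.y c (𝔖.ball P.natDegree x) x) ∧ 𝔖.I m ≤ θ := by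
  set R := P.natDegree with hR
  set e := eb (2 * r) (2 * a) (2 * a) t₀ with he
  set ρ := 2 * a with hρdef
  have hρ : 0 < ρ := by positivity
  obtain ⟨m, j, hj, hsp⟩ := 𝔖.exists_sparse (2 * R + 1)
  obtain ⟨η, κ, hη, hκ, hN, hfin⟩ := two_constants (N := ((𝔖.ballG R).card : ℝ)) (m := (m : ℝ))
    hρ hu hC hθ (Nat.cast_nonneg _) (Nat.cast_nonneg _)
  obtain ⟨p, hp⟩ := exists_goodPoly (u := u) (η := η) (ρ := ρ) (κ := κ) hη hρ hκ
  have hab : 2 * max a a ≤ ρ := by rw [max_self]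
  have hrb : ∀ (W : Finset X), ∀ l ∈ rts (tw r 𝔖.y) (sl fun _ => (none : Option (Fin r))) W,
      l ≤ e := by
    intro W l hl
    rw [sl_none] at hl
    have h1 := root_bound_slot (a := 2 * a) (b := 2 * a) (t₀ := t₀) (by rw [card_slot]; omega)
      (herm_tw 𝔖.herm) (zd_tw 𝔖.zd) (fun k => by
        have := fb_tw hFB k
        rwa [max_self] at this) (by positivity) (by positivity) ht hl
    rwa [card_slot] at h1
  have hsel : ∀ (s : X → Option (Fin r)) (W : Finset X), ∀ w ∈ W, s w = none →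
      ∃ c, sp p 𝔖.y (Function.update s w (some c)) W ≤ sp p 𝔖.y s W + 2 * ρ * κ :=
    fun s W w hw hs => sel hr 𝔖.herm hFB hη hab hρ hp hw hs
  have hini : ∀ (W : Finset X), ∀ w ∈ W, sp p 𝔖.y (fun _ => (none : Option (Fin r))) W ≤
      sp p 𝔖.y (fun _ => (none : Option (Fin r))) (W.erase w) +
        (η / (u - e) + 2 * ρ * κ) :=
    fun W w hw => ini hr 𝔖.herm hFB hη hab hρ hκ.le hp hw (hrb W) hu
  obtain ⟨c, hc, F, hF, hFI⟩ := 𝔖.main2 hr p hκ hsel hini
  refine ⟨c, hc, ⟨_, 𝔖.continuous_locmom P R hc⟩, fun x => rfl, ?_⟩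
  set mm : C(X, ℝ) := ⟨_, 𝔖.continuous_locmom P R hc⟩ with hmm
  have hmmx : ∀ x, mm x = locmom P 𝔖.y c (𝔖.ball R x) x := fun x => rfl
  have hsc : IsLocallyConstant fun x => some (c x) := hc.comp some
  obtain ⟨D, hD, hD0, hD1⟩ := 𝔖.exists_bad hr p hsc (b₀ := 1 / 2) (b₁ := 1) (by norm_num) R
  obtain ⟨χ, hχ⟩ := Sys.main_ind hD
  have hκ₁ : 0 ≤ 2 * ρ * κ := by positivity
  have hbad := 𝔖.bad_le hr p hsc hκ₁ (fun W w hw =>
    erase_le hr 𝔖.herm hFB hη hab hρ hκ.le hp hw) R hj hsp hD hD0 F χ hF hχ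
  -- pointwise bound
  have hpt : ∀ x, mm x ≤ C * χ x := by
    intro x
    rw [hmmx x, hχ x]
    by_cases hx : x ∈ D
    · rw [if_pos hx, mul_one]
      have hb := FB_kc (y := fun _ : Fin r => 𝔖.y) (fun _ => hFB) c
      refine locmom_le 𝔖.herm c (𝔖.mem_ball_self R x) (lo := -a) (hi := a)
        (fun v => (hb (𝔖.ball R x) v).1) (fun v => (hb (𝔖.ball R x) v).2) P fun t ht => ?_
      exact hPC t (abs_le.2 ⟨ht.1, ht.2⟩)
    · rw [if_neg hx, mul_zero]
      have hlt : ∀ l ∈ rts (tw r 𝔖.y) (sl fun i => some (c i)) (𝔖.ball R x), l < u := by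
        intro l hl
        by_contra hcon
        push Not at hcon
        have h1 := sp_ge hr 𝔖.herm hFB hη hab hp hl hcon
        have h2 := hD1 x hx
        have h3 : ((𝔖.ball R x).card : ℝ) ≤ ((𝔖.ballG R).card : ℝ) := by
          exact_mod_cast Finset.card_image_le
        have h4 : 2 * ρ * κ * ((𝔖.ball R x).card : ℝ) ≤ 2 * ρ * κ * ((𝔖.ballG R).card : ℝ) :=
          mul_le_mul_of_nonneg_left h3 hκ₁
        linarith only [hN, h1, h2, h4]
      have hform := form_of_rts hr 𝔖.herm 𝔖.zd c hlt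
      refine locmom_le 𝔖.herm c (𝔖.mem_ball_self R x) (lo := -u) (hi := u)
        (fun v => (hform v).1) (fun v => (hform v).2) P fun t ht => ?_
      exact hP0 t (abs_le.2 ⟨ht.1, ht.2⟩)
  have h2 : 0 ≤ 𝔖.I (C • χ - mm) := by
    refine 𝔖.I_nonneg _ fun x => ?_
    rw [ContinuousMap.sub_apply, ContinuousMap.smul_apply, smul_eq_mul]
    have := hpt x
    linarith only [this]
  rw [map_sub, map_smul, smul_eq_mul] at h2
  have h3 : 𝔖.I χ ≤ 2 * (m * (η / (u - e) + 2 * ρ * κ + 2 * ρ * κ + κ + 2 * ρ * κ)) := by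
    have h4 : (m : ℝ) * (𝔖.I F + 2 * ρ * κ) ≤
        m * (η / (u - e) + 2 * ρ * κ + 2 * ρ * κ + κ + 2 * ρ * κ) := by
      (clear * - hFI; gcongr)
    linarith only [hbad, h4]
  calc 𝔖.I mm ≤ C * 𝔖.I χ := by linarith only [h2]
    _ ≤ C * (2 * (m * (η / (u - e) + 2 * ρ * κ + 2 * ρ * κ + κ + 2 * ρ * κ))) := by (clear * - h3 hC; gcongr)
    _ ≤ θ := hfin

end Vale.Agent.P078.D
end

section

/-!
Definitions for the Popa-Vaes strong-operator paving problem.
-/

namespace Vale.Agent.P078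

variable {H : Type*} [NormedAddCommGroup H] [InnerProductSpace ℂ H] [CompleteSpace H]

/-- `A` is a maximal abelian self-adjoint subalgebra of the von Neumann algebra `M`. -/
def IsMASA (A : StarSubalgebra ℂ (H →L[ℂ] H)) (M : VonNeumannAlgebra H) : Prop :=
  A ≤ M.toStarSubalgebra ∧ (∀ x ∈ A, ∀ y ∈ A, x * y = y * x) ∧
    ∀ B : StarSubalgebra ℂ (H →L[ℂ] H), A ≤ B → B ≤ M.toStarSubalgebra →
      (∀ x ∈ B, ∀ y ∈ B, x * y = y * x) → B ≤ A

/-- For a projection `z` in `A`: the operator `x` of the corner `z M z` is `(ε, r)` so-pavable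
over `A z`, on the Hilbert space `z H`. For `z = 1` this is so-pavability over `A` in `M`. -/
def SOPavable (M : VonNeumannAlgebra H) (A : StarSubalgebra ℂ (H →L[ℂ] H))
    (z x : H →L[ℂ] H) (ε : ℝ) (r : ℕ) : Prop :=
  ∀ F : Finset H, (∀ ξ ∈ F, z ξ = ξ) → ∀ δ : ℝ, 0 < δ →
    ∃ (p : Fin r → (H →L[ℂ] H)) (a q : H →L[ℂ] H),
      (∀ i, p i ∈ A ∧ IsStarProjection (p i)) ∧ (∀ i j, i ≠ j → p i * p j = 0) ∧
      ∑ i, p i = z ∧
      a ∈ A ∧ z * a = a ∧ IsSelfAdjoint a ∧ ‖a‖ ≤ ‖x‖ ∧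
      q ∈ M ∧ z * q = q ∧ IsStarProjection q ∧
      (∀ ξ ∈ F, ‖ξ - q ξ‖ < δ) ∧
      ‖q * (∑ i, p i * x * p i - a) * q‖ ≤ ε * ‖x‖

/-- The so-paving number of the inclusion of `A z` in `z M z`: the least `r ≥ 1` such that every
self-adjoint `x` in `z M z` is `(ε, r)` so-pavable (`⊤` if there is none). -/
noncomputable def pavingNumber (M : VonNeumannAlgebra H) (A : StarSubalgebra ℂ (H →L[ℂ] H))
    (z : H →L[ℂ] H) (ε : ℝ) : ℕ∞ :=
  ⨅ r ∈ {r : ℕ | 1 ≤ r ∧ ∀ x ∈ M, IsSelfAdjoint x → z * x * z = x → SOPavable M A z x ε r},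
    (r : ℕ∞)

/-- `E`, restricted to the corner `z M z`, is a normal conditional expectation onto `A z`:
linear, with values in `A z`, the identity on `A z`, positive, `A`-bimodular, and preserving
suprema of upward directed sets. -/
structure IsNormalExpectation (M : VonNeumannAlgebra H) (A : StarSubalgebra ℂ (H →L[ℂ] H))
    (z : H →L[ℂ] H) (E : (H →L[ℂ] H) →ₗ[ℂ] (H →L[ℂ] H)) : Prop where
  mem : ∀ x ∈ M, z * x * z = x → E x ∈ A ∧ z * E x = E x
  idem : ∀ a ∈ A, z * a = a → E a = a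
  nonneg : ∀ x ∈ M, z * x * z = x → 0 ≤ x → 0 ≤ E x
  bimod : ∀ a ∈ A, ∀ b ∈ A, ∀ x ∈ M, z * x * z = x → E (a * x * b) = a * E x * b
  normal : ∀ D : Set (H →L[ℂ] H), D.Nonempty → DirectedOn (· ≤ ·) D →
    (∀ x ∈ D, x ∈ M ∧ z * x * z = x) → ∀ y, IsLUB D y → IsLUB (E '' D) (E y)

end Vale.Agent.P078
end

section

/-!
Finite partitions of unity in `A`, the block-diagonal maps, the small-corner property.
-/

namespace Vale.Agent.P078

open Filter Topology

variable {H : Type*} [NormedAddCommGroup H] [InnerProductSpace ℂ H] [CompleteSpace H]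

/-- finite partitions of `1` by projections of `A` -/
structure Part (A : StarSubalgebra ℂ (H →L[ℂ] H)) where
  ι : Type
  [fin : Fintype ι]
  e : ι → (H →L[ℂ] H)
  mem : ∀ i, e i ∈ A
  proj : ∀ i, IsStarProjection (e i)
  orth : ∀ i j, i ≠ j → e i * e j = 0
  sum_eq : ∑ i, e i = 1

attribute [instance] Part.fin

/-- the block-diagonal part of `x` -/
noncomputable def Part.E {A : StarSubalgebra ℂ (H →L[ℂ] H)} (Q : Part A) :
    (H →L[ℂ] H) →ₗ[ℂ] (H →L[ℂ] H) where
  toFun x := ∑ i, Q.e i * x * Q.e i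
  map_add' x y := by simp [mul_add, add_mul, Finset.sum_add_distrib]
  map_smul' c x := by simp [Finset.smul_sum]

/-- `Q'` refines `Q` -/
def Part.Finer {A : StarSubalgebra ℂ (H →L[ℂ] H)} (Q Q' : Part A) : Prop :=
  ∀ i j, Q.e i * Q'.e j = Q'.e j ∨ Q.e i * Q'.e j = 0

/-- key property of the corner `w`: elements of `w M` close to `w` which are uniformly small
on the blocks of a partition -/
def SmallProp (M : VonNeumannAlgebra H) (A : StarSubalgebra ℂ (H →L[ℂ] H))
    (w : H →L[ℂ] H) : Prop :=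
  ∀ F : Finset H, (∀ ξ ∈ F, w ξ = ξ) → ∀ δ : ℝ, 0 < δ →
    ∃ h ∈ M, ‖h‖ ≤ 1 ∧ w * h = h ∧ (∀ ξ ∈ F, ‖h ξ - ξ‖ < δ) ∧
      ∃ Q : Part A, ∀ i, ‖Q.e i * h‖ ≤ δ

/-- weak operator continuity on bounded subsets of `M` -/
def WCont (M : VonNeumannAlgebra H) (f : (H →L[ℂ] H) → ℂ) : Prop :=
  ∀ (R : ℝ) (x : H →L[ℂ] H) (l : Filter (H →L[ℂ] H)), x ∈ M →
    (∀ᶠ y in l, y ∈ M ∧ ‖y‖ ≤ R) →
    (∀ ξ η : H, Tendsto (fun y : H →L[ℂ] H => inner ℂ ξ (y η)) l (𝓝 (inner ℂ ξ (x η)))) →
    Tendsto f l (𝓝 (f x))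

/-- normal positive functionals on `M` commuting with the projections of `A` -/
structure CentralNormal (M : VonNeumannAlgebra H) (A : StarSubalgebra ℂ (H →L[ℂ] H))
    (ψ : (H →L[ℂ] H) →ₗ[ℂ] ℂ) : Prop where
  nonneg : ∀ x ∈ M, 0 ≤ x → 0 ≤ (ψ x).re ∧ (ψ x).im = 0
  central : ∀ e ∈ A, IsStarProjection e → ∀ x ∈ M, ψ (e * x) = ψ (x * e)
  wcont : WCont M ψ

end Vale.Agent.P078
end

section

namespace Vale.Agent.P078

open Filter Topology

variable {H : Type*} [NormedAddCommGroup H] [InnerProductSpace ℂ H] [CompleteSpace H]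
variable {M : VonNeumannAlgebra H} {A : StarSubalgebra ℂ (H →L[ℂ] H)}

theorem commute_starProjection (K : Submodule ℂ H) [K.HasOrthogonalProjection] {y : H →L[ℂ] H}
    (hy : ∀ v ∈ K, y v ∈ K) (hy' : ∀ v ∈ K, star y v ∈ K) :
    y * K.starProjection = K.starProjection * y := by
  ext u
  simp only [mul_apply_eq_comp]
  refine (Submodule.eq_starProjection_of_mem_orthogonal' (K := K)
    (hy _ (K.starProjection_apply_mem u)) (z := y (u - K.starProjection u)) ?_ ?_).symm
  · rw [Submodule.mem_orthogonal]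
    intro w hw
    rw [← ContinuousLinearMap.adjoint_inner_left, ← ContinuousLinearMap.star_eq_adjoint]
    exact (Submodule.mem_orthogonal _ _).1 (K.sub_starProjection_mem_orthogonal u) _ (hy' w hw)
  · rw [← map_add]; congr 1; abel

theorem exists_spectral_proj (T : H →L[ℂ] H) (hT : IsSelfAdjoint T) (t : ℝ) :
    ∃ e : H →L[ℂ] H, IsStarProjection e ∧ (∀ y : H →L[ℂ] H, y * T = T * y → y * e = e * y) ∧
      (∀ ζ, e ζ = ζ → t * ‖ζ‖ ^ 2 ≤ (inner ℂ ζ (T ζ)).re) ∧
      (∀ ζ, e ζ = 0 → (inner ℂ ζ (T ζ)).re ≤ t * ‖ζ‖ ^ 2) := by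
  set S : H →L[ℂ] H := T - (t : ℂ) • 1 with hS
  have hSsa : IsSelfAdjoint S := by
    rw [hS]
    refine hT.sub ?_
    rw [IsSelfAdjoint, star_smul, star_one, Complex.star_def, Complex.conj_ofReal]
  have hpos : 0 ≤ S⁺ := CFC.posPart_nonneg S
  have hneg : 0 ≤ S⁻ := CFC.negPart_nonneg S
  have hsub : S⁺ - S⁻ = S := CFC.posPart_sub_negPart S hSsa
  have hmul : S⁺ * S⁻ = 0 := CFC.posPart_mul_negPart S
  rw [ContinuousLinearMap.nonneg_iff_isPositive] at hpos hneg
  set K := (S⁺ : H →L[ℂ] H).ker with hK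
  have hTS : ∀ ζ, (inner ℂ ζ (T ζ)).re
      = t * ‖ζ‖ ^ 2 + ((inner ℂ ζ (S⁺ ζ)).re - (inner ℂ ζ (S⁻ ζ)).re) := by
    intro ζ
    have h1 : T ζ = (t : ℂ) • ζ + (S⁺ ζ - S⁻ ζ) := by
      rw [← sub_apply, hsub, hS]
      simp
    rw [h1, inner_add_right, inner_smul_right, inner_sub_right, Complex.add_re, Complex.sub_re,
      inner_self_eq_norm_sq_to_K]
    congr 1
    rw [Complex.re_ofReal_mul]
    norm_cast
  have hcomm : ∀ y : H →L[ℂ] H, y * T = T * y → y * S⁺ = S⁺ * y := by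
    intro y hy
    have h1 : Commute S y := by
      rw [hS]
      refine (show Commute T y from hy.symm).sub_left ?_
      exact (Commute.one_left y).smul_left _
    rw [CFC.posPart_def]
    exact (h1.cfcₙ_real _).eq.symm
  refine ⟨1 - K.starProjection, ?_, ?_, ?_, ?_⟩
  · exact isStarProjection_starProjection.one_sub
  · intro y hy
    have hy' : star y * T = T * star y := by
      have := congrArg star hy
      rwa [star_mul, star_mul, hT.star_eq, eq_comm] at this
    have h1 : y * K.starProjection = K.starProjection * y := by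
      refine commute_starProjection K ?_ ?_
      · intro v hv
        have h := DFunLike.congr_fun (hcomm y hy) v
        simp only [mul_apply_eq_comp] at h
        rw [hK, LinearMap.mem_ker] at hv ⊢
        change S⁺ v = 0 at hv
        change S⁺ (y v) = 0
        rw [← h, hv, map_zero]
      · intro v hv
        have h := DFunLike.congr_fun (hcomm _ hy') v
        simp only [mul_apply_eq_comp] at h
        rw [hK, LinearMap.mem_ker] at hv ⊢
        change S⁺ v = 0 at hv
        change S⁺ (star y v) = 0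
        rw [← h, hv, map_zero]
    rw [mul_sub, sub_mul, h1, mul_one, one_mul]
  · intro ζ hζ
    have hz : K.starProjection ζ = 0 := by
      simpa only [sub_apply, one_apply_eq_self, sub_eq_self] using hζ
    have hzo : ζ ∈ Kᗮ := (Submodule.starProjection_apply_eq_zero_iff K).1 hz
    have : S⁻ ζ ∈ K := by
      rw [hK, LinearMap.mem_ker]
      exact DFunLike.congr_fun hmul ζ
    have h0 : inner ℂ ζ (S⁻ ζ) = 0 := (Submodule.mem_orthogonal' _ _).1 hzo _ this
    rw [hTS, h0]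
    have := hpos.re_inner_nonneg_right ζ
    simp only [RCLike.re_to_complex, Complex.zero_re, sub_zero, le_add_iff_nonneg_right, ge_iff_le] at this ⊢
    exact this
  · intro ζ hζ
    have hz : ζ ∈ K := by
      rw [← Submodule.starProjection_eq_self_iff]
      rw [sub_apply, one_apply_eq_self, sub_eq_zero] at hζ
      exact hζ.symm
    have h0 : S⁺ ζ = 0 := hz
    rw [hTS, h0]
    have := hneg.re_inner_nonneg_right ζ
    simp only [RCLike.re_to_complex, inner_zero_right, Complex.zero_re, zero_sub, add_le_iff_nonpos_right, Left.neg_nonpos_iff, ge_iff_le] at this ⊢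
    exact this

/-- an operator commuting with the commutant is in `M` -/
theorem mem_of_commute {x : H →L[ℂ] H} (hx : ∀ y ∈ M.commutant, y * x = x * y) : x ∈ M := by
  rw [← M.commutant_commutant]
  exact VonNeumannAlgebra.mem_commutant_iff.2 hx

theorem commutant_comm {x y : H →L[ℂ] H} (hx : x ∈ M) (hy : y ∈ M.commutant) :
    y * x = x * y :=
  (VonNeumannAlgebra.mem_commutant_iff.1 hy x hx).symm

theorem IsMASA.mem_of_isSelfAdjoint (hA : IsMASA A M) {x : H →L[ℂ] H} (hx : x ∈ M)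
    (hxs : IsSelfAdjoint x) (h : ∀ a ∈ A, a * x = x * a) : x ∈ A := by
  obtain ⟨hle, hcomm, hmax⟩ := hA
  set S : Set (H →L[ℂ] H) := (A : Set (H →L[ℂ] H)) ∪ {x} with hS
  have hSc : ∀ u ∈ S, ∀ v ∈ S, u * v = v * u := by
    rintro u (hu | rfl) v (hv | rfl)
    · exact hcomm u hu v hv
    · exact h u hu
    · exact (h v hv).symm
    · rfl
  have hSstar : ∀ u ∈ S, star u ∈ S := by
    rintro u (hu | rfl)
    · exact Or.inl (star_mem hu)
    · exact Or.inr hxs.star_eq
  set B : StarSubalgebra ℂ (H →L[ℂ] H) :=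
    StarSubalgebra.centralizer ℂ (StarSubalgebra.centralizer ℂ S : Set (H →L[ℂ] H)) with hB
  have hmemC : ∀ y, y ∈ StarSubalgebra.centralizer ℂ S ↔ ∀ g ∈ S, g * y = y * g := by
    intro y
    rw [StarSubalgebra.mem_centralizer_iff]
    constructor
    · intro H' g hg; exact (H' g hg).1
    · intro H' g hg; exact ⟨H' g hg, H' _ (hSstar g hg)⟩
  have hmemB : ∀ y, y ∈ B ↔ ∀ g ∈ StarSubalgebra.centralizer ℂ S, g * y = y * g := by
    intro y
    rw [hB, StarSubalgebra.mem_centralizer_iff]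
    constructor
    · intro H' g hg; exact (H' g hg).1
    · intro H' g hg; exact ⟨H' g hg, H' _ (star_mem (S := StarSubalgebra ℂ (H →L[ℂ] H)) hg)⟩
  have hSB : ∀ u ∈ S, u ∈ B := by
    intro u hu
    rw [hmemB]
    intro g hg
    exact ((hmemC g).1 hg u hu).symm
  have hBC : ∀ u ∈ B, u ∈ StarSubalgebra.centralizer ℂ S := by
    intro u hu
    rw [hmemC]
    intro g hg
    exact (hmemB u).1 hu g ((hmemC g).2 fun g' hg' => hSc g' hg' g hg)
  refine hmax B ?_ ?_ ?_ (hSB x (Or.inr rfl))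
  · intro a ha; exact hSB a (Or.inl ha)
  · intro u hu
    change u ∈ M
    refine mem_of_commute fun y hy => ?_
    refine (hmemB u).1 hu y ((hmemC y).2 fun g hg => ?_)
    rcases hg with hg | hg
    · exact (commutant_comm (M := M) (hle hg) hy).symm
    · rw [Set.mem_singleton_iff] at hg; rw [hg]; exact (commutant_comm hx hy).symm
  · intro u hu v hv
    exact (hmemB v).1 hv u (hBC u hu)

theorem IsMASA.mem (hA : IsMASA A M) {x : H →L[ℂ] H} (hx : x ∈ M)
    (h : ∀ a ∈ A, a * x = x * a) : x ∈ A := by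
  have hsx : star x ∈ M := star_mem hx
  have hs : ∀ a ∈ A, a * star x = star x * a := by
    intro a ha
    have := congrArg star (h (star a) (star_mem ha))
    simpa only [star_mul, star_star] using this.symm
  have hsmul : ∀ (c : ℂ) (y : H →L[ℂ] H), y ∈ M → c • y ∈ M := by
    intro c y hy
    exact M.toStarSubalgebra.smul_mem hy c
  have h1 : x + star x ∈ A := by
    refine hA.mem_of_isSelfAdjoint (add_mem hx hsx) ?_ ?_
    · exact IsSelfAdjoint.add_star_self x
    · intro a ha; rw [mul_add, add_mul, h a ha, hs a ha]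
  have h2 : Complex.I • (x - star x) ∈ A := by
    refine hA.mem_of_isSelfAdjoint (hsmul _ _ (sub_mem hx hsx)) ?_ ?_
    · rw [IsSelfAdjoint, star_smul, star_sub, star_star, Complex.star_def, Complex.conj_I,
        neg_smul, ← smul_neg, neg_sub]
    · intro a ha
      rw [mul_smul_comm, smul_mul_assoc, mul_sub, sub_mul, h a ha, hs a ha]
  have : x = (2⁻¹ : ℂ) • ((x + star x) + (-Complex.I) • (Complex.I • (x - star x))) := by
    rw [smul_smul, neg_mul, Complex.I_mul_I, neg_neg, one_smul, add_add_sub_cancel, ← two_smul ℂ x,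
      smul_smul]
    norm_num
  rw [this]
  exact A.smul_mem (add_mem h1 (A.smul_mem h2 _)) _

theorem star_apply_inner (T : H →L[ℂ] H) (u v : H) :
    inner ℂ (star T u) v = inner ℂ u (T v) := by
  rw [ContinuousLinearMap.star_eq_adjoint, ContinuousLinearMap.adjoint_inner_left]

theorem proj_inner {e : H →L[ℂ] H} (he : IsStarProjection e) (u v : H) :
    inner ℂ (e u) v = inner ℂ u (e v) := by
  conv_lhs => rw [← he.isSelfAdjoint.star_eq]
  exact star_apply_inner e u v

theorem proj_apply_apply {e : H →L[ℂ] H} (he : IsStarProjection e) (u : H) :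
    e (e u) = e u :=
  DFunLike.congr_fun he.isIdempotentElem u

theorem proj_inner_self {e : H →L[ℂ] H} (he : IsStarProjection e) (u : H) :
    (inner ℂ u (e u)).re = ‖e u‖ ^ 2 := by
  rw [← proj_apply_apply he u, ← proj_inner he, inner_self_eq_norm_sq_to_K]
  rw [proj_apply_apply he]
  norm_cast

theorem nonneg_of_inner {T : H →L[ℂ] H} (hT : IsSelfAdjoint T)
    (h : ∀ ζ, 0 ≤ (inner ℂ ζ (T ζ)).re) : 0 ≤ T := by
  rw [ContinuousLinearMap.nonneg_iff_isPositive]
  exact (ContinuousLinearMap.isPositive_def' (T := T)).2 ⟨hT, fun ζ => by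
    rw [ContinuousLinearMap.reApplyInnerSelf_apply, ← inner_conj_symm, RCLike.conj_re]
    exact h ζ⟩

theorem inner_nonneg_of_nonneg {T : H →L[ℂ] H} (hT : 0 ≤ T) (ζ : H) :
    0 ≤ (inner ℂ ζ (T ζ)).re :=
  ((ContinuousLinearMap.nonneg_iff_isPositive T).1 hT).re_inner_nonneg_right ζ

theorem inner_le_of_le {S T : H →L[ℂ] H} (hT : S ≤ T) (ζ : H) :
    (inner ℂ ζ (S ζ)).re ≤ (inner ℂ ζ (T ζ)).re := by
  have := inner_nonneg_of_nonneg (sub_nonneg.2 hT) ζ
  rw [sub_apply, inner_sub_right, Complex.sub_re] at this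
  linarith only [this]

theorem inner_self_re (ζ : H) : (inner ℂ ζ ζ).re = ‖ζ‖ ^ 2 := by
  rw [inner_self_eq_norm_sq_to_K]; norm_cast

theorem spectral_proj_mem {T e : H →L[ℂ] H} (hT : T ∈ M)
    (he : ∀ y : H →L[ℂ] H, y * T = T * y → y * e = e * y) : e ∈ M :=
  mem_of_commute fun y hy => he y (commutant_comm hT hy)

theorem IsMASA.spectral_proj_mem (hA : IsMASA A M) {T e : H →L[ℂ] H} (hT : T ∈ A)
    (he : ∀ y : H →L[ℂ] H, y * T = T * y → y * e = e * y) : e ∈ A :=
  hA.mem (Vale.Agent.P078.spectral_proj_mem (hA.1 hT) he)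
    fun a ha => he a (hA.2.1 a ha T hT)

/-- elements of `A` are approximated by operators commuting with `y` if `y` commutes with all
projections of `A` -/
theorem IsMASA.approx (hA : IsMASA A M) {y : H →L[ℂ] H}
    (hy : ∀ e ∈ A, IsStarProjection e → y * e = e * y) (n : ℕ) :
    ∀ a ∈ A, 0 ≤ a → a ≤ 1 → ∃ b : H →L[ℂ] H, y * b = b * y ∧ ‖a - b‖ ≤ (1 / 2) ^ n := by
  induction n with
  | zero =>
    intro a ha h0 h1
    refine ⟨0, by simp, ?_⟩
    simp only [sub_zero, pow_zero]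
    exact (CStarAlgebra.norm_le_one_iff_of_nonneg a h0).2 h1
  | succ n ih =>
    intro a ha h0 h1
    have hsa : IsSelfAdjoint a := IsSelfAdjoint.of_nonneg h0
    obtain ⟨e, hep, hec, he1, he2⟩ := exists_spectral_proj a hsa (1 / 2)
    have heA : e ∈ A := hA.spectral_proj_mem ha hec
    have hea : a * e = e * a := hec a rfl
    have hee : e * e = e := hep.isIdempotentElem
    set f := 1 - e with hf
    have hfp : IsStarProjection f := hep.one_sub
    have hff : f * f = f := hfp.isIdempotentElem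
    have hef : e + f = 1 := by rw [hf]; abel
    have hfa : a * f = f * a := by rw [hf, mul_sub, sub_mul, hea, mul_one, one_mul]
    have hsa2 : IsSelfAdjoint ((2 : ℂ) • a - e) := by
      refine IsSelfAdjoint.sub ?_ hep.isSelfAdjoint
      rw [IsSelfAdjoint, star_smul, hsa.star_eq]
      simp only [star_ofNat]
    have hdec : ∀ ζ, (inner ℂ ζ (a ζ)).re
        = (inner ℂ (e ζ) (a (e ζ))).re + (inner ℂ (f ζ) (a (f ζ))).re := by
      intro ζ
      rw [proj_inner hep, proj_inner hfp, ← Complex.add_re, ← inner_add_right]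
      congr 2
      have : a = e * a * e + f * a * f := by
        rw [mul_assoc, hea, ← mul_assoc, hee, mul_assoc, hfa, ← mul_assoc, hff, ← add_mul, hef,
          one_mul]
      exact DFunLike.congr_fun this ζ
    have hnorm : ∀ ζ, ‖ζ‖ ^ 2 = ‖e ζ‖ ^ 2 + ‖f ζ‖ ^ 2 := by
      intro ζ
      rw [← proj_inner_self hep, ← proj_inner_self hfp, ← Complex.add_re, ← inner_add_right,
        ← add_apply, hef, one_apply_eq_self, inner_self_re]
    have hfe : ∀ ζ, e (f ζ) = 0 := by
      intro ζ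
      have : e * f = 0 := by rw [hf, mul_sub, hee, mul_one, sub_self]
      exact DFunLike.congr_fun this ζ
    have key : ∀ ζ, (inner ℂ ζ (((2 : ℂ) • a - e) ζ)).re
        = (2 * (inner ℂ (e ζ) (a (e ζ))).re - ‖e ζ‖ ^ 2)
          + 2 * (inner ℂ (f ζ) (a (f ζ))).re := by
      intro ζ
      rw [sub_apply, inner_sub_right, smul_apply, inner_smul_right, Complex.sub_re,
        proj_inner_self hep]
      have : ((2 : ℂ) * inner ℂ ζ (a ζ)).re = 2 * (inner ℂ ζ (a ζ)).re := by
        simp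
      rw [this, hdec]
      ring
    have hn0 : 0 ≤ (2 : ℂ) • a - e := by
      refine nonneg_of_inner hsa2 fun ζ => ?_
      rw [key]
      have h3 := he1 (e ζ) (proj_apply_apply hep ζ)
      have h4 := inner_nonneg_of_nonneg h0 (f ζ)
      linarith only [h3, h4]
    have hn1 : (2 : ℂ) • a - e ≤ 1 := by
      rw [← sub_nonneg]
      refine nonneg_of_inner ((IsSelfAdjoint.one _).sub hsa2) fun ζ => ?_
      rw [sub_apply, inner_sub_right, Complex.sub_re, key, one_apply_eq_self, inner_self_re,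
        hnorm ζ]
      have h3 := inner_le_of_le h1 (e ζ)
      rw [one_apply_eq_self, inner_self_re] at h3
      have h4 := he2 (f ζ) (hfe ζ)
      linarith
    obtain ⟨b, hb1, hb2⟩ := ih _ (sub_mem (A.smul_mem ha 2) heA) hn0 hn1
    refine ⟨(2⁻¹ : ℂ) • (b + e), ?_, ?_⟩
    · rw [mul_smul_comm, smul_mul_assoc, mul_add, add_mul, hb1, hy e heA hep]
    · have : a - (2⁻¹ : ℂ) • (b + e) = (2⁻¹ : ℂ) • ((2 : ℂ) • a - e - b) := by
        rw [smul_sub, smul_sub, smul_smul, smul_add]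
        norm_num
        abel
      rw [this, norm_smul, pow_succ, mul_comm]
      norm_num
      linarith only [hb2]

theorem IsMASA.comm_of_proj (hA : IsMASA A M) {y : H →L[ℂ] H}
    (hy : ∀ e ∈ A, IsStarProjection e → y * e = e * y) : ∀ a ∈ A, y * a = a * y := by
  -- positive contractions
  have h1 : ∀ a ∈ A, 0 ≤ a → a ≤ 1 → y * a = a * y := by
    intro a ha h0 h1
    rw [← sub_eq_zero, ← norm_le_zero_iff]
    have : Tendsto (fun n : ℕ => 2 * ‖y‖ * (1 / 2 : ℝ) ^ n) atTop (𝓝 (2 * ‖y‖ * 0)) :=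
      (tendsto_pow_atTop_nhds_zero_of_lt_one (by norm_num) (by norm_num)).const_mul _
    rw [mul_zero] at this
    refine ge_of_tendsto this (Eventually.of_forall fun n => ?_)
    obtain ⟨b, hb, hb'⟩ := hA.approx hy n a ha h0 h1
    have e1 : y * a - a * y = y * (a - b) - (a - b) * y := by
      rw [mul_sub, sub_mul, hb]; abel
    rw [e1]
    calc ‖y * (a - b) - (a - b) * y‖ ≤ ‖y * (a - b)‖ + ‖(a - b) * y‖ := norm_sub_le _ _
      _ ≤ ‖y‖ * ‖a - b‖ + ‖a - b‖ * ‖y‖ := add_le_add (norm_mul_le _ _) (norm_mul_le _ _)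
      _ = 2 * ‖y‖ * ‖a - b‖ := by ring
      _ ≤ 2 * ‖y‖ * (1 / 2) ^ n := by (clear * - hb'; gcongr)
  -- self-adjoint
  have h2 : ∀ a ∈ A, IsSelfAdjoint a → y * a = a * y := by
    intro a ha hs
    by_cases hz : a = 0
    · simp [hz]
    have hpos : 0 < ‖a‖ := norm_pos_iff.2 hz
    obtain ⟨b, hb⟩ : ∃ b : H →L[ℂ] H,
      b = (((2 * ‖a‖)⁻¹ : ℝ) : ℂ) • (a + ((‖a‖ : ℝ) : ℂ) • 1) := ⟨_, rfl⟩
    have hbA : b ∈ A := by
      rw [hb]; exact A.smul_mem (add_mem ha (A.smul_mem (one_mem A) _)) _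
    have hin : ∀ ζ, (inner ℂ ζ (b ζ)).re = (2 * ‖a‖)⁻¹ * ((inner ℂ ζ (a ζ)).re + ‖a‖ * ‖ζ‖ ^ 2) := by
      intro ζ
      rw [hb, smul_apply, inner_smul_right, Complex.re_ofReal_mul, add_apply, inner_add_right,
        Complex.add_re, smul_apply, inner_smul_right, Complex.re_ofReal_mul, one_apply_eq_self,
        inner_self_re]
    have hab : ∀ ζ, |(inner ℂ ζ (a ζ)).re| ≤ ‖a‖ * ‖ζ‖ ^ 2 := by
      intro ζ
      refine (Complex.abs_re_le_norm _).trans ((norm_inner_le_norm _ _).trans ?_)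
      have := a.le_opNorm ζ
      nlinarith only [this, norm_nonneg ζ]
    have hbs : IsSelfAdjoint b := by
      rw [hb, IsSelfAdjoint, star_smul, star_add, star_smul, hs.star_eq, star_one,
        Complex.star_def, Complex.conj_ofReal, Complex.conj_ofReal]
    have hb0 : 0 ≤ b := by
      refine nonneg_of_inner hbs fun ζ => ?_
      rw [hin]
      have := (abs_le.1 (hab ζ)).1
      exact mul_nonneg (by positivity) (by linarith)
    have hb1 : b ≤ 1 := by
      rw [← sub_nonneg]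
      refine nonneg_of_inner ((IsSelfAdjoint.one _).sub hbs) fun ζ => ?_
      rw [sub_apply, inner_sub_right, Complex.sub_re, hin, one_apply_eq_self, inner_self_re]
      have := (abs_le.1 (hab ζ)).2
      have h5 : (2 * ‖a‖)⁻¹ * ((inner ℂ ζ (a ζ)).re + ‖a‖ * ‖ζ‖ ^ 2)
          ≤ (2 * ‖a‖)⁻¹ * (2 * ‖a‖ * ‖ζ‖ ^ 2) := by
        refine mul_le_mul_of_nonneg_left (by linarith) (by positivity)
      rw [← mul_assoc, inv_mul_cancel₀ (by positivity), one_mul] at h5
      linarith only [h5]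
    have hyb := h1 b hbA hb0 hb1
    have ha' : a = ((2 * ‖a‖ : ℝ) : ℂ) • b - ((‖a‖ : ℝ) : ℂ) • 1 := by
      rw [hb, smul_smul, ← Complex.ofReal_mul, mul_inv_cancel₀ (by positivity), Complex.ofReal_one,
        one_smul, add_sub_cancel_right]
    rw [ha', mul_sub, sub_mul, mul_smul_comm, smul_mul_assoc, hyb, mul_smul_comm, smul_mul_assoc,
      mul_one, one_mul]
  intro a ha
  have e1 := h2 (a + star a) (add_mem ha (star_mem ha)) (IsSelfAdjoint.add_star_self a)
  have e2 := h2 (Complex.I • (a - star a)) (A.smul_mem (sub_mem ha (star_mem ha)) _) (by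
    rw [IsSelfAdjoint, star_smul, star_sub, star_star, Complex.star_def, Complex.conj_I,
        neg_smul, ← smul_neg, neg_sub])
  rw [mul_smul_comm, smul_mul_assoc] at e2
  have e3 := congrArg (fun z => (-Complex.I) • z) e2
  simp only [smul_smul, neg_mul, Complex.I_mul_I, neg_neg, one_smul] at e3
  have e4 : (2 : ℂ) • (y * a) = (2 : ℂ) • (a * y) := by
    rw [two_smul, two_smul]
    rw [mul_add, add_mul] at e1
    rw [mul_sub, sub_mul] at e3
    have := congrArg₂ (· + ·) e1 e3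
    rw [add_add_sub_cancel, add_add_sub_cancel] at this
    exact this
  exact smul_right_injective _ (two_ne_zero' ℂ) e4

end Vale.Agent.P078
end

section

namespace Vale.Agent.P078

open Filter Topology

variable {H : Type*} [NormedAddCommGroup H] [InnerProductSpace ℂ H] [CompleteSpace H]
variable {M : VonNeumannAlgebra H} {A : StarSubalgebra ℂ (H →L[ℂ] H)}

namespace Part

theorem E_apply (Q : Part A) (x : H →L[ℂ] H) : Q.E x = ∑ i, Q.e i * x * Q.e i := rfl

theorem e_mul_self (Q : Part A) (i : Q.ι) : Q.e i * Q.e i = Q.e i :=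
  (Q.proj i).isIdempotentElem

theorem e_mul_E (Q : Part A) (i : Q.ι) (x : H →L[ℂ] H) :
    Q.e i * Q.E x = Q.e i * x * Q.e i := by
  classical
  rw [E_apply, Finset.mul_sum, Finset.sum_eq_single i]
  · rw [← mul_assoc, ← mul_assoc, Q.e_mul_self]
  · intro j _ hj
    rw [← mul_assoc, ← mul_assoc, Q.orth i j hj.symm, zero_mul, zero_mul]
  · intro h; exact absurd (Finset.mem_univ i) h

theorem E_mul_e (Q : Part A) (i : Q.ι) (x : H →L[ℂ] H) :
    Q.E x * Q.e i = Q.e i * x * Q.e i := by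
  classical
  rw [E_apply, Finset.sum_mul, Finset.sum_eq_single i]
  · rw [mul_assoc, Q.e_mul_self]
  · intro j _ hj
    rw [mul_assoc, Q.orth j i hj, mul_zero]
  · intro h; exact absurd (Finset.mem_univ i) h

theorem norm_sq_eq (Q : Part A) (ζ : H) : ‖ζ‖ ^ 2 = ∑ i, ‖Q.e i ζ‖ ^ 2 := by
  have h : ∑ i, Q.e i ζ = ζ := by
    conv_rhs => rw [show ζ = (1 : H →L[ℂ] H) ζ from rfl, ← Q.sum_eq]
    rw [sum_apply]
  have h2 : inner ℂ ζ ζ = ∑ i, inner ℂ ζ (Q.e i ζ) := by
    rw [← inner_sum, h]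
  rw [← inner_self_re, h2, Complex.re_sum]
  exact Finset.sum_congr rfl fun i _ => proj_inner_self (Q.proj i) ζ

theorem norm_E_le (Q : Part A) (x : H →L[ℂ] H) : ‖Q.E x‖ ≤ ‖x‖ := by
  refine ContinuousLinearMap.opNorm_le_bound _ (norm_nonneg _) fun ζ => ?_
  rw [← sq_le_sq₀ (norm_nonneg _) (by positivity), mul_pow, Q.norm_sq_eq, Q.norm_sq_eq ζ,
    Finset.mul_sum]
  refine Finset.sum_le_sum fun i _ => ?_
  have h1 : Q.e i (Q.E x ζ) = Q.e i (x (Q.e i ζ)) := DFunLike.congr_fun (Q.e_mul_E i x) ζ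
  rw [h1]
  have h2 : ‖Q.e i (x (Q.e i ζ))‖ ≤ ‖x (Q.e i ζ)‖ := by
    have := Q.norm_sq_eq (x (Q.e i ζ))
    have h3 : ‖Q.e i (x (Q.e i ζ))‖ ^ 2 ≤ ‖x (Q.e i ζ)‖ ^ 2 := by
      rw [this]
      exact Finset.single_le_sum (f := fun j => ‖Q.e j (x (Q.e i ζ))‖ ^ 2)
        (fun j _ => sq_nonneg _) (Finset.mem_univ i)
    exact (sq_le_sq₀ (norm_nonneg _) (norm_nonneg _)).1 h3
  have h4 := h2.trans (x.le_opNorm _)
  calc ‖Q.e i (x (Q.e i ζ))‖ ^ 2 ≤ (‖x‖ * ‖Q.e i ζ‖) ^ 2 := by gcongr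
    _ = ‖x‖ ^ 2 * ‖Q.e i ζ‖ ^ 2 := by rw [mul_pow]

theorem E_mem (Q : Part A) (hA : A ≤ M.toStarSubalgebra) {x : H →L[ℂ] H} (hx : x ∈ M) :
    Q.E x ∈ M := by
  rw [E_apply]
  exact sum_mem fun i _ => mul_mem (mul_mem (hA (Q.mem i)) hx) (hA (Q.mem i))

theorem E_nonneg (Q : Part A) {x : H →L[ℂ] H} (hx : 0 ≤ x) : 0 ≤ Q.E x := by
  rw [E_apply]
  refine Finset.sum_nonneg fun i _ => ?_
  have h := (Q.proj i).isSelfAdjoint.star_eq
  nth_rewrite 1 [← h]
  exact star_left_conjugate_nonneg hx _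

theorem E_isSelfAdjoint (Q : Part A) {x : H →L[ℂ] H} (hx : IsSelfAdjoint x) :
    IsSelfAdjoint (Q.E x) := by
  rw [E_apply, IsSelfAdjoint, star_sum]
  refine Finset.sum_congr rfl fun i _ => ?_
  rw [star_mul, star_mul, hx.star_eq, (Q.proj i).isSelfAdjoint.star_eq, mul_assoc]

/-- the trivial partition -/
def trivialPart (A : StarSubalgebra ℂ (H →L[ℂ] H)) : Part A where
  ι := Unit
  e _ := 1
  mem _ := one_mem A
  proj _ := IsStarProjection.one _
  orth i j h := absurd (Subsingleton.elim i j) h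
  sum_eq := by simp

/-- common refinement -/
def inf (hA : ∀ x ∈ A, ∀ y ∈ A, x * y = y * x) (Q R : Part A) : Part A where
  ι := Q.ι × R.ι
  e p := Q.e p.1 * R.e p.2
  mem p := mul_mem (Q.mem _) (R.mem _)
  proj p := (Q.proj _).mul (R.proj _) (hA _ (Q.mem _) _ (R.mem _))
  orth p q h := by
    have hc := hA _ (R.mem p.2) _ (Q.mem q.1)
    have e1 : Q.e p.1 * R.e p.2 * (Q.e q.1 * R.e q.2) = Q.e p.1 * Q.e q.1 * (R.e p.2 * R.e q.2) := by
      rw [mul_assoc, ← mul_assoc (R.e p.2), hc, mul_assoc, mul_assoc]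
    rw [e1]
    by_cases h1 : p.1 = q.1
    · have h2 : p.2 ≠ q.2 := fun h2 => h (Prod.ext h1 h2)
      rw [R.orth _ _ h2, mul_zero]
    · rw [Q.orth _ _ h1, zero_mul]
  sum_eq := by
    rw [Fintype.sum_prod_type]
    simp only
    simp_rw [← Finset.mul_sum, R.sum_eq, mul_one]
    exact Q.sum_eq

theorem Finer.refl (Q : Part A) : Q.Finer Q := by
  intro i j
  by_cases h : i = j
  · left; rw [h, Q.e_mul_self]
  · right; exact Q.orth _ _ h

theorem finer_of_inf_left (hA : ∀ x ∈ A, ∀ y ∈ A, x * y = y * x) {Q R S : Part A}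
    (h : (Q.inf hA R).Finer S) : Q.Finer S := by
  classical
  intro i k
  by_cases h1 : ∃ j, Q.e i * R.e j * S.e k = S.e k
  · left
    obtain ⟨j, hj⟩ := h1
    rw [← hj, ← mul_assoc, ← mul_assoc, Q.e_mul_self]
  · right
    push Not at h1
    have : S.e k = ∑ j, R.e j * S.e k := by
      rw [← Finset.sum_mul, R.sum_eq, one_mul]
    rw [this, Finset.mul_sum]
    refine Finset.sum_eq_zero fun j _ => ?_
    rw [← mul_assoc]
    exact (h (i, j) k).resolve_left (h1 j)

theorem finer_of_inf_right (hA : ∀ x ∈ A, ∀ y ∈ A, x * y = y * x) {Q R S : Part A}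
    (h : (Q.inf hA R).Finer S) : R.Finer S := by
  classical
  intro j k
  by_cases h1 : ∃ i, Q.e i * R.e j * S.e k = S.e k
  · left
    obtain ⟨i, hi⟩ := h1
    rw [← hi, ← mul_assoc, ← mul_assoc, hA _ (R.mem j) _ (Q.mem i), mul_assoc (Q.e i),
      R.e_mul_self]
  · right
    push Not at h1
    have : R.e j * S.e k = ∑ i, Q.e i * R.e j * S.e k := by
      rw [← Finset.sum_mul, ← Finset.sum_mul, Q.sum_eq, one_mul]
    rw [this]
    refine Finset.sum_eq_zero fun i _ => ?_
    exact (h (i, j) k).resolve_left (h1 i)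

/-- filter of refinements -/
def filter (A : StarSubalgebra ℂ (H →L[ℂ] H)) : Filter (Part A) :=
  ⨅ Q : Part A, 𝓟 {Q' | Q.Finer Q'}

theorem filter_neBot (hA : ∀ x ∈ A, ∀ y ∈ A, x * y = y * x) : (Part.filter A).NeBot := by
  have : Nonempty (Part A) := ⟨trivialPart A⟩
  refine iInf_neBot_of_directed ?_ ?_
  · intro Q R
    refine ⟨Q.inf hA R, ?_, ?_⟩
    · exact principal_mono.2 fun S hS => finer_of_inf_left hA hS
    · exact principal_mono.2 fun S hS => finer_of_inf_right hA hS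
  · intro Q
    exact principal_neBot_iff.2 ⟨Q, Finer.refl Q⟩

theorem eventually_finer (Q : Part A) : ∀ᶠ R in Part.filter A, Q.Finer R :=
  (iInf_le (fun Q : Part A => 𝓟 {Q' | Q.Finer Q'}) Q) (mem_principal_self _)

/-- the two-element partition of a projection -/
def two (e : H →L[ℂ] H) (he : e ∈ A) (hp : IsStarProjection e) : Part A where
  ι := Bool
  e b := bif b then e else 1 - e
  mem b := by
    cases b
    · exact sub_mem (one_mem A) he
    · exact he
  proj b := by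
    cases b
    · exact hp.one_sub
    · exact hp
  orth i j h := by
    cases i <;> cases j
    · exact absurd rfl h
    · simp [sub_mul, hp.isIdempotentElem.eq]
    · simp [mul_sub, hp.isIdempotentElem.eq]
    · exact absurd rfl h
  sum_eq := by simp

theorem comm_E_of_finer (hA : ∀ x ∈ A, ∀ y ∈ A, x * y = y * x) {Q R : Part A} (h : Q.Finer R)
    (i : Q.ι) (x : H →L[ℂ] H) : Q.e i * R.E x = R.E x * Q.e i := by
  rw [E_apply, Finset.mul_sum, Finset.sum_mul]
  refine Finset.sum_congr rfl fun j _ => ?_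
  have hc : R.e j * Q.e i = Q.e i * R.e j := hA _ (R.mem j) _ (Q.mem i)
  rw [mul_assoc _ (R.e j) (Q.e i), hc, ← mul_assoc, ← mul_assoc]
  rcases h i j with h1 | h1
  · rw [h1]
  · rw [h1]; simp

end Part

/-- weak operator compactness of balls along ultrafilters -/
theorem exists_wot_limit {I : Type*} (U : Ultrafilter I) (T : I → (H →L[ℂ] H)) (R : ℝ)
    (hT : ∀ᶠ i in (U : Filter I), ‖T i‖ ≤ R) (hR : 0 ≤ R) :
    ∃ L : H →L[ℂ] H, ‖L‖ ≤ R ∧
      ∀ ξ η : H, Tendsto (fun i => inner ℂ ξ (T i η)) U (𝓝 (inner ℂ ξ (L η))) := by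
  have hbound : ∀ ξ η : H, ∀ᶠ i in (U : Filter I), inner ℂ (T i ξ) η ∈
      Metric.closedBall (0 : ℂ) (R * ‖ξ‖ * ‖η‖) := by
    intro ξ η
    filter_upwards [hT] with i hi
    rw [mem_closedBall_zero_iff]
    refine (norm_inner_le_norm _ _).trans ?_
    gcongr
    exact (T i).le_of_opNorm_le hi ξ
  have hlim : ∀ ξ η : H, ∃ c : ℂ, c ∈ Metric.closedBall (0 : ℂ) (R * ‖ξ‖ * ‖η‖) ∧
      Tendsto (fun i => inner ℂ (T i ξ) η) U (𝓝 c) := by
    intro ξ η
    have hc : IsCompact (Metric.closedBall (0 : ℂ) (R * ‖ξ‖ * ‖η‖)) :=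
      isCompact_closedBall _ _
    obtain ⟨c, hc1, hc2⟩ := hc.ultrafilter_le_nhds (U.map fun i => inner ℂ (T i ξ) η) (by
      rw [le_principal_iff]
      exact hbound ξ η)
    exact ⟨c, hc1, hc2⟩
  choose f hf1 hf2 using hlim
  have hadd1 : ∀ a b c, f (a + b) c = f a c + f b c := by
    intro a b c
    refine tendsto_nhds_unique (hf2 _ _) ?_
    refine ((hf2 a c).add (hf2 b c)).congr fun i => ?_
    rw [map_add, inner_add_left]
  have hadd2 : ∀ a b c, f a (b + c) = f a b + f a c := by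
    intro a b c
    refine tendsto_nhds_unique (hf2 _ _) ?_
    refine ((hf2 a b).add (hf2 a c)).congr fun i => ?_
    rw [inner_add_right]
  have hsmul1 : ∀ (r : ℂ) a b, f (r • a) b = (starRingEnd ℂ) r • f a b := by
    intro r a b
    refine tendsto_nhds_unique (hf2 _ _) ?_
    refine ((hf2 a b).const_smul ((starRingEnd ℂ) r)).congr fun i => ?_
    rw [map_smul, inner_smul_left, smul_eq_mul]
  have hsmul2 : ∀ (r : ℂ) a b, f a (r • b) = r • f a b := by
    intro r a b
    refine tendsto_nhds_unique (hf2 _ _) ?_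
    refine ((hf2 a b).const_smul r).congr fun i => ?_
    rw [inner_smul_right, smul_eq_mul]
  let B₀ : H →ₛₗ[starRingEnd ℂ] H →ₗ[ℂ] ℂ :=
    LinearMap.mk₂'ₛₗ (starRingEnd ℂ) (RingHom.id ℂ) f hadd1 hsmul1 hadd2 (by
      intro r a b; exact hsmul2 r a b)
  let B : H →L⋆[ℂ] H →L[ℂ] ℂ := LinearMap.mkContinuous₂ B₀ R (by
    intro a b
    have := hf1 a b
    rwa [mem_closedBall_zero_iff] at this)
  have hB : ∀ a b, B a b = f a b := fun a b => rfl
  let L := InnerProductSpace.continuousLinearMapOfBilin (𝕜 := ℂ) B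
  have hL : ∀ a b, inner ℂ (L a) b = f a b := by
    intro a b
    exact InnerProductSpace.continuousLinearMapOfBilin_apply B a b
  refine ⟨L, ?_, ?_⟩
  · refine ContinuousLinearMap.opNorm_le_bound _ hR fun ζ => ?_
    by_cases hz : L ζ = 0
    · rw [hz, norm_zero]; (clear * - hR; positivity)
    have h1 : ‖L ζ‖ * ‖L ζ‖ ≤ R * ‖ζ‖ * ‖L ζ‖ := by
      have h2 := hf1 ζ (L ζ)
      rw [mem_closedBall_zero_iff, ← hL, inner_self_eq_norm_sq_to_K] at h2
      have h3 : ‖((‖L ζ‖ : ℂ)) ^ 2‖ = ‖L ζ‖ * ‖L ζ‖ := by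
        rw [norm_pow, Complex.norm_real, norm_norm, sq]
      rw [← h3]; exact h2
    exact le_of_mul_le_mul_right h1 (norm_pos_iff.2 hz)
  · intro ξ η
    have h1 : Tendsto (fun i => (starRingEnd ℂ) (inner ℂ (T i η) ξ)) U
        (𝓝 ((starRingEnd ℂ) (inner ℂ (L η) ξ))) := by
      rw [hL]
      exact (Complex.continuous_conj.tendsto _).comp (hf2 η ξ)
    simpa only [inner_conj_symm] using h1

theorem inner_ext {S T : H →L[ℂ] H} (h : ∀ ξ η : H, inner ℂ ξ (S η) = inner ℂ ξ (T η)) :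
    S = T := by
  ext η
  exact ext_inner_left ℂ fun ξ => h ξ η

theorem exists_limit_expectation' (hA : IsMASA A M) (U : Ultrafilter (Part A))
    (hU : (U : Filter (Part A)) ≤ Part.filter A) :
    ∃ E : (H →L[ℂ] H) →ₗ[ℂ] (H →L[ℂ] H),
      (∀ x ξ η, Tendsto (fun Q : Part A => inner ℂ ξ (Q.E x η)) U (𝓝 (inner ℂ ξ (E x η)))) ∧
      (∀ x, ‖E x‖ ≤ ‖x‖) ∧ (∀ x ∈ M, E x ∈ A) ∧ (∀ x, 0 ≤ x → 0 ≤ E x) ∧
      (∀ x, IsSelfAdjoint x → IsSelfAdjoint (E x)) ∧
      (∀ a ∈ A, ∀ x, E (a * x) = a * E x ∧ E (x * a) = E x * a) ∧ (∀ a ∈ A, E a = a) ∧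
      (∀ x, ∀ a ∈ A, E x * a = a * E x) := by
  have hex : ∀ x : H →L[ℂ] H, ∃ L : H →L[ℂ] H, ‖L‖ ≤ ‖x‖ ∧
      ∀ ξ η : H, Tendsto (fun Q : Part A => inner ℂ ξ (Q.E x η)) U (𝓝 (inner ℂ ξ (L η))) :=
    fun x => exists_wot_limit U (fun Q : Part A => Q.E x) ‖x‖
      (Eventually.of_forall fun Q => Q.norm_E_le x) (norm_nonneg x)
  choose L hL1 hL2 using hex
  let E : (H →L[ℂ] H) →ₗ[ℂ] (H →L[ℂ] H) :=
    { toFun := L
      map_add' := by
        intro x y
        refine inner_ext fun ξ η => ?_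
        refine tendsto_nhds_unique (hL2 _ _ _) ?_
        rw [add_apply, inner_add_right]
        refine ((hL2 x ξ η).add (hL2 y ξ η)).congr fun Q => ?_
        rw [map_add, add_apply, inner_add_right]
      map_smul' := by
        intro c x
        refine inner_ext fun ξ η => ?_
        refine tendsto_nhds_unique (hL2 _ _ _) ?_
        rw [RingHom.id_apply, smul_apply, inner_smul_right]
        refine ((hL2 x ξ η).const_mul c).congr fun Q => ?_
        rw [map_smul, smul_apply, inner_smul_right] }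
  have hE : ∀ x, E x = L x := fun x => rfl
  have hleft : ∀ (x y : H →L[ℂ] H) (ξ η : H),
      Tendsto (fun Q : Part A => inner ℂ ξ ((y * Q.E x) η)) U (𝓝 (inner ℂ ξ ((y * E x) η))) := by
    intro x y ξ η
    have := hL2 x (star y ξ) η
    simp only [star_apply_inner] at this
    exact this
  have hright : ∀ (x y : H →L[ℂ] H) (ξ η : H),
      Tendsto (fun Q : Part A => inner ℂ ξ ((Q.E x * y) η)) U (𝓝 (inner ℂ ξ ((E x * y) η))) := by
    intro x y ξ η
    exact hL2 x ξ (y η)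
  have hcomm : ∀ x y : H →L[ℂ] H, (∀ᶠ Q in (U : Filter (Part A)), y * Q.E x = Q.E x * y) →
      y * E x = E x * y := by
    intro x y h
    refine inner_ext fun ξ η => ?_
    refine tendsto_nhds_unique (hleft x y ξ η) ((hright x y ξ η).congr' ?_)
    filter_upwards [h] with Q hQ
    rw [hQ]
  have hEA : ∀ x, ∀ a ∈ A, E x * a = a * E x := by
    intro x
    refine hA.comm_of_proj (y := E x) ?_
    intro e he hp
    refine (hcomm x e ?_).symm
    have h1 := hU (Part.eventually_finer (Part.two e he hp))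
    filter_upwards [h1] with Q hQ
    exact Part.comm_E_of_finer hA.2.1 hQ true x
  refine ⟨E, hL2, hL1, ?_, ?_, ?_, ?_, ?_, hEA⟩
  · intro x hx
    have hM : E x ∈ M := by
      refine mem_of_commute fun y hy => hcomm x y (Eventually.of_forall fun Q => ?_)
      exact commutant_comm (Q.E_mem hA.1 hx) hy
    exact hA.mem hM fun a ha => (hEA x a ha).symm
  · intro x hx
    have hsa : IsSelfAdjoint (E x) := by
      refine inner_ext fun ξ η => ?_
      have h1 := (Complex.continuous_conj.tendsto _).comp (hL2 x η ξ)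
      rw [inner_conj_symm] at h1
      refine tendsto_nhds_unique ?_ (hL2 x ξ η)
      have h2 : inner ℂ ξ ((star (E x)) η) = inner ℂ (L x ξ) η := by
        have := star_apply_inner (star (E x)) ξ η
        rw [star_star] at this
        exact this.symm
      rw [h2]
      refine h1.congr fun Q => ?_
      rw [Function.comp_apply, inner_conj_symm]
      have h3 := (Q.E_isSelfAdjoint (IsSelfAdjoint.of_nonneg hx)).star_eq
      rw [← star_apply_inner, h3]
    refine nonneg_of_inner hsa fun ζ => ?_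
    have h4 := (Complex.continuous_re.tendsto _).comp (hL2 x ζ ζ)
    refine ge_of_tendsto h4 (Eventually.of_forall fun Q => ?_)
    exact inner_nonneg_of_nonneg (Q.E_nonneg hx) ζ
  · intro x hx
    refine inner_ext fun ξ η => ?_
    have h1 := (Complex.continuous_conj.tendsto _).comp (hL2 x η ξ)
    rw [inner_conj_symm] at h1
    refine tendsto_nhds_unique ?_ (hL2 x ξ η)
    have h2 : inner ℂ ξ ((star (E x)) η) = inner ℂ (L x ξ) η := by
      have := star_apply_inner (star (E x)) ξ η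
      rw [star_star] at this
      exact this.symm
    rw [h2]
    refine h1.congr fun Q => ?_
    rw [Function.comp_apply, inner_conj_symm]
    have h3 := (Q.E_isSelfAdjoint hx).star_eq
    rw [← star_apply_inner, h3]
  · intro a ha x
    have hQl : ∀ Q : Part A, Q.E (a * x) = a * Q.E x := by
      intro Q
      rw [Part.E_apply, Part.E_apply, Finset.mul_sum]
      refine Finset.sum_congr rfl fun i _ => ?_
      rw [← mul_assoc, hA.2.1 _ (Q.mem i) _ ha, mul_assoc, mul_assoc, mul_assoc]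
    have hQr : ∀ Q : Part A, Q.E (x * a) = Q.E x * a := by
      intro Q
      rw [Part.E_apply, Part.E_apply, Finset.sum_mul]
      refine Finset.sum_congr rfl fun i _ => ?_
      rw [mul_assoc, mul_assoc, hA.2.1 _ ha _ (Q.mem i), ← mul_assoc, ← mul_assoc]
    constructor
    · refine inner_ext fun ξ η => ?_
      refine tendsto_nhds_unique (hL2 _ ξ η) ((hleft x a ξ η).congr fun Q => ?_)
      rw [hQl]
    · refine inner_ext fun ξ η => ?_
      refine tendsto_nhds_unique (hL2 _ ξ η) ((hright x a ξ η).congr fun Q => ?_)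
      rw [hQr]
  · intro a ha
    have hQ : ∀ Q : Part A, Q.E a = a := by
      intro Q
      rw [Part.E_apply]
      have : ∀ i, Q.e i * a * Q.e i = a * Q.e i := by
        intro i
        rw [hA.2.1 _ (Q.mem i) _ ha, mul_assoc, Q.e_mul_self]
      simp_rw [this]
      rw [← Finset.mul_sum, Q.sum_eq, mul_one]
    refine inner_ext fun ξ η => ?_
    refine tendsto_nhds_unique (hL2 _ ξ η) (tendsto_const_nhds.congr fun Q => ?_)
    rw [hQ]

theorem exists_limit_expectation (hA : IsMASA A M) (U : Ultrafilter (Part A))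
    (hU : (U : Filter (Part A)) ≤ Part.filter A) :
    ∃ E : (H →L[ℂ] H) →ₗ[ℂ] (H →L[ℂ] H),
      (∀ x ξ η, Tendsto (fun Q : Part A => inner ℂ ξ (Q.E x η)) U (𝓝 (inner ℂ ξ (E x η)))) ∧
      (∀ x, ‖E x‖ ≤ ‖x‖) ∧ (∀ x ∈ M, E x ∈ A) ∧ (∀ x, 0 ≤ x → 0 ≤ E x) ∧
      (∀ x, IsSelfAdjoint x → IsSelfAdjoint (E x)) ∧
      (∀ a ∈ A, ∀ x, E (a * x) = a * E x ∧ E (x * a) = E x * a) ∧ (∀ a ∈ A, E a = a) := by
  obtain ⟨E, h1, h2, h3, h4, h5, h6, h7, _⟩ := exists_limit_expectation' hA U hU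
  exact ⟨E, h1, h2, h3, h4, h5, h6, h7⟩

end Vale.Agent.P078
end

section

namespace Vale.Agent.P078

open Filter Topology

theorem real_residual {L : Type*} [NormedAddCommGroup L] [InnerProductSpace ℂ L] [CompleteSpace L]
    (V : Set L) (h0 : (0 : L) ∈ V) (hadd : ∀ x ∈ V, ∀ y ∈ V, x + y ∈ V)
    (hsmul : ∀ c : ℝ, ∀ x ∈ V, (c : ℂ) • x ∈ V) (p : L) :
    p ∈ closure V ∨ ∃ d : L, (∀ s ∈ V, (inner ℂ s d).re = 0) ∧ 0 < (inner ℂ p d).re := by
  let _ : InnerProductSpace ℝ L := InnerProductSpace.complexToReal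
  have hre : ∀ x y : L, inner ℝ x y = (inner ℂ x y).re := fun x y => rfl
  let W : Submodule ℝ L :=
    { carrier := V
      add_mem' := fun {a b} ha hb => hadd a ha b hb
      zero_mem' := h0
      smul_mem' := fun c x hx => hsmul c x hx }
  let K := W.topologicalClosure
  have hKc : IsClosed (K : Set L) := W.isClosed_topologicalClosure
  have : CompleteSpace K := hKc.completeSpace_coe
  by_cases hp : p ∈ K
  · left
    exact hp
  · right
    refine ⟨p - K.starProjection p, ?_, ?_⟩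
    · intro s hs
      have hsK : s ∈ K := W.le_topologicalClosure hs
      have := (Submodule.mem_orthogonal _ _).1 (K.sub_starProjection_mem_orthogonal p) s hsK
      rw [hre] at this
      exact this
    · have h1 := (Submodule.mem_orthogonal _ _).1 (K.sub_starProjection_mem_orthogonal p) _
        (K.starProjection_apply_mem p)
      rw [hre] at h1
      have h2 : p - K.starProjection p ≠ 0 := by
        intro h
        apply hp
        rw [sub_eq_zero] at h
        rw [h]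
        exact K.starProjection_apply_mem p
      have h3 : (inner ℂ p (p - K.starProjection p)).re
          = ‖p - K.starProjection p‖ ^ 2 := by
        have h4 : (inner ℂ (p - K.starProjection p) (p - K.starProjection p)).re
            = (inner ℂ p (p - K.starProjection p)).re := by
          rw [inner_sub_left, Complex.sub_re, h1, sub_zero]
        rw [← h4, inner_self_eq_norm_sq_to_K]
        norm_cast
      rw [h3]
      have : 0 < ‖p - K.starProjection p‖ := norm_pos_iff.2 h2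
      positivity

variable {H : Type*} [NormedAddCommGroup H] [InnerProductSpace ℂ H] [CompleteSpace H]
variable {M : VonNeumannAlgebra H} {A : StarSubalgebra ℂ (H →L[ℂ] H)}

namespace WCont

theorem add {f g : (H →L[ℂ] H) → ℂ} (hf : WCont M f) (hg : WCont M g) :
    WCont M (fun x => f x + g x) :=
  fun R x l hx hl h => (hf R x l hx hl h).add (hg R x l hx hl h)

theorem const_mul {f : (H →L[ℂ] H) → ℂ} (hf : WCont M f) (c : ℂ) :
    WCont M (fun x => c * f x) :=
  fun R x l hx hl h => (hf R x l hx hl h).const_mul c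

theorem neg {f : (H →L[ℂ] H) → ℂ} (hf : WCont M f) : WCont M (fun x => - f x) :=
  fun R x l hx hl h => (hf R x l hx hl h).neg

theorem zero : WCont M (fun _ => 0) :=
  fun _ _ _ _ _ _ => tendsto_const_nhds

theorem sum {ι : Type*} (s : Finset ι) {f : ι → (H →L[ℂ] H) → ℂ} (hf : ∀ i ∈ s, WCont M (f i)) :
    WCont M (fun x => ∑ i ∈ s, f i x) :=
  fun R x l hx hl h => tendsto_finsetSum s fun i hi => hf i hi R x l hx hl h

theorem inner_apply (ξ η : H) : WCont M (fun x => inner ℂ ξ (x η)) :=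
  fun _ _ _ _ _ h => h ξ η

theorem congr {f g : (H →L[ℂ] H) → ℂ} (hf : WCont M f) (h : ∀ x ∈ M, f x = g x) :
    WCont M g := by
  intro R x l hx hl hlim
  rw [← h x hx]
  refine (hf R x l hx hl hlim).congr' ?_
  filter_upwards [hl] with y hy
  exact h y hy.1

theorem mul_right {f : (H →L[ℂ] H) → ℂ} (hf : WCont M f) {y : H →L[ℂ] H} (hy : y ∈ M) :
    WCont M (fun x => f (x * y)) := by
  intro R x l hx hl hlim
  have h1 : Tendsto f (l.map fun z => z * y) (𝓝 (f (x * y))) := by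
    refine hf (R * ‖y‖) (x * y) _ (mul_mem hx hy) ?_ ?_
    · rw [eventually_map]
      filter_upwards [hl] with z hz
      exact ⟨mul_mem hz.1 hy, (norm_mul_le _ _).trans
        (mul_le_mul_of_nonneg_right hz.2 (norm_nonneg _))⟩
    · intro ξ η
      rw [tendsto_map'_iff]
      exact hlim ξ (y η)
  exact h1.comp tendsto_map

theorem mul_left {f : (H →L[ℂ] H) → ℂ} (hf : WCont M f) {y : H →L[ℂ] H} (hy : y ∈ M) :
    WCont M (fun x => f (y * x)) := by
  intro R x l hx hl hlim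
  have h1 : Tendsto f (l.map fun z => y * z) (𝓝 (f (y * x))) := by
    refine hf (‖y‖ * R) (y * x) _ (mul_mem hy hx) ?_ ?_
    · rw [eventually_map]
      filter_upwards [hl] with z hz
      exact ⟨mul_mem hy hz.1, (norm_mul_le _ _).trans
        (mul_le_mul_of_nonneg_left hz.2 (norm_nonneg _))⟩
    · intro ξ η
      rw [tendsto_map'_iff]
      have := hlim (star y ξ) η
      simp only [star_apply_inner] at this
      exact this
  exact h1.comp tendsto_map

/-- closure under limits that are uniform on bounded sets -/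
theorem of_approx {f : (H →L[ℂ] H) → ℂ}
    (h : ∀ ε > 0, ∃ g : (H →L[ℂ] H) → ℂ, WCont M g ∧ ∀ x ∈ M, ‖f x - g x‖ ≤ ε * ‖x‖) :
    WCont M f := by
  intro R x l hx hl hlim
  rw [Metric.tendsto_nhds]
  intro ε hε
  set B := max (max R ‖x‖) 1 with hB
  have hB1 : 1 ≤ B := le_max_right _ _
  have hB0 : 0 < B := lt_of_lt_of_le one_pos hB1
  have hBR : R ≤ B := (le_max_left _ _).trans (le_max_left _ _)
  have hBx : ‖x‖ ≤ B := (le_max_right _ _).trans (le_max_left _ _)
  obtain ⟨g, hg, hfg⟩ := h (ε / (4 * B)) (by (clear * - hε; positivity))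
  have h1 := (Metric.tendsto_nhds.1 (hg R x l hx hl hlim)) (ε / 2) (by positivity)
  filter_upwards [h1, hl] with y hy1 hy2
  have e1 : ‖f y - g y‖ ≤ ε / 4 := by
    refine (hfg y hy2.1).trans ?_
    calc ε / (4 * B) * ‖y‖ ≤ ε / (4 * B) * B := by
          have := hy2.2.trans hBR
          (clear * - this hε; gcongr)
      _ = ε / 4 := by field_simp
  have e2 : ‖f x - g x‖ ≤ ε / 4 := by
    refine (hfg x hx).trans ?_
    calc ε / (4 * B) * ‖x‖ ≤ ε / (4 * B) * B := by (clear * - hBx hε; gcongr)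
      _ = ε / 4 := by field_simp
  rw [dist_eq_norm] at hy1 ⊢
  have e3 : f y - f x = (f y - g y) + (g y - g x) - (f x - g x) := by ring
  calc ‖f y - f x‖ = ‖(f y - g y) + (g y - g x) - (f x - g x)‖ := by rw [← e3]
    _ ≤ ‖f y - g y‖ + ‖g y - g x‖ + ‖f x - g x‖ := by
        refine (norm_sub_le _ _).trans ?_
        gcongr
        exact norm_add_le _ _
    _ < ε / 4 + ε / 2 + ε / 4 := by linarith only [hy1, e1, e2]
    _ = ε := by ring

end WCont

end Vale.Agent.P078
end

section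

namespace Vale.Agent.P078

open Filter Topology
open scoped ComplexOrder

variable {H : Type*} [NormedAddCommGroup H] [InnerProductSpace ℂ H] [CompleteSpace H]
variable {M : VonNeumannAlgebra H} {A : StarSubalgebra ℂ (H →L[ℂ] H)}

/-- the cyclic vector -/
noncomputable def cyc (Φ : (H →L[ℂ] H) →ₚ[ℂ] ℂ) : Φ.GNS := ((Φ.toPreGNS 1 : Φ.PreGNS) : Φ.GNS)

theorem gns_cyc (Φ : (H →L[ℂ] H) →ₚ[ℂ] ℂ) (x : H →L[ℂ] H) :
    Φ.gnsStarAlgHom x (cyc Φ) = ((Φ.toPreGNS x : Φ.PreGNS) : Φ.GNS) := by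
  rw [cyc]
  change Φ.gnsNonUnitalStarAlgHom x _ = _
  rw [PositiveLinearMap.gnsNonUnitalStarAlgHom_apply_coe]
  simp only [PositiveLinearMap.leftMulMapPreGNS_apply, PositiveLinearMap.ofPreGNS_toPreGNS, mul_one]

theorem gns_inner (Φ : (H →L[ℂ] H) →ₚ[ℂ] ℂ) (x y : H →L[ℂ] H) :
    inner ℂ (Φ.gnsStarAlgHom x (cyc Φ)) (Φ.gnsStarAlgHom y (cyc Φ)) = Φ (star x * y) := by
  rw [gns_cyc, gns_cyc, UniformSpace.Completion.inner_coe, PositiveLinearMap.preGNS_inner_def]
  simp only [PositiveLinearMap.ofPreGNS_toPreGNS]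

theorem gns_adj (Φ : (H →L[ℂ] H) →ₚ[ℂ] ℂ) (x : H →L[ℂ] H) (u v : Φ.GNS) :
    inner ℂ (Φ.gnsStarAlgHom x u) v = inner ℂ u (Φ.gnsStarAlgHom (star x) v) := by
  rw [map_star, ContinuousLinearMap.star_eq_adjoint, ContinuousLinearMap.adjoint_inner_right]

theorem gns_norm_le (Φ : (H →L[ℂ] H) →ₚ[ℂ] ℂ) (x : H →L[ℂ] H) (u : Φ.GNS) :
    ‖Φ.gnsStarAlgHom x u‖ ≤ ‖x‖ * ‖u‖ := by
  refine (ContinuousLinearMap.le_opNorm _ _).trans ?_
  gcongr
  exact NonUnitalStarAlgHom.norm_apply_le Φ.gnsStarAlgHom x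

/-- right multiplication by a projection in the centralizer of `Φ` -/
theorem exists_rightMul (Φ : (H →L[ℂ] H) →ₚ[ℂ] ℂ) {e : H →L[ℂ] H} (he : IsStarProjection e)
    (hΦ : ∀ x, Φ (e * x) = Φ (x * e)) :
    ∃ R : Φ.GNS →L[ℂ] Φ.GNS, (∀ x, R (Φ.gnsStarAlgHom x (cyc Φ)) = Φ.gnsStarAlgHom (x * e) (cyc Φ))
      ∧ (∀ x u, R (Φ.gnsStarAlgHom x u) = Φ.gnsStarAlgHom x (R u)) ∧
      (∀ u v, inner ℂ (R u) v = inner ℂ u (R v)) := by
  have hes : star e = e := he.isSelfAdjoint.star_eq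
  have hee : e * e = e := he.isIdempotentElem
  have key : ∀ y : H →L[ℂ] H, 0 ≤ y → (Φ (e * y * e)).re ≤ (Φ y).re := by
    intro y hy
    have h1 : Φ (e * y * e) = Φ (y * e) := by
      rw [← hΦ, ← mul_assoc, hee, hΦ]
    have h2 : Φ ((1 - e) * y * (1 - e)) = Φ y - Φ (y * e) := by
      have : (1 - e) * y * (1 - e) = y - y * e - e * y + e * y * e := by
        noncomm_ring
      rw [this, map_add, map_sub, map_sub, h1, hΦ]
      ring
    have h3 : 0 ≤ (1 - e) * y * (1 - e) := by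
      have := star_left_conjugate_nonneg hy (1 - e)
      rwa [star_sub, star_one, hes] at this
    have h4 : 0 ≤ Φ ((1 - e) * y * (1 - e)) := Φ.map_nonneg h3
    have h5 := (Complex.le_def.1 h4).1
    rw [h2, Complex.sub_re, Complex.zero_re] at h5
    rw [h1]
    linarith only [h5]
  let R₀ : Φ.PreGNS →L[ℂ] Φ.PreGNS :=
    (Φ.toPreGNS.toLinearMap ∘ₗ LinearMap.mulRight ℂ e ∘ₗ Φ.ofPreGNS.toLinearMap).mkContinuous 1
      (fun x => by
        rw [one_mul, ← sq_le_sq₀ (norm_nonneg _) (norm_nonneg _)]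
        have h1 := Φ.preGNS_norm_sq x
        have h2 := Φ.preGNS_norm_sq ((Φ.toPreGNS.toLinearMap ∘ₗ LinearMap.mulRight ℂ e ∘ₗ
          Φ.ofPreGNS.toLinearMap) x)
        have h3 := key (star (Φ.ofPreGNS x) * Φ.ofPreGNS x) (star_mul_self_nonneg _)
        have h4 : star (Φ.ofPreGNS ((Φ.toPreGNS.toLinearMap ∘ₗ LinearMap.mulRight ℂ e ∘ₗ
          Φ.ofPreGNS.toLinearMap) x)) * (Φ.ofPreGNS ((Φ.toPreGNS.toLinearMap ∘ₗ
          LinearMap.mulRight ℂ e ∘ₗ Φ.ofPreGNS.toLinearMap) x))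
          = e * (star (Φ.ofPreGNS x) * Φ.ofPreGNS x) * e := by
          simp only [LinearMap.coe_comp, LinearEquiv.coe_coe, Function.comp_apply, LinearMap.mulRight_apply, PositiveLinearMap.ofPreGNS_toPreGNS, star_mul, hes, mul_assoc]
        rw [h4] at h2
        rw [← h1, ← h2] at h3
        norm_cast at h3)
  refine ⟨R₀.completion, ?_, ?_, ?_⟩
  · intro x
    rw [gns_cyc, gns_cyc, ContinuousLinearMap.completion_apply_coe]
    rfl
  · intro x u
    induction u using UniformSpace.Completion.induction_on with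
    | hp => apply isClosed_eq <;> fun_prop
    | ih u =>
      change R₀.completion (Φ.gnsNonUnitalStarAlgHom x u) =
        Φ.gnsNonUnitalStarAlgHom x (R₀.completion u)
      rw [PositiveLinearMap.gnsNonUnitalStarAlgHom_apply_coe,
        ContinuousLinearMap.completion_apply_coe, ContinuousLinearMap.completion_apply_coe,
        PositiveLinearMap.gnsNonUnitalStarAlgHom_apply_coe]
      congr 1
  · intro u v
    induction u, v using UniformSpace.Completion.induction_on₂ with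
    | hp => apply isClosed_eq <;> fun_prop
    | ih u v =>
      rw [ContinuousLinearMap.completion_apply_coe, ContinuousLinearMap.completion_apply_coe,
        UniformSpace.Completion.inner_coe, UniformSpace.Completion.inner_coe,
        PositiveLinearMap.preGNS_inner_def, PositiveLinearMap.preGNS_inner_def]
      simp only [R₀, LinearMap.mkContinuous_apply, LinearMap.comp_apply,
        LinearEquiv.coe_coe, LinearMap.mulRight_apply, PositiveLinearMap.ofPreGNS_toPreGNS,
        star_mul, hes]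
      rw [mul_assoc, hΦ, mul_assoc]

/-- the space of vectors `κ` for which `x ↦ ⟨Ω, x κ⟩` is normal on `M` -/
def normalSpace (M : VonNeumannAlgebra H) (Φ : (H →L[ℂ] H) →ₚ[ℂ] ℂ) : Submodule ℂ Φ.GNS where
  carrier := {κ | WCont M fun x => inner ℂ (cyc Φ) (Φ.gnsStarAlgHom x κ)}
  add_mem' := by
    intro a b ha hb
    refine (ha.add hb).congr fun x _ => ?_
    rw [map_add, inner_add_right]
  zero_mem' := by
    refine WCont.zero.congr fun x _ => ?_
    rw [map_zero, inner_zero_right]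
  smul_mem' := by
    intro c a ha
    refine (ha.const_mul c).congr fun x _ => ?_
    rw [map_smul, inner_smul_right]

theorem mem_normalSpace {Φ : (H →L[ℂ] H) →ₚ[ℂ] ℂ} {κ : Φ.GNS} :
    κ ∈ normalSpace M Φ ↔ WCont M fun x => inner ℂ (cyc Φ) (Φ.gnsStarAlgHom x κ) := Iff.rfl

theorem isClosed_normalSpace (Φ : (H →L[ℂ] H) →ₚ[ℂ] ℂ) :
    IsClosed (normalSpace M Φ : Set Φ.GNS) := by
  rw [← closure_subset_iff_isClosed]
  intro κ hκ
  change WCont M _
  refine WCont.of_approx fun ε hε => ?_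
  obtain ⟨κ', hκ', hd⟩ := Metric.mem_closure_iff.1 hκ (ε / (‖cyc Φ‖ + 1)) (by positivity)
  refine ⟨_, hκ', fun x _ => ?_⟩
  rw [← inner_sub_right, ← map_sub]
  refine (norm_inner_le_norm _ _).trans ?_
  have h1 := gns_norm_le Φ x (κ - κ')
  rw [dist_eq_norm] at hd
  have h2 : ‖cyc Φ‖ * ‖κ - κ'‖ ≤ ε := by
    have h3 : ‖κ - κ'‖ * (‖cyc Φ‖ + 1) ≤ ε := by
      rw [← le_div_iff₀ (by positivity)]
      exact hd.le
    (clear hκ hε hκ' h1; nlinarith [norm_nonneg (κ - κ')])
  calc ‖cyc Φ‖ * ‖Φ.gnsStarAlgHom x (κ - κ')‖ ≤ ‖cyc Φ‖ * (‖x‖ * ‖κ - κ'‖) := by (clear hκ ε hε hκ' hd h2; gcongr)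
    _ = (‖cyc Φ‖ * ‖κ - κ'‖) * ‖x‖ := by ring
    _ ≤ ε * ‖x‖ := by (clear hκ hε hκ' h1; gcongr)

theorem commute_starProjection' {L : Type*} [NormedAddCommGroup L] [InnerProductSpace ℂ L]
    (K : Submodule ℂ L) [K.HasOrthogonalProjection] {y z : L →L[ℂ] L}
    (hyz : ∀ u v, inner ℂ (z u) v = inner ℂ u (y v))
    (hy : ∀ v ∈ K, y v ∈ K) (hy' : ∀ v ∈ K, z v ∈ K) (u : L) :
    y (K.starProjection u) = K.starProjection (y u) := by
  refine (Submodule.eq_starProjection_of_mem_orthogonal' (K := K)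
    (hy _ (K.starProjection_apply_mem u)) (z := y (u - K.starProjection u)) ?_ ?_).symm
  · rw [Submodule.mem_orthogonal]
    intro w hw
    rw [← hyz]
    exact (Submodule.mem_orthogonal _ _).1 (K.sub_starProjection_mem_orthogonal u) _ (hy' w hw)
  · rw [← map_add]; congr 1; abel

end Vale.Agent.P078
end

section

namespace Vale.Agent.P078

open Filter Topology
open scoped ComplexOrder

variable {H : Type*} [NormedAddCommGroup H] [InnerProductSpace ℂ H] [CompleteSpace H]
variable {M : VonNeumannAlgebra H} {A : StarSubalgebra ℂ (H →L[ℂ] H)}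

/-- the normal part of `Φ` -/
theorem exists_centralNormal_of (Φ : (H →L[ℂ] H) →ₚ[ℂ] ℂ) (hle : A ≤ M.toStarSubalgebra)
    (hΦ : ∀ e ∈ A, IsStarProjection e → ∀ x, Φ (e * x) = Φ (x * e))
    {κ : Φ.GNS} (hκ : κ ∈ normalSpace M Φ) (hne : inner ℂ (cyc Φ) κ ≠ 0) :
    ∃ ψ : (H →L[ℂ] H) →ₗ[ℂ] ℂ, CentralNormal M A ψ ∧ ψ 1 ≠ 0 ∧
      ∀ e ∈ M, IsStarProjection e → (ψ e).re ≤ (Φ e).re := by
  set π := Φ.gnsStarAlgHom with hπ
  set Ω := cyc Φ with hΩ
  set K := normalSpace M Φ with hK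
  have : CompleteSpace K := (isClosed_normalSpace Φ).completeSpace_coe
  set P := K.starProjection with hP
  have hPK : ∀ u, P u ∈ K := fun u => K.starProjection_apply_mem u
  -- invariance under `M`
  have hinv : ∀ y ∈ M, ∀ v ∈ K, π y v ∈ K := by
    intro y hy v hv
    change WCont M _
    refine (WCont.mul_right (mem_normalSpace.1 hv) hy).congr fun x _ => ?_
    simp only [map_mul]
    rfl
  have hcomm : ∀ y ∈ M, ∀ u, π y (P u) = P (π y u) := by
    intro y hy u
    refine commute_starProjection' K (z := π (star y)) ?_ (hinv y hy) (hinv _ (star_mem hy)) u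
    intro u v
    rw [gns_adj, star_star]
  have hPsym : ∀ u v, inner ℂ (P u) v = inner ℂ u (P v) := fun u v =>
    K.inner_starProjection_left_eq_right u v
  have hPP : ∀ u, P (P u) = P u := fun u => K.starProjection_eq_self_iff.2 (hPK u)
  let ψ : (H →L[ℂ] H) →ₗ[ℂ] ℂ :=
    { toFun := fun x => inner ℂ (P Ω) (π x (P Ω))
      map_add' := fun x y => by rw [map_add, add_apply, inner_add_right]
      map_smul' := fun c x => by
        rw [map_smul, smul_apply, inner_smul_right, RingHom.id_apply, smul_eq_mul] }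
  have hψ : ∀ x, ψ x = inner ℂ (P Ω) (π x (P Ω)) := fun x => rfl
  refine ⟨ψ, ⟨?_, ?_, ?_⟩, ?_, ?_⟩
  · -- positivity
    intro x _ hx
    have h1 : 0 ≤ π x := map_nonneg π hx
    have h2 : 0 ≤ inner ℂ (P Ω) (π x (P Ω)) :=
      ((ContinuousLinearMap.nonneg_iff_isPositive _).1 h1).inner_nonneg_right _
    have h3 := Complex.le_def.1 h2
    exact ⟨h3.1, h3.2.symm⟩
  · -- centrality
    intro e he hp x hx
    obtain ⟨R, hR1, hR2, hR3⟩ := exists_rightMul Φ hp (hΦ e he hp)
    have heM : e ∈ M := hle he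
    have hRΩ : R Ω = π e Ω := by
      have := hR1 1
      rw [one_mul, map_one] at this
      exact this
    have hRK : ∀ v ∈ K, R v ∈ K := by
      intro v hv
      change WCont M _
      refine (WCont.mul_left (mem_normalSpace.1 hv) heM).congr fun y _ => ?_
      rw [← hR2, ← hR3, hRΩ, gns_adj, hp.isSelfAdjoint.star_eq, map_mul]
      rfl
    have hRP : ∀ u, R (P u) = P (R u) := fun u => commute_starProjection' K hR3 hRK hRK u
    have h1 : π e (P Ω) = R (P Ω) := by rw [hcomm e heM, ← hRΩ, hRP]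
    rw [hψ, hψ, map_mul, map_mul]
    change inner ℂ (P Ω) (π e (π x (P Ω))) = inner ℂ (P Ω) (π x (π e (P Ω)))
    rw [h1, ← hR2, ← hR3, ← h1, gns_adj, hp.isSelfAdjoint.star_eq]
  · -- normality
    have h1 : P Ω ∈ K := hPK Ω
    refine (mem_normalSpace.1 h1).congr fun x hx => ?_
    rw [hψ, hPsym, ← hcomm x hx, hPP]
  · rw [hψ, map_one]
    change inner ℂ (P Ω) (P Ω) ≠ 0
    rw [inner_self_ne_zero]
    intro h0
    apply hne
    have : P κ = κ := K.starProjection_eq_self_iff.2 hκ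
    rw [← this, ← hPsym, h0, inner_zero_left]
  · intro e he hp
    have hes := hp.isSelfAdjoint.star_eq
    have hee : e * e = e := hp.isIdempotentElem
    have h1 : ∀ u, inner ℂ u (π e u) = inner ℂ (π e u) (π e u) := by
      intro u
      rw [gns_adj, hes]
      change _ = inner ℂ u ((π e * π e) u)
      rw [← map_mul, hee]
    have h2 : (ψ e).re = ‖π e (P Ω)‖ ^ 2 := by
      rw [hψ, h1, inner_self_eq_norm_sq_to_K]
      norm_cast
    have h3 : (Φ e).re = ‖π e Ω‖ ^ 2 := by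
      have : Φ e = inner ℂ (π e Ω) (π e Ω) := by
        rw [gns_inner, hes, hee]
      rw [this, inner_self_eq_norm_sq_to_K]
      norm_cast
    rw [h2, h3, hcomm e he]
    gcongr
    exact K.norm_starProjection_apply_le _

/-- either `Φ(m m*)` and `m - 1` can be made small simultaneously, or `Φ` has a non-zero normal
central part -/
theorem exists_centralNormal_or (Φ : (H →L[ℂ] H) →ₚ[ℂ] ℂ) (hle : A ≤ M.toStarSubalgebra)
    (hΦ : ∀ e ∈ A, IsStarProjection e → ∀ x, Φ (e * x) = Φ (x * e)) {n : ℕ} (ξ : Fin n → H) :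
    (∀ ε > 0, ∃ m ∈ M, (∀ i, ‖ξ i - m (ξ i)‖ < ε) ∧ (Φ (m * star m)).re < ε) ∨
    ∃ ψ : (H →L[ℂ] H) →ₗ[ℂ] ℂ, CentralNormal M A ψ ∧ ψ 1 ≠ 0 ∧
      ∀ e ∈ M, IsStarProjection e → (ψ e).re ≤ (Φ e).re := by
  set π := Φ.gnsStarAlgHom with hπ
  set Ω := cyc Φ with hΩ
  let lam : (H →L[ℂ] H) → WithLp 2 (PiLp 2 (fun _ : Fin n => H) × Φ.GNS) :=
    fun m => WithLp.toLp 2 (WithLp.toLp 2 (fun i => m (ξ i)), π (star m) Ω)
  let p : WithLp 2 (PiLp 2 (fun _ : Fin n => H) × Φ.GNS) :=
    WithLp.toLp 2 (WithLp.toLp 2 ξ, 0)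
  have hsmulM : ∀ (c : ℂ) (y : H →L[ℂ] H), y ∈ M → c • y ∈ M := fun c y hy =>
    M.toStarSubalgebra.smul_mem hy c
  have hlam : ∀ m, lam m = WithLp.toLp 2 (WithLp.toLp 2 (fun i => m (ξ i)), π (star m) Ω) :=
    fun m => rfl
  have hV0 : (0 : WithLp 2 (PiLp 2 (fun _ : Fin n => H) × Φ.GNS)) ∈ lam '' {m | m ∈ M} := by
    refine ⟨0, zero_mem M, ?_⟩
    rw [hlam, star_zero, map_zero]
    rfl
  have hVadd : ∀ x ∈ lam '' {m | m ∈ M}, ∀ y ∈ lam '' {m | m ∈ M},
      x + y ∈ lam '' {m | m ∈ M} := by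
    rintro _ ⟨m, hm, rfl⟩ _ ⟨m', hm', rfl⟩
    have hmm : m + m' ∈ M := add_mem (S := VonNeumannAlgebra H) hm hm'
    refine ⟨m + m', hmm, ?_⟩
    rw [hlam, hlam, hlam, star_add, map_add]
    rfl
  have hVsmul : ∀ c : ℝ, ∀ x ∈ lam '' {m | m ∈ M}, (c : ℂ) • x ∈ lam '' {m | m ∈ M} := by
    rintro c _ ⟨m, hm, rfl⟩
    refine ⟨(c : ℂ) • m, hsmulM _ _ hm, ?_⟩
    rw [hlam, hlam, star_smul, Complex.star_def, Complex.conj_ofReal, map_smul]
    rfl
  rcases real_residual (lam '' {m | m ∈ M}) hV0 hVadd hVsmul p with h | ⟨d, hd1, hd2⟩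
  · left
    intro ε hε
    set ε' := min 1 ε with hε'
    have hε0 : 0 < ε' := lt_min one_pos hε
    have hε1 : ε' ≤ 1 := min_le_left _ _
    have hε2 : ε' ≤ ε := min_le_right _ _
    obtain ⟨q, ⟨m, hm, rfl⟩, hq⟩ := Metric.mem_closure_iff.1 h ε' hε0
    rw [dist_eq_norm, ← sq_lt_sq₀ (norm_nonneg _) hε0.le, WithLp.prod_norm_sq_eq_of_L2] at hq
    have h1 : ‖(p - lam m).fst‖ ^ 2 = ∑ i, ‖ξ i - m (ξ i)‖ ^ 2 := by
      rw [PiLp.norm_sq_eq_of_L2]
      rfl
    have h2 : ‖(p - lam m).snd‖ ^ 2 = (Φ (m * star m)).re := by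
      have e1 : (p - lam m).snd = - (π (star m) Ω) := by
        change (0 : Φ.GNS) - π (star m) Ω = _
        rw [zero_sub]
      rw [e1, norm_neg]
      have e2 : Φ (m * star m) = inner ℂ (π (star m) Ω) (π (star m) Ω) := by
        rw [gns_inner, star_star]
      rw [e2, inner_self_eq_norm_sq_to_K]
      norm_cast
    rw [h1, h2] at hq
    have h3 : 0 ≤ (Φ (m * star m)).re := by rw [← h2]; positivity
    have h4 : ε' ^ 2 ≤ ε' := by nlinarith only [hε0, hε1]
    refine ⟨m, hm, fun i => ?_, ?_⟩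
    · have h5 : ‖ξ i - m (ξ i)‖ ^ 2 ≤ ∑ i, ‖ξ i - m (ξ i)‖ ^ 2 :=
        Finset.single_le_sum (f := fun i => ‖ξ i - m (ξ i)‖ ^ 2) (fun j _ => sq_nonneg _)
          (Finset.mem_univ i)
      have h6 : ‖ξ i - m (ξ i)‖ ^ 2 < ε' ^ 2 := by linarith
      exact lt_of_lt_of_le ((sq_lt_sq₀ (norm_nonneg _) hε0.le).1 h6) hε2
    · have h5 : 0 ≤ ∑ i, ‖ξ i - m (ξ i)‖ ^ 2 := Finset.sum_nonneg fun i _ => sq_nonneg _
      linarith
  · right
    set v := d.fst with hv
    set κ := d.snd with hκ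
    have hin : ∀ m ∈ M, (∑ i, inner ℂ (m (ξ i)) (v i) + inner ℂ (π (star m) Ω) κ).re = 0 := by
      intro m hm
      exact hd1 (lam m) ⟨m, hm, rfl⟩
    have hform : ∀ m ∈ M, inner ℂ Ω (π m κ) = - ∑ i, inner ℂ (v i) (m (ξ i)) := by
      intro m hm
      have h1 := hin m hm
      have h2 := hin (Complex.I • m) (hsmulM _ _ hm)
      have e1 : inner ℂ (π (star m) Ω) κ = inner ℂ Ω (π m κ) := by
        rw [gns_adj, star_star]
      have e2 : π (star (Complex.I • m)) Ω = (-Complex.I) • π (star m) Ω := by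
        rw [star_smul, Complex.star_def, Complex.conj_I, map_smul, smul_apply]
      have e3 : ∑ i, inner ℂ ((Complex.I • m) (ξ i)) (v i)
          = (-Complex.I) * ∑ i, inner ℂ (m (ξ i)) (v i) := by
        rw [Finset.mul_sum]
        refine Finset.sum_congr rfl fun i _ => ?_
        rw [smul_apply, inner_smul_left, Complex.conj_I]
      have e4 : ∑ i, inner ℂ (v i) (m (ξ i))
          = (starRingEnd ℂ) (∑ i, inner ℂ (m (ξ i)) (v i)) := by
        rw [map_sum]
        refine Finset.sum_congr rfl fun i _ => ?_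
        rw [inner_conj_symm]
      rw [e1] at h1
      rw [e2, e3, inner_smul_left, e1] at h2
      rw [e4]
      generalize ∑ i, inner ℂ (m (ξ i)) (v i) = α at h1 h2 ⊢
      generalize inner ℂ Ω (π m κ) = β at h1 h2 ⊢
      apply Complex.ext
      · simp only [Complex.add_re, Complex.neg_re, Complex.conj_re] at h1 ⊢; linarith only [h1]
      · simp only [neg_mul, map_neg, Complex.conj_I, neg_neg, Complex.add_re, Complex.neg_re, Complex.mul_re, Complex.I_re, zero_mul, Complex.I_im, one_mul, zero_sub, Complex.neg_im, Complex.conj_im] at h2 ⊢; linarith only [h2]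
    have hκn : κ ∈ normalSpace M Φ := by
      rw [mem_normalSpace]
      have h1 : WCont M (fun x => - ∑ i, inner ℂ (v i) (x (ξ i))) :=
        (WCont.sum _ fun i _ => WCont.inner_apply (v i) (ξ i)).neg
      exact h1.congr fun x hx => (hform x hx).symm
    have hne : inner ℂ Ω κ ≠ 0 := by
      have h1 := hform 1 (one_mem M)
      rw [map_one] at h1
      change inner ℂ Ω κ = _ at h1
      rw [h1]
      intro h0
      have h2 : (inner ℂ p d).re = (∑ i, inner ℂ (ξ i) (v i)).re := by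
        change (inner ℂ (WithLp.toLp 2 ξ : PiLp 2 (fun _ : Fin n => H)) v
          + inner ℂ (0 : Φ.GNS) κ).re = _
        rw [inner_zero_left, add_zero]
        rfl
      rw [h2] at hd2
      have h3 : (∑ i, inner ℂ (v i) ((1 : H →L[ℂ] H) (ξ i)))
          = (starRingEnd ℂ) (∑ i, inner ℂ (ξ i) (v i)) := by
        rw [map_sum]
        refine Finset.sum_congr rfl fun i _ => ?_
        rw [inner_conj_symm, one_apply_eq_self]
      rw [neg_eq_zero, h3] at h0
      have h4 := congrArg Complex.re h0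
      rw [Complex.conj_re, Complex.zero_re] at h4
      linarith only [hd2, h4]
    exact exists_centralNormal_of Φ hle hΦ hκn hne

end Vale.Agent.P078
end

end

section
section

namespace Vale.Agent.P078

open Filter Topology
open scoped ComplexOrder

variable {H : Type*} [NormedAddCommGroup H] [InnerProductSpace ℂ H] [CompleteSpace H]
variable {M : VonNeumannAlgebra H} {A : StarSubalgebra ℂ (H →L[ℂ] H)}

theorem norm_proj_le {e : H →L[ℂ] H} (he : IsStarProjection e) (u : H) : ‖e u‖ ≤ ‖u‖ := by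
  have h1 : ‖e u‖ ^ 2 ≤ ‖u‖ * ‖e u‖ := by
    rw [← proj_inner_self he]
    exact (Complex.re_le_norm _).trans (norm_inner_le_norm _ _)
  by_cases h0 : ‖e u‖ = 0
  · rw [h0]; exact norm_nonneg _
  · have : 0 < ‖e u‖ := lt_of_le_of_ne (norm_nonneg _) (Ne.symm h0)
    nlinarith only [h1, this]

theorem norm_sq_proj_add {e : H →L[ℂ] H} (he : IsStarProjection e) (u : H) :
    ‖u‖ ^ 2 = ‖e u‖ ^ 2 + ‖u - e u‖ ^ 2 := by
  have h1 := proj_inner_self he u
  have h2 := proj_inner_self he.one_sub u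
  rw [sub_apply, one_apply_eq_self, inner_sub_right, Complex.sub_re, inner_self_re] at h2
  linarith only [h1, h2]

/-- from an almost fixing operator with small `Φ(m m*)` to an almost fixing projection -/
theorem exists_proj_of_small {m : H →L[ℂ] H} (hm : m ∈ M) {τ : ℝ} (hτ : 0 < τ) :
    ∃ e ∈ M, IsStarProjection e ∧ (τ : ℂ) • e ≤ m * star m ∧
      ∀ u : H, ‖u - e u‖ ≤ ‖u - m u‖ + √τ * ‖u‖ := by
  set T := m * star m with hT
  have hTsa : IsSelfAdjoint T := IsSelfAdjoint.mul_star_self m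
  have hTM : T ∈ M := mul_mem hm (star_mem hm)
  obtain ⟨e, hep, hec, he1, he2⟩ := exists_spectral_proj T hTsa τ
  have heM : e ∈ M := spectral_proj_mem hTM hec
  have hTe : T * e = e * T := hec T rfl
  have hee : e * e = e := hep.isIdempotentElem
  refine ⟨e, heM, hep, ?_, ?_⟩
  · rw [← sub_nonneg]
    have hsa : IsSelfAdjoint ((τ : ℂ) • e) := by
      rw [IsSelfAdjoint, star_smul, hep.isSelfAdjoint.star_eq, Complex.star_def,
        Complex.conj_ofReal]
    refine nonneg_of_inner (hTsa.sub hsa) fun ζ => ?_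
    rw [sub_apply, inner_sub_right, Complex.sub_re, smul_apply, inner_smul_right,
      Complex.re_ofReal_mul, proj_inner_self hep]
    have h1 := he1 (e ζ) (proj_apply_apply hep ζ)
    have h2 : (inner ℂ ζ (T ζ)).re = (inner ℂ (e ζ) (T (e ζ))).re
        + (inner ℂ (ζ - e ζ) (T (ζ - e ζ))).re := by
      have e1 : T = e * T * e + (1 - e) * T * (1 - e) := by
        have : (1 - e) * T * (1 - e) = T - T * e - e * T + e * T * e := by noncomm_ring
        rw [this, mul_assoc e T e, hTe, ← mul_assoc, hee]; abel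
      have e2 : inner ℂ (e ζ) (T (e ζ)) = inner ℂ ζ ((e * T * e) ζ) := proj_inner hep _ _
      have e3 : inner ℂ (ζ - e ζ) (T (ζ - e ζ)) = inner ℂ ζ (((1 - e) * T * (1 - e)) ζ) :=
        proj_inner hep.one_sub _ _
      rw [e2, e3, ← Complex.add_re, ← inner_add_right, ← add_apply, ← e1]
    have h3 : 0 ≤ (inner ℂ (ζ - e ζ) (T (ζ - e ζ))).re :=
      inner_nonneg_of_nonneg (mul_star_self_nonneg m) _
    linarith only [h1, h2, h3]
  · intro u
    -- the operator (1 - e) m has norm ≤ √τ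
    have hstar : ∀ ζ : H, ‖star m (ζ - e ζ)‖ ≤ √τ * ‖ζ‖ := by
      intro ζ
      have h1 := he2 (ζ - e ζ) (by rw [map_sub, proj_apply_apply hep, sub_self])
      have h2 : (inner ℂ (ζ - e ζ) (T (ζ - e ζ))).re = ‖star m (ζ - e ζ)‖ ^ 2 := by
        rw [hT, mul_apply_eq_comp, ← star_apply_inner, inner_self_re]
      rw [h2] at h1
      have h3 : ‖ζ - e ζ‖ ≤ ‖ζ‖ := norm_proj_le hep.one_sub ζ
      rw [← sq_le_sq₀ (norm_nonneg _) (by (clear * - hτ; positivity)), mul_pow, Real.sq_sqrt hτ.le]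
      calc ‖star m (ζ - e ζ)‖ ^ 2 ≤ τ * ‖ζ - e ζ‖ ^ 2 := h1
        _ ≤ τ * ‖ζ‖ ^ 2 := by (clear * - hτ h3; gcongr)
    have hm2 : ‖m u - e (m u)‖ ≤ √τ * ‖u‖ := by
      set w := m u - e (m u) with hw
      have h1 : ‖w‖ ^ 2 = (inner ℂ u (star m (w - e w))).re := by
        have h2 : e w = 0 := by rw [hw, map_sub, proj_apply_apply hep, sub_self]
        rw [h2, sub_zero]
        have h3 : inner ℂ u (star m w) = inner ℂ (m u) w := by
          have := star_apply_inner (star m) u w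
          rw [star_star] at this
          exact this.symm
        rw [h3]
        have h4 : inner ℂ (m u) w = inner ℂ w w := by
          have h5 : inner ℂ (e (m u)) w = 0 := by
            rw [proj_inner hep, h2, inner_zero_right]
          conv_rhs => rw [hw, inner_sub_left, ← hw, h5, sub_zero]
        rw [h4, inner_self_re]
      have h2 : ‖w‖ ^ 2 ≤ ‖u‖ * (√τ * ‖w‖) := by
        rw [h1]
        refine (Complex.re_le_norm _).trans ((norm_inner_le_norm _ _).trans ?_)
        gcongr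
        exact hstar w
      by_cases h0 : ‖w‖ = 0
      · rw [h0]; (clear * - hτ; positivity)
      · have : 0 < ‖w‖ := lt_of_le_of_ne (norm_nonneg _) (Ne.symm h0)
        have h3 : ‖w‖ * ‖w‖ ≤ (√τ * ‖u‖) * ‖w‖ := by linarith only [h2]
        exact le_of_mul_le_mul_right h3 this
    have e1 : u - e u = ((u - m u) - e (u - m u)) + (m u - e (m u)) := by
      rw [map_sub]; abel
    rw [e1]
    refine (norm_add_le _ _).trans (add_le_add ?_ hm2)
    exact norm_proj_le hep.one_sub _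

/-- if all normal central functionals vanish on `w`, then the corner `w` has the small property -/
theorem smallProp_of_null (hA : IsMASA A M) {w : H →L[ℂ] H} (hw : w ∈ A)
    (hwp : IsStarProjection w)
    (hnull : ∀ ψ : (H →L[ℂ] H) →ₗ[ℂ] ℂ, CentralNormal M A ψ → ψ w = 0) : SmallProp M A w := by
  intro F hF δ hδ
  have hne : (Part.filter A).NeBot := Part.filter_neBot hA.2.1
  set U : Ultrafilter (Part A) := Ultrafilter.of (Part.filter A) with hU
  have hUle : (U : Filter (Part A)) ≤ Part.filter A := Ultrafilter.of_le _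
  obtain ⟨E, hE1, hE2, hE3, hE4, hE5, hE6, hE7, hE8⟩ := exists_limit_expectation' hA U hUle
  -- enumerate F
  set n := F.card
  set ξ : Fin n → H := fun i => (F.equivFin.symm i : H) with hξ
  have hξF : ∀ i, ξ i ∈ F := fun i => (F.equivFin.symm i).2
  have hFξ : ∀ u ∈ F, ∃ i, ξ i = u := fun u hu => ⟨F.equivFin ⟨u, hu⟩, by simp [hξ]⟩
  let φ : (H →L[ℂ] H) →ₗ[ℂ] ℂ :=
    { toFun := fun x => ∑ i, inner ℂ (ξ i) (E x (ξ i))
      map_add' := fun x y => by
        rw [← Finset.sum_add_distrib]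
        refine Finset.sum_congr rfl fun i _ => ?_
        rw [map_add, add_apply, inner_add_right]
      map_smul' := fun c x => by
        rw [RingHom.id_apply, smul_eq_mul, Finset.mul_sum]
        refine Finset.sum_congr rfl fun i _ => ?_
        rw [map_smul, smul_apply, inner_smul_right] }
  have hφ : ∀ x, φ x = ∑ i, inner ℂ (ξ i) (E x (ξ i)) := fun x => rfl
  let Φ : (H →L[ℂ] H) →ₚ[ℂ] ℂ := PositiveLinearMap.mk₀ φ (by
    intro x hx
    rw [hφ]
    refine Finset.sum_nonneg fun i _ => ?_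
    exact ((ContinuousLinearMap.nonneg_iff_isPositive _).1 (hE4 x hx)).inner_nonneg_right _)
  have hΦ : ∀ x, Φ x = ∑ i, inner ℂ (ξ i) (E x (ξ i)) := fun x => rfl
  have hcentral : ∀ e ∈ A, IsStarProjection e → ∀ x, Φ (e * x) = Φ (x * e) := by
    intro e he _ x
    rw [hΦ, hΦ, (hE6 e he x).1, (hE6 e he x).2, hE8 x e he]
  rcases exists_centralNormal_or Φ hA.1 hcentral ξ with h | ⟨ψ, hψ, hψ1, hψle⟩
  swap
  · exfalso
    apply hψ1
    have hwM : w ∈ M := hA.1 hw
    have h1 : (ψ (1 - w)).re ≤ (Φ (1 - w)).re :=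
      hψle _ (sub_mem (one_mem M) hwM) hwp.one_sub
    have h2 : Φ (1 - w) = 0 := by
      rw [hΦ]
      refine Finset.sum_eq_zero fun i _ => ?_
      rw [hE7 _ (sub_mem (one_mem A) hw), sub_apply, one_apply_eq_self, hF _ (hξF i), sub_self,
        inner_zero_right]
    have h3 := hψ.nonneg (1 - w) (sub_mem (one_mem M) hwM) hwp.one_sub.nonneg
    rw [h2, Complex.zero_re] at h1
    have h4 : ψ (1 - w) = 0 := Complex.ext (le_antisymm h1 h3.1) h3.2
    have h5 := hnull ψ hψ
    rw [map_sub, h5, sub_zero] at h4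
    exact h4
  · obtain ⟨C, hC⟩ : ∃ C, C = 1 + ∑ i, ‖ξ i‖ := ⟨_, rfl⟩
    have hCi : ∀ i, ‖ξ i‖ ≤ C := by
      intro i
      rw [hC]
      have := Finset.single_le_sum (f := fun i => ‖ξ i‖) (fun j _ => norm_nonneg _)
        (Finset.mem_univ i)
      linarith only [this]
    have hC0 : 0 < C := by
      rw [hC]
      have : 0 ≤ ∑ i, ‖ξ i‖ := Finset.sum_nonneg fun i _ => norm_nonneg _
      linarith only [this]
    set τ : ℝ := (δ / (4 * C)) ^ 2 with hτ
    have hτ0 : 0 < τ := by (clear * - hδ hC0; positivity)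
    have hτC : √τ * C = δ / 4 := by
      rw [hτ, Real.sqrt_sq (by (clear * - hδ hC0; positivity))]
      field_simp
    set s : ℝ := δ ^ 2 with hs
    have hs0 : 0 < s := by (clear * - hδ; positivity)
    set κ : ℝ := s * (δ / 4) ^ 2 with hκ
    have hκ0 : 0 < κ := by (clear * - hδ; positivity)
    obtain ⟨m, hm, hm1, hm2⟩ := h (min (δ / 4) (τ * κ)) (lt_min (by (clear * - hδ; positivity)) (by (clear * - hδ hC0; positivity)))
    obtain ⟨e, heM, hep, hele, hed⟩ := exists_proj_of_small hm hτ0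
    have hΦe : (Φ e).re < κ := by
      have h1 : Φ ((τ : ℂ) • e) ≤ Φ (m * star m) := OrderHomClass.mono Φ hele
      have h2 := (Complex.le_def.1 h1).1
      rw [map_smul, smul_eq_mul, Complex.re_ofReal_mul] at h2
      have h3 : τ * (Φ e).re < τ * κ := lt_of_le_of_lt h2 (lt_of_lt_of_le hm2 (min_le_right _ _))
      exact lt_of_mul_lt_mul_left h3 hτ0.le
    have htend : Tendsto (fun Q : Part A => (∑ i, inner ℂ (ξ i) (Q.E e (ξ i))).re) U
        (𝓝 (Φ e).re) := by
      refine (Complex.continuous_re.tendsto _).comp ?_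
      rw [hΦ]
      exact tendsto_finsetSum _ fun i _ => hE1 e (ξ i) (ξ i)
    obtain ⟨Q, hQ⟩ := (htend.eventually (gt_mem_nhds hΦe)).exists
    set b := Q.E e with hb
    have hb0 : 0 ≤ b := Q.E_nonneg hep.nonneg
    have hbM : b ∈ M := Q.E_mem hA.1 heM
    have hbsa : IsSelfAdjoint b := IsSelfAdjoint.of_nonneg hb0
    obtain ⟨g', hg'p, hg'c, hg'1, hg'2⟩ := exists_spectral_proj b hbsa s
    have hg'M : g' ∈ M := spectral_proj_mem hbM hg'c
    have hQb : ∀ j, Q.e j * b = b * Q.e j := fun j => by rw [hb, Q.e_mul_E, Q.E_mul_e]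
    have hQg' : ∀ j, Q.e j * g' = g' * Q.e j := fun j => hg'c _ (hQb j)
    have hbg' : b * g' = g' * b := hg'c b rfl
    have hg'g' : g' * g' = g' := hg'p.isIdempotentElem
    set g := 1 - g' with hg
    have hgp : IsStarProjection g := hg'p.one_sub
    have hgM : g ∈ M := sub_mem (one_mem M) hg'M
    have hQg : ∀ j, Q.e j * g = g * Q.e j := fun j => by
      rw [hg, mul_sub, sub_mul, hQg' j, mul_one, one_mul]
    have hg'ξ : ∀ i, ‖g' (ξ i)‖ ≤ δ / 4 := by
      intro i
      have h1 := hg'1 (g' (ξ i)) (proj_apply_apply hg'p _)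
      have h2 : (inner ℂ (ξ i) (b (ξ i))).re = (inner ℂ (g' (ξ i)) (b (g' (ξ i)))).re
          + (inner ℂ (g (ξ i)) (b (g (ξ i)))).re := by
        have e1 : b = g' * b * g' + g * b * g := by
          have : g * b * g = b - b * g' - g' * b + g' * b * g' := by rw [hg]; noncomm_ring
          rw [this, mul_assoc g' b g', hbg', ← mul_assoc, hg'g']; abel
        rw [proj_inner hg'p, proj_inner hgp, ← Complex.add_re, ← inner_add_right]
        congr 2
        exact DFunLike.congr_fun e1 (ξ i)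
      have h3 : 0 ≤ (inner ℂ (g (ξ i)) (b (g (ξ i)))).re := inner_nonneg_of_nonneg hb0 _
      have h4 : (inner ℂ (ξ i) (b (ξ i))).re ≤ (∑ i, inner ℂ (ξ i) (b (ξ i))).re := by
        rw [Complex.re_sum]
        exact Finset.single_le_sum (f := fun i => (inner ℂ (ξ i) (b (ξ i))).re)
          (fun j _ => inner_nonneg_of_nonneg hb0 _) (Finset.mem_univ i)
      have h5 : s * ‖g' (ξ i)‖ ^ 2 ≤ s * (δ / 4) ^ 2 := by
        rw [← hκ]; linarith only [hQ, h1, h2, h3, h4]
      have h6 : ‖g' (ξ i)‖ ^ 2 ≤ (δ / 4) ^ 2 := le_of_mul_le_mul_left h5 hs0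
      exact (sq_le_sq₀ (norm_nonneg _) (by (clear * - hδ; positivity))).1 h6
    have hwM : w ∈ M := hA.1 hw
    refine ⟨w * (g * e), mul_mem hwM (mul_mem hgM heM), ?_, ?_, ?_, Q, ?_⟩
    · refine ContinuousLinearMap.opNorm_le_bound _ zero_le_one fun ζ => ?_
      rw [one_mul]
      exact (norm_proj_le hwp _).trans ((norm_proj_le hgp _).trans (norm_proj_le hep _))
    · rw [← mul_assoc, hwp.isIdempotentElem.eq]
    · intro u hu
      obtain ⟨i, rfl⟩ := hFξ u hu
      have h1 : (w * (g * e)) (ξ i) - ξ i = w ((g (e (ξ i) - ξ i)) - g' (ξ i)) := by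
        have h2 : g (ξ i) = ξ i - g' (ξ i) := rfl
        have h3 : w (ξ i) = ξ i := hF _ (hξF i)
        have h4 : (w * (g * e)) (ξ i) = w (g (e (ξ i))) := rfl
        rw [map_sub g, h2, h4]
        rw [map_sub, map_sub, map_sub, h3]
        abel
      rw [h1]
      refine lt_of_le_of_lt (norm_proj_le hwp _) ?_
      refine lt_of_le_of_lt (norm_sub_le _ _) ?_
      have h2 : ‖g (e (ξ i) - ξ i)‖ ≤ ‖ξ i - m (ξ i)‖ + √τ * ‖ξ i‖ := by
        refine (norm_proj_le hgp _).trans ?_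
        rw [norm_sub_rev]
        exact hed (ξ i)
      have h3 : √τ * ‖ξ i‖ ≤ δ / 4 := by
        rw [← hτC]
        have := hCi i
        (clear * - hδ hC0 this; gcongr)
      have h4 : ‖ξ i - m (ξ i)‖ < δ / 4 := lt_of_lt_of_le (hm1 i) (min_le_left _ _)
      have h5 := hg'ξ i
      linarith only [hδ, h2, h3, h4, h5]
    · intro j
      have hje : Q.e j * (w * (g * e)) = w * (Q.e j * (g * e)) := by
        rw [← mul_assoc, hA.2.1 _ (Q.mem j) _ hw, mul_assoc]
      rw [hje]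
      have h1 : ‖w * (Q.e j * (g * e))‖ ≤ ‖Q.e j * (g * e)‖ := by
        refine ContinuousLinearMap.opNorm_le_bound _ (norm_nonneg _) fun ζ => ?_
        exact (norm_proj_le hwp _).trans ((Q.e j * (g * e)).le_opNorm ζ)
      refine h1.trans ?_
      have h2 : star (Q.e j * (g * e)) = e * (g * Q.e j) := by
        rw [star_mul, star_mul, hep.isSelfAdjoint.star_eq, hgp.isSelfAdjoint.star_eq,
          (Q.proj j).isSelfAdjoint.star_eq, mul_assoc]
      rw [← norm_star, h2]
      refine ContinuousLinearMap.opNorm_le_bound _ hδ.le fun ζ => ?_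
      set u := g (Q.e j ζ) with hu
      have hu1 : Q.e j u = u := by
        have h3 := DFunLike.congr_fun (hQg j) (Q.e j ζ)
        simp only [mul_apply_eq_comp] at h3
        rw [hu, h3, proj_apply_apply (Q.proj j)]
      have hu2 : g' u = 0 := by
        have : g' * g = 0 := by rw [hg, mul_sub, mul_one, hg'g', sub_self]
        exact DFunLike.congr_fun this _
      have hun : ‖u‖ ≤ ‖ζ‖ := (norm_proj_le hgp _).trans (norm_proj_le (Q.proj j) _)
      change ‖e u‖ ≤ δ * ‖ζ‖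
      have h4 : ‖e u‖ ^ 2 ≤ s * ‖u‖ ^ 2 := by
        rw [← proj_inner_self hep]
        have h5 : inner ℂ u (e u) = inner ℂ u (b u) := by
          have h6 : b u = Q.e j (e u) := by
            have h7 := DFunLike.congr_fun (Q.e_mul_E j e) u
            have h8 := DFunLike.congr_fun (hQb j) u
            simp only [mul_apply_eq_comp] at h7 h8
            rw [hu1] at h7 h8
            rw [← h8, hb, h7]
          rw [h6, ← proj_inner (Q.proj j), hu1]
        rw [h5]
        exact hg'2 u hu2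
      have h5 : ‖e u‖ ≤ δ * ‖u‖ := by
        rw [← sq_le_sq₀ (norm_nonneg _) (by (clear * - hδ; positivity)), mul_pow]
        exact h4
      exact h5.trans (by (clear * - hδ hun; gcongr))

end Vale.Agent.P078
end

section

namespace Vale.Agent.P078

open Filter Topology
open scoped ComplexOrder

variable {H : Type*} [NormedAddCommGroup H] [InnerProductSpace ℂ H] [CompleteSpace H]
variable {M : VonNeumannAlgebra H} {A : StarSubalgebra ℂ (H →L[ℂ] H)}

/-- weak operator limits of positive operators are positive -/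
theorem nonneg_of_tendsto {I : Type*} {l : Filter I} [l.NeBot] {T : I → (H →L[ℂ] H)}
    {L : H →L[ℂ] H} (hT : ∀ᶠ i in l, 0 ≤ T i)
    (hL : ∀ ξ η : H, Tendsto (fun i => inner ℂ ξ (T i η)) l (𝓝 (inner ℂ ξ (L η)))) : 0 ≤ L := by
  have hsa : IsSelfAdjoint L := by
    refine inner_ext fun ξ η => ?_
    have h1 := (Complex.continuous_conj.tendsto _).comp (hL η ξ)
    rw [inner_conj_symm] at h1
    refine tendsto_nhds_unique ?_ (hL ξ η)
    have h2 : inner ℂ ξ ((star L) η) = inner ℂ (L ξ) η := by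
      have := star_apply_inner (star L) ξ η
      rw [star_star] at this
      exact this.symm
    rw [h2]
    refine h1.congr' ?_
    filter_upwards [hT] with i hi
    rw [Function.comp_apply, inner_conj_symm]
    have h3 := (IsSelfAdjoint.of_nonneg hi).star_eq
    rw [← star_apply_inner, h3]
  refine nonneg_of_inner hsa fun ζ => ?_
  have h4 := (Complex.continuous_re.tendsto _).comp (hL ζ ζ)
  refine ge_of_tendsto h4 ?_
  filter_upwards [hT] with i hi
  exact inner_nonneg_of_nonneg hi ζ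

theorem commute_of_tendsto {I : Type*} {l : Filter I} [l.NeBot] {T : I → (H →L[ℂ] H)}
    {L y : H →L[ℂ] H} (hT : ∀ᶠ i in l, y * T i = T i * y)
    (hL : ∀ ξ η : H, Tendsto (fun i => inner ℂ ξ (T i η)) l (𝓝 (inner ℂ ξ (L η)))) :
    y * L = L * y := by
  refine inner_ext fun ξ η => ?_
  have h1 := hL (star y ξ) η
  simp only [star_apply_inner] at h1
  refine tendsto_nhds_unique h1 ((hL ξ (y η)).congr' ?_)
  filter_upwards [hT] with i hi
  change inner ℂ ξ ((T i * y) η) = inner ℂ ξ ((y * T i) η)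
  rw [hi]

theorem mem_of_tendsto' {I : Type*} {l : Filter I} [l.NeBot] {T : I → (H →L[ℂ] H)}
    {L : H →L[ℂ] H} (hT : ∀ᶠ i in l, T i ∈ M)
    (hL : ∀ ξ η : H, Tendsto (fun i => inner ℂ ξ (T i η)) l (𝓝 (inner ℂ ξ (L η)))) :
    L ∈ M := by
  refine mem_of_commute fun y hy => commute_of_tendsto ?_ hL
  filter_upwards [hT] with i hi
  exact commutant_comm hi hy

theorem IsMASA.mem_of_tendsto (hA : IsMASA A M) {I : Type*} {l : Filter I} [l.NeBot]
    {T : I → (H →L[ℂ] H)} {L : H →L[ℂ] H} (hT : ∀ᶠ i in l, T i ∈ A)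
    (hL : ∀ ξ η : H, Tendsto (fun i => inner ℂ ξ (T i η)) l (𝓝 (inner ℂ ξ (L η)))) :
    L ∈ A := by
  refine hA.mem (mem_of_tendsto' ?_ hL) fun a ha => commute_of_tendsto ?_ hL
  · filter_upwards [hT] with i hi
    exact hA.1 hi
  · filter_upwards [hT] with i hi
    exact hA.2.1 a ha _ hi

/-- Vigier's theorem -/
theorem tendsto_of_isLUB {D : Set (H →L[ℂ] H)} (hne : D.Nonempty)
    (hdir : DirectedOn (· ≤ ·) D) {y : H →L[ℂ] H} (hy : IsLUB D y) :
    ∃ l : Filter (H →L[ℂ] H), l.NeBot ∧ (∀ᶠ d in l, d ∈ D) ∧ (∃ R, ∀ᶠ d in l, ‖d‖ ≤ R) ∧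
      (∀ d ∈ D, ∀ᶠ d' in l, d ≤ d') ∧
      ∀ ξ η : H, Tendsto (fun d : H →L[ℂ] H => inner ℂ ξ (d η)) l (𝓝 (inner ℂ ξ (y η))) := by
  have hneD : Nonempty D := hne.to_subtype
  have hdirD : IsDirected D (· ≤ ·) := ⟨fun a b => by
    obtain ⟨c, hc, hac, hbc⟩ := hdir a.1 a.2 b.1 b.2
    exact ⟨⟨c, hc⟩, hac, hbc⟩⟩
  obtain ⟨d₀, hd₀⟩ := hne
  have hbd : ∀ d : D, d₀ ≤ d.1 → ‖y - d.1‖ ≤ ‖y - d₀‖ := by
    intro d hd
    refine CStarAlgebra.norm_le_norm_of_nonneg_of_le (sub_nonneg.2 (hy.1 d.2)) ?_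
    exact sub_le_sub_left hd y
  have hev : ∀ᶠ d : D in atTop, d₀ ≤ d.1 := by
    filter_upwards [eventually_ge_atTop (⟨d₀, hd₀⟩ : D)] with d hd
    exact hd
  refine ⟨(atTop : Filter D).map Subtype.val, inferInstance, ?_, ?_, ?_, ?_⟩
  · rw [eventually_map]
    exact Eventually.of_forall fun d => d.2
  · refine ⟨‖y‖ + ‖y - d₀‖, ?_⟩
    rw [eventually_map]
    filter_upwards [hev] with d hd
    calc ‖d.1‖ = ‖y - (y - d.1)‖ := by rw [sub_sub_cancel]
      _ ≤ ‖y‖ + ‖y - d.1‖ := norm_sub_le _ _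
      _ ≤ ‖y‖ + ‖y - d₀‖ := by gcongr; exact hbd d hd
  · intro d hd
    rw [eventually_map]
    filter_upwards [eventually_ge_atTop (⟨d, hd⟩ : D)] with d' hd'
    exact hd'
  · intro ξ η
    rw [tendsto_map'_iff, tendsto_iff_ultrafilter]
    intro V hV
    have hev' : ∀ᶠ d : D in (V : Filter D), d₀ ≤ d.1 := hV hev
    obtain ⟨L, _, hL⟩ := exists_wot_limit V (fun d : D => y - d.1) ‖y - d₀‖
      (hev'.mono fun d hd => hbd d hd) (norm_nonneg _)
    have hL0 : 0 ≤ L := nonneg_of_tendsto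
      (Eventually.of_forall fun d : D => sub_nonneg.2 (hy.1 d.2)) hL
    have hub : ∀ d ∈ D, d ≤ y - L := by
      intro d hd
      have h1 : 0 ≤ (y - d) - L := by
        refine nonneg_of_tendsto (l := (V : Filter D)) (T := fun d' : D => (y - d) - (y - d'.1))
          ?_ ?_
        · have : ∀ᶠ d' : D in (V : Filter D), d ≤ d'.1 := by
            refine hV ?_
            filter_upwards [eventually_ge_atTop (⟨d, hd⟩ : D)] with d' hd'
            exact hd'
          filter_upwards [this] with d' hd'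
          rw [sub_sub_sub_cancel_left]
          exact sub_nonneg.2 hd'
        · intro ξ' η'
          simp only [sub_apply ((y - d)), inner_sub_right (𝕜 := ℂ) ξ' ((y - d) η')]
          exact tendsto_const_nhds.sub (hL ξ' η')
      have h2 : y - L - d = (y - d) - L := by abel
      rw [← sub_nonneg, h2]
      exact h1
    have hyL : y ≤ y - L := hy.2 hub
    have hL' : L = 0 := by
      have h1 : 0 ≤ -L := by
        have := sub_nonneg.2 hyL
        rwa [sub_sub_cancel_left] at this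
      exact le_antisymm (neg_nonneg.1 h1) hL0
    have h3 := hL ξ η
    rw [hL'] at h3
    have h4 : Tendsto (fun d : D => inner ℂ ξ (y η) - inner ℂ ξ ((y - d.1) η)) V
        (𝓝 (inner ℂ ξ (y η) - inner ℂ ξ ((0 : H →L[ℂ] H) η))) := tendsto_const_nhds.sub h3
    simp only [zero_apply, inner_zero_right, sub_zero] at h4
    refine h4.congr fun d => ?_
    rw [Function.comp_apply, sub_apply, inner_sub_right, sub_sub_cancel]

theorem CentralNormal.E_eq {ψ : (H →L[ℂ] H) →ₗ[ℂ] ℂ} (hψ : CentralNormal M A ψ)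
    (hle : A ≤ M.toStarSubalgebra) (Q : Part A) {x : H →L[ℂ] H} (hx : x ∈ M) :
    ψ (Q.E x) = ψ x := by
  rw [Part.E_apply, map_sum]
  have h1 : ∀ i, ψ (Q.e i * x * Q.e i) = ψ (x * Q.e i) := by
    intro i
    rw [mul_assoc, hψ.central _ (Q.mem i) (Q.proj i) _ (mul_mem hx (hle (Q.mem i))), mul_assoc,
      Q.e_mul_self]
  simp_rw [h1]
  rw [← map_sum, ← Finset.mul_sum, Q.sum_eq, mul_one]

/-- the null projections of `A` -/
def nullSet (M : VonNeumannAlgebra H) (A : StarSubalgebra ℂ (H →L[ℂ] H)) : Set (H →L[ℂ] H) :=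
  {e | e ∈ A ∧ IsStarProjection e ∧
    ∀ ψ : (H →L[ℂ] H) →ₗ[ℂ] ℂ, CentralNormal M A ψ → ψ e = 0}

theorem CentralNormal.mono {ψ : (H →L[ℂ] H) →ₗ[ℂ] ℂ} (hψ : CentralNormal M A ψ)
    {x y : H →L[ℂ] H} (hx : x ∈ M) (hy : y ∈ M) (hxy : x ≤ y) (h0 : ψ y = 0) (hx0 : 0 ≤ x) :
    ψ x = 0 := by
  have h1 := hψ.nonneg (y - x) (sub_mem hy hx) (sub_nonneg.2 hxy)
  have h2 := hψ.nonneg x hx hx0
  rw [map_sub, h0, zero_sub, Complex.neg_re] at h1
  refine Complex.ext ?_ h2.2
  rw [Complex.zero_re]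
  linarith only [h1.1, h2.1]

theorem sup_mem_nullSet (hA : IsMASA A M) {e f : H →L[ℂ] H} (he : e ∈ nullSet M A)
    (hf : f ∈ nullSet M A) : e + f - e * f ∈ nullSet M A := by
  obtain ⟨heA, hep, he0⟩ := he
  obtain ⟨hfA, hfp, hf0⟩ := hf
  have hc : e * f = f * e := hA.2.1 e heA f hfA
  have hee : e * e = e := hep.isIdempotentElem
  have hff : f * f = f := hfp.isIdempotentElem
  have hg : IsStarProjection (f * (1 - e)) := by
    refine hfp.mul hep.one_sub ?_
    rw [commute_iff_eq, mul_sub, sub_mul, hc, mul_one, one_mul]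
  have h1 : e + f - e * f = e + f * (1 - e) := by rw [mul_sub, mul_one, hc]; abel
  refine ⟨sub_mem (add_mem heA hfA) (mul_mem heA hfA), ?_, ?_⟩
  · rw [h1]
    refine hep.add hg ?_
    rw [← mul_assoc, hc, mul_assoc, mul_sub, mul_one, hee, sub_self, mul_zero]
  · intro ψ hψ
    rw [h1, map_add, he0 ψ hψ, zero_add]
    have hfM : f ∈ M := hA.1 hfA
    have heM : e ∈ M := hA.1 heA
    refine hψ.mono (mul_mem hfM (sub_mem (one_mem M) heM)) hfM ?_ (hf0 ψ hψ) hg.nonneg
    have h2 : f - f * (1 - e) = f * e := by rw [mul_sub, mul_one, sub_sub_cancel]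
    rw [← sub_nonneg, h2]
    exact (hfp.mul hep (show Commute f e from hc.symm)).nonneg

end Vale.Agent.P078
end

section

namespace Vale.Agent.P078

open Filter Topology
open scoped ComplexOrder

variable {H : Type*} [NormedAddCommGroup H] [InnerProductSpace ℂ H] [CompleteSpace H]
variable {M : VonNeumannAlgebra H} {A : StarSubalgebra ℂ (H →L[ℂ] H)}

/-- the largest null projection -/
theorem exists_max_null (hA : IsMASA A M) :
    ∃ w ∈ nullSet M A, ∀ e ∈ nullSet M A, w * e = e := by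
  have h0 : (0 : H →L[ℂ] H) ∈ nullSet M A :=
    ⟨zero_mem A, IsStarProjection.zero _, fun ψ _ => map_zero ψ⟩
  let S : Submodule ℂ H :=
    { carrier := {v | ∃ e ∈ nullSet M A, e v = v}
      add_mem' := by
        rintro a b ⟨e, he, hea⟩ ⟨f, hf, hfb⟩
        refine ⟨e + f - e * f, sup_mem_nullSet hA he hf, ?_⟩
        have hc : e * f = f * e := hA.2.1 e he.1 f hf.1
        have e1 : (e * f) a = f a := by
          rw [hc]; change f (e a) = f a; rw [hea]
        have e2 : (e * f) b = e b := by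
          change e (f b) = e b; rw [hfb]
        rw [map_add]
        simp only [sub_apply, add_apply]
        rw [e1, e2, hea, hfb]
        abel
      zero_mem' := ⟨0, h0, by simp⟩
      smul_mem' := by
        rintro c a ⟨e, he, hea⟩
        exact ⟨e, he, by rw [map_smul, hea]⟩ }
  have hS : ∀ v, v ∈ S ↔ ∃ e ∈ nullSet M A, e v = v := fun v => Iff.rfl
  let K := S.topologicalClosure
  have hKc : IsClosed (K : Set H) := S.isClosed_topologicalClosure
  have : CompleteSpace K := hKc.completeSpace_coe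
  set w := K.starProjection with hw
  have hwp : IsStarProjection w := isStarProjection_starProjection
  have hinv : ∀ y : H →L[ℂ] H, (∀ e ∈ nullSet M A, y * e = e * y) → ∀ v ∈ K, y v ∈ K := by
    intro y hy v hv
    have h1 : ∀ v ∈ S, y v ∈ S := by
      rintro v ⟨e, he, hev⟩
      refine ⟨e, he, ?_⟩
      have := DFunLike.congr_fun (hy e he) v
      simp only [mul_apply_eq_comp] at this
      rw [← this, hev]
    have h2 : S ≤ K.comap (y : H →ₗ[ℂ] H) := fun v hv => S.le_topologicalClosure (h1 v hv)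
    have h3 : IsClosed ((K.comap (y : H →ₗ[ℂ] H) : Submodule ℂ H) : Set H) :=
      hKc.preimage y.continuous
    exact (S.topologicalClosure_minimal h2 h3) hv
  have hcomm : ∀ y : H →L[ℂ] H, (∀ e ∈ nullSet M A, y * e = e * y) → y * w = w * y := by
    intro y hy
    refine commute_starProjection K (hinv y hy) (hinv _ fun e he => ?_)
    have := congrArg star (hy e he)
    rw [star_mul, star_mul, he.2.1.isSelfAdjoint.star_eq] at this
    exact this.symm
  have hwM : w ∈ M := mem_of_commute fun y hy => hcomm y fun e he =>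
    commutant_comm (M := M) (hA.1 he.1) hy
  have hwA : w ∈ A := hA.mem hwM fun a ha => hcomm a fun e he => hA.2.1 a ha e he.1
  have hwe : ∀ e ∈ nullSet M A, w * e = e := by
    intro e he
    ext v
    change w (e v) = e v
    refine K.starProjection_eq_self_iff.2 (S.le_topologicalClosure ⟨e, he, ?_⟩)
    exact proj_apply_apply he.2.1 v
  refine ⟨w, ⟨hwA, hwp, fun ψ hψ => ?_⟩, hwe⟩
  -- normality along the net
  have hneN : Nonempty (nullSet M A) := ⟨⟨0, h0⟩⟩
  have hle : ∀ e ∈ nullSet M A, ∀ f ∈ nullSet M A, e ≤ e + f - e * f := by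
    intro e he f hf
    have hc : e * f = f * e := hA.2.1 e he.1 f hf.1
    have h1 : e + f - e * f - e = f * (1 - e) := by rw [mul_sub, mul_one, hc]; abel
    rw [← sub_nonneg, h1]
    refine (hf.2.1.mul he.2.1.one_sub ?_).nonneg
    rw [commute_iff_eq, mul_sub, sub_mul, hc, mul_one, one_mul]
  have hdir : IsDirected (nullSet M A) (· ≤ ·) := ⟨fun a b => by
    refine ⟨⟨_, sup_mem_nullSet hA a.2 b.2⟩, hle _ a.2 _ b.2, ?_⟩
    have := hle _ b.2 _ a.2
    rw [hA.2.1 _ b.2.1 _ a.2.1, add_comm] at this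
    exact this⟩
  have hconv : ∀ η : H, Tendsto (fun e : nullSet M A => e.1 η) atTop (𝓝 (w η)) := by
    intro η
    rw [Metric.tendsto_nhds]
    intro ε hε
    have h1 : w η ∈ closure (S : Set H) := K.starProjection_apply_mem η
    obtain ⟨v, ⟨e₀, he₀, hev⟩, hd⟩ := Metric.mem_closure_iff.1 h1 ε hε
    filter_upwards [eventually_ge_atTop (⟨e₀, he₀⟩ : nullSet M A)] with e he
    have hle' : e₀ ≤ e.1 := he
    have h2 : e.1 * e₀ = e₀ := (IsStarProjection.le_iff_mul_eq_right he₀.2.1 e.2.2.1).1 hle'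
    have h3 : e.1 v = v := by
      rw [← hev]
      exact DFunLike.congr_fun h2 v
    have h4 : e.1 (w η) = e.1 η := by
      have h5 : e.1 * w = w * e.1 := hA.2.1 _ e.2.1 _ hwA
      have h6 : e.1 * w = e.1 := by rw [h5, hwe _ e.2]
      exact DFunLike.congr_fun h6 η
    rw [dist_comm, dist_eq_norm]
    have h7 : w η - e.1 η = (1 - e.1) (w η - v) := by
      simp only [sub_apply, one_apply_eq_self, map_sub]
      rw [h3, h4]
      abel
    rw [h7]
    refine lt_of_le_of_lt ?_ hd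
    rw [dist_eq_norm]
    have h8 := proj_inner_self e.2.2.1.one_sub (w η - v)
    refine ContinuousLinearMap.le_of_opNorm_le _ ?_ _ |>.trans (le_of_eq (one_mul _))
    exact e.2.2.1.one_sub.norm_le
  have hlim := hψ.wcont 1 w ((atTop : Filter (nullSet M A)).map Subtype.val) hwM ?_ ?_
  · have h1 : Tendsto ψ ((atTop : Filter (nullSet M A)).map Subtype.val) (𝓝 0) := by
      rw [tendsto_map'_iff]
      refine tendsto_const_nhds.congr fun e => ?_
      exact (e.2.2.2 ψ hψ).symm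
    exact tendsto_nhds_unique hlim h1
  · rw [eventually_map]
    exact Eventually.of_forall fun e => ⟨hA.1 e.2.1, e.2.2.1.norm_le⟩
  · intro ξ η
    rw [tendsto_map'_iff]
    exact (tendsto_const_nhds (x := ξ)).inner (𝕜 := ℂ) (hconv η)

/-- central normal functionals are faithful above the largest null projection -/
theorem eq_zero_of_central (hA : IsMASA A M) {w : H →L[ℂ] H} (hwA : w ∈ A)
    (hmax : ∀ e ∈ nullSet M A, w * e = e) {b : H →L[ℂ] H} (hb : b ∈ A) (hb0 : 0 ≤ b)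
    (hwb : w * b = 0)
    (h : ∀ ψ : (H →L[ℂ] H) →ₗ[ℂ] ℂ, CentralNormal M A ψ → ψ b = 0) : b = 0 := by
  have hbsa : IsSelfAdjoint b := IsSelfAdjoint.of_nonneg hb0
  have key : ∀ t : ℝ, 0 < t → ∀ ζ, (inner ℂ ζ (b ζ)).re ≤ t * ‖ζ‖ ^ 2 := by
    intro t ht
    obtain ⟨e, hep, hec, he1, he2⟩ := exists_spectral_proj b hbsa t
    have heA : e ∈ A := hA.spectral_proj_mem hb hec
    have hbe : b * e = e * b := hec b rfl
    have hee : e * e = e := hep.isIdempotentElem
    have hsa : IsSelfAdjoint ((t : ℂ) • e) := by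
      rw [IsSelfAdjoint, star_smul, hep.isSelfAdjoint.star_eq, Complex.star_def,
        Complex.conj_ofReal]
    have hle : (t : ℂ) • e ≤ b := by
      rw [← sub_nonneg]
      refine nonneg_of_inner (hbsa.sub hsa) fun ζ => ?_
      rw [sub_apply, inner_sub_right, Complex.sub_re, smul_apply, inner_smul_right,
        Complex.re_ofReal_mul, proj_inner_self hep]
      have h1 := he1 (e ζ) (proj_apply_apply hep ζ)
      have h2 : (inner ℂ ζ (b ζ)).re = (inner ℂ (e ζ) (b (e ζ))).re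
          + (inner ℂ (ζ - e ζ) (b (ζ - e ζ))).re := by
        have e1 : b = e * b * e + (1 - e) * b * (1 - e) := by
          have : (1 - e) * b * (1 - e) = b - b * e - e * b + e * b * e := by noncomm_ring
          rw [this, mul_assoc e b e, hbe, ← mul_assoc, hee]; abel
        have e2 : inner ℂ (e ζ) (b (e ζ)) = inner ℂ ζ ((e * b * e) ζ) := proj_inner hep _ _
        have e3 : inner ℂ (ζ - e ζ) (b (ζ - e ζ)) = inner ℂ ζ (((1 - e) * b * (1 - e)) ζ) :=
          proj_inner hep.one_sub _ _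
        rw [e2, e3, ← Complex.add_re, ← inner_add_right, ← add_apply, ← e1]
      have h3 : 0 ≤ (inner ℂ (ζ - e ζ) (b (ζ - e ζ))).re := inner_nonneg_of_nonneg hb0 _
      linarith only [h1, h2, h3]
    have hnull : e ∈ nullSet M A := by
      refine ⟨heA, hep, fun ψ hψ => ?_⟩
      have hte0 : 0 ≤ (t : ℂ) • e := by
        refine nonneg_of_inner hsa fun ζ => ?_
        rw [smul_apply, inner_smul_right, Complex.re_ofReal_mul, proj_inner_self hep]
        (clear * - ht; (clear * - ht; positivity))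
      have h1 := hψ.mono (hA.1 (A.smul_mem heA _)) (hA.1 hb) hle (h ψ hψ) hte0
      rw [map_smul, smul_eq_mul] at h1
      rcases mul_eq_zero.1 h1 with h2 | h2
      · exact absurd (Complex.ofReal_eq_zero.1 h2) ht.ne'
      · exact h2
    have hwe := hmax e hnull
    have he0 : e = 0 := by
      have hbe0 : b * e = 0 := by
        have h1 : b * e = b * (w * e) := by rw [hwe]
        rw [h1, ← mul_assoc, hA.2.1 b hb w hwA, hwb, zero_mul]
      ext v
      have h1 := he1 (e v) (proj_apply_apply hep v)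
      have h2 : b (e v) = 0 := DFunLike.congr_fun hbe0 v
      rw [h2, inner_zero_right, Complex.zero_re] at h1
      have h3 : ‖e v‖ ^ 2 ≤ 0 := by
        by_contra hc
        push Not at hc
        have := mul_pos ht hc
        linarith only [h1, this]
      have h4 : ‖e v‖ = 0 := by nlinarith only [h3]
      simpa only [zero_apply, norm_eq_zero] using h4
    intro ζ
    exact he2 ζ (by rw [he0]; rfl)
  have h1 : 0 ≤ -b := by
    refine nonneg_of_inner hbsa.neg fun ζ => ?_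
    rw [neg_apply, inner_neg_right, Complex.neg_re, neg_nonneg]
    refine le_of_forall_pos_le_add fun ε hε => ?_
    have h2 := key (ε / (‖ζ‖ ^ 2 + 1)) (by (clear * - hε; positivity)) ζ
    refine h2.trans ?_
    rw [zero_add, div_mul_eq_mul_div, div_le_iff₀ (by positivity)]
    linarith only [hε, sq_nonneg ‖ζ‖]
  exact le_antisymm (neg_nonneg.1 h1) hb0

/-- the expected part -/
theorem exists_expected_part (hA : IsMASA A M) :
    ∃ z ∈ A, IsStarProjection z ∧ (∃ E, IsNormalExpectation M A z E) ∧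
      ∀ ψ : (H →L[ℂ] H) →ₗ[ℂ] ℂ, CentralNormal M A ψ → ψ (1 - z) = 0 := by
  obtain ⟨w, ⟨hwA, hwp, hw0⟩, hmax⟩ := exists_max_null hA
  have hne : (Part.filter A).NeBot := Part.filter_neBot hA.2.1
  set U : Ultrafilter (Part A) := Ultrafilter.of (Part.filter A) with hU
  have hUle : (U : Filter (Part A)) ≤ Part.filter A := Ultrafilter.of_le _
  obtain ⟨E, hE1, hE2, hE3, hE4, hE5, hE6, hE7, hE8⟩ := exists_limit_expectation' hA U hUle
  have hψE : ∀ ψ : (H →L[ℂ] H) →ₗ[ℂ] ℂ, CentralNormal M A ψ → ∀ x ∈ M, ψ (E x) = ψ x := by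
    intro ψ hψ x hx
    have h1 := hψ.wcont ‖x‖ (E x) ((U : Filter (Part A)).map fun Q => Q.E x) (hA.1 (hE3 x hx))
      ?_ ?_
    · rw [tendsto_map'_iff] at h1
      refine tendsto_nhds_unique h1 (tendsto_const_nhds.congr fun Q => ?_)
      exact (hψ.E_eq hA.1 Q hx).symm
    · rw [eventually_map]
      exact Eventually.of_forall fun Q => ⟨Q.E_mem hA.1 hx, Q.norm_E_le x⟩
    · intro ξ η
      rw [tendsto_map'_iff]
      exact hE1 x ξ η
  obtain ⟨z, hz⟩ : ∃ z, z = 1 - w := ⟨_, rfl⟩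
  have hzA : z ∈ A := by rw [hz]; exact sub_mem (one_mem A) hwA
  have hzp : IsStarProjection z := by rw [hz]; exact hwp.one_sub
  have hzz : z * z = z := hzp.isIdempotentElem
  have hzM : z ∈ M := hA.1 hzA
  have hwz : w * z = 0 := by rw [hz, mul_sub, mul_one, hwp.isIdempotentElem.eq, sub_self]
  have hnz : 1 - z = w := by rw [hz, sub_sub_cancel]
  -- the expectation
  let E' : (H →L[ℂ] H) →ₗ[ℂ] (H →L[ℂ] H) :=
    { toFun := fun x => z * E x
      map_add' := fun x y => by rw [map_add, mul_add]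
      map_smul' := fun c x => by rw [map_smul, mul_smul_comm, RingHom.id_apply] }
  have hE' : ∀ x, E' x = z * E x := fun x => rfl
  have hcorner : ∀ x, z * x * z = x → z * x = x ∧ x * z = x := by
    intro x hx
    constructor
    · rw [← hx, ← mul_assoc, ← mul_assoc, hzz]
    · rw [← hx, mul_assoc, hzz]
  have hE'x : ∀ x, z * x * z = x → E' x = E x := by
    intro x hx
    rw [hE', ← (hE6 z hzA x).1, (hcorner x hx).1]
  have hnn : ∀ x ∈ M, z * x * z = x → 0 ≤ x → 0 ≤ E' x := by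
    intro x hx hxz hx0
    rw [hE'x x hxz]
    exact hE4 x hx0
  have hψE' : ∀ ψ : (H →L[ℂ] H) →ₗ[ℂ] ℂ, CentralNormal M A ψ → ∀ x ∈ M, z * x * z = x →
      ψ (E' x) = ψ x := by
    intro ψ hψ x hx hxz
    rw [hE'x x hxz, hψE ψ hψ x hx]
  refine ⟨z, hzA, hzp, ⟨E', ?_, ?_, hnn, ?_, ?_⟩, ?_⟩
  · intro x hx hxz
    refine ⟨mul_mem hzA (hE3 x hx), ?_⟩
    rw [hE', ← mul_assoc, hzz]
  · intro a ha hza
    rw [hE', hE7 a ha, hza]
  · intro a ha b hb x hx hxz
    rw [hE', hE', (hE6 b hb _).2, (hE6 a ha x).1, ← mul_assoc, ← mul_assoc, ← mul_assoc,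
      hA.2.1 a ha z hzA]
  · -- normality
    intro D hne hdir hDM y hy
    obtain ⟨l, hl1, hl2, ⟨R, hl3⟩, hl4, hl5⟩ := tendsto_of_isLUB hne hdir hy
    have hyM : y ∈ M := mem_of_tendsto' (hl2.mono fun d hd => (hDM d hd).1) hl5
    have hyz : z * y * z = y := by
      refine inner_ext fun ξ η => ?_
      have h1 := hl5 (z ξ) (z η)
      rw [proj_inner hzp] at h1
      refine tendsto_nhds_unique (h1.congr' ?_) (hl5 ξ η)
      filter_upwards [hl2] with d hd
      rw [proj_inner hzp]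
      exact congrArg (inner ℂ ξ) (DFunLike.congr_fun (hDM d hd).2 η)
    constructor
    · rintro _ ⟨d, hd, rfl⟩
      rw [← sub_nonneg, ← map_sub]
      refine hnn _ (sub_mem hyM (hDM d hd).1) ?_ (sub_nonneg.2 (hy.1 hd))
      rw [mul_sub, sub_mul, hyz, (hDM d hd).2]
    · intro c hc
      -- limit of `E' d`
      set V := Ultrafilter.of l with hV
      have hVl : (V : Filter (H →L[ℂ] H)) ≤ l := Ultrafilter.of_le _
      have hRb : ∀ᶠ d in (V : Filter (H →L[ℂ] H)), ‖E' d‖ ≤ |R| := by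
        have h1 : ∀ᶠ d in (V : Filter (H →L[ℂ] H)), d ∈ D := hVl hl2
        have h2 : ∀ᶠ d in (V : Filter (H →L[ℂ] H)), ‖d‖ ≤ R := hVl hl3
        filter_upwards [h1, h2] with d hd hd'
        rw [hE'x d (hDM d hd).2]
        exact (hE2 d).trans (hd'.trans (le_abs_self R))
      obtain ⟨L, _, hL⟩ := exists_wot_limit V (fun d => E' d) |R| hRb (abs_nonneg R)
      have hVD : ∀ᶠ d in (V : Filter (H →L[ℂ] H)), d ∈ D := hVl hl2
      have hLA : L ∈ A := by
        refine hA.mem_of_tendsto (hVD.mono fun d hd => ?_) hL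
        rw [hE'x d (hDM d hd).2]
        exact hE3 d (hDM d hd).1
      have hyA : E' y ∈ A := by rw [hE'x y hyz]; exact hE3 y hyM
      have hb0 : 0 ≤ E' y - L := by
        refine nonneg_of_tendsto (l := (V : Filter (H →L[ℂ] H))) (T := fun d => E' y - E' d) ?_ ?_
        · refine hVD.mono fun d hd => ?_
          rw [← map_sub]
          refine hnn _ (sub_mem hyM (hDM d hd).1) ?_ (sub_nonneg.2 (hy.1 hd))
          rw [mul_sub, sub_mul, hyz, (hDM d hd).2]
        · intro ξ η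
          simp only [sub_apply, inner_sub_right]
          exact tendsto_const_nhds.sub (hL ξ η)
      have hzL : z * L = L := by
        refine inner_ext fun ξ η => ?_
        have h1 := hL (z ξ) η
        rw [proj_inner hzp] at h1
        refine tendsto_nhds_unique (h1.congr fun d => ?_) (hL ξ η)
        rw [proj_inner hzp]
        have h2 : z * E' d = E' d := by rw [hE', ← mul_assoc, hzz]
        exact congrArg (inner ℂ ξ) (DFunLike.congr_fun h2 η)
      have hzy : z * E' y = E' y := by rw [hE', ← mul_assoc, hzz]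
      have hwb : w * (E' y - L) = 0 := by
        rw [mul_sub, ← hzy, ← hzL, ← mul_assoc, ← mul_assoc, hwz, zero_mul, zero_mul, sub_zero]
      have hb : E' y - L = 0 := by
        refine eq_zero_of_central hA hwA hmax (sub_mem hyA hLA) hb0 hwb fun ψ hψ => ?_
        rw [map_sub, hψE' ψ hψ y hyM hyz, sub_eq_zero]
        -- ψ y = ψ L
        have h1 : Tendsto ψ V (𝓝 (ψ y)) := by
          refine hψ.wcont R y V hyM ?_ fun ξ η => (hl5 ξ η).mono_left hVl
          have h2 : ∀ᶠ d in (V : Filter (H →L[ℂ] H)), ‖d‖ ≤ R := hVl hl3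
          filter_upwards [hVD, h2] with d hd hd'
          exact ⟨(hDM d hd).1, hd'⟩
        have h2 : Tendsto ψ ((V : Filter (H →L[ℂ] H)).map fun d => E' d) (𝓝 (ψ L)) := by
          refine hψ.wcont |R| L _ (hA.1 hLA) ?_ ?_
          · rw [eventually_map]
            filter_upwards [hVD, hRb] with d hd hd'
            refine ⟨?_, hd'⟩
            rw [hE'x d (hDM d hd).2]
            exact hA.1 (hE3 d (hDM d hd).1)
          · intro ξ η
            rw [tendsto_map'_iff]
            exact hL ξ η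
        rw [tendsto_map'_iff] at h2
        refine tendsto_nhds_unique h1 (h2.congr' ?_)
        filter_upwards [hVD] with d hd
        exact hψE' ψ hψ d (hDM d hd).1 (hDM d hd).2
      rw [sub_eq_zero] at hb
      rw [hb, ← sub_nonneg]
      refine nonneg_of_tendsto (l := (V : Filter (H →L[ℂ] H))) (T := fun d => c - E' d) ?_ ?_
      · refine hVD.mono fun d hd => ?_
        exact sub_nonneg.2 (hc ⟨d, hd, rfl⟩)
      · intro ξ η
        simp only [sub_apply, inner_sub_right]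
        exact tendsto_const_nhds.sub (hL ξ η)
  · intro ψ hψ
    rw [hnz]
    exact hw0 ψ hψ

end Vale.Agent.P078
end

section

/-! Two averaging lemmas in inner product spaces. -/

open Finset

namespace Vale.Agent.P078

section Greedy

variable {E : Type*} [NormedAddCommGroup E] [InnerProductSpace ℂ E]

/-- Greedy selection. -/
theorem greedy_selection {J S : Type*} [Fintype S]
    (w : S → ℝ) (hw : ∀ s, 0 ≤ w s) (hw1 : ∑ s, w s = 1)
    (z : J → S → E) (C : J → ℝ)
    (hC : ∀ j s, ‖z j s - ∑ s', (w s' : ℂ) • z j s'‖ ≤ C j) (T : Finset J) :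
    ∃ σ : J → S, ‖∑ j ∈ T, (z j (σ j) - ∑ s', (w s' : ℂ) • z j s')‖ ^ 2 ≤ ∑ j ∈ T, C j ^ 2 := by
  classical
  have hne : Nonempty S := by
    by_contra h
    rw [not_nonempty_iff] at h
    simp at hw1
  induction T using Finset.induction_on with
  | empty => exact ⟨fun _ => hne.some, by simp only [Complex.coe_smul, sum_sub_distrib, sum_empty, sub_self, norm_zero, ne_eq, OfNat.ofNat_ne_zero, not_false_eq_true, zero_pow, Std.le_refl]⟩
  | insert a T ha ih =>
    obtain ⟨σ, hσ⟩ := ih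
    set Z : E := ∑ j ∈ T, (z j (σ j) - ∑ s', (w s' : ℂ) • z j s') with hZ
    set m : E := ∑ s', (w s' : ℂ) • z a s' with hm
    have hzero : ∑ s, w s * RCLike.re (inner ℂ Z (z a s - m)) = 0 := by
      have h1 : ∑ s, (w s : ℂ) • (z a s - m) = 0 := by
        simp_rw [smul_sub]
        rw [Finset.sum_sub_distrib, ← Finset.sum_smul]
        have : (∑ s, (w s : ℂ)) = 1 := by
          rw [← Complex.ofReal_sum, hw1]; simp
        rw [this, one_smul, ← hm, sub_self]
      have h2 : RCLike.re (inner ℂ Z (∑ s, (w s : ℂ) • (z a s - m))) = 0 := by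
        rw [h1, inner_zero_right]; simp
      rw [inner_sum] at h2
      simp_rw [inner_smul_right] at h2
      rw [map_sum] at h2
      rw [← h2]
      refine Finset.sum_congr rfl fun s _ => ?_
      exact (RCLike.re_ofReal_mul (K := ℂ) (w s) _).symm
    obtain ⟨s, hs⟩ : ∃ s, RCLike.re (inner ℂ Z (z a s - m)) ≤ 0 := by
      by_contra hcon
      push Not at hcon
      have hpos : 0 < ∑ s, w s * RCLike.re (inner ℂ Z (z a s - m)) := by
        have hex : ∃ s, 0 < w s := by
          by_contra hc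
          push Not at hc
          have : ∑ s, w s ≤ 0 := Finset.sum_nonpos fun s _ => hc s
          linarith only [hw1, this]
        obtain ⟨s0, hs0⟩ := hex
        refine Finset.sum_pos' (fun s _ => mul_nonneg (hw s) (hcon s).le)
          ⟨s0, Finset.mem_univ _, mul_pos hs0 (hcon s0)⟩
      linarith only [hzero, hpos]
    refine ⟨Function.update σ a s, ?_⟩
    rw [Finset.sum_insert ha, Finset.sum_insert ha]
    have hrest : ∑ j ∈ T, (z j (Function.update σ a s j) - ∑ s', (w s' : ℂ) • z j s') = Z := by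
      rw [hZ]
      refine Finset.sum_congr rfl fun j hj => ?_
      have : j ≠ a := fun h => ha (h ▸ hj)
      rw [Function.update_of_ne this]
    rw [hrest, Function.update_self, ← hm, add_comm (z a s - m) Z]
    have hexp := norm_add_sq (𝕜 := ℂ) Z (z a s - m)
    rw [hexp]
    have h3 := hC a s
    rw [← hm] at h3
    have h4 : ‖z a s - m‖ ^ 2 ≤ C a ^ 2 := by
      have := norm_nonneg (z a s - m)
      nlinarith only [h3, this]
    linarith only [hσ, hs, h4]

end Greedy

section Chaos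

variable {J : Type*} [Fintype J] [DecidableEq J]

theorem sum_eq_zero_of_update (r : ℕ) (i : J) (f : (J → Fin r) → ℝ)
    (hf : ∀ c, ∑ t, f (Function.update c i t) = 0) : ∑ c, f c = 0 := by
  classical
  rw [← Equiv.sum_comp (Equiv.funSplitAt i (Fin r)).symm f]
  rw [Fintype.sum_prod_type_right]
  refine Finset.sum_eq_zero fun d _ => ?_
  rcases isEmpty_or_nonempty (Fin r) with h | ⟨⟨t0⟩⟩
  · simp
  · rw [← hf ((Equiv.funSplitAt i (Fin r)).symm (t0, d))]
    refine Finset.sum_congr rfl fun t _ => ?_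
    congr 1
    ext j
    by_cases hj : j = i
    · subst hj; simp only [ne_eq, Equiv.funSplitAt, Equiv.piSplitAt, eq_rec_constant, Equiv.symm_mk, Equiv.coe_fn_mk, ↓reduceDIte, Function.update_self]
    · simp only [ne_eq, Equiv.funSplitAt, Equiv.piSplitAt, eq_rec_constant, Equiv.symm_mk, Equiv.coe_fn_mk, hj, ↓reduceDIte, not_false_eq_true, Function.update_of_ne]

/-- The centred indicator. -/
noncomputable def cind (r : ℕ) (c : J → Fin r) (j k : J) : ℝ :=
  (if c j = c k then 1 else 0) - 1 / (r : ℝ)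

theorem cind_comm (r : ℕ) (c : J → Fin r) (j k : J) : cind r c j k = cind r c k j := by
  unfold cind
  simp only [eq_comm]

theorem sum_cind_update_left (r : ℕ) (hr : 0 < r) (c : J → Fin r) (j k : J) (hjk : j ≠ k) :
    ∑ t, cind r (Function.update c j t) j k = 0 := by
  have hr' : (r : ℝ) ≠ 0 := by positivity
  unfold cind
  simp only [Function.update_self, Function.update_of_ne hjk.symm, one_div, sum_sub_distrib, sum_ite_eq', mem_univ, ↓reduceIte, sum_const, card_univ, Fintype.card_fin, nsmul_eq_mul, ne_eq, hr', not_false_eq_true, mul_inv_cancel₀, sub_self]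

theorem cind_update_of_ne (r : ℕ) (c : J → Fin r) (i j k : J) (t : Fin r) (hj : j ≠ i)
    (hk : k ≠ i) : cind r (Function.update c i t) j k = cind r c j k := by
  unfold cind
  rw [Function.update_of_ne hj, Function.update_of_ne hk]

theorem sum_cind_mul_eq_zero_aux (r : ℕ) (hr : 0 < r) (i k j' k' : J) (hik : i ≠ k)
    (hj' : j' ≠ i) (hk' : k' ≠ i) :
    ∑ c, cind r c i k * cind r c j' k' = 0 := by
  apply sum_eq_zero_of_update r i
  intro c
  have : ∀ t, cind r (Function.update c i t) i k * cind r (Function.update c i t) j' k'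
      = cind r (Function.update c i t) i k * cind r c j' k' := by
    intro t
    rw [cind_update_of_ne r c i j' k' t hj' hk']
  simp_rw [this]
  rw [← Finset.sum_mul, sum_cind_update_left r hr c i k hik, zero_mul]

theorem sum_cind_mul_eq_zero [LinearOrder J] (r : ℕ) (hr : 0 < r) (p p' : J × J)
    (hp : p.1 < p.2) (hp' : p'.1 < p'.2) (hne : p ≠ p') :
    ∑ c, cind r c p.1 p.2 * cind r c p'.1 p'.2 = 0 := by
  obtain ⟨a, b⟩ := p
  obtain ⟨a', b'⟩ := p'
  simp only at hp hp' ⊢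
  by_cases h1 : a' ≠ a ∧ b' ≠ a
  · exact sum_cind_mul_eq_zero_aux r hr a b a' b' hp.ne h1.1 h1.2
  by_cases h2 : a' ≠ b ∧ b' ≠ b
  · have := sum_cind_mul_eq_zero_aux r hr b a a' b' hp.ne' h2.1 h2.2
    simpa only [cind_comm r _ b a] using this
  exfalso
  rw [not_and_or, not_not, not_not] at h1 h2
  rcases h1 with h1 | h1 <;> rcases h2 with h2 | h2
  · subst h1; subst h2; exact lt_irrefl _ hp
  · exact hne (by rw [h1, h2])
  · subst h1; subst h2; exact lt_asymm hp hp'
  · subst h1; subst h2; exact lt_irrefl _ hp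

theorem sum_cind_sq (r : ℕ) (hr : 0 < r) (j k : J) (hjk : j ≠ k) :
    ∑ c : J → Fin r, cind r c j k * cind r c j k ≤
      (Fintype.card (J → Fin r) : ℝ) * (1 / (r : ℝ)) := by
  have hr' : (0 : ℝ) < r := by exact_mod_cast hr
  have h0 : ∑ c : J → Fin r, (cind r c j k) = 0 := by
    apply sum_eq_zero_of_update r j
    intro c
    exact sum_cind_update_left r hr c j k hjk
  have hpt : ∀ c : J → Fin r, cind r c j k * cind r c j k
      = (1 - 2 / (r : ℝ)) * cind r c j k + (1 / r - 1 / r ^ 2) := by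
    intro c
    unfold cind
    split_ifs
    · field_simp; ring
    · field_simp; ring
  simp_rw [hpt]
  rw [Finset.sum_add_distrib, ← Finset.mul_sum, h0, mul_zero, zero_add, Finset.sum_const,
    Finset.card_univ, nsmul_eq_mul]
  apply mul_le_mul_of_nonneg_left _ (by (clear * -; positivity))
  have : (0 : ℝ) ≤ 1 / (r : ℝ) ^ 2 := by positivity
  linarith only [this]

variable {E : Type*} [NormedAddCommGroup E] [InnerProductSpace ℂ E]

/-- There is a coloring whose centred quadratic form is at most the second moment. -/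
theorem exists_coloring [LinearOrder J] (r : ℕ) (hr : 0 < r) (v : J × J → E) :
    ∃ c : J → Fin r,
      ‖∑ p : J × J with p.1 < p.2, (cind r c p.1 p.2 : ℂ) • v p‖ ^ 2 ≤
        (1 / (r : ℝ)) * ∑ p : J × J with p.1 < p.2, ‖v p‖ ^ 2 := by
  classical
  set P : Finset (J × J) := Finset.univ.filter fun p => p.1 < p.2 with hP
  have hNe : Nonempty (Fin r) := ⟨⟨0, hr⟩⟩
  have hexp : ∀ c : J → Fin r, ‖∑ p ∈ P, (cind r c p.1 p.2 : ℂ) • v p‖ ^ 2 =
      ∑ p ∈ P, ∑ p' ∈ P, (cind r c p.1 p.2 * cind r c p'.1 p'.2) *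
        RCLike.re (inner ℂ (v p) (v p')) := by
    intro c
    rw [← inner_self_eq_norm_sq (𝕜 := ℂ), sum_inner, map_sum]
    refine Finset.sum_congr rfl fun p _ => ?_
    rw [inner_sum, map_sum]
    refine Finset.sum_congr rfl fun p' _ => ?_
    rw [inner_smul_left, inner_smul_right, Complex.conj_ofReal, ← mul_assoc,
      ← Complex.ofReal_mul]
    exact RCLike.re_ofReal_mul (K := ℂ) _ _
  by_contra hcon
  push Not at hcon
  have hcard : (0 : ℝ) < Fintype.card (J → Fin r) := by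
    exact_mod_cast Fintype.card_pos
  have h1 : ∑ c : J → Fin r, (1 / (r : ℝ)) * ∑ p ∈ P, ‖v p‖ ^ 2 <
      ∑ c : J → Fin r, ‖∑ p ∈ P, (cind r c p.1 p.2 : ℂ) • v p‖ ^ 2 := by
    apply Finset.sum_lt_sum_of_nonempty Finset.univ_nonempty
    intro c _
    exact hcon c
  have h2 : ∑ c : J → Fin r, ‖∑ p ∈ P, (cind r c p.1 p.2 : ℂ) • v p‖ ^ 2 ≤
      ∑ c : J → Fin r, (1 / (r : ℝ)) * ∑ p ∈ P, ‖v p‖ ^ 2 := by
    simp_rw [hexp]
    rw [Finset.sum_comm]
    have h3 : ∀ p ∈ P, ∑ c : J → Fin r, ∑ p' ∈ P, (cind r c p.1 p.2 * cind r c p'.1 p'.2) *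
        RCLike.re (inner ℂ (v p) (v p')) ≤
        (Fintype.card (J → Fin r) : ℝ) * (1 / (r : ℝ)) * ‖v p‖ ^ 2 := by
      intro p hp
      rw [Finset.sum_comm]
      rw [Finset.sum_eq_single_of_mem p hp]
      · rw [← Finset.sum_mul, inner_self_eq_norm_sq]
        apply mul_le_mul_of_nonneg_right _ (by (clear * -; positivity))
        exact sum_cind_sq r hr p.1 p.2 (Finset.mem_filter.mp hp).2.ne
      · intro p' hp' hne
        rw [← Finset.sum_mul, sum_cind_mul_eq_zero r hr p p' (Finset.mem_filter.mp hp).2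
          (Finset.mem_filter.mp hp').2 hne.symm, zero_mul]
    calc _ ≤ ∑ p ∈ P, (Fintype.card (J → Fin r) : ℝ) * (1 / (r : ℝ)) * ‖v p‖ ^ 2 :=
          Finset.sum_le_sum h3
      _ = _ := by
          rw [← Finset.mul_sum, Finset.sum_const, Finset.card_univ, nsmul_eq_mul]
          ring
  linarith only [h1, h2]

end Chaos

end Vale.Agent.P078
end

section

/-! Range projections and spectral projections of bounded operators. -/

open ContinuousLinearMap
open scoped InnerProductSpace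

namespace Vale.Agent.P078

variable {H : Type*} [NormedAddCommGroup H] [InnerProductSpace ℂ H] [CompleteSpace H]

/-- The closure of the range of an operator. -/
def rangeCl (T : H →L[ℂ] H) : Submodule ℂ H :=
  (LinearMap.range (T : H →ₗ[ℂ] H)).topologicalClosure

instance (T : H →L[ℂ] H) : (rangeCl T).HasOrthogonalProjection := by
  have : CompleteSpace (rangeCl T) :=
    (Submodule.isClosed_topologicalClosure _).completeSpace_coe
  infer_instance

/-- The range projection of an operator. -/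
noncomputable def rangeProj (T : H →L[ℂ] H) : H →L[ℂ] H := (rangeCl T).starProjection

theorem apply_mem_rangeCl (T : H →L[ℂ] H) (v : H) : T v ∈ rangeCl T :=
  Submodule.le_topologicalClosure _ ⟨v, rfl⟩

theorem rangeProj_isStarProjection (T : H →L[ℂ] H) : IsStarProjection (rangeProj T) :=
  isStarProjection_starProjection

theorem rangeProj_apply_mem (T : H →L[ℂ] H) (v : H) : rangeProj T v ∈ rangeCl T :=
  Submodule.starProjection_apply_mem _ _

theorem rangeProj_apply_self (T : H →L[ℂ] H) (v : H) : rangeProj T (T v) = T v :=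
  Submodule.starProjection_eq_self_iff.mpr (apply_mem_rangeCl T v)

/-- Closed induction on the closure of the range. -/
theorem rangeCl_induction (T : H →L[ℂ] H) {p : H → Prop} (hp : IsClosed {v | p v})
    (h : ∀ v, p (T v)) {w : H} (hw : w ∈ rangeCl T) : p w := by
  have hw' : w ∈ closure (Set.range T) := by
    have := hw
    unfold rangeCl at this
    rw [← SetLike.mem_coe, Submodule.topologicalClosure_coe, LinearMap.coe_range] at this
    exact this
  have hsub : closure (Set.range T) ⊆ {v | p v} := by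
    apply closure_minimal _ hp
    rintro _ ⟨v, rfl⟩
    exact h v
  exact hsub hw'

theorem rangeProj_commute {T y : H →L[ℂ] H} (h1 : Commute y T) (h2 : Commute (star y) T) :
    Commute y (rangeProj T) := by
  have key : ∀ z : H →L[ℂ] H, Commute z T → ∀ w ∈ rangeCl T, z w ∈ rangeCl T := by
    intro z hz w hw
    refine rangeCl_induction T (p := fun w => z w ∈ rangeCl T) ?_ ?_ hw
    · exact (Submodule.isClosed_topologicalClosure _).preimage z.continuous
    · intro v
      have : z (T v) = T (z v) := by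
        have := congrArg (fun S : H →L[ℂ] H => S v) hz.eq
        simpa only [mul_apply_eq_comp] using this
      rw [this]
      exact apply_mem_rangeCl T _
  have key2 : ∀ w ∈ (rangeCl T)ᗮ, y w ∈ (rangeCl T)ᗮ := by
    intro w hw
    rw [Submodule.mem_orthogonal] at hw ⊢
    intro u hu
    have : ⟪u, y w⟫_ℂ = ⟪(star y) u, w⟫_ℂ := by
      rw [ContinuousLinearMap.star_eq_adjoint, ContinuousLinearMap.adjoint_inner_left]
    rw [this]
    exact hw _ (key _ h2 u hu)
  rw [commute_iff_eq]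
  ext v
  simp only [mul_apply_eq_comp]
  symm
  apply Submodule.eq_starProjection_of_mem_of_inner_eq_zero
  · exact key y h1 _ (rangeProj_apply_mem T v)
  · intro w hw
    have h3 : y v - y (rangeProj T v) = y (v - rangeProj T v) := by rw [map_sub]
    rw [h3]
    have h4 : v - rangeProj T v ∈ (rangeCl T)ᗮ := Submodule.sub_starProjection_mem_orthogonal v
    have h5 := key2 _ h4
    rw [Submodule.mem_orthogonal'] at h5
    exact h5 w hw

theorem rangeProj_mem (M : VonNeumannAlgebra H) {T : H →L[ℂ] H} (hT : T ∈ M) :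
    rangeProj T ∈ M := by
  rw [← M.commutant_commutant, VonNeumannAlgebra.mem_commutant_iff]
  intro y hy
  have hy' : star y ∈ M.commutant := star_mem hy
  rw [VonNeumannAlgebra.mem_commutant_iff] at hy hy'
  exact (rangeProj_commute (Commute.symm (hy T hT)) (Commute.symm (hy' T hT))).eq

/-- Spectral projections. -/
theorem spectral_proj_exists (T : H →L[ℂ] H) (hT : IsSelfAdjoint T) (t : ℝ) :
    ∃ g : H →L[ℂ] H, IsStarProjection g ∧ (∀ y, Commute y T → Commute y g) ∧
      (∀ v, t * ‖g v‖ ^ 2 ≤ RCLike.re ⟪T (g v), g v⟫_ℂ) ∧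
      (∀ v, RCLike.re ⟪T (v - g v), v - g v⟫_ℂ ≤ t * ‖v - g v‖ ^ 2) := by
  set B : H →L[ℂ] H := T - (t : ℂ) • (1 : H →L[ℂ] H) with hB
  have hBsa : IsSelfAdjoint B := by
    rw [hB]
    apply hT.sub
    rw [IsSelfAdjoint, star_smul, star_one]
    simp only [RCLike.star_def, Complex.conj_ofReal, Complex.coe_smul]
  have hdec : B⁺ - B⁻ = B := CFC.posPart_sub_negPart B hBsa
  have hmul : B⁻ * B⁺ = 0 := CFC.negPart_mul_posPart B
  have hpos : 0 ≤ B⁺ := CFC.posPart_nonneg B
  have hneg : 0 ≤ B⁻ := CFC.negPart_nonneg B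
  have hTB : ∀ w : H, RCLike.re ⟪T w, w⟫_ℂ = RCLike.re ⟪B w, w⟫_ℂ + t * ‖w‖ ^ 2 := by
    intro w
    have : T w = B w + (t : ℂ) • w := by
      simp only [hB, Complex.coe_smul, sub_apply, smul_apply, one_apply_eq_self, sub_add_cancel]
    rw [this, inner_add_left, map_add, inner_smul_left, Complex.conj_ofReal]
    congr 1
    rw [← inner_self_eq_norm_sq (𝕜 := ℂ)]
    exact RCLike.re_ofReal_mul (K := ℂ) _ _
  refine ⟨rangeProj B⁺, rangeProj_isStarProjection _, ?_, ?_, ?_⟩
  · intro y hy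
    have hyB : Commute y B := by
      rw [hB]
      apply hy.sub_right
      exact (Commute.one_right y).smul_right _
    have hyB' : Commute (star y) B := by
      have := hyB.star_star
      rw [hBsa.star_eq] at this
      exact this
    apply rangeProj_commute
    · exact (Commute.cfcₙ_real hyB.symm _).symm
    · exact (Commute.cfcₙ_real hyB'.symm _).symm
  · intro v
    rw [hTB]
    have : 0 ≤ RCLike.re ⟪B (rangeProj B⁺ v), rangeProj B⁺ v⟫_ℂ := by
      refine rangeCl_induction B⁺ (p := fun w => 0 ≤ RCLike.re ⟪B w, w⟫_ℂ) ?_ ?_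
        (rangeProj_apply_mem _ v)
      · apply isClosed_le continuous_const
        exact RCLike.continuous_re.comp (B.continuous.inner continuous_id)
      · intro u
        have h1 : B (B⁺ u) = B⁺ (B⁺ u) := by
          have h2 : B (B⁺ u) = (B⁺ - B⁻) (B⁺ u) := by rw [hdec]
          have h3 : B⁻ (B⁺ u) = 0 := by
            have h4 : (B⁻ * B⁺) u = 0 := by rw [hmul]; rfl
            exact h4
          rw [h2, _root_.sub_apply, h3, sub_zero]
        rw [h1]
        exact ((ContinuousLinearMap.nonneg_iff_isPositive _).mp hpos).re_inner_nonneg_left _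
    linarith only [this]
  · intro v
    rw [hTB]
    set w := v - rangeProj B⁺ v with hw
    have hwK : w ∈ (rangeCl B⁺)ᗮ := Submodule.sub_starProjection_mem_orthogonal v
    have hBw : B⁺ w = 0 := by
      have h1 : ⟪B⁺ w, B⁺ w⟫_ℂ = 0 := by
        have hsa : IsSelfAdjoint B⁺ := IsSelfAdjoint.of_nonneg hpos
        have h2 : ⟪B⁺ w, B⁺ w⟫_ℂ = ⟪B⁺ (B⁺ w), w⟫_ℂ := by
          have h3 : ⟪(adjoint B⁺) (B⁺ w), w⟫_ℂ = ⟪B⁺ w, B⁺ w⟫_ℂ :=
            ContinuousLinearMap.adjoint_inner_left _ _ _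
          rw [hsa.adjoint_eq] at h3
          exact h3.symm
        rw [h2]
        rw [Submodule.mem_orthogonal] at hwK
        exact hwK _ (apply_mem_rangeCl _ _)
      exact inner_self_eq_zero.mp h1
    have h2 : RCLike.re ⟪B w, w⟫_ℂ ≤ 0 := by
      have h3 : B w = - B⁻ w := by
        have : B w = (B⁺ - B⁻) w := by rw [hdec]
        rw [this, _root_.sub_apply, hBw, zero_sub]
      rw [h3, inner_neg_left, map_neg]
      have := ((ContinuousLinearMap.nonneg_iff_isPositive _).mp hneg).re_inner_nonneg_left w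
      linarith only [this]
    linarith only [h2]

theorem mem_of_forall_commute (M : VonNeumannAlgebra H) {T g : H →L[ℂ] H} (hT : T ∈ M)
    (h : ∀ y, Commute y T → Commute y g) : g ∈ M := by
  rw [← M.commutant_commutant, VonNeumannAlgebra.mem_commutant_iff]
  intro y hy
  rw [VonNeumannAlgebra.mem_commutant_iff] at hy
  exact (h y (Commute.symm (hy T hT))).eq

end Vale.Agent.P078
end

section

/-! Cutting by a projection of the algebra. -/

open ContinuousLinearMap
open scoped InnerProductSpace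

namespace Vale.Agent.P078

variable {H : Type*} [NormedAddCommGroup H] [InnerProductSpace ℂ H] [CompleteSpace H]

theorem norm_le_of_rayleigh {S : H →L[ℂ] H} (hS : IsSelfAdjoint S) {C : ℝ} (hC : 0 ≤ C)
    (h : ∀ v, |RCLike.re ⟪S v, v⟫_ℂ| ≤ C * ‖v‖ ^ 2) : ‖S‖ ≤ C := by
  rw [ContinuousLinearMap.norm_eq_iSup_rayleighQuotient S hS.isSymmetric]
  apply ciSup_le
  intro x
  unfold ContinuousLinearMap.rayleighQuotient
  rw [ContinuousLinearMap.reApplyInnerSelf_apply, abs_div, abs_of_nonneg (sq_nonneg ‖x‖)]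
  by_cases hx : ‖x‖ = 0
  · rw [hx]; simpa only [RCLike.re_to_complex, ne_eq, OfNat.ofNat_ne_zero, not_false_eq_true, zero_pow, div_zero] using hC
  · rw [div_le_iff₀ (by positivity)]
    exact h x

theorem sproj_inner {g : H →L[ℂ] H} (hg : IsStarProjection g) (u v : H) :
    ⟪g u, v⟫_ℂ = ⟪u, g v⟫_ℂ := by
  have h : adjoint g = g := hg.isSelfAdjoint.adjoint_eq
  calc ⟪g u, v⟫_ℂ = ⟪adjoint g u, v⟫_ℂ := by rw [h]
    _ = ⟪u, g v⟫_ℂ := ContinuousLinearMap.adjoint_inner_left _ _ _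

theorem sproj_apply_apply {g : H →L[ℂ] H} (hg : IsStarProjection g) (v : H) :
    g (g v) = g v := by
  have h := hg.isIdempotentElem.eq
  have : (g * g) v = g v := by rw [h]
  exact this

theorem proj_norm_sq {g : H →L[ℂ] H} (hg : IsStarProjection g) (v : H) :
    ‖v‖ ^ 2 = ‖g v‖ ^ 2 + ‖v - g v‖ ^ 2 := by
  have h1 : ⟪g v, v - g v⟫_ℂ = 0 := by
    rw [sproj_inner hg, map_sub, sproj_apply_apply hg, sub_self, inner_zero_right]
  have h2 := norm_add_sq (𝕜 := ℂ) (g v) (v - g v)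
  rw [h1] at h2
  simp only [add_sub_cancel, map_zero, mul_zero, add_zero] at h2
  exact h2

theorem proj_norm_le {g : H →L[ℂ] H} (hg : IsStarProjection g) (v : H) : ‖g v‖ ≤ ‖v‖ := by
  have h := proj_norm_sq hg v
  have h1 := norm_nonneg v
  have h2 := norm_nonneg (g v)
  have h3 := sq_nonneg ‖v - g v‖
  nlinarith only [h, h1]

theorem sub_proj_norm_le {g : H →L[ℂ] H} (hg : IsStarProjection g) (v : H) :
    ‖v - g v‖ ≤ ‖v‖ := by
  have h := proj_norm_sq hg v
  have h1 := norm_nonneg v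
  have h2 := norm_nonneg (v - g v)
  have h3 := sq_nonneg ‖g v‖
  nlinarith only [h, h1]

theorem inner_star_mul_self (c : H →L[ℂ] H) (v : H) :
    RCLike.re ⟪(star c * c) v, v⟫_ℂ = ‖c v‖ ^ 2 := by
  have : ⟪(star c * c) v, v⟫_ℂ = ⟪c v, c v⟫_ℂ := by
    rw [mul_apply_eq_comp, ContinuousLinearMap.star_eq_adjoint,
      ContinuousLinearMap.adjoint_inner_left]
  rw [this, inner_self_eq_norm_sq]

theorem inner_sq_self {T : H →L[ℂ] H} (hT : IsSelfAdjoint T) (v : H) :
    RCLike.re ⟪(T * T) v, v⟫_ℂ = ‖T v‖ ^ 2 := by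
  have := inner_star_mul_self T v
  rwa [hT.star_eq] at this

/-- From a small compression `h* Y h` to a projection. -/
theorem exists_corner (M : VonNeumannAlgebra H) {Y h : H →L[ℂ] H} (hY : Y ∈ M)
    (hYsa : IsSelfAdjoint Y) (hh : h ∈ M) (hh1 : ‖h‖ ≤ 1) {s t : ℝ} (hs : 0 < s) (ht : 0 < t) :
    ∃ q : H →L[ℂ] H, q ∈ M ∧ IsStarProjection q ∧ ‖q * Y * q‖ ≤ t / s ∧
      (∀ w : H →L[ℂ] H, w * h = h → w * q = q) ∧
      ∀ ξ : H, ‖ξ - q ξ‖ ≤ ‖ξ - h ξ‖ + ‖(star h * Y * h) ξ‖ / t + √s * ‖ξ‖ := by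
  set T : H →L[ℂ] H := star h * Y * h with hT
  have hTM : T ∈ M := mul_mem (mul_mem (star_mem hh) hY) hh
  have hTsa : IsSelfAdjoint T := by
    rw [hT, IsSelfAdjoint, star_mul, star_mul, star_star, hYsa.star_eq, mul_assoc]
  have hT2sa : IsSelfAdjoint (T * T) := by
    rw [IsSelfAdjoint, star_mul, hTsa.star_eq]
  obtain ⟨g₁, hg₁, hg₁c, hg₁lo, hg₁up⟩ := spectral_proj_exists (T * T) hT2sa (t ^ 2)
  have hg₁M : g₁ ∈ M := mem_of_forall_commute M (mul_mem hTM hTM) hg₁c
  have hg₁T : Commute T g₁ := hg₁c T ((Commute.refl T).mul_right (Commute.refl T))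
  have htail : ∀ v, ‖g₁ v‖ ≤ ‖T v‖ / t := by
    intro v
    have h1 := hg₁lo v
    rw [inner_sq_self hTsa] at h1
    have h2 : T (g₁ v) = g₁ (T v) := by
      have := congrArg (fun S : H →L[ℂ] H => S v) hg₁T.eq
      simpa only [mul_apply_eq_comp] using this
    rw [h2] at h1
    have h3 := proj_norm_le hg₁ (T v)
    rw [le_div_iff₀ ht]
    have h4 : (‖g₁ v‖ * t) ^ 2 ≤ ‖T v‖ ^ 2 := by
      calc (‖g₁ v‖ * t) ^ 2 = t ^ 2 * ‖g₁ v‖ ^ 2 := by ring
        _ ≤ ‖g₁ (T v)‖ ^ 2 := h1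
        _ ≤ ‖T v‖ ^ 2 := pow_le_pow_left₀ (norm_nonneg _) h3 2
    exact (sq_le_sq₀ (by (clear * - ht; positivity)) (norm_nonneg _)).mp h4
  have hcore : ∀ v, ‖T (v - g₁ v)‖ ≤ t * ‖v - g₁ v‖ := by
    intro v
    have h1 := hg₁up v
    rw [inner_sq_self hTsa] at h1
    have h4 : ‖T (v - g₁ v)‖ ^ 2 ≤ (t * ‖v - g₁ v‖) ^ 2 := by
      rw [mul_pow]; exact h1
    exact (sq_le_sq₀ (norm_nonneg _) (by (clear * - ht; positivity))).mp h4
  set c : H →L[ℂ] H := h * (1 - g₁) with hc
  have hcM : c ∈ M := mul_mem hh (sub_mem (one_mem _) hg₁M)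
  have hcapp : ∀ v, c v = h (v - g₁ v) := by
    intro v; simp only [hc, mul_apply_eq_comp, sub_apply, one_apply_eq_self, map_sub]
  have hYc : ∀ v, |RCLike.re ⟪Y (c v), c v⟫_ℂ| ≤ t * ‖v‖ ^ 2 := by
    intro v
    set w := v - g₁ v with hw
    have h1 : ⟪Y (c v), c v⟫_ℂ = ⟪T w, w⟫_ℂ := by
      rw [hcapp, hT]
      simp only [mul_apply_eq_comp, ContinuousLinearMap.star_eq_adjoint]
      rw [ContinuousLinearMap.adjoint_inner_left]
    rw [h1]
    calc |RCLike.re ⟪T w, w⟫_ℂ| ≤ ‖⟪T w, w⟫_ℂ‖ := RCLike.abs_re_le_norm _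
      _ ≤ ‖T w‖ * ‖w‖ := norm_inner_le_norm _ _
      _ ≤ (t * ‖w‖) * ‖w‖ := mul_le_mul_of_nonneg_right (hcore v) (norm_nonneg _)
      _ = t * ‖w‖ ^ 2 := by ring
      _ ≤ t * ‖v‖ ^ 2 := by
          apply mul_le_mul_of_nonneg_left _ ht.le
          exact pow_le_pow_left₀ (norm_nonneg _) (sub_proj_norm_le hg₁ v) 2
  have hccsa : IsSelfAdjoint (star c * c) := IsSelfAdjoint.star_mul_self c
  obtain ⟨p, hp, hpc, hplo, hpup⟩ := spectral_proj_exists (star c * c) hccsa s
  have hpM : p ∈ M := mem_of_forall_commute M (mul_mem (star_mem hcM) hcM) hpc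
  set q := rangeProj (c * p) with hq
  have hqM : q ∈ M := rangeProj_mem M (mul_mem hcM hpM)
  have hqp : IsStarProjection q := rangeProj_isStarProjection _
  refine ⟨q, hqM, hqp, ?_, ?_, ?_⟩
  · apply norm_le_of_rayleigh _ (by (clear * - hs ht; positivity))
    · intro v
      have h1 : ⟪(q * Y * q) v, v⟫_ℂ = ⟪Y (q v), q v⟫_ℂ := by
        simp only [mul_apply_eq_comp]
        rw [sproj_inner hqp]
      rw [h1]
      have h2 : |RCLike.re ⟪Y (q v), q v⟫_ℂ| ≤ t / s * ‖q v‖ ^ 2 := by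
        refine rangeCl_induction (c * p)
          (p := fun w => |RCLike.re ⟪Y w, w⟫_ℂ| ≤ t / s * ‖w‖ ^ 2) ?_ ?_ (rangeProj_apply_mem _ v)
        · apply isClosed_le
          · exact (RCLike.continuous_re.comp (Y.continuous.inner continuous_id)).abs
          · exact continuous_const.mul (continuous_norm.pow 2)
        · intro u
          rw [mul_apply_eq_comp]
          have h3 := hYc (p u)
          have h4 := hplo u
          rw [inner_star_mul_self] at h4
          calc |RCLike.re ⟪Y (c (p u)), c (p u)⟫_ℂ| ≤ t * ‖p u‖ ^ 2 := h3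
            _ = t / s * (s * ‖p u‖ ^ 2) := by (clear * - hs ht; field_simp)
            _ ≤ t / s * ‖c (p u)‖ ^ 2 := mul_le_mul_of_nonneg_left h4 (by (clear * - hs ht; positivity))
      refine h2.trans ?_
      apply mul_le_mul_of_nonneg_left _ (by (clear * - hs ht; positivity))
      exact pow_le_pow_left₀ (norm_nonneg _) (proj_norm_le hqp v) 2
    · rw [IsSelfAdjoint, star_mul, star_mul, hqp.isSelfAdjoint.star_eq, hYsa.star_eq, mul_assoc]
  · intro w hwh
    ext v
    rw [mul_apply_eq_comp]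
    refine rangeCl_induction (c * p) (p := fun u => w u = u) ?_ ?_ (rangeProj_apply_mem _ v)
    · exact isClosed_eq w.continuous continuous_id
    · intro u
      have h1 : w * (c * p) = c * p := by
        rw [hc, ← mul_assoc, ← mul_assoc, hwh]
      have h2 := congrArg (fun S : H →L[ℂ] H => S u) h1
      simpa only [mul_apply_eq_comp] using h2
  · intro ξ
    have hmin : ‖ξ - q ξ‖ ≤ ‖ξ - c (p ξ)‖ := by
      have h1 : c (p ξ) = q (c (p ξ)) := by
        have := rangeProj_apply_self (c * p) ξ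
        rw [mul_apply_eq_comp] at this
        exact this.symm
      have h2 : ξ - q ξ = (ξ - c (p ξ)) - q (ξ - c (p ξ)) := by
        rw [map_sub, ← h1]; abel
      rw [h2]
      exact sub_proj_norm_le hqp _
    have h3 : ‖c (ξ - p ξ)‖ ≤ √s * ‖ξ‖ := by
      have h4 := hpup ξ
      rw [inner_star_mul_self] at h4
      have h5 : ‖c (ξ - p ξ)‖ ^ 2 ≤ (√s * ‖ξ‖) ^ 2 := by
        rw [mul_pow, Real.sq_sqrt hs.le]
        refine h4.trans ?_
        apply mul_le_mul_of_nonneg_left _ hs.le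
        exact pow_le_pow_left₀ (norm_nonneg _) (sub_proj_norm_le hp ξ) 2
      exact (sq_le_sq₀ (norm_nonneg _) (by (clear * - hs; positivity))).mp h5
    have h6 : ξ - c (p ξ) = (ξ - h ξ) + h (g₁ ξ) + c (ξ - p ξ) := by
      rw [map_sub c, hcapp ξ, map_sub]; abel
    calc ‖ξ - q ξ‖ ≤ ‖ξ - c (p ξ)‖ := hmin
      _ = ‖(ξ - h ξ) + h (g₁ ξ) + c (ξ - p ξ)‖ := by rw [h6]
      _ ≤ ‖ξ - h ξ‖ + ‖h (g₁ ξ)‖ + ‖c (ξ - p ξ)‖ := norm_add₃_le
      _ ≤ ‖ξ - h ξ‖ + ‖T ξ‖ / t + √s * ‖ξ‖ := by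
          have h7 : ‖h (g₁ ξ)‖ ≤ ‖T ξ‖ / t := by
            calc ‖h (g₁ ξ)‖ ≤ ‖h‖ * ‖g₁ ξ‖ := h.le_opNorm _
              _ ≤ 1 * ‖g₁ ξ‖ := mul_le_mul_of_nonneg_right hh1 (norm_nonneg _)
              _ = ‖g₁ ξ‖ := one_mul _
              _ ≤ ‖T ξ‖ / t := htail ξ
          linarith only [h3, h7]

end Vale.Agent.P078
end

section

/-! Lemmas on finite partitions. -/

namespace Vale.Agent.P078

open Filter Topology ContinuousLinearMap
open scoped InnerProductSpace

variable {H : Type*} [NormedAddCommGroup H] [InnerProductSpace ℂ H] [CompleteSpace H]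
variable {A : StarSubalgebra ℂ (H →L[ℂ] H)}

theorem Part.mul_self (Q : Part A) (i : Q.ι) : Q.e i * Q.e i = Q.e i :=
  (Q.proj i).isIdempotentElem.eq

theorem Part.star_e (Q : Part A) (i : Q.ι) : star (Q.e i) = Q.e i :=
  (Q.proj i).isSelfAdjoint.star_eq

theorem Part.sum_apply (Q : Part A) (v : H) : ∑ i, Q.e i v = v := by
  have h := congrArg (fun S : H →L[ℂ] H => S v) Q.sum_eq
  simpa only [_root_.sum_apply, one_apply_eq_self] using h

theorem Part.E_apply_apply (Q : Part A) (x : H →L[ℂ] H) (v : H) :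
    Q.E x v = ∑ i, Q.e i (x (Q.e i v)) := by
  rw [Part.E_apply, ContinuousLinearMap.sum_apply]
  rfl

theorem Part.inner_orth (Q : Part A) {i j : Q.ι} (h : i ≠ j) (u v : H) :
    ⟪Q.e i u, Q.e j v⟫_ℂ = 0 := by
  rw [sproj_inner (Q.proj i)]
  have : Q.e i (Q.e j v) = 0 := by
    have := congrArg (fun S : H →L[ℂ] H => S v) (Q.orth i j h)
    simpa only [mul_apply_eq_comp, zero_apply] using this
  rw [this, inner_zero_right]

theorem Part.norm_sq_sum (Q : Part A) (u : Q.ι → H) :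
    ‖∑ i, Q.e i (u i)‖ ^ 2 = ∑ i, ‖Q.e i (u i)‖ ^ 2 := by
  rw [← inner_self_eq_norm_sq (𝕜 := ℂ), sum_inner, map_sum]
  refine Finset.sum_congr rfl fun i _ => ?_
  rw [inner_sum, Finset.sum_eq_single i]
  · rw [inner_self_eq_norm_sq]
  · intro j _ hj
    exact Q.inner_orth hj.symm _ _
  · intro h; exact absurd (Finset.mem_univ i) h

theorem Part.sum_norm_sq (Q : Part A) (v : H) : ∑ i, ‖Q.e i v‖ ^ 2 = ‖v‖ ^ 2 := by
  rw [← Q.norm_sq_sum (fun _ => v), Q.sum_apply]

/-- the double expansion of an operator along a partition -/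
theorem Part.sum_sum (Q : Part A) (x : H →L[ℂ] H) : ∑ i, ∑ j, Q.e i * x * Q.e j = x := by
  have h1 : ∀ i, ∑ j, Q.e i * x * Q.e j = Q.e i * x := by
    intro i
    rw [← Finset.mul_sum, Q.sum_eq, mul_one]
  simp_rw [h1]
  rw [← Finset.sum_mul, Q.sum_eq, one_mul]

theorem Part.Finer.commute {Q Q' : Part A} (hc : ∀ x ∈ A, ∀ y ∈ A, x * y = y * x)
    (h : Q.Finer Q') (i : Q.ι) (x : H →L[ℂ] H) : Q.e i * Q'.E x = Q'.E x * Q.e i := by
  rw [Part.E_apply, Finset.mul_sum, Finset.sum_mul]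
  refine Finset.sum_congr rfl fun k _ => ?_
  have hcomm : Q'.e k * Q.e i = Q.e i * Q'.e k := hc _ (Q'.mem k) _ (Q.mem i)
  rcases h i k with h1 | h1
  · calc Q.e i * (Q'.e k * x * Q'.e k) = (Q.e i * Q'.e k) * x * Q'.e k := by
          simp only [mul_assoc]
      _ = Q'.e k * x * (Q.e i * Q'.e k) := by rw [h1]
      _ = Q'.e k * x * Q'.e k * Q.e i := by rw [← hcomm]; simp only [mul_assoc]
  · calc Q.e i * (Q'.e k * x * Q'.e k) = (Q.e i * Q'.e k) * x * Q'.e k := by
          simp only [mul_assoc]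
      _ = Q'.e k * x * (Q.e i * Q'.e k) := by rw [h1]; simp
      _ = Q'.e k * x * Q'.e k * Q.e i := by rw [← hcomm]; simp only [mul_assoc]

theorem Part.Finer.E_E {Q Q' : Part A} (hc : ∀ x ∈ A, ∀ y ∈ A, x * y = y * x)
    (h : Q.Finer Q') (x : H →L[ℂ] H) : Q.E (Q'.E x) = Q'.E x := by
  rw [Part.E_apply]
  have : ∀ i, Q.e i * Q'.E x * Q.e i = Q'.E x * Q.e i := by
    intro i
    rw [h.commute hc i x, mul_assoc, Q.mul_self]
  simp_rw [this]
  rw [← Finset.mul_sum, Q.sum_eq, mul_one]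

/-- The mixture of partitions `R j` along the blocks of `Q`. -/
def Part.mix (hc : ∀ x ∈ A, ∀ y ∈ A, x * y = y * x) (Q : Part A) (R : Q.ι → Part A) : Part A where
  ι := (j : Q.ι) × (R j).ι
  e p := Q.e p.1 * (R p.1).e p.2
  mem p := mul_mem (Q.mem _) ((R p.1).mem _)
  proj p := (Q.proj p.1).mul ((R p.1).proj p.2) (hc _ (Q.mem _) _ ((R p.1).mem _))
  orth := by
    rintro ⟨j, k⟩ ⟨j', k'⟩ hne
    have hcomm : (R j).e k * Q.e j' = Q.e j' * (R j).e k := hc _ ((R j).mem k) _ (Q.mem j')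
    have h1 : Q.e j * (R j).e k * (Q.e j' * (R j').e k')
        = (Q.e j * Q.e j') * ((R j).e k * (R j').e k') := by
      calc Q.e j * (R j).e k * (Q.e j' * (R j').e k')
          = Q.e j * ((R j).e k * Q.e j') * (R j').e k' := by simp only [mul_assoc]
        _ = Q.e j * (Q.e j' * (R j).e k) * (R j').e k' := by rw [hcomm]
        _ = _ := by simp only [mul_assoc]
    simp only
    rw [h1]
    by_cases hj : j = j'
    · subst hj
      have hk : k ≠ k' := fun hk => hne (by rw [hk])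
      rw [(R j).orth k k' hk, mul_zero]
    · rw [Q.orth j j' hj, zero_mul]
  sum_eq := by
    rw [Fintype.sum_sigma]
    simp only
    simp_rw [← Finset.mul_sum, Part.sum_eq, mul_one]
    exact Q.sum_eq

theorem Part.mix_E (hc : ∀ x ∈ A, ∀ y ∈ A, x * y = y * x) (Q : Part A) (R : Q.ι → Part A)
    (x : H →L[ℂ] H) : (Part.mix hc Q R).E x = ∑ j, Q.e j * (R j).E x * Q.e j := by
  rw [Part.E_apply]
  change ∑ p : (j : Q.ι) × (R j).ι, (Q.e p.1 * (R p.1).e p.2) * x * (Q.e p.1 * (R p.1).e p.2) = _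
  rw [Fintype.sum_sigma]
  refine Finset.sum_congr rfl fun j _ => ?_
  simp only
  rw [Part.E_apply, Finset.mul_sum, Finset.sum_mul]
  refine Finset.sum_congr rfl fun k _ => ?_
  have hcomm : Q.e j * (R j).e k = (R j).e k * Q.e j := hc _ (Q.mem j) _ ((R j).mem k)
  calc Q.e j * (R j).e k * x * (Q.e j * (R j).e k)
      = Q.e j * (R j).e k * x * ((R j).e k * Q.e j) := by rw [hcomm]
    _ = _ := by simp only [mul_assoc]

theorem Part.mix_small (hc : ∀ x ∈ A, ∀ y ∈ A, x * y = y * x) (Q : Part A) (R : Q.ι → Part A)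
    {h : H →L[ℂ] H} {δ : ℝ} (hQ : ∀ i, ‖Q.e i * h‖ ≤ δ) (p : (Part.mix hc Q R).ι) :
    ‖(Part.mix hc Q R).e p * h‖ ≤ δ := by
  obtain ⟨j, k⟩ := p
  change ‖Q.e j * (R j).e k * h‖ ≤ δ
  rw [hc _ (Q.mem j) _ ((R j).mem k), mul_assoc]
  refine ContinuousLinearMap.opNorm_le_bound _ ((norm_nonneg _).trans (hQ j)) fun v => ?_
  rw [mul_apply_eq_comp]
  calc ‖(R j).e k ((Q.e j * h) v)‖ ≤ ‖(Q.e j * h) v‖ := proj_norm_le ((R j).proj k) _
    _ ≤ ‖Q.e j * h‖ * ‖v‖ := (Q.e j * h).le_opNorm v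
    _ ≤ δ * ‖v‖ := mul_le_mul_of_nonneg_right (hQ j) (norm_nonneg v)

end Vale.Agent.P078
end

section

/-! Convex combinations approximating a weak limit; a symmetric form of the coloring lemma. -/

namespace Vale.Agent.P078

open Filter Topology
open scoped InnerProductSpace

theorem exists_convex_approx {V : Type*} [NormedAddCommGroup V] [InnerProductSpace ℂ V]
    [CompleteSpace V] {ι : Type*} (l : Filter ι) [l.NeBot] (T : ι → V) (T₀ : V)
    (hT : ∀ y : V, Tendsto (fun i => ⟪y, T i⟫_ℂ) l (𝓝 ⟪y, T₀⟫_ℂ)) {S : Set ι} (hS : S ∈ l)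
    {η : ℝ} (hη : 0 < η) :
    ∃ (σ : Type) (_ : Fintype σ) (w : σ → ℝ) (q : σ → ι), (∀ s, 0 ≤ w s) ∧ ∑ s, w s = 1 ∧
      (∀ s, q s ∈ S) ∧ ‖∑ s, (w s : ℂ) • T (q s) - T₀‖ < η := by
  have hmem : T₀ ∈ closure (convexHull ℝ (T '' S)) := by
    by_contra hcon
    obtain ⟨f, u, hf1, hf2⟩ := RCLike.geometric_hahn_banach_closed_point (𝕜 := ℂ)
      (convex_convexHull ℝ (T '' S)).closure isClosed_closure hcon
    set y := (InnerProductSpace.toDual ℂ V).symm f with hy
    have hfy : ∀ x, f x = ⟪y, x⟫_ℂ := fun x => InnerProductSpace.toDual_symm_apply.symm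
    have h1 := (RCLike.continuous_re.tendsto _).comp (hT y)
    have h2 : RCLike.re ⟪y, T₀⟫_ℂ ≤ u := by
      refine le_of_tendsto h1 ?_
      filter_upwards [hS] with i hi
      have h3 := hf1 (T i) (subset_closure (subset_convexHull ℝ _ ⟨i, hi, rfl⟩))
      rw [hfy] at h3
      exact h3.le
    rw [hfy] at hf2
    exact absurd hf2 (not_lt.mpr h2)
  rw [Metric.mem_closure_iff] at hmem
  obtain ⟨b, hb, hbd⟩ := hmem η hη
  rw [mem_convexHull_iff_exists_fintype] at hb
  obtain ⟨σ, hσ, w, z, hw0, hw1, hz, hzb⟩ := hb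
  choose q hqS hqT using hz
  refine ⟨σ, hσ, w, q, hw0, hw1, hqS, ?_⟩
  have : ∑ s, (w s : ℂ) • T (q s) = b := by
    rw [← hzb]
    refine Finset.sum_congr rfl fun s _ => ?_
    rw [hqT, Complex.coe_smul]
  rw [this, ← dist_eq_norm, dist_comm]
  exact hbd

theorem exists_coloring_symm {J : Type*} [Fintype J] [DecidableEq J]
    {E : Type*} [NormedAddCommGroup E] [InnerProductSpace ℂ E] (r : ℕ) (hr : 0 < r)
    (v : J → J → E) :
    ∃ c : J → Fin r,
      ‖∑ j, ∑ k, (if j = k then (0 : E) else (cind r c j k : ℂ) • v j k)‖ ^ 2 ≤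
        2 * ∑ j, ∑ k, ‖v j k‖ ^ 2 := by
  classical
  let _ : LinearOrder J := LinearOrder.lift' (Fintype.equivFin J) (Fintype.equivFin J).injective
  obtain ⟨c, hc⟩ := exists_coloring r hr (fun p : J × J => v p.1 p.2 + v p.2 p.1)
  refine ⟨c, ?_⟩
  have hsplit : ∑ j, ∑ k, (if j = k then (0 : E) else (cind r c j k : ℂ) • v j k) =
      ∑ p : J × J with p.1 < p.2, (cind r c p.1 p.2 : ℂ) • (v p.1 p.2 + v p.2 p.1) := by
    rw [← Fintype.sum_prod_type' (f := fun j k =>
      (if j = k then (0 : E) else (cind r c j k : ℂ) • v j k))]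
    have h1 : ∀ p : J × J, (if p.1 = p.2 then (0 : E) else (cind r c p.1 p.2 : ℂ) • v p.1 p.2) =
        (if p.1 < p.2 then (cind r c p.1 p.2 : ℂ) • v p.1 p.2 else 0) +
        (if p.2 < p.1 then (cind r c p.1 p.2 : ℂ) • v p.1 p.2 else 0) := by
      intro p
      rcases lt_trichotomy p.1 p.2 with h | h | h
      · simp [h, h.ne, h.not_gt]
      · simp [h]
      · simp only [h.ne', ↓reduceIte, Complex.coe_smul, h.not_gt, h, zero_add]
    simp_rw [h1]
    rw [Finset.sum_add_distrib]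
    have h2 : ∑ p : J × J, (if p.2 < p.1 then (cind r c p.1 p.2 : ℂ) • v p.1 p.2 else 0) =
        ∑ p : J × J, (if p.1 < p.2 then (cind r c p.1 p.2 : ℂ) • v p.2 p.1 else 0) := by
      rw [← Equiv.sum_comp (Equiv.prodComm J J)]
      refine Finset.sum_congr rfl fun p _ => ?_
      obtain ⟨a, b⟩ := p
      change (if a < b then (cind r c b a : ℂ) • v b a else 0) =
        (if a < b then (cind r c a b : ℂ) • v b a else 0)
      rw [cind_comm r c b a]
    rw [h2, ← Finset.sum_add_distrib, Finset.sum_filter]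
    refine Finset.sum_congr rfl fun p _ => ?_
    split_ifs
    · rw [smul_add]
    · simp
  rw [hsplit]
  refine hc.trans ?_
  have hr1 : (1 : ℝ) / r ≤ 1 := by
    rw [div_le_one (by exact_mod_cast hr)]
    exact_mod_cast hr
  have h3 : ∑ p : J × J with p.1 < p.2, ‖v p.1 p.2 + v p.2 p.1‖ ^ 2 ≤
      2 * ∑ j, ∑ k, ‖v j k‖ ^ 2 := by
    have h4 : ∀ p : J × J, ‖v p.1 p.2 + v p.2 p.1‖ ^ 2 ≤
        2 * ‖v p.1 p.2‖ ^ 2 + 2 * ‖v p.2 p.1‖ ^ 2 := by
      intro p
      have h5 := norm_add_le (v p.1 p.2) (v p.2 p.1)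
      have h6 := norm_nonneg (v p.1 p.2 + v p.2 p.1)
      nlinarith only [h5, h6, sq_nonneg (‖v p.1 p.2‖ - ‖v p.2 p.1‖)]
    calc ∑ p : J × J with p.1 < p.2, ‖v p.1 p.2 + v p.2 p.1‖ ^ 2
        ≤ ∑ p : J × J with p.1 < p.2, (2 * ‖v p.1 p.2‖ ^ 2 + 2 * ‖v p.2 p.1‖ ^ 2) :=
          Finset.sum_le_sum fun p _ => h4 p
      _ = 2 * (∑ p : J × J with p.1 < p.2, ‖v p.1 p.2‖ ^ 2 +
            ∑ p : J × J with p.1 < p.2, ‖v p.2 p.1‖ ^ 2) := by
          rw [Finset.sum_add_distrib, ← Finset.mul_sum, ← Finset.mul_sum]; ring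
      _ ≤ 2 * ∑ p : J × J, ‖v p.1 p.2‖ ^ 2 := by
          apply mul_le_mul_of_nonneg_left _ (by norm_num)
          have h7 : ∑ p : J × J with p.1 < p.2, ‖v p.2 p.1‖ ^ 2 =
              ∑ p : J × J with p.2 < p.1, ‖v p.1 p.2‖ ^ 2 := by
            rw [Finset.sum_filter, Finset.sum_filter, ← Equiv.sum_comp (Equiv.prodComm J J)]
            refine Finset.sum_congr rfl fun p _ => ?_
            obtain ⟨a, b⟩ := p
            rfl
          rw [h7, ← Finset.sum_union]
          · exact Finset.sum_le_sum_of_subset_of_nonneg (Finset.subset_univ _)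
              fun p _ _ => by (clear * -; positivity)
          · rw [Finset.disjoint_filter]
            intro p _ h1 h2
            exact lt_asymm h1 h2
      _ = 2 * ∑ j, ∑ k, ‖v j k‖ ^ 2 := by
          rw [Fintype.sum_prod_type' (f := fun j k => ‖v j k‖ ^ 2)]
  calc (1 : ℝ) / r * ∑ p : J × J with p.1 < p.2, ‖v p.1 p.2 + v p.2 p.1‖ ^ 2
      ≤ 1 * ∑ p : J × J with p.1 < p.2, ‖v p.1 p.2 + v p.2 p.1‖ ^ 2 :=
        mul_le_mul_of_nonneg_right hr1 (Finset.sum_nonneg fun p _ => sq_nonneg _)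
    _ ≤ _ := by rw [one_mul]; exact h3

end Vale.Agent.P078
end

section

/-! The mixing step and the coloring step. -/

namespace Vale.Agent.P078

open Filter Topology ContinuousLinearMap
open scoped InnerProductSpace

variable {H : Type*} [NormedAddCommGroup H] [InnerProductSpace ℂ H] [CompleteSpace H]
variable {A : StarSubalgebra ℂ (H →L[ℂ] H)}

/-- refinements -/
theorem norm_star_mul_le {h e : H →L[ℂ] H} (he : IsStarProjection e) {δ : ℝ}
    (hQ : ‖e * h‖ ≤ δ) (v : H) : ‖star h (e v)‖ ≤ δ * ‖v‖ := by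
  have h1 : ‖star h * e‖ ≤ δ := by
    have h2 : star (e * h) = star h * e := by
      rw [star_mul, he.isSelfAdjoint.star_eq]
    rw [← h2, norm_star]
    exact hQ
  calc ‖star h (e v)‖ = ‖(star h * e) v‖ := rfl
    _ ≤ ‖star h * e‖ * ‖v‖ := (star h * e).le_opNorm v
    _ ≤ δ * ‖v‖ := mul_le_mul_of_nonneg_right h1 (norm_nonneg v)

theorem coloring_step (F : Finset H) {h x : H →L[ℂ] H} (hh1 : ‖h‖ ≤ 1) {δ : ℝ} (hδ : 0 ≤ δ)
    (Q : Part A) (hQ : ∀ i, ‖Q.e i * h‖ ≤ δ) (r : ℕ) (hr : 0 < r) [DecidableEq Q.ι] :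
    ∃ c : Q.ι → Fin r, ∀ ξ ∈ F,
      ‖star h ((∑ j, ∑ k, (if j = k then (0 : H →L[ℂ] H) else
        (cind r c j k : ℂ) • (Q.e j * x * Q.e k))) (h ξ))‖ ≤
        2 * δ * ‖x‖ * √(∑ ξ ∈ F, ‖ξ‖ ^ 2) := by
  classical
  let V := PiLp 2 (fun _ : F => H)
  let v : Q.ι → Q.ι → V := fun j k => WithLp.toLp 2 (fun ξ : F => star h (Q.e j (x (Q.e k (h ξ)))))
  obtain ⟨c, hc⟩ := exists_coloring_symm (E := V) r hr v
  refine ⟨c, fun ξ hξ => ?_⟩
  set L : ℝ := ∑ ξ ∈ F, ‖ξ‖ ^ 2 with hL
  have hL0 : 0 ≤ L := Finset.sum_nonneg fun _ _ => sq_nonneg _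
  have hv : ∑ j, ∑ k, ‖v j k‖ ^ 2 ≤ δ ^ 2 * ‖x‖ ^ 2 * L := by
    have h1 : ∀ j k, ‖v j k‖ ^ 2 = ∑ ξ : F, ‖star h (Q.e j (x (Q.e k (h ξ))))‖ ^ 2 := by
      intro j k
      rw [PiLp.norm_sq_eq_of_L2]
    simp_rw [h1]
    have h2 : ∑ j, ∑ k, ∑ ξ : F, ‖star h (Q.e j (x (Q.e k (h ξ))))‖ ^ 2 =
        ∑ ξ : F, ∑ k, ∑ j, ‖star h (Q.e j (x (Q.e k (h ξ))))‖ ^ 2 := by
      rw [Finset.sum_comm]
      simp_rw [Finset.sum_comm (s := (Finset.univ : Finset Q.ι)) (t := (Finset.univ : Finset F))]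
    rw [h2]
    have h3 : ∀ ξ : F, ∑ k, ∑ j, ‖star h (Q.e j (x (Q.e k (h ξ))))‖ ^ 2 ≤
        δ ^ 2 * ‖x‖ ^ 2 * ‖(ξ : H)‖ ^ 2 := by
      intro ξ
      have h4 : ∀ k, ∑ j, ‖star h (Q.e j (x (Q.e k (h ξ))))‖ ^ 2 ≤
          δ ^ 2 * ‖x‖ ^ 2 * ‖Q.e k (h ξ)‖ ^ 2 := by
        intro k
        set u := x (Q.e k (h ξ)) with hu
        have h5 : ∀ j, ‖star h (Q.e j u)‖ ^ 2 ≤ δ ^ 2 * ‖Q.e j u‖ ^ 2 := by
          intro j
          have h6 : ‖star h (Q.e j u)‖ ≤ δ * ‖Q.e j u‖ := by
            have := norm_star_mul_le (Q.proj j) (hQ j) (Q.e j u)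
            rwa [sproj_apply_apply (Q.proj j)] at this
          calc ‖star h (Q.e j u)‖ ^ 2 ≤ (δ * ‖Q.e j u‖) ^ 2 :=
                pow_le_pow_left₀ (norm_nonneg _) h6 2
            _ = _ := by ring
        calc ∑ j, ‖star h (Q.e j u)‖ ^ 2 ≤ ∑ j, δ ^ 2 * ‖Q.e j u‖ ^ 2 :=
              Finset.sum_le_sum fun j _ => h5 j
          _ = δ ^ 2 * ‖u‖ ^ 2 := by rw [← Finset.mul_sum, Q.sum_norm_sq]
          _ ≤ δ ^ 2 * (‖x‖ * ‖Q.e k (h ξ)‖) ^ 2 := by
              apply mul_le_mul_of_nonneg_left _ (sq_nonneg δ)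
              exact pow_le_pow_left₀ (norm_nonneg _) (x.le_opNorm _) 2
          _ = _ := by ring
      calc ∑ k, ∑ j, ‖star h (Q.e j (x (Q.e k (h ξ))))‖ ^ 2
          ≤ ∑ k, δ ^ 2 * ‖x‖ ^ 2 * ‖Q.e k (h ξ)‖ ^ 2 := Finset.sum_le_sum fun k _ => h4 k
        _ = δ ^ 2 * ‖x‖ ^ 2 * ‖h ξ‖ ^ 2 := by rw [← Finset.mul_sum, Q.sum_norm_sq]
        _ ≤ δ ^ 2 * ‖x‖ ^ 2 * ‖(ξ : H)‖ ^ 2 := by
            apply mul_le_mul_of_nonneg_left _ (by (clear * -; positivity))
            apply pow_le_pow_left₀ (norm_nonneg _)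
            calc ‖h ξ‖ ≤ ‖h‖ * ‖(ξ : H)‖ := h.le_opNorm _
              _ ≤ 1 * ‖(ξ : H)‖ := mul_le_mul_of_nonneg_right hh1 (norm_nonneg _)
              _ = _ := one_mul _
    calc ∑ ξ : F, ∑ k, ∑ j, ‖star h (Q.e j (x (Q.e k (h ξ))))‖ ^ 2
        ≤ ∑ ξ : F, δ ^ 2 * ‖x‖ ^ 2 * ‖(ξ : H)‖ ^ 2 := Finset.sum_le_sum fun ξ _ => h3 ξ
      _ = δ ^ 2 * ‖x‖ ^ 2 * L := by
          rw [← Finset.mul_sum, hL, Finset.sum_coe_sort F (fun ξ => ‖ξ‖ ^ 2)]
  set Z : V := ∑ j, ∑ k, (if j = k then (0 : V) else (cind r c j k : ℂ) • v j k) with hZ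
  have hcomp : star h ((∑ j, ∑ k, (if j = k then (0 : H →L[ℂ] H) else
        (cind r c j k : ℂ) • (Q.e j * x * Q.e k))) (h ξ)) = Z ⟨ξ, hξ⟩ := by
    rw [hZ, WithLp.ofLp_sum, Finset.sum_apply, _root_.sum_apply, map_sum]
    refine Finset.sum_congr rfl fun j _ => ?_
    rw [WithLp.ofLp_sum, Finset.sum_apply, _root_.sum_apply, map_sum]
    refine Finset.sum_congr rfl fun k _ => ?_
    split_ifs with hjk
    · simp
    · change star h (((cind r c j k : ℂ) • (Q.e j * x * Q.e k)) (h ξ)) =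
        (cind r c j k : ℂ) • star h (Q.e j (x (Q.e k (h ξ))))
      rw [_root_.smul_apply, map_smul]
      rfl
  rw [hcomp]
  have h7 : ‖Z ⟨ξ, hξ⟩‖ ≤ ‖Z‖ := PiLp.norm_apply_le Z ⟨ξ, hξ⟩
  have h8 : ‖Z‖ ^ 2 ≤ (2 * δ * ‖x‖ * √L) ^ 2 := by
    have h9 : (2 * δ * ‖x‖ * √L) ^ 2 = 4 * (δ ^ 2 * ‖x‖ ^ 2 * L) := by
      rw [mul_pow, Real.sq_sqrt hL0]; ring
    rw [h9]
    have h10 : 0 ≤ δ ^ 2 * ‖x‖ ^ 2 * L := by (clear * -; (clear * -; positivity))
    linarith only [hv, hc, h10]
  exact h7.trans ((sq_le_sq₀ (norm_nonneg _) (by (clear * - hδ; (clear * - hδ; positivity)))).mp h8)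

theorem mixing_step (hc : ∀ x ∈ A, ∀ y ∈ A, x * y = y * x) {x a₀ h : H →L[ℂ] H}
    (U : Filter (Part A)) [U.NeBot]
    (hE : ∀ ξ η : H, Tendsto (fun Q : Part A => ⟪ξ, Q.E x η⟫_ℂ) U (𝓝 ⟪ξ, a₀ η⟫_ℂ))
    (hh1 : ‖h‖ ≤ 1) (F : Finset H) {δ η : ℝ} (hδ : 0 ≤ δ) (hη : 0 < η)
    (Q : Part A) (hQU : {Q' : Part A | Q.Finer Q'} ∈ U) (hQ : ∀ i, ‖Q.e i * h‖ ≤ δ) :
    ∃ R : Q.ι → Part A, ∀ ξ ∈ F,
      ‖star h (((Part.mix hc Q R).E x - a₀) (h ξ))‖ ≤
        η + 2 * δ * ‖x‖ * √(∑ ξ ∈ F, ‖ξ‖ ^ 2) := by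
  classical
  let V := PiLp 2 (fun _ : F => H)
  let T : Part A → V := fun Q' => WithLp.toLp 2 (fun ξ : F => star h (Q'.E x (h ξ)))
  let T₀ : V := WithLp.toLp 2 (fun ξ : F => star h (a₀ (h ξ)))
  have hT : ∀ y : V, Tendsto (fun Q' => ⟪y, T Q'⟫_ℂ) U (𝓝 ⟪y, T₀⟫_ℂ) := by
    intro y
    have e1 : (fun Q' => ⟪y, T Q'⟫_ℂ) =
        fun Q' : Part A => ∑ ξ : F, ⟪y ξ, star h (Q'.E x (h ξ))⟫_ℂ := by
      funext Q'
      exact PiLp.inner_apply y (T Q')
    have e2 : ⟪y, T₀⟫_ℂ = ∑ ξ : F, ⟪y ξ, star h (a₀ (h ξ))⟫_ℂ := PiLp.inner_apply y T₀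
    rw [e1, e2]
    apply tendsto_finsetSum
    intro ξ _
    have h1 := hE (h (y ξ)) (h ξ)
    have h2 : ∀ u : H, ⟪y ξ, star h u⟫_ℂ = ⟪h (y ξ), u⟫_ℂ := by
      intro u
      rw [ContinuousLinearMap.star_eq_adjoint, ContinuousLinearMap.adjoint_inner_right]
    simp only [h2]
    exact h1
  obtain ⟨σ, hσ, w, q, hw0, hw1, hqS, happ⟩ := exists_convex_approx U T T₀ hT hQU hη
  let z : Q.ι → σ → V := fun j s =>
    WithLp.toLp 2 (fun ξ : F => star h (Q.e j ((q s).E x (Q.e j (h ξ)))))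
  let n : Q.ι → ℝ := fun j => √(∑ ξ : F, ‖Q.e j (h ξ)‖ ^ 2)
  have hzn : ∀ j s, ‖z j s‖ ≤ δ * ‖x‖ * n j := by
    intro j s
    have h1 : ‖z j s‖ ^ 2 ≤ (δ * ‖x‖ * n j) ^ 2 := by
      rw [PiLp.norm_sq_eq_of_L2, mul_pow, Real.sq_sqrt (Finset.sum_nonneg fun _ _ => sq_nonneg _),
        Finset.mul_sum]
      refine Finset.sum_le_sum fun ξ _ => ?_
      change ‖star h (Q.e j ((q s).E x (Q.e j (h ξ))))‖ ^ 2 ≤ _
      calc ‖star h (Q.e j ((q s).E x (Q.e j (h ξ))))‖ ^ 2
          ≤ (δ * ‖(q s).E x (Q.e j (h ξ))‖) ^ 2 :=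
            pow_le_pow_left₀ (norm_nonneg _) (norm_star_mul_le (Q.proj j) (hQ j) _) 2
        _ ≤ (δ * (‖x‖ * ‖Q.e j (h ξ)‖)) ^ 2 := by
            apply pow_le_pow_left₀ (by (clear * - hδ; positivity))
            apply mul_le_mul_of_nonneg_left _ hδ
            calc ‖(q s).E x (Q.e j (h ξ))‖ ≤ ‖(q s).E x‖ * ‖Q.e j (h ξ)‖ :=
                  ((q s).E x).le_opNorm _
              _ ≤ ‖x‖ * ‖Q.e j (h ξ)‖ :=
                  mul_le_mul_of_nonneg_right ((q s).norm_E_le x) (norm_nonneg _)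
        _ = _ := by ring
    exact (sq_le_sq₀ (norm_nonneg _) (by (clear * - hδ; positivity))).mp h1
  have hmean : ∀ j, ‖∑ s', (w s' : ℂ) • z j s'‖ ≤ δ * ‖x‖ * n j := by
    intro j
    calc ‖∑ s', (w s' : ℂ) • z j s'‖ ≤ ∑ s', ‖(w s' : ℂ) • z j s'‖ := norm_sum_le _ _
      _ ≤ ∑ s', w s' * (δ * ‖x‖ * n j) := by
          refine Finset.sum_le_sum fun s' _ => ?_
          rw [norm_smul, Complex.norm_real, Real.norm_of_nonneg (hw0 s')]
          exact mul_le_mul_of_nonneg_left (hzn j s') (hw0 s')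
      _ = δ * ‖x‖ * n j := by rw [← Finset.sum_mul, hw1, one_mul]
  have hC : ∀ j s, ‖z j s - ∑ s', (w s' : ℂ) • z j s'‖ ≤ 2 * (δ * ‖x‖ * n j) := by
    intro j s
    calc ‖z j s - ∑ s', (w s' : ℂ) • z j s'‖ ≤ ‖z j s‖ + ‖∑ s', (w s' : ℂ) • z j s'‖ :=
          norm_sub_le _ _
      _ ≤ _ := by linarith only [hzn j s, hmean j]
  obtain ⟨ρ, hρ⟩ := greedy_selection w hw0 hw1 z (fun j => 2 * (δ * ‖x‖ * n j)) hC Finset.univ
  refine ⟨fun j => q (ρ j), fun ξ hξ => ?_⟩
  set L : ℝ := ∑ ξ ∈ F, ‖ξ‖ ^ 2 with hL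
  have hL0 : 0 ≤ L := Finset.sum_nonneg fun _ _ => sq_nonneg _
  have hsum : ∑ j, (2 * (δ * ‖x‖ * n j)) ^ 2 ≤ (2 * δ * ‖x‖ * √L) ^ 2 := by
    have h1 : ∀ j, (2 * (δ * ‖x‖ * n j)) ^ 2 =
        4 * δ ^ 2 * ‖x‖ ^ 2 * ∑ ξ : F, ‖Q.e j (h ξ)‖ ^ 2 := by
      intro j
      have : (n j) ^ 2 = ∑ ξ : F, ‖Q.e j (h ξ)‖ ^ 2 :=
        Real.sq_sqrt (Finset.sum_nonneg fun _ _ => sq_nonneg _)
      rw [← this]; ring
    simp_rw [h1]
    rw [← Finset.mul_sum, Finset.sum_comm]
    simp_rw [Q.sum_norm_sq]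
    rw [mul_pow, Real.sq_sqrt hL0]
    have h2 : ∑ ξ : F, ‖h ξ‖ ^ 2 ≤ L := by
      rw [hL, ← Finset.sum_coe_sort F (fun ξ => ‖ξ‖ ^ 2)]
      refine Finset.sum_le_sum fun ξ _ => ?_
      apply pow_le_pow_left₀ (norm_nonneg _)
      calc ‖h ξ‖ ≤ ‖h‖ * ‖(ξ : H)‖ := h.le_opNorm _
        _ ≤ 1 * ‖(ξ : H)‖ := mul_le_mul_of_nonneg_right hh1 (norm_nonneg _)
        _ = _ := one_mul _
    calc 4 * δ ^ 2 * ‖x‖ ^ 2 * ∑ ξ : F, ‖h ξ‖ ^ 2 ≤ 4 * δ ^ 2 * ‖x‖ ^ 2 * L :=
          mul_le_mul_of_nonneg_left h2 (by (clear * -; positivity))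
      _ = _ := by ring
  have hTmix : T (Part.mix hc Q fun j => q (ρ j)) = ∑ j, z j (ρ j) := by
    ext ξ'
    rw [WithLp.ofLp_sum, Finset.sum_apply]
    change star h ((Part.mix hc Q fun j => q (ρ j)).E x (h ξ')) = _
    rw [Part.mix_E, _root_.sum_apply, map_sum]
    rfl
  have hTq : ∀ s, T (q s) = ∑ j, z j s := by
    intro s
    ext ξ'
    rw [WithLp.ofLp_sum, Finset.sum_apply]
    change star h ((q s).E x (h ξ')) = _
    have h1 : (q s).E x = Q.E ((q s).E x) := ((hqS s : Q.Finer (q s)).E_E hc x).symm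
    rw [h1, Part.E_apply_apply, map_sum]
  have hdiff : T (Part.mix hc Q fun j => q (ρ j)) - T₀ =
      ∑ j, (z j (ρ j) - ∑ s', (w s' : ℂ) • z j s') + (∑ s, (w s : ℂ) • T (q s) - T₀) := by
    rw [hTmix, Finset.sum_sub_distrib]
    have h1 : ∑ j, ∑ s', (w s' : ℂ) • z j s' = ∑ s, (w s : ℂ) • T (q s) := by
      rw [Finset.sum_comm]
      refine Finset.sum_congr rfl fun s _ => ?_
      rw [hTq, Finset.smul_sum]
    rw [h1]; abel
  have hnorm : ‖T (Part.mix hc Q fun j => q (ρ j)) - T₀‖ ≤ η + 2 * δ * ‖x‖ * √L := by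
    rw [hdiff]
    have h1 : ‖∑ j, (z j (ρ j) - ∑ s', (w s' : ℂ) • z j s')‖ ≤ 2 * δ * ‖x‖ * √L :=
      (sq_le_sq₀ (norm_nonneg _) (by (clear * - hδ; (clear * - hδ; positivity)))).mp (hρ.trans hsum)
    calc _ ≤ ‖∑ j, (z j (ρ j) - ∑ s', (w s' : ℂ) • z j s')‖ +
          ‖∑ s, (w s : ℂ) • T (q s) - T₀‖ := norm_add_le _ _
      _ ≤ _ := by linarith only [happ, h1]
  have hcomp : star h (((Part.mix hc Q fun j => q (ρ j)).E x - a₀) (h ξ)) =
      (T (Part.mix hc Q fun j => q (ρ j)) - T₀) ⟨ξ, hξ⟩ := by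
    rw [_root_.sub_apply, map_sub]
    rfl
  rw [hcomp]
  exact (PiLp.norm_apply_le _ _).trans hnorm

end Vale.Agent.P078
end

end

section
section

namespace Vale.Agent.P078

open Filter Topology
open scoped InnerProductSpace

variable {H : Type*} [NormedAddCommGroup H] [InnerProductSpace ℂ H] [CompleteSpace H]
variable {M : VonNeumannAlgebra H} {A : StarSubalgebra ℂ (H →L[ℂ] H)}

/-- the sum of the blocks of one color -/
noncomputable def Part.group (Q : Part A) {r : ℕ} (c : Q.ι → Fin r) (i : Fin r) : H →L[ℂ] H :=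
  ∑ j, if c j = i then Q.e j else 0

theorem Part.group_mem (Q : Part A) {r : ℕ} (c : Q.ι → Fin r) (i : Fin r) : Q.group c i ∈ A := by
  refine sum_mem fun j _ => ?_
  split_ifs
  · exact Q.mem j
  · exact zero_mem _

theorem Part.group_mul (Q : Part A) {r : ℕ} (c : Q.ι → Fin r) (i i' : Fin r) :
    Q.group c i * Q.group c i' = if i = i' then Q.group c i else 0 := by
  classical
  unfold Part.group
  rw [Finset.sum_mul_sum]
  have h1 : ∀ j, ∑ k, (if c j = i then Q.e j else 0) * (if c k = i' then Q.e k else 0) =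
      if c j = i ∧ i = i' then Q.e j else 0 := by
    intro j
    rw [Finset.sum_eq_single j]
    · by_cases h : c j = i
      · by_cases h' : i = i'
        · simp [h, h', Q.mul_self]
        · simp [h, h']
      · simp [h]
    · intro k _ hk
      split_ifs <;> simp [Q.orth j k hk.symm]
    · intro h; exact absurd (Finset.mem_univ j) h
  simp_rw [h1]
  by_cases h' : i = i'
  · simp only [h', and_true, ↓reduceIte]
  · simp only [h', and_false, ↓reduceIte, Finset.sum_const_zero]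

theorem Part.group_proj (Q : Part A) {r : ℕ} (c : Q.ι → Fin r) (i : Fin r) :
    IsStarProjection (Q.group c i) := by
  constructor
  · have := Q.group_mul c i i
    rw [if_pos rfl] at this
    exact this
  · unfold Part.group
    rw [IsSelfAdjoint, star_sum]
    refine Finset.sum_congr rfl fun j _ => ?_
    split_ifs
    · exact Q.star_e j
    · exact star_zero _

theorem Part.sum_group (Q : Part A) {r : ℕ} (c : Q.ι → Fin r) : ∑ i, Q.group c i = 1 := by
  classical
  unfold Part.group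
  rw [Finset.sum_comm]
  simp only [Finset.sum_ite_eq, Finset.mem_univ, ↓reduceIte, Q.sum_eq]

theorem Part.sum_group_conj (Q : Part A) [DecidableEq Q.ι] {r : ℕ} (c : Q.ι → Fin r)
    (x : H →L[ℂ] H) :
    ∑ i, Q.group c i * x * Q.group c i = ((1 / (r : ℝ) : ℝ) : ℂ) • x +
      ((1 - 1 / (r : ℝ) : ℝ) : ℂ) • Q.E x +
      ∑ j, ∑ k, (if j = k then (0 : H →L[ℂ] H) else
        (cind r c j k : ℂ) • (Q.e j * x * Q.e k)) := by
  classical
  have h1 : ∑ i, Q.group c i * x * Q.group c i =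
      ∑ j, ∑ k, (if c j = c k then Q.e j * x * Q.e k else 0) := by
    have h2 : ∀ i, Q.group c i * x * Q.group c i =
        ∑ j, ∑ k, (if c j = i then (if c k = i then Q.e j * x * Q.e k else 0) else 0) := by
      intro i
      unfold Part.group
      rw [Finset.sum_mul, Finset.sum_mul_sum]
      refine Finset.sum_congr rfl fun j _ => ?_
      refine Finset.sum_congr rfl fun k _ => ?_
      split_ifs <;> simp
    simp_rw [h2]
    rw [Finset.sum_comm]
    refine Finset.sum_congr rfl fun j _ => ?_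
    rw [Finset.sum_comm]
    refine Finset.sum_congr rfl fun k _ => ?_
    rw [Finset.sum_ite_eq]
    simp only [Finset.mem_univ, if_true]
    by_cases h : c j = c k
    · rw [if_pos h, if_pos h.symm]
    · rw [if_neg h, if_neg (fun h' => h h'.symm)]
  have hx : x = ∑ j, ∑ k, Q.e j * x * Q.e k := (Q.sum_sum x).symm
  have hD : Q.E x = ∑ j, ∑ k, (if j = k then Q.e j * x * Q.e k else 0) := by
    rw [Part.E_apply]
    refine Finset.sum_congr rfl fun j _ => ?_
    rw [Finset.sum_ite_eq]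
    simp only [Finset.mem_univ, ↓reduceIte]
  rw [h1]
  conv_rhs => rw [hD]
  conv_rhs => enter [1, 1]; rw [hx]
  simp_rw [Finset.smul_sum]
  rw [← Finset.sum_add_distrib, ← Finset.sum_add_distrib]
  refine Finset.sum_congr rfl fun j _ => ?_
  rw [← Finset.sum_add_distrib, ← Finset.sum_add_distrib]
  refine Finset.sum_congr rfl fun k _ => ?_
  by_cases hjk : j = k
  · subst hjk
    simp only [if_true]
    rw [add_zero, ← add_smul, ← Complex.ofReal_add]
    have : (1 / (r : ℝ) + (1 - 1 / (r : ℝ)) : ℝ) = 1 := by ring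
    rw [this, Complex.ofReal_one, one_smul]
  · simp only [hjk, if_false, smul_zero, add_zero]
    rw [← add_smul, ← Complex.ofReal_add]
    unfold cind
    by_cases hcc : c j = c k
    · rw [if_pos hcc, if_pos hcc]
      have : (1 / (r : ℝ) + (1 - 1 / (r : ℝ)) : ℝ) = 1 := by ring
      rw [this, Complex.ofReal_one, one_smul]
    · rw [if_neg hcc, if_neg hcc]
      have : (1 / (r : ℝ) + (0 - 1 / (r : ℝ)) : ℝ) = 0 := by ring
      rw [this, Complex.ofReal_zero, zero_smul]

theorem star_conj_sa {p x : H →L[ℂ] H} (hp : IsSelfAdjoint p) (hx : IsSelfAdjoint x) :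
    star (p * x * p) = p * x * p := by
  rw [star_mul, star_mul, hp.star_eq, hx.star_eq, mul_assoc]

/-- Claim 1 -/
theorem SmallProp.sOPavable (hA : IsMASA A M) {w : H →L[ℂ] H} (hw : w ∈ A)
    (hwp : IsStarProjection w) (hS : SmallProp M A w) {x : H →L[ℂ] H} (hx : x ∈ M)
    (hxs : IsSelfAdjoint x) (hwx : w * x * w = x) {ε : ℝ} {r : ℕ} (hr : 0 < r)
    (hε : 1 / (r : ℝ) < ε) : SOPavable M A w x ε r := by
  classical
  intro F hF δ hδ
  have hc := hA.2.1
  have hAM : ∀ a ∈ A, a ∈ M := fun a ha => hA.1 ha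
  have hww : w * w = w := hwp.isIdempotentElem.eq
  by_cases hx0 : x = 0
  · subst hx0
    refine ⟨fun i => if i = ⟨0, hr⟩ then w else 0, 0, w, ?_, ?_, ?_, zero_mem _, by simp,
      IsSelfAdjoint.zero _, by simp, hAM w hw, hww, hwp, ?_, by simp only [mul_zero, mul_ite, zero_mul, ite_self, Finset.sum_const_zero, sub_self, norm_zero, Std.le_refl]⟩
    · intro i
      by_cases hi : i = ⟨0, hr⟩
      · simp only [hi, if_true]; exact ⟨hw, hwp⟩
      · simp only [hi, if_false]; exact ⟨zero_mem _, IsStarProjection.zero _⟩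
    · intro i j hij
      by_cases hi : i = ⟨0, hr⟩
      · have hj : j ≠ ⟨0, hr⟩ := fun h => hij (by rw [hi, h])
        simp [hj]
      · simp [hi]
    · simp only [Finset.sum_ite_eq', Finset.mem_univ, ↓reduceIte]
    · intro ξ hξ
      rw [hF ξ hξ, sub_self, norm_zero]
      exact hδ
  have hxpos : 0 < ‖x‖ := norm_pos_iff.mpr hx0
  have hrpos : (0 : ℝ) < r := by exact_mod_cast hr
  have hr1 : (1 : ℝ) / r ≤ 1 := by
    rw [div_le_one hrpos]
    exact_mod_cast hr
  have hr0 : (0 : ℝ) ≤ 1 / r := by (clear * - hr; positivity)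
  have : (Part.filter A).NeBot := Part.filter_neBot hc
  set U : Ultrafilter (Part A) := Ultrafilter.of (Part.filter A) with hUdef
  have hU : (U : Filter (Part A)) ≤ Part.filter A := Ultrafilter.of_le _
  obtain ⟨E, hEt, hEn, hEA, hEpos, hEsa, hEbim, hEid⟩ := exists_limit_expectation hA U hU
  set a₀ := E x with ha₀
  have ha₀A : a₀ ∈ A := hEA x hx
  have ha₀sa : IsSelfAdjoint a₀ := hEsa x hxs
  have hwx1 : w * x = x := by
    calc w * x = w * (w * x * w) := by rw [hwx]
      _ = (w * w) * x * w := by simp only [mul_assoc]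
      _ = x := by rw [hww, hwx]
  have hxw1 : x * w = x := by
    calc x * w = (w * x * w) * w := by rw [hwx]
      _ = w * x * (w * w) := by simp only [mul_assoc]
      _ = x := by rw [hww, hwx]
  have hwa₀ : w * a₀ = a₀ := by
    have := (hEbim w hw x).1
    rw [hwx1] at this
    exact this.symm
  set ρ : ℝ := 1 - 1 / (r : ℝ) with hρ
  have hρ0 : 0 ≤ ρ := by linarith only [hr1]
  have hρ1 : ρ ≤ 1 := by linarith only [hr0]
  -- parameters
  set κ : ℝ := (ε - 1 / (r : ℝ)) * ‖x‖ with hκ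
  have hκpos : 0 < κ := mul_pos (by linarith only [hε]) hxpos
  set B : ℝ := ∑ ξ ∈ F, ‖ξ‖ + 1 with hB
  have hBpos : 0 < B := by
    have : 0 ≤ ∑ ξ ∈ F, ‖ξ‖ := Finset.sum_nonneg fun _ _ => norm_nonneg _
    linarith only [this]
  have hBle : ∀ ξ ∈ F, ‖ξ‖ ≤ B := by
    intro ξ hξ
    have : ‖ξ‖ ≤ ∑ ξ ∈ F, ‖ξ‖ :=
      Finset.single_le_sum (f := fun ξ : H => ‖ξ‖) (fun _ _ => norm_nonneg _) hξ
    linarith only [this]
  set s : ℝ := (δ / (4 * B)) ^ 2 with hs
  have hspos : 0 < s := by (clear * - hδ; (clear * - hδ; positivity))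
  have hsqrt : √s = δ / (4 * B) := Real.sqrt_sq (by (clear * - hδ; positivity))
  set t : ℝ := κ * s with ht
  have htpos : 0 < t := mul_pos hκpos hspos
  have hts : t / s = κ := by rw [ht]; (clear * - hspos hκpos; field_simp)
  set L : ℝ := √(∑ ξ ∈ F, ‖ξ‖ ^ 2) with hL
  have hL0 : 0 ≤ L := Real.sqrt_nonneg _
  set δ' : ℝ := min (δ / 4) (t * δ / (8 * (4 * ‖x‖ * L + 1))) with hδ'
  have hden : 0 < 8 * (4 * ‖x‖ * L + 1) := by (clear * - hx0; positivity)
  have hδ'pos : 0 < δ' := lt_min (by (clear * - hδ; positivity)) (by (clear * - hε hδ hx0; positivity))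
  have hδ'1 : δ' ≤ δ / 4 := min_le_left _ _
  have hδ'2 : 4 * δ' * ‖x‖ * L ≤ t * δ / 8 := by
    have h1 : δ' ≤ t * δ / (8 * (4 * ‖x‖ * L + 1)) := min_le_right _ _
    rw [le_div_iff₀ hden] at h1
    have h2 : 0 ≤ δ' := hδ'pos.le
    linarith only [hδ'pos, h1]
  obtain ⟨h, hhM, hh1, hwh, hhF, Q, hQ⟩ := hS F hF δ' hδ'pos
  have hQU : {Q' : Part A | Q.Finer Q'} ∈ (U : Filter (Part A)) := by
    apply hU
    exact Filter.mem_iInf_of_mem Q (Filter.mem_principal_self _)
  obtain ⟨R, hR⟩ := mixing_step (h := h) (η := t * δ / 8) hc (U : Filter (Part A))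
    (fun ξ η => hEt x ξ η) hh1 F hδ'pos.le (by (clear * - hε hδ hx0; positivity)) Q hQU hQ
  set Q' := Part.mix hc Q R with hQ'
  have hQ's : ∀ i, ‖Q'.e i * h‖ ≤ δ' := Part.mix_small hc Q R hQ
  obtain ⟨c, hcol⟩ := coloring_step (x := x) F hh1 hδ'pos.le Q' hQ's r hr
  set W : H →L[ℂ] H := ∑ j, ∑ k, (if j = k then (0 : H →L[ℂ] H) else
        (cind r c j k : ℂ) • (Q'.e j * x * Q'.e k)) with hW
  set G : Fin r → (H →L[ℂ] H) := Q'.group c with hG
  set p : Fin r → (H →L[ℂ] H) := fun i => w * G i with hp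
  have hGA : ∀ i, G i ∈ A := Q'.group_mem c
  have hwG : ∀ i, w * G i = G i * w := fun i => hc _ hw _ (hGA i)
  have hpp : ∀ i, IsStarProjection (p i) := fun i => hwp.mul (Q'.group_proj c i) (hwG i)
  have hsumconj : ∑ i, p i * x * p i = ((1 / (r : ℝ) : ℝ) : ℂ) • x + (ρ : ℂ) • Q'.E x + W := by
    rw [hρ, hW, ← Q'.sum_group_conj c x]
    refine Finset.sum_congr rfl fun i _ => ?_
    calc p i * x * p i = (w * G i) * x * (w * G i) := rfl
      _ = (G i * w) * x * (w * G i) := by rw [hwG i]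
      _ = G i * (w * x * w) * G i := by simp only [mul_assoc]
      _ = G i * x * G i := by rw [hwx]
  set a : H →L[ℂ] H := (ρ : ℂ) • a₀ with ha
  have haA : a ∈ A := A.smul_mem ha₀A _
  have hasa : IsSelfAdjoint a := by
    rw [ha, IsSelfAdjoint, star_smul, ha₀sa.star_eq]
    simp
  set Y : H →L[ℂ] H := ∑ i, p i * x * p i - ((1 / (r : ℝ) : ℝ) : ℂ) • x - a with hY
  have hYeq : Y = W + (ρ : ℂ) • (Q'.E x - a₀) := by
    rw [hY, hsumconj, ha, smul_sub]; abel
  have hpA : ∀ i, p i ∈ A := fun i => mul_mem hw (hGA i)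
  have hsumM : ∑ i, p i * x * p i ∈ M :=
    sum_mem fun i _ => mul_mem (mul_mem (hAM _ (hpA i)) hx) (hAM _ (hpA i))
  have hYM : Y ∈ M := by
    refine sub_mem (sub_mem hsumM ?_) (hAM _ haA)
    exact M.toStarSubalgebra.smul_mem hx _
  have hsumsa : IsSelfAdjoint (∑ i, p i * x * p i) := by
    rw [IsSelfAdjoint, star_sum]
    exact Finset.sum_congr rfl fun i _ => star_conj_sa (hpp i).isSelfAdjoint hxs
  have hYsa : IsSelfAdjoint Y := by
    refine (hsumsa.sub ?_).sub hasa
    rw [IsSelfAdjoint, star_smul, hxs.star_eq]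
    simp only [one_div, Complex.ofReal_inv, Complex.ofReal_natCast, star_inv₀, star_natCast]
  obtain ⟨q, hqM, hqp, hqY, hqw, hqF⟩ := exists_corner M hYM hYsa hhM hh1 hspos htpos
  refine ⟨p, a, q, fun i => ⟨hpA i, hpp i⟩, ?_, ?_, haA, ?_, hasa, ?_, hqM, hqw w hwh, hqp, ?_, ?_⟩
  · intro i j hij
    calc p i * p j = (w * G i) * (w * G j) := rfl
      _ = (w * G i) * (G j * w) := by rw [hwG j]
      _ = w * (G i * G j) * w := by simp only [mul_assoc]
      _ = 0 := by
          rw [Q'.group_mul c i j, if_neg hij]; simp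
  · rw [hp]
    simp only
    rw [← Finset.mul_sum, Q'.sum_group c, mul_one]
  · rw [ha, mul_smul_comm, hwa₀]
  · rw [ha, norm_smul, Complex.norm_real, Real.norm_of_nonneg hρ0]
    calc ρ * ‖a₀‖ ≤ 1 * ‖a₀‖ := mul_le_mul_of_nonneg_right hρ1 (norm_nonneg _)
      _ = ‖a₀‖ := one_mul _
      _ ≤ ‖x‖ := hEn x
  · intro ξ hξ
    have h1 := hqF ξ
    have h2 : ‖ξ - h ξ‖ < δ / 4 := by
      rw [norm_sub_rev]
      exact (hhF ξ hξ).trans_le hδ'1
    have h3 : ‖(star h * Y * h) ξ‖ ≤ t * δ / 4 := by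
      have h4 : (star h * Y * h) ξ = star h (W (h ξ)) +
          (ρ : ℂ) • star h ((Q'.E x - a₀) (h ξ)) := by
        change star h (Y (h ξ)) = _
        rw [hYeq, _root_.add_apply, _root_.smul_apply, map_add, map_smul]
      rw [h4]
      have h5 := hcol ξ hξ
      have h6 := hR ξ hξ
      calc ‖star h (W (h ξ)) + (ρ : ℂ) • star h ((Q'.E x - a₀) (h ξ))‖
          ≤ ‖star h (W (h ξ))‖ + ‖(ρ : ℂ) • star h ((Q'.E x - a₀) (h ξ))‖ := norm_add_le _ _
        _ = ‖star h (W (h ξ))‖ + ρ * ‖star h ((Q'.E x - a₀) (h ξ))‖ := by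
            rw [norm_smul, Complex.norm_real, Real.norm_of_nonneg hρ0]
        _ ≤ ‖star h (W (h ξ))‖ + 1 * ‖star h ((Q'.E x - a₀) (h ξ))‖ := by
            have := mul_le_mul_of_nonneg_right hρ1 (norm_nonneg (star h ((Q'.E x - a₀) (h ξ))))
            linarith only [this]
        _ ≤ 2 * δ' * ‖x‖ * L + 1 * (t * δ / 8 + 2 * δ' * ‖x‖ * L) := by
            rw [one_mul, one_mul]
            exact add_le_add h5 h6
        _ ≤ t * δ / 4 := by linarith only [hδ'2]
    have h7 : ‖(star h * Y * h) ξ‖ / t ≤ δ / 4 := by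
      rw [div_le_iff₀ htpos]
      linarith only [h3]
    have h8 : √s * ‖ξ‖ ≤ δ / 4 := by
      rw [hsqrt]
      calc δ / (4 * B) * ‖ξ‖ ≤ δ / (4 * B) * B :=
            mul_le_mul_of_nonneg_left (hBle ξ hξ) (by (clear * - hδ; (clear * - hδ; positivity)))
        _ = δ / 4 := by (clear * - hBpos hδ; field_simp)
    linarith only [hδ'pos, hδ'1, h1, h2, h7, h8]
  · have h1 : q * (∑ i, p i * x * p i - a) * q =
        q * Y * q + ((1 / (r : ℝ) : ℝ) : ℂ) • (q * x * q) := by
      rw [hY]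
      simp only [mul_sub, sub_mul, mul_smul_comm, smul_mul_assoc]
      abel
    rw [h1]
    have hq1 : ‖q‖ ≤ 1 := by
      refine ContinuousLinearMap.opNorm_le_bound _ zero_le_one fun v => ?_
      rw [one_mul]; exact proj_norm_le hqp v
    have h2 : ‖q * x * q‖ ≤ ‖x‖ := by
      calc ‖q * x * q‖ ≤ ‖q * x‖ * ‖q‖ := norm_mul_le _ _
        _ ≤ (‖q‖ * ‖x‖) * ‖q‖ := mul_le_mul_of_nonneg_right (norm_mul_le _ _) (norm_nonneg _)
        _ ≤ (1 * ‖x‖) * 1 := by
            apply mul_le_mul _ hq1 (norm_nonneg _) (by (clear * - hx0; positivity))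
            exact mul_le_mul_of_nonneg_right hq1 (norm_nonneg _)
        _ = ‖x‖ := by ring
    calc ‖q * Y * q + ((1 / (r : ℝ) : ℝ) : ℂ) • (q * x * q)‖
        ≤ ‖q * Y * q‖ + ‖((1 / (r : ℝ) : ℝ) : ℂ) • (q * x * q)‖ := norm_add_le _ _
      _ = ‖q * Y * q‖ + 1 / (r : ℝ) * ‖q * x * q‖ := by
          rw [norm_smul, Complex.norm_real, Real.norm_of_nonneg hr0]
      _ ≤ κ + 1 / (r : ℝ) * ‖x‖ := by
          have := mul_le_mul_of_nonneg_left h2 hr0
          rw [hts] at hqY
          linarith only [hqY, this]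
      _ = ε * ‖x‖ := by rw [hκ]; ring

theorem re_inner_compress {S q : H →L[ℂ] H} (hq : IsStarProjection q) {ε δ : ℝ}
    (hS2 : ‖S‖ ≤ 2) (hqS : ‖q * S * q‖ ≤ ε) {ζ : H} (hζ : ‖ζ‖ ≤ 1)
    (hζq : ‖ζ - q ζ‖ ≤ δ) : |RCLike.re ⟪S ζ, ζ⟫_ℂ| ≤ ε * ‖ζ‖ ^ 2 + 4 * δ := by
  have hδ : 0 ≤ δ := (norm_nonneg _).trans hζq
  have hε : 0 ≤ ε := (norm_nonneg _).trans hqS
  have h1 : ⟪S ζ, ζ⟫_ℂ = ⟪S (q ζ), q ζ⟫_ℂ + ⟪S (ζ - q ζ), q ζ⟫_ℂ + ⟪S ζ, ζ - q ζ⟫_ℂ := by
    rw [map_sub, inner_sub_left, inner_sub_right]; ring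
  have h2 : ⟪S (q ζ), q ζ⟫_ℂ = ⟪(q * S * q) ζ, ζ⟫_ℂ := by
    change _ = ⟪q (S (q ζ)), ζ⟫_ℂ
    rw [sproj_inner hq]
  have h3 : ‖⟪(q * S * q) ζ, ζ⟫_ℂ‖ ≤ ε * ‖ζ‖ ^ 2 := by
    calc ‖⟪(q * S * q) ζ, ζ⟫_ℂ‖ ≤ ‖(q * S * q) ζ‖ * ‖ζ‖ := norm_inner_le_norm _ _
      _ ≤ (‖q * S * q‖ * ‖ζ‖) * ‖ζ‖ :=
          mul_le_mul_of_nonneg_right ((q * S * q).le_opNorm ζ) (norm_nonneg _)
      _ ≤ (ε * ‖ζ‖) * ‖ζ‖ := by
          apply mul_le_mul_of_nonneg_right _ (norm_nonneg _)
          exact mul_le_mul_of_nonneg_right hqS (norm_nonneg _)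
      _ = _ := by ring
  have hqζ : ‖q ζ‖ ≤ 1 := (proj_norm_le hq ζ).trans hζ
  have h4 : ‖⟪S (ζ - q ζ), q ζ⟫_ℂ‖ ≤ 2 * δ := by
    calc ‖⟪S (ζ - q ζ), q ζ⟫_ℂ‖ ≤ ‖S (ζ - q ζ)‖ * ‖q ζ‖ := norm_inner_le_norm _ _
      _ ≤ (‖S‖ * ‖ζ - q ζ‖) * ‖q ζ‖ :=
          mul_le_mul_of_nonneg_right (S.le_opNorm _) (norm_nonneg _)
      _ ≤ (2 * δ) * 1 := by
          apply mul_le_mul _ hqζ (norm_nonneg _) (by positivity)
          exact mul_le_mul hS2 hζq (norm_nonneg _) (by norm_num)
      _ = 2 * δ := by ring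
  have h5 : ‖⟪S ζ, ζ - q ζ⟫_ℂ‖ ≤ 2 * δ := by
    calc ‖⟪S ζ, ζ - q ζ⟫_ℂ‖ ≤ ‖S ζ‖ * ‖ζ - q ζ‖ := norm_inner_le_norm _ _
      _ ≤ (‖S‖ * ‖ζ‖) * ‖ζ - q ζ‖ :=
          mul_le_mul_of_nonneg_right (S.le_opNorm _) (norm_nonneg _)
      _ ≤ (2 * 1) * δ := by
          apply mul_le_mul _ hζq (norm_nonneg _) (by positivity)
          exact mul_le_mul hS2 hζ (norm_nonneg _) (by norm_num)
      _ = 2 * δ := by ring
  calc |RCLike.re ⟪S ζ, ζ⟫_ℂ| ≤ ‖⟪S ζ, ζ⟫_ℂ‖ := RCLike.abs_re_le_norm _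
    _ ≤ ‖⟪(q * S * q) ζ, ζ⟫_ℂ‖ + ‖⟪S (ζ - q ζ), q ζ⟫_ℂ‖ + ‖⟪S ζ, ζ - q ζ⟫_ℂ‖ := by
        rw [h1, h2]; exact norm_add₃_le
    _ ≤ _ := by linarith only [h3, h4, h5]

/-- Claim 2 -/
theorem SmallProp.lower [Nontrivial H] (hA : IsMASA A M) (hS : SmallProp M A 1) {ε : ℝ}
    (hε : 0 < ε) {r : ℕ} (hr : 0 < r)
    (h : ∀ x ∈ M, IsSelfAdjoint x → SOPavable M A 1 x ε r) : 1 / (r : ℝ) ≤ ε := by
  classical
  have hc := hA.2.1
  have hrpos : (0 : ℝ) < r := by exact_mod_cast hr
  have hr1 : (1 : ℝ) / r ≤ 1 := by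
    rw [div_le_one hrpos]
    exact_mod_cast hr
  obtain ⟨ξ, hξ⟩ := exists_norm_eq H (zero_le_one' ℝ)
  have key : ∀ δ : ℝ, 0 < δ → δ ≤ 1 → (1 - 2 * δ) / r ≤ ε + 2 * δ := by
    intro δ hδ hδ1
    obtain ⟨g, hgM, hg1, -, hgF, Q, hQ⟩ := hS {ξ} (by simp) δ hδ
    have hgξ : ‖g ξ - ξ‖ < δ := hgF ξ (by simp)
    set x : H →L[ℂ] H := (2 : ℂ) • (g * star g) - 1 with hx
    have hxM : x ∈ M := by
      refine sub_mem ?_ (one_mem _)
      exact M.toStarSubalgebra.smul_mem (mul_mem hgM (star_mem hgM)) _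
    have hxsa : IsSelfAdjoint x := by
      rw [hx, IsSelfAdjoint, star_sub, star_smul, star_mul, star_star, star_one]
      simp only [star_ofNat]
    have hxre : ∀ v, RCLike.re ⟪x v, v⟫_ℂ = 2 * ‖star g v‖ ^ 2 - ‖v‖ ^ 2 := by
      intro v
      have h1 : x v = (2 : ℂ) • (g (star g v)) - v := by
        rw [hx]; rfl
      have h2 : ⟪g (star g v), v⟫_ℂ = ⟪star g v, star g v⟫_ℂ := by
        conv_rhs => rw [ContinuousLinearMap.star_eq_adjoint]
        rw [ContinuousLinearMap.adjoint_inner_right]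
        rfl
      rw [h1, inner_sub_left, inner_smul_left, map_sub, h2, inner_self_eq_norm_sq]
      have h3 : (starRingEnd ℂ) 2 = ((2 : ℝ) : ℂ) := by
        have h5 : (2 : ℂ) = ((2 : ℝ) : ℂ) := by simp
        rw [h5, Complex.conj_ofReal]
      rw [h3]
      have h4 : RCLike.re (((2 : ℝ) : ℂ) * ⟪star g v, star g v⟫_ℂ) =
          2 * RCLike.re ⟪star g v, star g v⟫_ℂ := RCLike.re_ofReal_mul (K := ℂ) _ _
      rw [h4, inner_self_eq_norm_sq]
    have hsg1 : ‖star g‖ ≤ 1 := by rw [norm_star]; exact hg1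
    have hsg : ∀ v, ‖star g v‖ ≤ ‖v‖ := by
      intro v
      calc ‖star g v‖ ≤ ‖star g‖ * ‖v‖ := (star g).le_opNorm v
        _ ≤ 1 * ‖v‖ := mul_le_mul_of_nonneg_right hsg1 (norm_nonneg _)
        _ = _ := one_mul _
    have hxn : ‖x‖ ≤ 1 := by
      apply norm_le_of_rayleigh hxsa zero_le_one
      intro v
      rw [hxre, abs_le]
      have h1 := hsg v
      have h2 : ‖star g v‖ ^ 2 ≤ ‖v‖ ^ 2 := pow_le_pow_left₀ (norm_nonneg _) h1 2
      constructor
      · linarith only [sq_nonneg ‖star g v‖]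
      · linarith only [h2]
    set N : ℕ := Fintype.card Q.ι with hN
    set δ₂ : ℝ := δ / (4 * (N + 1)) with hδ₂
    have hδ₂pos : 0 < δ₂ := by (clear * - hδ; (clear * - hδ; positivity))
    set F : Finset H := insert ξ (Finset.univ.image fun j => Q.e j ξ) with hF
    obtain ⟨p, a, q, hpA, hporth, hpsum, haA, -, hasa, han, hqM, -, hqp, hqF, hqS⟩ :=
      h x hxM hxsa F (by simp) δ₂ hδ₂pos
    let P : Part A := ⟨Fin r, p, fun i => (hpA i).1, fun i => (hpA i).2, hporth, hpsum⟩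
    have hPE : ∑ i, p i * x * p i = P.E x := rfl
    rw [hPE] at hqS
    set S : H →L[ℂ] H := P.E x - a with hSdef
    have hS2 : ‖S‖ ≤ 2 := by
      calc ‖S‖ ≤ ‖P.E x‖ + ‖a‖ := norm_sub_le _ _
        _ ≤ ‖x‖ + ‖x‖ := add_le_add (P.norm_E_le x) han
        _ ≤ 2 := by linarith only [hxn]
    have hqS' : ‖q * S * q‖ ≤ ε := by
      refine hqS.trans ?_
      calc ε * ‖x‖ ≤ ε * 1 := mul_le_mul_of_nonneg_left hxn hε.le
        _ = ε := mul_one _
    have hSre : ∀ v, RCLike.re ⟪S v, v⟫_ℂ =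
        2 * ∑ i : Fin r, ‖star g (p i v)‖ ^ 2 - ‖v‖ ^ 2 - RCLike.re ⟪a v, v⟫_ℂ := by
      intro v
      have h1 : RCLike.re ⟪P.E x v, v⟫_ℂ = ∑ i : Fin r, RCLike.re ⟪x (p i v), p i v⟫_ℂ := by
        rw [P.E_apply_apply, sum_inner, map_sum]
        refine Finset.sum_congr rfl fun i _ => ?_
        rw [sproj_inner (P.proj i)]
      rw [hSdef, _root_.sub_apply, inner_sub_left, map_sub, h1]
      simp_rw [hxre]
      rw [Finset.sum_sub_distrib, ← Finset.mul_sum]
      have h2 : ∑ i : Fin r, ‖p i v‖ ^ 2 = ‖v‖ ^ 2 := P.sum_norm_sq v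
      rw [h2]
    have hae : ∀ j, a * Q.e j = Q.e j * a := fun j => hc a haA _ (Q.mem j)
    -- the blocks
    have hblock : ∀ j, |RCLike.re ⟪S (Q.e j ξ), Q.e j ξ⟫_ℂ| ≤ ε * ‖Q.e j ξ‖ ^ 2 + 4 * δ₂ := by
      intro j
      apply re_inner_compress hqp hS2 hqS'
      · exact (proj_norm_le (Q.proj j) ξ).trans hξ.le
      · refine (hqF _ ?_).le
        rw [hF]
        exact Finset.mem_insert_of_mem (Finset.mem_image_of_mem _ (Finset.mem_univ j))
    have hself : |RCLike.re ⟪S ξ, ξ⟫_ℂ| ≤ ε * ‖ξ‖ ^ 2 + 4 * δ₂ := by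
      apply re_inner_compress hqp hS2 hqS' hξ.le
      refine (hqF _ ?_).le
      rw [hF]
      exact Finset.mem_insert_self _ _
    have hasum : ∑ j, RCLike.re ⟪a (Q.e j ξ), Q.e j ξ⟫_ℂ = RCLike.re ⟪a ξ, ξ⟫_ℂ := by
      have h1 : ∀ j, ⟪a (Q.e j ξ), Q.e j ξ⟫_ℂ = ⟪a ξ, Q.e j ξ⟫_ℂ := by
        intro j
        have h2 : a (Q.e j ξ) = Q.e j (a ξ) := by
          have := congrArg (fun S : H →L[ℂ] H => S ξ) (hae j)
          simpa only [mul_apply_eq_comp] using this
        rw [h2, sproj_inner (Q.proj j), sproj_apply_apply (Q.proj j)]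
      simp_rw [h1]
      rw [← map_sum, ← inner_sum, Q.sum_apply]
    have hsmall : ∑ j, ∑ i : Fin r, ‖star g (p i (Q.e j ξ))‖ ^ 2 ≤ δ ^ 2 := by
      rw [Finset.sum_comm]
      have h1 : ∀ i : Fin r, ∑ j, ‖star g (p i (Q.e j ξ))‖ ^ 2 ≤ δ ^ 2 * ‖p i ξ‖ ^ 2 := by
        intro i
        rw [← Q.sum_norm_sq (p i ξ), Finset.mul_sum]
        refine Finset.sum_le_sum fun j _ => ?_
        have h2 : p i (Q.e j ξ) = Q.e j (p i ξ) := by
          have := congrArg (fun S : H →L[ℂ] H => S ξ) (hc _ (hpA i).1 _ (Q.mem j))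
          simpa only [mul_apply_eq_comp] using this
        rw [h2]
        have h3 := norm_star_mul_le (Q.proj j) (hQ j) (Q.e j (p i ξ))
        rw [sproj_apply_apply (Q.proj j)] at h3
        calc ‖star g (Q.e j (p i ξ))‖ ^ 2 ≤ (δ * ‖Q.e j (p i ξ)‖) ^ 2 :=
              pow_le_pow_left₀ (norm_nonneg _) h3 2
          _ = _ := by ring
      calc ∑ i : Fin r, ∑ j, ‖star g (p i (Q.e j ξ))‖ ^ 2 ≤ ∑ i : Fin r, δ ^ 2 * ‖p i ξ‖ ^ 2 :=
            Finset.sum_le_sum fun i _ => h1 i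
        _ = δ ^ 2 * ‖ξ‖ ^ 2 := by
            rw [← Finset.mul_sum]
            congr 1
            exact P.sum_norm_sq ξ
        _ = δ ^ 2 := by rw [hξ]; ring
    have hsumblock : 1 + RCLike.re ⟪a ξ, ξ⟫_ℂ ≤ 2 * δ ^ 2 + ε + 4 * N * δ₂ := by
      have h1 : ∑ j, RCLike.re ⟪S (Q.e j ξ), Q.e j ξ⟫_ℂ ≥ -(ε + 4 * N * δ₂) := by
        have h2 : ∑ j, -(ε * ‖Q.e j ξ‖ ^ 2 + 4 * δ₂) ≤
            ∑ j, RCLike.re ⟪S (Q.e j ξ), Q.e j ξ⟫_ℂ :=
          Finset.sum_le_sum fun j _ => (abs_le.mp (hblock j)).1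
        rw [Finset.sum_neg_distrib, Finset.sum_add_distrib, ← Finset.mul_sum, Q.sum_norm_sq,
          Finset.sum_const, Finset.card_univ, ← hN, hξ] at h2
        have h3 : (N • (4 * δ₂) : ℝ) = 4 * N * δ₂ := by
          rw [nsmul_eq_mul]; ring
        rw [h3] at h2
        linarith only [h2]
      have h4 : ∑ j, RCLike.re ⟪S (Q.e j ξ), Q.e j ξ⟫_ℂ =
          2 * ∑ j, ∑ i : Fin r, ‖star g (p i (Q.e j ξ))‖ ^ 2 - 1 - RCLike.re ⟪a ξ, ξ⟫_ℂ := by
        simp_rw [hSre]
        rw [Finset.sum_sub_distrib, Finset.sum_sub_distrib, hasum, Q.sum_norm_sq, hξ,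
          ← Finset.mul_sum]
        ring
      rw [h4] at h1
      linarith only [hsmall, h1]
    have hpinch : ‖star g ξ‖ ^ 2 ≤ r * ∑ i : Fin r, ‖star g (p i ξ)‖ ^ 2 := by
      have h1 : star g ξ = ∑ i : Fin r, star g (p i ξ) := by
        rw [← map_sum]
        congr 1
        exact (P.sum_apply ξ).symm
      have h2 : ‖star g ξ‖ ≤ ∑ i : Fin r, ‖star g (p i ξ)‖ := by
        conv_lhs => rw [h1]
        exact norm_sum_le _ _
      calc ‖star g ξ‖ ^ 2 ≤ (∑ i : Fin r, ‖star g (p i ξ)‖) ^ 2 :=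
            pow_le_pow_left₀ (norm_nonneg _) h2 2
        _ ≤ (Finset.univ : Finset (Fin r)).card * ∑ i : Fin r, ‖star g (p i ξ)‖ ^ 2 :=
            sq_sum_le_card_mul_sum_sq
        _ = _ := by rw [Finset.card_univ, Fintype.card_fin]
    have hglow : 1 - 2 * δ ≤ ‖star g ξ‖ ^ 2 := by
      have h1 : 1 - δ ≤ ‖star g ξ‖ := by
        have h2 : ‖⟪star g ξ, ξ⟫_ℂ‖ ≤ ‖star g ξ‖ := by
          have := norm_inner_le_norm (𝕜 := ℂ) (star g ξ) ξ
          rwa [hξ, mul_one] at this
        have h3 : ⟪star g ξ, ξ⟫_ℂ = ⟪ξ, ξ⟫_ℂ + ⟪ξ, g ξ - ξ⟫_ℂ := by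
          rw [ContinuousLinearMap.star_eq_adjoint, ContinuousLinearMap.adjoint_inner_left,
            inner_sub_right]
          ring
        have h4 : ‖⟪ξ, ξ⟫_ℂ‖ = 1 := by
          rw [inner_self_eq_norm_sq_to_K, hξ]; simp only [Complex.coe_algebraMap, Complex.ofReal_one, one_pow, norm_one]
        have h5 : ‖⟪ξ, g ξ - ξ⟫_ℂ‖ ≤ δ := by
          calc ‖⟪ξ, g ξ - ξ⟫_ℂ‖ ≤ ‖ξ‖ * ‖g ξ - ξ‖ := norm_inner_le_norm _ _
            _ ≤ δ := by rw [hξ, one_mul]; exact hgξ.le
        have h6 : 1 - δ ≤ ‖⟪ξ, ξ⟫_ℂ + ⟪ξ, g ξ - ξ⟫_ℂ‖ := by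
          have h7 := norm_sub_norm_le (⟪ξ, ξ⟫_ℂ) (-⟪ξ, g ξ - ξ⟫_ℂ)
          rw [sub_neg_eq_add, norm_neg] at h7
          linarith only [h4, h5, h7]
        rw [h3] at h2
        linarith only [h2, h6]
      have h8 : (1 - δ) ^ 2 ≤ ‖star g ξ‖ ^ 2 := pow_le_pow_left₀ (by linarith only [hδ1]) h1 2
      nlinarith
    have hup : 2 * ∑ i : Fin r, ‖star g (p i ξ)‖ ^ 2 ≤
        2 * δ ^ 2 + 2 * ε + 4 * (N + 1) * δ₂ := by
      have h1 := (abs_le.mp hself).2
      rw [hSre, hξ] at h1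
      linarith only [hsumblock, h1]
    have h4δ : 4 * (N + 1) * δ₂ = δ := by rw [hδ₂]; (clear * - hδ; field_simp)
    rw [h4δ] at hup
    have hfin : (1 - 2 * δ) / r ≤ ∑ i : Fin r, ‖star g (p i ξ)‖ ^ 2 := by
      rw [div_le_iff₀ hrpos]
      linarith only [hpinch, hglow, hglow.trans hpinch]
    nlinarith only [hδ, hδ1, hδ₂pos, hup, h4δ, hfin]
  refine le_of_forall_pos_le_add fun η hη => ?_
  have hmin : 0 < min 1 (η / 4) := lt_min one_pos (by (clear * - hη; positivity))
  have h1 := key (min 1 (η / 4)) hmin (min_le_left _ _)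
  set δ := min 1 (η / 4) with hδ
  have h2 : δ ≤ η / 4 := min_le_right _ _
  have h3 : (1 - 2 * δ) / r = 1 / r - 2 * δ * (1 / r) := by ring
  rw [h3] at h1
  have h4 : 2 * δ * (1 / (r : ℝ)) ≤ 2 * δ * 1 :=
    mul_le_mul_of_nonneg_left hr1 (by (clear * - hη; positivity))
  linarith only [h1, h2, h4]

end Vale.Agent.P078
end

section

namespace Vale.Agent.P078

open Filter Topology

variable {H : Type*} [NormedAddCommGroup H] [InnerProductSpace ℂ H] [CompleteSpace H]
variable {M : VonNeumannAlgebra H} {A : StarSubalgebra ℂ (H →L[ℂ] H)}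

theorem norm_add_le_of_orth {z : H →L[ℂ] H} (hz : IsStarProjection z) {S T : H →L[ℂ] H} {C : ℝ}
    (hC : 0 ≤ C) (hS : z * S * z = S) (hT : (1 - z) * T * (1 - z) = T) (hSC : ‖S‖ ≤ C)
    (hTC : ‖T‖ ≤ C) : ‖S + T‖ ≤ C := by
  have hzz : z * z = z := hz.isIdempotentElem
  refine ContinuousLinearMap.opNorm_le_bound _ hC fun ζ => ?_
  rw [← sq_le_sq₀ (norm_nonneg _) (by (clear * - hC; positivity)), norm_sq_proj_add hz]
  have e1 : z ((S + T) ζ) = S (z ζ) := by
    have : z * (S + T) = S * z := by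
      have h1 : z * S = S := by rw [← hS, ← mul_assoc, ← mul_assoc, hzz]
      have h2 : S * z = S := by rw [← hS, mul_assoc, hzz]
      have h3 : z * T = 0 := by
        have hz0 : z * (1 - z) = 0 := by rw [mul_sub, hzz, mul_one, sub_self]
        rw [← hT, ← mul_assoc, ← mul_assoc, hz0, zero_mul, zero_mul]
      rw [mul_add, h1, h2, h3, add_zero]
    exact DFunLike.congr_fun this ζ
  have e2 : (S + T) ζ - z ((S + T) ζ) = T (ζ - z ζ) := by
    have : (1 - z) * (S + T) = T * (1 - z) := by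
      have hww : (1 - z) * (1 - z) = 1 - z := hz.one_sub.isIdempotentElem
      have h1 : (1 - z) * T = T := by rw [← hT, ← mul_assoc, ← mul_assoc, hww]
      have h2 : T * (1 - z) = T := by rw [← hT, mul_assoc, hww]
      have h3 : (1 - z) * S = 0 := by
        have hz0 : (1 - z) * z = 0 := by rw [sub_mul, hzz, one_mul, sub_self]
        rw [← hS, ← mul_assoc, ← mul_assoc, hz0, zero_mul, zero_mul]
      rw [mul_add, h1, h2, h3, zero_add]
    exact DFunLike.congr_fun this ζ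
  rw [e2, e1, mul_pow, norm_sq_proj_add hz ζ, mul_add]
  have h1 : ‖S (z ζ)‖ ≤ C * ‖z ζ‖ := S.le_of_opNorm_le hSC _
  have h2 : ‖T (ζ - z ζ)‖ ≤ C * ‖ζ - z ζ‖ := T.le_of_opNorm_le hTC _
  rw [← mul_pow, ← mul_pow]
  (clear * - h1 h2; gcongr)

theorem norm_corner_le {z : H →L[ℂ] H} (hz : IsStarProjection z) (x : H →L[ℂ] H) :
    ‖z * x * z‖ ≤ ‖x‖ := by
  have h1 : ‖z‖ ≤ 1 := hz.norm_le
  calc ‖z * x * z‖ ≤ ‖z‖ * ‖x‖ * ‖z‖ := (norm_mul_le _ _).trans (by gcongr; exact norm_mul_le _ _)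
    _ ≤ 1 * ‖x‖ * 1 := by gcongr
    _ = ‖x‖ := by ring

/-- gluing so-pavings of two complementary corners -/
theorem SOPavable.glue (hA : IsMASA A M) {z : H →L[ℂ] H} (hzA : z ∈ A) (hz : IsStarProjection z)
    {x : H →L[ℂ] H} {ε : ℝ} (hε : 0 ≤ ε) {r₁ r₂ : ℕ}
    (h₁ : SOPavable M A z (z * x * z) ε r₁)
    (h₂ : SOPavable M A (1 - z) ((1 - z) * x * (1 - z)) ε r₂) :
    SOPavable M A 1 x ε (r₁ + r₂) := by
  classical
  intro F _ δ hδ
  obtain ⟨w, hw⟩ : ∃ w, w = 1 - z := ⟨_, rfl⟩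
  rw [← hw] at h₂
  have hwp : IsStarProjection w := by rw [hw]; exact hz.one_sub
  have hwA : w ∈ A := by rw [hw]; exact sub_mem (one_mem A) hzA
  have hzz : z * z = z := hz.isIdempotentElem
  have hww : w * w = w := hwp.isIdempotentElem
  have hzw : z * w = 0 := by rw [hw, mul_sub, mul_one, hzz, sub_self]
  have hwz : w * z = 0 := by rw [hw, sub_mul, one_mul, hzz, sub_self]
  have hsum : z + w = 1 := by rw [hw]; abel
  obtain ⟨p₁, a₁, q₁, hp₁, ho₁, hs₁, ha₁, hza₁, hsa₁, hn₁, hq₁, hzq₁, hqp₁, hd₁, he₁⟩ :=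
    h₁ (F.image z) (by
      intro ξ hξ
      obtain ⟨η, _, rfl⟩ := Finset.mem_image.1 hξ
      exact proj_apply_apply hz η) (δ / 2) (by (clear * - hδ; positivity))
  obtain ⟨p₂, a₂, q₂, hp₂, ho₂, hs₂, ha₂, hza₂, hsa₂, hn₂, hq₂, hzq₂, hqp₂, hd₂, he₂⟩ :=
    h₂ (F.image w) (by
      intro ξ hξ
      obtain ⟨η, _, rfl⟩ := Finset.mem_image.1 hξ
      exact proj_apply_apply hwp η) (δ / 2) (by (clear * - hδ; positivity))
  -- basic relations
  have hp₁z : ∀ i, p₁ i * z = p₁ i := by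
    intro i
    rw [← hs₁, Finset.mul_sum, Finset.sum_eq_single i]
    · exact (hp₁ i).2.isIdempotentElem
    · intro j _ hj; exact ho₁ i j hj.symm
    · intro h; exact absurd (Finset.mem_univ i) h
  have hp₂w : ∀ i, p₂ i * w = p₂ i := by
    intro i
    rw [← hs₂, Finset.mul_sum, Finset.sum_eq_single i]
    · exact (hp₂ i).2.isIdempotentElem
    · intro j _ hj; exact ho₂ i j hj.symm
    · intro h; exact absurd (Finset.mem_univ i) h
  have hzp₁ : ∀ i, z * p₁ i = p₁ i := fun i => by rw [hA.2.1 z hzA _ (hp₁ i).1, hp₁z]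
  have hwp₂ : ∀ i, w * p₂ i = p₂ i := fun i => by rw [hA.2.1 w hwA _ (hp₂ i).1, hp₂w]
  have hq₁z : q₁ * z = q₁ := by
    have := congrArg star hzq₁
    rwa [star_mul, hqp₁.isSelfAdjoint.star_eq, hz.isSelfAdjoint.star_eq] at this
  have hq₂w : q₂ * w = q₂ := by
    have := congrArg star hzq₂
    rwa [star_mul, hqp₂.isSelfAdjoint.star_eq, hwp.isSelfAdjoint.star_eq] at this
  have ha₁z : a₁ * z = a₁ := by rw [hA.2.1 _ ha₁ _ hzA, hza₁]
  have ha₂w : a₂ * w = a₂ := by rw [hA.2.1 _ ha₂ _ hwA, hza₂]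
  have hq₁q₂ : q₁ * q₂ = 0 := by rw [← hq₁z, ← hzq₂, mul_assoc, ← mul_assoc z, hzw, zero_mul,
    mul_zero]
  have hx₁ : ∑ i, p₁ i * (z * x * z) * p₁ i = ∑ i, p₁ i * x * p₁ i := by
    refine Finset.sum_congr rfl fun i _ => ?_
    have : p₁ i * (z * x * z) * p₁ i = (p₁ i * z) * x * (z * p₁ i) := by noncomm_ring
    rw [this, hp₁z, hzp₁]
  have hx₂ : ∑ i, p₂ i * (w * x * w) * p₂ i = ∑ i, p₂ i * x * p₂ i := by
    refine Finset.sum_congr rfl fun i _ => ?_
    have : p₂ i * (w * x * w) * p₂ i = (p₂ i * w) * x * (w * p₂ i) := by noncomm_ring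
    rw [this, hp₂w, hwp₂]
  rw [hx₁] at he₁
  rw [hx₂] at he₂
  obtain ⟨Y₁, hY₁⟩ : ∃ Y, Y = ∑ i, p₁ i * x * p₁ i - a₁ := ⟨_, rfl⟩
  obtain ⟨Y₂, hY₂⟩ : ∃ Y, Y = ∑ i, p₂ i * x * p₂ i - a₂ := ⟨_, rfl⟩
  rw [← hY₁] at he₁
  rw [← hY₂] at he₂
  have hzY₁ : z * Y₁ = Y₁ := by
    rw [hY₁, mul_sub, hza₁, Finset.mul_sum]
    congr 1
    refine Finset.sum_congr rfl fun i _ => ?_
    rw [← mul_assoc, ← mul_assoc, hzp₁]
  have hY₁z : Y₁ * z = Y₁ := by
    rw [hY₁, sub_mul, ha₁z, Finset.sum_mul]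
    congr 1
    refine Finset.sum_congr rfl fun i _ => ?_
    rw [mul_assoc, hp₁z]
  have hwY₂ : w * Y₂ = Y₂ := by
    rw [hY₂, mul_sub, hza₂, Finset.mul_sum]
    congr 1
    refine Finset.sum_congr rfl fun i _ => ?_
    rw [← mul_assoc, ← mul_assoc, hwp₂]
  have hY₂w : Y₂ * w = Y₂ := by
    rw [hY₂, sub_mul, ha₂w, Finset.sum_mul]
    congr 1
    refine Finset.sum_congr rfl fun i _ => ?_
    rw [mul_assoc, hp₂w]
  refine ⟨Fin.append p₁ p₂, a₁ + a₂, q₁ + q₂, ?_, ?_, ?_, add_mem ha₁ ha₂, one_mul _,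
    hsa₁.add hsa₂, ?_, add_mem hq₁ hq₂, one_mul _, hqp₁.add hqp₂ hq₁q₂, ?_, ?_⟩
  · intro i
    refine Fin.addCases (fun i => ?_) (fun i => ?_) i
    · rw [Fin.append_left]; exact hp₁ i
    · rw [Fin.append_right]; exact hp₂ i
  · intro i j
    refine Fin.addCases (fun i => ?_) (fun i => ?_) i <;>
      refine Fin.addCases (fun j => ?_) (fun j => ?_) j
    · intro h
      rw [Fin.append_left, Fin.append_left]
      exact ho₁ i j fun h' => h (by rw [h'])
    · intro _
      rw [Fin.append_left, Fin.append_right, ← hp₁z, ← hwp₂, mul_assoc, ← mul_assoc z, hzw,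
        zero_mul, mul_zero]
    · intro _
      rw [Fin.append_left, Fin.append_right, ← hp₂w, ← hzp₁, mul_assoc, ← mul_assoc w, hwz,
        zero_mul, mul_zero]
    · intro h
      rw [Fin.append_right, Fin.append_right]
      exact ho₂ i j fun h' => h (by rw [h'])
  · rw [Fin.sum_univ_add]
    simp only [Fin.append_left, Fin.append_right]
    rw [hs₁, hs₂, hsum]
  · refine norm_add_le_of_orth hz (norm_nonneg _) ?_ ?_ (hn₁.trans (norm_corner_le hz x))
      (hn₂.trans (norm_corner_le hwp x))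
    · rw [hza₁, ha₁z]
    · rw [← hw, hza₂, ha₂w]
  · intro ξ hξ
    have h1 := hd₁ (z ξ) (Finset.mem_image_of_mem _ hξ)
    have h2 := hd₂ (w ξ) (Finset.mem_image_of_mem _ hξ)
    have h3 : ξ - (q₁ + q₂) ξ = (z ξ - q₁ (z ξ)) + (w ξ - q₂ (w ξ)) := by
      have e1 : q₁ (z ξ) = q₁ ξ := DFunLike.congr_fun hq₁z ξ
      have e2 : q₂ (w ξ) = q₂ ξ := DFunLike.congr_fun hq₂w ξ
      have e3 : z ξ + w ξ = ξ := DFunLike.congr_fun hsum ξ
      rw [e1, e2, add_apply]
      nth_rewrite 1 [← e3]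
      abel
    rw [h3]
    exact lt_of_le_of_lt (norm_add_le _ _) (by linarith only [h1, h2])
  · have h1 : ∑ i, Fin.append p₁ p₂ i * x * Fin.append p₁ p₂ i - (a₁ + a₂) = Y₁ + Y₂ := by
      rw [Fin.sum_univ_add]
      simp only [Fin.append_left, Fin.append_right]
      rw [hY₁, hY₂]; abel
    have h2 : (q₁ + q₂) * (Y₁ + Y₂) * (q₁ + q₂) = q₁ * Y₁ * q₁ + q₂ * Y₂ * q₂ := by
      have e1 : q₁ * Y₂ = 0 := by
        rw [← hq₁z, ← hwY₂, mul_assoc, ← mul_assoc z, hzw, zero_mul, mul_zero]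
      have e2 : q₂ * Y₁ = 0 := by
        rw [← hq₂w, ← hzY₁, mul_assoc, ← mul_assoc w, hwz, zero_mul, mul_zero]
      have e3 : Y₁ * q₂ = 0 := by
        rw [← hY₁z, ← hzq₂, mul_assoc, ← mul_assoc z, hzw, zero_mul, mul_zero]
      have e4 : Y₂ * q₁ = 0 := by
        rw [← hY₂w, ← hzq₁, mul_assoc, ← mul_assoc w, hwz, zero_mul, mul_zero]
      have e5 : (q₁ + q₂) * (Y₁ + Y₂) = q₁ * Y₁ + q₂ * Y₂ := by
        rw [add_mul, mul_add, mul_add, e1, e2, add_zero, zero_add]
      rw [e5, add_mul, mul_add, mul_add, mul_assoc q₁ Y₁ q₂, e3, mul_zero, add_zero,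
        mul_assoc q₂ Y₂ q₁, e4, mul_zero, zero_add]
    rw [h1, h2]
    refine norm_add_le_of_orth hz (by (clear * - hε; positivity)) ?_ ?_ ?_ ?_
    · rw [← mul_assoc, ← mul_assoc, hzq₁, mul_assoc, hq₁z]
    · rw [← hw, ← mul_assoc, ← mul_assoc, hzq₂, mul_assoc, hq₂w]
    · refine he₁.trans ?_
      gcongr
      exact norm_corner_le hz x
    · refine he₂.trans ?_
      gcongr
      exact norm_corner_le hwp x

theorem pavingNumber_le {z : H →L[ℂ] H} {ε : ℝ} {r : ℕ} (hr : 1 ≤ r)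
    (h : ∀ x ∈ M, IsSelfAdjoint x → z * x * z = x → SOPavable M A z x ε r) :
    pavingNumber M A z ε ≤ r :=
  iInf₂_le (f := fun (r : ℕ) (_ : r ∈ {r : ℕ | 1 ≤ r ∧ ∀ x ∈ M, IsSelfAdjoint x →
    z * x * z = x → SOPavable M A z x ε r}) => (r : ℕ∞)) r ⟨hr, h⟩

theorem pavingNumber_eq (M : VonNeumannAlgebra H) (A : StarSubalgebra ℂ (H →L[ℂ] H))
    (z : H →L[ℂ] H) (ε : ℝ) :
    pavingNumber M A z ε = ⊤ ∨ ∃ r : ℕ, pavingNumber M A z ε = r ∧ 1 ≤ r ∧
      ∀ x ∈ M, IsSelfAdjoint x → z * x * z = x → SOPavable M A z x ε r := by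
  set S : Set ℕ := {r : ℕ | 1 ≤ r ∧ ∀ x ∈ M, IsSelfAdjoint x →
    z * x * z = x → SOPavable M A z x ε r} with hS
  have hdef : pavingNumber M A z ε = ⨅ r ∈ S, (r : ℕ∞) := rfl
  by_cases hne : S.Nonempty
  · right
    have hmem := Nat.sInf_mem hne
    refine ⟨sInf S, ?_, hmem.1, hmem.2⟩
    rw [hdef]
    refine le_antisymm (iInf₂_le _ hmem) (le_iInf₂ fun r hr => ?_)
    exact_mod_cast Nat.sInf_le hr
  · left
    rw [Set.not_nonempty_iff_eq_empty] at hne
    rw [hdef, hne]
    simp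

theorem le_pavingNumber {z : H →L[ℂ] H} {ε : ℝ} {c : ℕ∞}
    (h : ∀ r : ℕ, 1 ≤ r → (∀ x ∈ M, IsSelfAdjoint x → z * x * z = x → SOPavable M A z x ε r) →
      c ≤ r) : c ≤ pavingNumber M A z ε :=
  le_iInf₂ fun r hr => h r hr.1 hr.2

theorem one_div_floor_lt {ε : ℝ} (hε : 0 < ε) : 1 / ((⌊1 / ε⌋₊ + 1 : ℕ) : ℝ) < ε := by
  have h1 : 1 / ε < ((⌊1 / ε⌋₊ + 1 : ℕ) : ℝ) := by
    push_cast
    exact Nat.lt_floor_add_one _
  rw [div_lt_iff₀ (by (clear * -; positivity))]
  rw [div_lt_iff₀ hε] at h1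
  linarith only [h1]

theorem corner_corner {z : H →L[ℂ] H} (hzz : z * z = z) (x : H →L[ℂ] H) :
    z * (z * x * z) * z = z * x * z := by
  have : z * (z * x * z) * z = (z * z) * x * (z * z) := by noncomm_ring
  rw [this, hzz]

theorem reduction (hA : IsMASA A M) :
    ∃ z ∈ A, IsStarProjection z ∧ (∃ E, IsNormalExpectation M A z E) ∧
      SmallProp M A (1 - z) ∧
      ∀ ε : ℝ, 0 < ε → pavingNumber M A 1 ε ≤ pavingNumber M A z ε + (⌊1 / ε⌋₊ + 1 : ℕ) := by
  obtain ⟨z, hzA, hzp, hE, hψ⟩ := exists_expected_part hA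
  have hwA : 1 - z ∈ A := sub_mem (one_mem A) hzA
  have hS := smallProp_of_null hA hwA hzp.one_sub hψ
  refine ⟨z, hzA, hzp, hE, hS, fun ε hε => ?_⟩
  rcases pavingNumber_eq M A z ε with h | ⟨r, hr, hr1, hrp⟩
  · rw [h, top_add]; exact le_top
  · rw [hr, ← Nat.cast_add]
    refine pavingNumber_le (by omega) fun x hx hxs _ => ?_
    have hzM : z ∈ M := hA.1 hzA
    have hwM : 1 - z ∈ M := hA.1 hwA
    have hzz : z * z = z := hzp.isIdempotentElem
    have hww : (1 - z) * (1 - z) = 1 - z := hzp.one_sub.isIdempotentElem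
    refine SOPavable.glue hA hzA hzp hε.le (hrp _ (mul_mem (mul_mem hzM hx) hzM) ?_ ?_)
      (hS.sOPavable hA hwA hzp.one_sub (mul_mem (mul_mem hwM hx) hwM) ?_ ?_ (Nat.succ_pos _)
        (one_div_floor_lt hε))
    · rw [IsSelfAdjoint, star_mul, star_mul, hzp.isSelfAdjoint.star_eq, hxs.star_eq, mul_assoc]
    · exact corner_corner hzz x
    · rw [IsSelfAdjoint, star_mul, star_mul, hzp.one_sub.isSelfAdjoint.star_eq, hxs.star_eq,
        mul_assoc]
    · exact corner_corner hww x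

theorem nowhere_expected [Nontrivial H] (hA : IsMASA A M)
    (hne : ∀ p ∈ A, IsStarProjection p → (∃ E, IsNormalExpectation M A p E) → p = 0) {ε : ℝ}
    (hε : 0 < ε) : (⌈1 / ε⌉₊ : ℕ∞) ≤ pavingNumber M A 1 ε ∧
      pavingNumber M A 1 ε ≤ (⌊1 / ε⌋₊ + 1 : ℕ) := by
  obtain ⟨z, hzA, hzp, hE, hS, -⟩ := reduction hA
  have hz0 : z = 0 := hne z hzA hzp hE
  rw [hz0, sub_zero] at hS
  constructor
  · refine le_pavingNumber fun r hr h => ?_
    have h1 : 1 / (r : ℝ) ≤ ε := hS.lower hA hε (by omega) fun x hx hxs => h x hx hxs (by simp)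
    rw [Nat.cast_le, Nat.ceil_le]
    have hr0 : (0 : ℝ) < r := by exact_mod_cast hr
    rw [div_le_iff₀ hr0] at h1
    rw [div_le_iff₀ hε]
    linarith only [h1]
  · refine pavingNumber_le (by omega) fun x hx hxs hx1 => ?_
    exact hS.sOPavable hA (one_mem A) (IsStarProjection.one _) hx hxs hx1 (Nat.succ_pos _)
      (one_div_floor_lt hε)

end Vale.Agent.P078
end

section

open scoped InnerProductSpace ENNReal

namespace Vale.Agent.P078.L2

variable {H : Type*} [NormedAddCommGroup H] [InnerProductSpace ℂ H] [CompleteSpace H]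
variable {ι : Type*}

/-- The Hilbert sum of copies of `H`. -/
abbrev Sp (ι : Type*) (H : Type*) [NormedAddCommGroup H] := lp (fun _ : ι => H) 2

lemma memlp_apply (a : H →L[ℂ] H) (v : Sp ι H) : Memℓp (fun i => a (v i)) 2 := by
  have h1 : Memℓp (fun i => ‖v i‖) 2 := memℓp_norm_iff.mpr (lp.memℓp v)
  have h2 : Memℓp (fun i => ‖a‖ * ‖v i‖) 2 := h1.const_mul ‖a‖
  exact h2.mono fun i => a.le_opNorm (v i)

/-- The amplification of an operator. -/
noncomputable def amp (a : H →L[ℂ] H) : Sp ι H →L[ℂ] Sp ι H :=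
  LinearMap.mkContinuous
    { toFun := fun v => ⟨fun i => a (v i), memlp_apply a v⟩
      map_add' := fun v w => by
        apply lp.ext
        funext i
        simp only [lp.coeFn_add, Pi.add_apply, map_add]
      map_smul' := fun c v => by
        apply lp.ext
        funext i
        simp only [lp.coeFn_smul, Pi.smul_apply, map_smul]
        rfl } ‖a‖ (fun v => by
    have h : ‖(⟨fun i => a (v i), memlp_apply a v⟩ : Sp ι H)‖ ≤ ‖(‖a‖ : ℂ) • v‖ := by
      apply lp.norm_mono (by norm_num)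
      intro i
      rw [lp.coeFn_smul, Pi.smul_apply, norm_smul, Complex.norm_real, norm_norm]
      exact a.le_opNorm (v i)
    refine h.trans ?_
    rw [norm_smul, Complex.norm_real, norm_norm])

@[simp] lemma amp_apply (a : H →L[ℂ] H) (v : Sp ι H) (i : ι) : amp a v i = a (v i) := rfl

lemma amp_single [DecidableEq ι] (a : H →L[ℂ] H) (k : ι) (h : H) :
    amp a (lp.single 2 k h) = (lp.single 2 k (a h) : Sp ι H) := by
  apply lp.ext
  funext j
  rw [amp_apply, lp.single_apply, lp.single_apply]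
  by_cases hjk : j = k
  · subst hjk; simp
  · simp only [ne_eq, hjk, not_false_eq_true, Pi.single_eq_of_ne, map_zero]

lemma norm_amp_le (a : H →L[ℂ] H) (v : Sp ι H) : ‖amp a v‖ ≤ ‖a‖ * ‖v‖ :=
  LinearMap.mkContinuous_norm_le _ (norm_nonneg a) _ |> fun h =>
    ((amp a).le_opNorm v).trans (by gcongr; exact h)

lemma amp_one (v : Sp ι H) : amp (1 : H →L[ℂ] H) v = v := by
  apply lp.ext; funext i; simp only [amp_apply, one_apply_eq_self]

lemma amp_mul (a b : H →L[ℂ] H) (v : Sp ι H) : amp (a * b) v = amp a (amp b v) := by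
  apply lp.ext; funext i; simp only [amp_apply, mul_apply_eq_comp]

lemma amp_add (a b : H →L[ℂ] H) (v : Sp ι H) : amp (a + b) v = amp a v + amp b v := by
  apply lp.ext; funext i; simp

lemma amp_sub (a b : H →L[ℂ] H) (v : Sp ι H) : amp (a - b) v = amp a v - amp b v := by
  apply lp.ext; funext i; simp only [amp_apply, sub_apply, AddSubgroupClass.coe_sub, PreLp.sub_apply]

lemma amp_smul (c : ℂ) (a : H →L[ℂ] H) (v : Sp ι H) : amp (c • a) v = c • amp a v := by
  apply lp.ext; funext i; simp only [amp_apply, smul_apply, lp.coeFn_smul, Pi.smul_apply]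

/-- `a ↦ amp a Ω` as a linear map. -/
noncomputable def ampL (Ω : Sp ι H) : (H →L[ℂ] H) →ₗ[ℂ] Sp ι H where
  toFun a := amp a Ω
  map_add' a b := amp_add a b Ω
  map_smul' c a := amp_smul c a Ω

@[simp] lemma ampL_apply (Ω : Sp ι H) (a : H →L[ℂ] H) : ampL Ω a = amp a Ω := rfl

lemma inner_amp (a : H →L[ℂ] H) (v w : Sp ι H) : ⟪w, amp a v⟫_ℂ = ⟪amp (star a) w, v⟫_ℂ := by
  rw [lp.inner_eq_tsum, lp.inner_eq_tsum]
  congr 1
  funext i
  rw [amp_apply, amp_apply, ContinuousLinearMap.star_eq_adjoint,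
    ContinuousLinearMap.adjoint_inner_left]

/-- Density: elements of the bicommutant are approximated on a square summable family. -/
theorem exists_approx (A0 : StarSubalgebra ℂ (H →L[ℂ] H)) {x : H →L[ℂ] H}
    (hx : ∀ T : H →L[ℂ] H, (∀ a ∈ A0, a * T = T * a) → x * T = T * x)
    (Ω : Sp ι H) {ε : ℝ} (hε : 0 < ε) : ∃ a ∈ A0, ‖amp x Ω - amp a Ω‖ < ε := by
  classical
  set L0 : Submodule ℂ (Sp ι H) := Submodule.map (ampL Ω) A0.toSubalgebra.toSubmodule with hL0
  set L : Submodule ℂ (Sp ι H) := L0.topologicalClosure with hL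
  have hLc : IsClosed (L : Set (Sp ι H)) := L0.isClosed_topologicalClosure
  have : CompleteSpace L := hLc.completeSpace_coe
  have hinv : ∀ a ∈ A0, ∀ v ∈ L, amp a v ∈ L := by
    intro a ha v hv
    have hsub : (L0 : Set (Sp ι H)) ⊆ (amp a) ⁻¹' (L : Set (Sp ι H)) := by
      rintro _ ⟨b, hb, rfl⟩
      apply L0.le_topologicalClosure
      have hb' : b ∈ A0 := hb
      refine ⟨a * b, (mul_mem ha hb' : a * b ∈ A0), ?_⟩
      simp only [ampL_apply, amp_mul]
    have hcl : IsClosed ((amp a) ⁻¹' (L : Set (Sp ι H))) := hLc.preimage (amp a).continuous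
    exact closure_minimal hsub hcl hv
  have hcomm : ∀ a ∈ A0, ∀ v, amp a (L.starProjection v) = L.starProjection (amp a v) := by
    intro a ha v
    symm
    apply Submodule.eq_starProjection_of_mem_orthogonal
    · exact hinv a ha _ (Submodule.starProjection_apply_mem L v)
    · rw [Submodule.mem_orthogonal]
      intro w hw
      rw [← map_sub, inner_amp]
      have h1 := Submodule.sub_starProjection_mem_orthogonal (K := L) v
      exact (Submodule.mem_orthogonal L _).mp h1 _ (hinv _ (star_mem ha) w hw)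
  have hentry : ∀ i k : ι, ∀ h : H, x ((L.starProjection (lp.single 2 k h) : Sp ι H) i)
      = (L.starProjection (lp.single 2 k (x h)) : Sp ι H) i := by
    intro i k h
    set T : H →L[ℂ] H := (lp.evalCLM ℂ (fun _ : ι => H) 2 i).comp
      (L.starProjection.comp (lp.singleContinuousLinearMap ℂ (fun _ : ι => H) 2 k)) with hT
    have hTapp : ∀ h, T h = (L.starProjection (lp.single 2 k h) : Sp ι H) i := fun h => rfl
    have hTcomm : ∀ a ∈ A0, a * T = T * a := by
      intro a ha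
      ext h
      have hs : amp a (lp.single 2 k h) = (lp.single 2 k (a h) : Sp ι H) := amp_single a k h
      change a (T h) = T (a h)
      rw [hTapp, hTapp, ← amp_apply a (L.starProjection (lp.single 2 k h)) i, hcomm a ha, hs]
    have := hx T hTcomm
    have h2 := congrArg (fun S : H →L[ℂ] H => S h) this
    exact h2
  have hcommx : (amp x).comp L.starProjection = L.starProjection.comp (amp (ι := ι) x) := by
    apply lp.ext_continuousLinearMap (by norm_num)
    intro k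
    ext h : 1
    apply lp.ext
    funext i
    have h1 : amp x (lp.single 2 k h) = (lp.single 2 k (x h) : Sp ι H) := amp_single x k h
    simp only [ContinuousLinearMap.comp_apply, lp.singleContinuousLinearMap_apply]
    rw [h1, amp_apply]
    exact hentry i k h
  have hΩ : Ω ∈ L := L0.le_topologicalClosure ⟨1, one_mem A0, by simp [amp_one]⟩
  have hxΩ : amp x Ω ∈ L := by
    have h1 : L.starProjection Ω = Ω := Submodule.starProjection_eq_self_iff.mpr hΩ
    have h2 := congrArg (fun S : Sp ι H →L[ℂ] Sp ι H => S Ω) hcommx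
    simp only [ContinuousLinearMap.comp_apply, h1] at h2
    rw [h2]
    exact Submodule.starProjection_apply_mem L _
  have hcl : amp x Ω ∈ closure (L0 : Set (Sp ι H)) := hxΩ
  obtain ⟨_, ⟨a, ha, rfl⟩, hd⟩ := Metric.mem_closure_iff.mp hcl ε hε
  exact ⟨a, ha, by rwa [dist_eq_norm] at hd⟩

end Vale.Agent.P078.L2
end

section

/-! Abstract local functionals of states on a local system. -/

namespace Vale.Agent.P078.D

open Finset Polynomial Vale.Agent.P078.C
open scoped Pointwise Classical Topology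

variable {X G : Type*} [TopologicalSpace X] [Group G] [MulAction G X]

/-- A local functional of states: it depends on the state on the given set only, it is continuous
along the orbits, and its cluster coefficients vanish on sets of diameter larger than `n`. -/
structure LocF (𝔖 : Sys X G) (St : Type*) (n : ℕ) where
  F : (X → St) → Finset X → ℝ
  congr : ∀ (s s' : X → St) (W : Finset X), (∀ i ∈ W, s i = s' i) → F s W = F s' W
  cont : ∀ (J : Finset G) (x0 : X) (s : X → X → St),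
    (∀ g ∈ J, ∀ᶠ x in 𝓝 x0, s x (g • x) = s x0 (g • x0)) →
      ContinuousAt (fun x => F (s x) (J.image fun g => g • x)) x0
  tt : ∀ (s : X → St) (T : Finset X), mob (F s) T ≠ 0 → 𝔖.TT n T

namespace LocF

variable {𝔖 : Sys X G} {St : Type*} {n : ℕ}

/-- the local density -/
noncomputable def dens (L : LocF 𝔖 St n) (s : X → St) (x : X) : ℝ :=
  ∑ T ∈ 𝔖.TTs n x, mob (L.F s) T / T.card

/-- the mean of the local density (for locally constant `s`) -/
noncomputable def P (L : LocF 𝔖 St n) (s : X → St) : ℝ :=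
  if h : Continuous (L.dens s) then 𝔖.I ⟨L.dens s, h⟩ else 0

theorem nice (L : LocF 𝔖 St n) {s : X → St} (hs : IsLocallyConstant s) :
    Sys.Nice (G := G) (L.F s) := by
  intro J
  rw [continuous_iff_continuousAt]
  intro x0
  exact L.cont J x0 (fun _ => s) (fun g _ => (𝔖.nice_locConst hs g).eventually_eq x0)

theorem nice_mob_of (𝔖 : Sys X G) {F : Finset X → ℝ} (hF : Sys.Nice (G := G) F) :
    Sys.Nice (G := G) (mob F) := by
  intro J
  rw [continuous_iff_continuousAt]
  intro x0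
  obtain ⟨J', -, h3⟩ := 𝔖.nice_rep' J x0
  have heq : (fun x => mob F (J.image fun g => g • x)) =ᶠ[nhds x0]
      fun x => ∑ K ∈ J'.powerset, (-1) ^ (J'.card - K.card) * F (K.image fun g => g • x) := by
    filter_upwards [h3] with x hx
    rw [hx.2]
    unfold mob
    rw [Sys.nice_sum_powerset_image hx.1
      (fun W => (-1) ^ ((J'.image fun g => g • x).card - W.card) * F W)]
    refine Finset.sum_congr rfl (fun K hK => ?_)
    have hK' := Finset.mem_powerset.1 hK
    rw [Finset.card_image_of_injOn hx.1,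
      Finset.card_image_of_injOn (hx.1.mono (by exact_mod_cast hK'))]
  refine ContinuousAt.congr ?_ heq.symm
  refine Continuous.continuousAt ?_
  exact continuous_finsetSum _ (fun K _ => continuous_const.mul (hF K))

theorem nice_mob (L : LocF 𝔖 St n) {s : X → St} (hs : IsLocallyConstant s) :
    Sys.Nice (G := G) (mob (L.F s)) := nice_mob_of 𝔖 (L.nice hs)

theorem continuous_dens (L : LocF 𝔖 St n) {s : X → St} (hs : IsLocallyConstant s) :
    Continuous (L.dens s) := by
  have h := 𝔖.continuous_sum_TTs' n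
    (f := fun _ T => mob (L.F s) T / T.card)
    (𝔖.nice_div_card (L.nice_mob hs)) (fun _ _ => True)
    (fun _ _ => Filter.Eventually.of_forall fun _ => Iff.rfl)
  simp only [Finset.filter_true] at h
  exact h

theorem P_eq (L : LocF 𝔖 St n) {s : X → St} (hs : IsLocallyConstant s) (f : C(X, ℝ))
    (hf : ∀ x, f x = L.dens s x) : L.P s = 𝔖.I f := by
  unfold P
  rw [dif_pos (L.continuous_dens hs)]
  congr 1
  ext x
  exact (hf x).symm

/-- the cluster coefficients containing `x`, inside `W ⊆ ball`, sum to a difference -/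
theorem sum_mob_mem (L : LocF 𝔖 St n) (s : X → St) (x : X) (Q : X → Prop) (hx : Q x) :
    ∑ T ∈ (𝔖.TTs n x).filter (fun T => ∀ v ∈ T, Q v), mob (L.F s) T =
      L.F s ((𝔖.ball n x).filter Q) - L.F s (((𝔖.ball n x).filter Q).erase x) := by
  set W := (𝔖.ball n x).filter Q with hW
  have hxW : x ∈ W := Finset.mem_filter.2 ⟨𝔖.mem_ball_self _ x, hx⟩
  rw [← sum_mob W (L.F s), ← sum_mob (W.erase x) (L.F s)]
  have h1 : (W.erase x).powerset ⊆ W.powerset :=
    Finset.powerset_mono.2 (Finset.erase_subset x W)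
  rw [← Finset.sum_sdiff h1, add_sub_cancel_right]
  refine Finset.sum_subset ?_ ?_
  · intro T hT
    obtain ⟨h2, h3⟩ := Finset.mem_filter.1 hT
    obtain ⟨h4, h5⟩ := 𝔖.mem_TTs.1 h2
    rw [Finset.mem_sdiff, Finset.mem_powerset, Finset.mem_powerset]
    refine ⟨fun v hv => Finset.mem_filter.2 ⟨h4 v hv x h5, h3 v hv⟩, fun h6 => ?_⟩
    exact Finset.notMem_erase x W (h6 h5)
  · intro T hT hT'
    rw [Finset.mem_sdiff, Finset.mem_powerset, Finset.mem_powerset] at hT
    by_contra h2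
    apply hT'
    have h3 := L.tt s T h2
    have hxT : x ∈ T := by
      by_contra h4
      apply hT.2
      intro v hv
      refine Finset.mem_erase.2 ⟨fun h5 => h4 (h5 ▸ hv), hT.1 hv⟩
    exact Finset.mem_filter.2 ⟨𝔖.mem_TTs.2 ⟨h3, hxT⟩, fun v hv => (Finset.mem_filter.1 (hT.1 hv)).2⟩

end LocF

end Vale.Agent.P078.D
end

section

/-! `P_final`: a state whose functional is given by local moments. -/

namespace Vale.Agent.P078.D

open Finset Polynomial Vale.Agent.P078.C
open scoped Pointwise Classical Topology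

variable {X G : Type*} [TopologicalSpace X] [Group G] [MulAction G X]
variable {𝔖 : Sys X G} {St : Type*} {n : ℕ}

namespace LocF

theorem tt_mono {m n : ℕ} (h : m ≤ n) {T : Finset X} (hT : 𝔖.TT m T) : 𝔖.TT n T :=
  fun v hv w hw => 𝔖.ball_mono h w (hT v hv w hw)

/-- the transport function, radius `n` -/
noncomputable def ftr (𝔖 : Sys X G) (n : ℕ) {r : ℕ} (p : ℝ[X]) (c : X → Fin r) (x v : X) : ℝ :=
  ∑ T ∈ (𝔖.TTs n x).filter (fun T => v ∈ T), 𝔖.fkap p c v T / T.card

theorem continuous_ftr (𝔖 : Sys X G) (n : ℕ) {r : ℕ} (p : ℝ[X]) {c : X → Fin r}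
    (hc : IsLocallyConstant c) (g : G) : Continuous fun x => ftr 𝔖 n p c x (g • x) := by
  have h := 𝔖.continuous_sum_TTs' n
    (f := fun x T => 𝔖.fkap p c (g • x) T / T.card)
    (𝔖.continuous_fkap p hc g) (fun x T => g • x ∈ T)
    (fun J x0 => 𝔖.nice_ev_mem_image J g x0)
  refine h.congr (fun x => ?_)
  unfold ftr
  refine Finset.sum_congr ?_ (fun _ _ => rfl)
  ext T
  simp only [Finset.mem_filter]

theorem sum_fkap' (𝔖 : Sys X G) {n r : ℕ} (p : ℝ[X]) (hp : p.natDegree ≤ n) (c : X → Fin r) (x : X) :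
    ∑ T ∈ 𝔖.TTs n x, 𝔖.fkap p c x T = locmom p 𝔖.y c (𝔖.ball p.natDegree x) x := by
  rw [← 𝔖.sum_fkap p c x]
  symm
  refine Finset.sum_subset (fun T hT => ?_) (fun T _ hT => ?_)
  · obtain ⟨h2, h3⟩ := 𝔖.mem_TTs.1 hT
    exact 𝔖.mem_TTs.2 ⟨tt_mono hp h2, h3⟩
  · by_contra h2
    exact hT (𝔖.mem_TTs.2 (𝔖.TT_of_fkap p c h2))

/-- the cluster coefficients of a functional given by local moments -/
theorem mob_eq_sum_fkap (L : LocF 𝔖 St n) {r : ℕ} {s : X → St} (p : ℝ[X]) {c : X → Fin r}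
    (h : ∀ W, L.F s W = ∑ v ∈ W, locmom p 𝔖.y c W v) (T : Finset X) :
    mob (L.F s) T = ∑ v ∈ T, 𝔖.fkap p c v T := by
  unfold Sys.fkap mob
  rw [Finset.sum_comm]
  refine Finset.sum_congr rfl (fun W hW => ?_)
  rw [← Finset.mul_sum, h]
  congr 1
  rw [← Finset.sum_filter]
  refine Finset.sum_congr ?_ (fun _ _ => rfl)
  exact ((Finset.filter_mem_eq_inter (s := T) (t := W)).trans
    (Finset.inter_eq_right.2 (Finset.mem_powerset.1 hW))).symm

/-- a state whose functional is given by local moments (compare `Sys.final`) -/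
theorem P_final (L : LocF 𝔖 St n) {r : ℕ} {s : X → St} (hs : IsLocallyConstant s) (p : ℝ[X])
    (hp : p.natDegree ≤ n) {c : X → Fin r} (hc : IsLocallyConstant c)
    (h : ∀ W, L.F s W = ∑ v ∈ W, locmom p 𝔖.y c W v) (m : C(X, ℝ))
    (hm : ∀ x, m x = locmom p 𝔖.y c (𝔖.ball p.natDegree x) x) : L.P s = 𝔖.I m := by
  rw [L.P_eq hs ⟨L.dens s, L.continuous_dens hs⟩ (fun _ => rfl)]
  refine 𝔖.mtp n (ftr 𝔖 n p c) (fun g _ => continuous_ftr 𝔖 n p hc g) _ m ?_ ?_
  · intro x
    show L.dens s x = _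
    unfold dens ftr
    have h1 : ∀ T ∈ 𝔖.TTs n x, mob (L.F s) T / T.card =
        ∑ v ∈ 𝔖.ball n x, if v ∈ T then 𝔖.fkap p c v T / T.card else 0 := by
      intro T hT
      obtain ⟨h2, h3⟩ := 𝔖.mem_TTs.1 hT
      have h4 : T ⊆ 𝔖.ball n x := fun v hv => h2 v hv x h3
      rw [L.mob_eq_sum_fkap p h, Finset.sum_div, ← Finset.sum_filter]
      refine Finset.sum_congr ?_ (fun _ _ => rfl)
      exact ((Finset.filter_mem_eq_inter (s := 𝔖.ball n x) (t := T)).trans
        (Finset.inter_eq_right.2 h4)).symm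
    rw [Finset.sum_congr rfl h1, Finset.sum_comm]
    refine Finset.sum_congr rfl (fun v _ => ?_)
    rw [Finset.sum_filter]
  · intro x
    rw [hm x, ← sum_fkap' 𝔖 p hp c x]
    unfold ftr
    have h1 : ∀ v ∈ 𝔖.ball n x,
        ∑ T ∈ (𝔖.TTs n v).filter (fun T => x ∈ T), 𝔖.fkap p c x T / T.card =
        ∑ T ∈ 𝔖.TTs n x, if v ∈ T then 𝔖.fkap p c x T / T.card else 0 := by
      intro v _
      rw [← Finset.sum_filter]
      refine Finset.sum_congr ?_ (fun _ _ => rfl)
      ext T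
      rw [Finset.mem_filter, Finset.mem_filter, 𝔖.mem_TTs, 𝔖.mem_TTs]
      (clear * -; tauto)
    rw [Finset.sum_congr rfl h1, Finset.sum_comm]
    refine Finset.sum_congr rfl (fun T hT => ?_)
    obtain ⟨h2, h3⟩ := 𝔖.mem_TTs.1 hT
    have h4 : T ⊆ 𝔖.ball n x := fun v hv => h2 v hv x h3
    rw [← Finset.sum_filter]
    have h5 : (𝔖.ball n x).filter (fun v => v ∈ T) = T :=
      (Finset.filter_mem_eq_inter (s := 𝔖.ball n x) (t := T)).trans
        (Finset.inter_eq_right.2 h4)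
    rw [h5, Finset.sum_const, nsmul_eq_mul]
    have h6 : (T.card : ℝ) ≠ 0 := by
      have := Finset.card_pos.2 ⟨x, h3⟩
      (clear * - this; positivity)
    (clear * - h6; field_simp)

end LocF

end Vale.Agent.P078.D
end

section

/-! Stages: changing the state on sparse clopen sets, one after the other. -/

namespace Vale.Agent.P078.D

open Finset Polynomial Vale.Agent.P078.C
open scoped Pointwise Classical Topology

variable {X G : Type*} [TopologicalSpace X] [Group G] [MulAction G X]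
variable {𝔖 : Sys X G} {St : Type*} {n : ℕ}

namespace LocF

/-- the cluster coefficient of `T` depends on the state on `T` only -/
theorem ls_mob_congr (L : LocF 𝔖 St n) {s s' : X → St} {T : Finset X}
    (h : ∀ i ∈ T, s i = s' i) : mob (L.F s) T = mob (L.F s') T := by
  unfold mob
  refine Finset.sum_congr rfl fun W hW => ?_
  rw [L.congr s s' W fun i hi => h i (Finset.mem_powerset.1 hW hi)]

/-- updating the state at the base point, continuously along the orbits -/
theorem ls_update_ev (𝔖 : Sys X G) {s s' : X → St} (hs : IsLocallyConstant s)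
    (hs' : IsLocallyConstant s') (g : G) (x0 : X) :
    ∀ᶠ x in 𝓝 x0, Function.update s x (s' x) (g • x) =
      Function.update s x0 (s' x0) (g • x0) := by
  have h1 : IsLocallyConstant fun x => s (g • x) := hs.comp_continuous (𝔖.cont g)
  have h2 := 𝔖.aux_isLocallyConstant_smul_eq g 1
  filter_upwards [(IsLocallyConstant.iff_eventually_eq _).1 h1 x0,
    (IsLocallyConstant.iff_eventually_eq _).1 h2 x0,
    (IsLocallyConstant.iff_eventually_eq _).1 hs' x0] with x e1 e2 e3
  simp only [one_smul] at e2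
  by_cases hx : g • x0 = x0
  · have hx' : g • x = x := by
      rw [e2]
      exact hx
    rw [hx, hx']
    simp only [Function.update_self]
    exact e3
  · have hx' : g • x ≠ x := by
      intro h
      rw [e2] at h
      exact hx h
    rw [Function.update_of_ne hx, Function.update_of_ne hx', e1]

/-- the change of the functional on the ball around `x` when the state at `x` is replaced -/
noncomputable def lsD (L : LocF 𝔖 St n) (s s' : X → St) (x : X) : ℝ :=
  L.F (Function.update s x (s' x)) (𝔖.ball n x) - L.F s (𝔖.ball n x)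

theorem ls_continuous_lsD (L : LocF 𝔖 St n) {s s' : X → St} (hs : IsLocallyConstant s)
    (hs' : IsLocallyConstant s') : Continuous (L.lsD s s') := by
  have h1 : Continuous fun x => L.F (Function.update s x (s' x)) (𝔖.ball n x) := by
    rw [continuous_iff_continuousAt]
    intro x0
    exact L.cont (𝔖.ballG n) x0 (fun x => Function.update s x (s' x))
      (fun g _ => ls_update_ev 𝔖 hs hs' g x0)
  have h2 : Continuous fun x => L.F s (𝔖.ball n x) := L.nice hs (𝔖.ballG n)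
  exact h1.sub h2

theorem ls_mob_of_disjoint (L : LocF 𝔖 St n) {C : Set X} {s s' : X → St}
    (hout : ∀ x ∉ C, s' x = s x) {T : Finset X} (hT : ∀ v ∈ T, v ∉ C) :
    mob (L.F s') T = mob (L.F s) T :=
  L.ls_mob_congr fun i hi => hout i (hT i hi)

theorem ls_mob_of_mem (L : LocF 𝔖 St n) {C : Set X} (hsp : 𝔖.Sparse n C) {s s' : X → St}
    (hout : ∀ x ∉ C, s' x = s x) {T : Finset X} (hTT : 𝔖.TT n T) {x : X} (hx : x ∈ C)
    (hxT : x ∈ T) : mob (L.F s') T = mob (L.F (Function.update s x (s' x))) T := by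
  refine L.ls_mob_congr fun i hi => ?_
  by_cases hix : i = x
  · subst hix
    rw [Function.update_self]
  · have hiC : i ∉ C := fun h => hix (hsp i h x hx (hTT i hi x hxT))
    rw [Function.update_of_ne hix]
    exact hout i hiC

theorem ls_sum (L : LocF 𝔖 St n) {C : Set X} (hsp : 𝔖.Sparse n C) {s s' : X → St}
    (hout : ∀ x ∉ C, s' x = s x) {x : X} (hx : x ∈ C) :
    ∑ T ∈ 𝔖.TTs n x, (mob (L.F s') T - mob (L.F s) T) = L.lsD s s' x := by
  have h0 : ∀ t : X → St, ∑ T ∈ 𝔖.TTs n x, mob (L.F t) T =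
      L.F t (𝔖.ball n x) - L.F t ((𝔖.ball n x).erase x) := by
    intro t
    have h := L.sum_mob_mem t x (fun _ => True) trivial
    simpa only [Finset.filter_true, implies_true] using h
  have h1 : ∑ T ∈ 𝔖.TTs n x, mob (L.F s') T =
      ∑ T ∈ 𝔖.TTs n x, mob (L.F (Function.update s x (s' x))) T := by
    refine Finset.sum_congr rfl fun T hT => ?_
    obtain ⟨h2, h3⟩ := Sys.aux_mem_TTs.1 hT
    exact L.ls_mob_of_mem hsp hout h2 hx h3
  rw [Finset.sum_sub_distrib, h1, h0, h0]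
  have h4 : L.F (Function.update s x (s' x)) ((𝔖.ball n x).erase x) =
      L.F s ((𝔖.ball n x).erase x) := by
    refine L.congr _ _ _ fun i hi => ?_
    rw [Function.update_of_ne (Finset.ne_of_mem_erase hi)]
  unfold lsD
  rw [h4]
  ring

/-- one stage (compare `Sys.stage`) -/
theorem P_stage (L : LocF 𝔖 St n) {C : Set X} (hC : IsClopen C) (hsp : 𝔖.Sparse n C)
    {s s' : X → St} (hs : IsLocallyConstant s) (hs' : IsLocallyConstant s')
    (hout : ∀ x ∉ C, s' x = s x) {κ : ℝ}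
    (h : ∀ x ∈ C, L.F (Function.update s x (s' x)) (𝔖.ball n x) ≤ L.F s (𝔖.ball n x) + κ)
    (χ : C(X, ℝ)) (hχ : ∀ x, χ x = if x ∈ C then 1 else 0) :
    L.P s' ≤ L.P s + κ * 𝔖.I χ := by
  set F : C(X, ℝ) := ⟨L.dens s, L.continuous_dens hs⟩ with hFdef
  set F' : C(X, ℝ) := ⟨L.dens s', L.continuous_dens hs'⟩ with hF'def
  have hF : ∀ x, F x = L.dens s x := fun x => rfl
  have hF' : ∀ x, F' x = L.dens s' x := fun x => rfl
  rw [L.P_eq hs F hF, L.P_eq hs' F' hF']
  have hφ : Sys.Nice (G := G) fun T => mob (L.F s') T - mob (L.F s) T := by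
    intro J
    exact (L.nice_mob hs' J).sub (L.nice_mob hs J)
  set H : C(X, ℝ) := χ * ⟨_, L.ls_continuous_lsD hs hs'⟩ with hH
  have hHx : ∀ x, H x = (if x ∈ C then 1 else 0) * L.lsD s s' x := by
    intro x
    rw [hH, ContinuousMap.mul_apply, hχ]
    rfl
  have key : 𝔖.I (F' - F) = 𝔖.I H := by
    refine 𝔖.aux_transport n (fun v _ => v ∈ C)
      (fun T => mob (L.F s') T - mob (L.F s) T) hφ
      (fun _ => Sys.aux_isLocallyConstant_mem hC) _ _ ?_ ?_
    · intro x
      rw [ContinuousMap.sub_apply, hF, hF']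
      unfold dens
      rw [← Finset.sum_sub_distrib]
      refine Finset.sum_congr rfl fun T hT => ?_
      obtain ⟨h2, h3⟩ := Sys.aux_mem_TTs.1 hT
      rw [← sub_div]
      congr 1
      by_cases hTC : ∃ v ∈ T, v ∈ C
      · obtain ⟨v, hv, hvC⟩ := hTC
        rw [𝔖.stage_card hsp h2 hvC hv]
        simp
      · have hTC' : ∀ v ∈ T, v ∉ C := fun v hv hvC => hTC ⟨v, hv, hvC⟩
        rw [L.ls_mob_of_disjoint hout hTC']
        simp
    · intro x
      rw [hHx]
      by_cases hx : x ∈ C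
      · rw [if_pos hx, one_mul, Finset.filter_true_of_mem (fun _ _ => hx),
          L.ls_sum hsp hout hx]
      · rw [if_neg hx, zero_mul, Finset.filter_false_of_mem (fun _ _ => hx), Finset.sum_empty]
  have hle : 𝔖.I H ≤ κ * 𝔖.I χ := by
    have h1 : 0 ≤ 𝔖.I (κ • χ - H) := by
      refine 𝔖.I_nonneg _ fun x => ?_
      rw [ContinuousMap.sub_apply, ContinuousMap.smul_apply, hHx, hχ, smul_eq_mul]
      by_cases hx : x ∈ C
      · rw [if_pos hx]
        have h2 : L.lsD s s' x ≤ κ := by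
          unfold lsD
          linarith only [h x hx]
        linarith only [h2]
      · rw [if_neg hx]
        simp
    rw [map_sub, map_smul, smul_eq_mul] at h1
    linarith only [h1]
  rw [map_sub] at key
  linarith only [key, hle]

/-- the first `k` stages -/
theorem ls_stages (L : LocF 𝔖 St n) {m : ℕ} {j : X → Fin m} (hj : IsLocallyConstant j)
    (hsp : ∀ i, 𝔖.Sparse n (j ⁻¹' {i})) (S : ℕ → X → St) (hS : ∀ k, IsLocallyConstant (S k))
    (hout : ∀ k x, (j x : ℕ) ≠ k → S (k + 1) x = S k x) {κ : ℝ}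
    (h : ∀ k x, (j x : ℕ) = k → L.F (Function.update (S k) x (S (k + 1) x)) (𝔖.ball n x) ≤
      L.F (S k) (𝔖.ball n x) + κ) (k : ℕ) (hk : k ≤ m) :
    ∃ χ : C(X, ℝ), (∀ x, χ x = if (j x : ℕ) < k then 1 else 0) ∧
      L.P (S k) ≤ L.P (S 0) + κ * 𝔖.I χ := by
  induction k with
  | zero =>
    refine ⟨0, fun x => ?_, ?_⟩
    · simp
    · rw [map_zero, mul_zero, add_zero]
  | succ k ih =>
    obtain ⟨χ, hχ, hle⟩ := ih (Nat.le_of_succ_le hk)
    have hC := Sys.main_clopen hj ⟨k, hk⟩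
    obtain ⟨χ', hχ'⟩ := Sys.main_ind hC
    have hmem : ∀ x, x ∈ j ⁻¹' {(⟨k, hk⟩ : Fin m)} ↔ (j x : ℕ) = k := by
      intro x
      rw [Set.mem_preimage, Set.mem_singleton_iff, Fin.ext_iff]
    have hle' := L.P_stage hC (hsp ⟨k, hk⟩) (hS k) (hS (k + 1))
      (fun x hx => hout k x fun e => hx ((hmem x).2 e)) (κ := κ)
      (fun x hx => h k x ((hmem x).1 hx)) χ' (fun x => by rw [hχ' x])
    refine ⟨χ + χ', ?_, ?_⟩
    · intro x
      rw [ContinuousMap.add_apply, hχ, hχ']
      by_cases h : (j x : ℕ) = k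
      · have h1 : ¬ (j x : ℕ) < k := by (clear * - h; omega)
        have h2 : (j x : ℕ) < k + 1 := by (clear * - h; omega)
        have h3 := (hmem x).2 h
        simp only [h1, h2, h3, if_true, if_false]
        norm_num
      · have h3 : ¬ x ∈ j ⁻¹' {(⟨k, hk⟩ : Fin m)} := fun h' => h ((hmem x).1 h')
        by_cases h4 : (j x : ℕ) < k
        · have h2 : (j x : ℕ) < k + 1 := by (clear * - h4; omega)
          simp only [h2, h3, h4, if_true, if_false]
          norm_num
        · have h2 : ¬ (j x : ℕ) < k + 1 := by (clear * - h h4; omega)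
          simp only [h2, h3, h4, if_false]
          norm_num
    · rw [map_add]
      have e : κ * (𝔖.I χ + 𝔖.I χ') = κ * 𝔖.I χ + κ * 𝔖.I χ' := by ring
      rw [e]
      linarith only [hle, hle']

/-- all stages -/
theorem P_stages (L : LocF 𝔖 St n) {m : ℕ} {j : X → Fin m} (hj : IsLocallyConstant j)
    (hsp : ∀ i, 𝔖.Sparse n (j ⁻¹' {i})) (S : ℕ → X → St) (hS : ∀ k, IsLocallyConstant (S k))
    (hout : ∀ k x, (j x : ℕ) ≠ k → S (k + 1) x = S k x) {κ : ℝ}
    (h : ∀ k x, (j x : ℕ) = k → L.F (Function.update (S k) x (S (k + 1) x)) (𝔖.ball n x) ≤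
      L.F (S k) (𝔖.ball n x) + κ) : L.P (S m) ≤ L.P (S 0) + κ := by
  obtain ⟨χ, hχ, hle⟩ := L.ls_stages hj hsp S hS hout h m le_rfl
  have hχ1 : χ = 1 := by
    ext x
    rw [hχ x, if_pos (j x).isLt, ContinuousMap.one_apply]
  rw [hχ1, 𝔖.I_one, mul_one] at hle
  exact hle

/-- deterministic replacement of the state at all points -/
theorem P_replace [CompactSpace X] [T2Space X] [TotallyDisconnectedSpace X] (L : LocF 𝔖 St n)
    {s s' : X → St} (hs : IsLocallyConstant s) (hs' : IsLocallyConstant s') {κ : ℝ}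
    (h : ∀ (t : X → St) (W : Finset X), ∀ w ∈ W, (∀ i, t i = s i ∨ t i = s' i) → t w = s w →
      L.F (Function.update t w (s' w)) W ≤ L.F t W + κ) : L.P s' ≤ L.P s + κ := by
  obtain ⟨m, j, hj, hsp⟩ := 𝔖.exists_sparse n
  set S : ℕ → X → St := fun k x => if (j x : ℕ) < k then s' x else s x with hSdef
  have hSx : ∀ k x, S k x = if (j x : ℕ) < k then s' x else s x := fun k x => rfl
  have hS : ∀ k, IsLocallyConstant (S k) := by
    intro k
    rw [IsLocallyConstant.iff_eventually_eq] at hs hs' hj ⊢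
    intro x
    filter_upwards [hs x, hs' x, hj x] with x' e1 e2 e3
    rw [hSx, hSx, e1, e2, e3]
  have hm : S m = s' := by
    funext x
    rw [hSx, if_pos (j x).isLt]
  have h0 : S 0 = s := by
    funext x
    rw [hSx, if_neg (Nat.not_lt_zero _)]
  have key := L.P_stages hj hsp S hS (κ := κ) (fun k x hx => ?_) (fun k x hx => ?_)
  · rwa [hm, h0] at key
  · rw [hSx, hSx]
    by_cases h1 : (j x : ℕ) < k
    · rw [if_pos h1, if_pos (by (clear * - h1; omega))]
    · rw [if_neg h1, if_neg (by (clear * - hx h1; omega))]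
  · have h1 : S (k + 1) x = s' x := by
      rw [hSx, if_pos (by (clear * - hx; omega))]
    rw [h1]
    refine h (S k) (𝔖.ball n x) x (𝔖.mem_ball_self _ _) (fun i => ?_) ?_
    · rw [hSx]
      by_cases h2 : (j i : ℕ) < k
      · rw [if_pos h2]
        exact Or.inr rfl
      · rw [if_neg h2]
        exact Or.inl rfl
    · rw [hSx, if_neg (by (clear * - hx; omega))]

/-- the initial state (compare `Sys.initial`) -/
theorem P_initial [CompactSpace X] [T2Space X] [TotallyDisconnectedSpace X] (L : LocF 𝔖 St n)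
    (σ : St) {β : ℝ}
    (hini : ∀ (W : Finset X), ∀ w ∈ W, L.F (fun _ => σ) W ≤ L.F (fun _ => σ) (W.erase w) + β) :
    L.P (fun _ => σ) ≤ β := by
  obtain ⟨m, j, hjc, hj⟩ := 𝔖.exists_sparse n
  set s : X → St := fun _ => σ with hs
  have hslc : IsLocallyConstant s := IsLocallyConstant.const _
  set F : C(X, ℝ) := ⟨L.dens s, L.continuous_dens hslc⟩ with hFdef
  have hF : ∀ x, F x = L.dens s x := fun x => rfl
  rw [L.P_eq hslc F hF]
  have hcont : Continuous fun x => ∑ T ∈ (𝔖.TTs n x).filter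
      (fun T => ∀ w ∈ T, j w ≤ j x), mob (L.F s) T := by
    have h := 𝔖.continuous_sum_TTs n (L.nice_mob hslc)
      (fun x _ T => ∀ w ∈ T, j w ≤ j x) (fun _ J => 𝔖.init_lc hjc J) 1
    convert h
  set F' : C(X, ℝ) := ⟨_, hcont⟩ with hF'def
  have hF' : ∀ x, F' x = ∑ T ∈ (𝔖.TTs n x).filter
      (fun T => ∀ w ∈ T, j w ≤ j x), mob (L.F s) T := fun x => rfl
  have key : 𝔖.I F = 𝔖.I F' := by
    refine 𝔖.aux_transport n (fun v T => ∀ w ∈ T, j w ≤ j v) (mob (L.F s))
      (L.nice_mob hslc) (fun J => 𝔖.init_lc hjc J) F F' ?_ ?_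
    · intro x
      rw [hF x]
      unfold dens
      refine Finset.sum_congr rfl fun T hT => ?_
      obtain ⟨h1, h2⟩ := Sys.aux_mem_TTs.1 hT
      have h4 : (T.filter fun v => ∀ w ∈ T, j w ≤ j v).card = 1 := 𝔖.init_card hj h1 h2
      congr 1
      have h5 : ((@Finset.filter X (fun v => ∀ w ∈ T, j w ≤ j v)
          (fun a => Classical.propDecidable _) T).card : ℝ) = 1 := by
        have : (@Finset.filter X (fun v => ∀ w ∈ T, j w ≤ j v)
          (fun a => Classical.propDecidable _) T).card = 1 := by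
          convert h4
        rw [this]
        norm_num
      rw [h5, one_mul]
    · intro x
      rw [hF' x]
      refine Finset.sum_congr ?_ fun _ _ => rfl
      ext T
      simp only [Finset.mem_filter]
  have hle : ∀ x, F' x ≤ β := by
    intro x
    have h := L.sum_mob_mem s x (fun v => j v ≤ j x) le_rfl
    have h1 : F' x = L.F s ((𝔖.ball n x).filter fun v => j v ≤ j x) -
        L.F s (((𝔖.ball n x).filter fun v => j v ≤ j x).erase x) := by
      rw [hF' x]
      convert h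
    rw [h1]
    have h2 := hini ((𝔖.ball n x).filter fun v => j v ≤ j x) x
      (Finset.mem_filter.2 ⟨𝔖.mem_ball_self _ _, le_rfl⟩)
    linarith only [h2]
  have h2 : 0 ≤ 𝔖.I (β • (1 : C(X, ℝ)) - F') := by
    refine 𝔖.I_nonneg _ fun x => ?_
    rw [ContinuousMap.sub_apply, ContinuousMap.smul_apply, ContinuousMap.one_apply, smul_eq_mul,
      mul_one]
    have := hle x
    linarith only [this]
  rw [map_sub, map_smul, 𝔖.I_one, smul_eq_mul, mul_one] at h2
  linarith only [key, h2]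

end LocF

end Vale.Agent.P078.D
end

section

/-! The selection rule: colourings which are local, rotation equivariant functions of a random
source `U`. -/

namespace Vale.Agent.P078.D

open Finset Polynomial Vale.Agent.P078.C
open scoped Pointwise Classical Topology

variable {X G : Type*} [TopologicalSpace X] [Group G] [MulAction G X]
variable {𝔖 : Sys X G} {St : Type*} {n : ℕ}

/-- A local equivariant rule: `Φ x τ` is the colour of `x` if the source at `g • x` is `τ g`. -/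
structure IsRule (𝔖 : Sys X G) {r : ℕ} [NeZero r] (R : ℕ)
    (Φ : X → (G → Fin r) → Fin r) : Prop where
  lc : ∀ τ, IsLocallyConstant fun x => Φ x τ
  loc : ∀ x (τ τ' : G → Fin r), (∀ g ∈ 𝔖.ballG R, τ g = τ' g) → Φ x τ = Φ x τ'
  equiv : ∀ x (τ : G → Fin r) (a : Fin r), Φ x (fun g => τ g + a) = Φ x τ + a

/-- the colouring given by the source `U` -/
def IsRule.col {r : ℕ} (Φ : X → (G → Fin r) → Fin r) (U : X → Fin r) : X → Fin r :=
  fun x => Φ x fun g => U (g • x)

/-- a local function of a locally constant source is locally constant -/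
theorem rule_lc {Y : Type*} {r : ℕ} {R : ℕ} {ψ : X → (G → Fin r) → Y}
    (hlc : ∀ τ, IsLocallyConstant fun x => ψ x τ)
    (hloc : ∀ x (τ τ' : G → Fin r), (∀ g ∈ 𝔖.ballG R, τ g = τ' g) → ψ x τ = ψ x τ')
    {U : X → Fin r} (hU : IsLocallyConstant U) :
    IsLocallyConstant fun x => ψ x fun g => U (g • x) := by
  rw [IsLocallyConstant.iff_eventually_eq]
  intro x0
  have h1 : ∀ᶠ x in 𝓝 x0, ∀ g ∈ 𝔖.ballG R, U (g • x) = U (g • x0) :=
    (Filter.eventually_all_finset _).2 fun g _ => (𝔖.nice_locConst hU g).eventually_eq x0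
  filter_upwards [h1, (hlc fun g => U (g • x0)).eventually_eq x0] with x hx hx2
  rw [hloc x _ (fun g => U (g • x0)) hx]
  exact hx2

theorem IsRule.col_lc {r : ℕ} [NeZero r] {R : ℕ} {Φ : X → (G → Fin r) → Fin r}
    (h : IsRule 𝔖 R Φ) {U : X → Fin r} (hU : IsLocallyConstant U) :
    IsLocallyConstant (IsRule.col Φ U) :=
  rule_lc (𝔖 := 𝔖) (R := R) h.lc h.loc hU

namespace Rule

/-- the state with pattern `π` around `x` -/
noncomputable def ext (𝔖 : Sys X G) {Y : Type*} (n : ℕ) (o : Y) (π : G → Y) (x v : X) : Y :=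
  if ∃ g, g ∈ 𝔖.ballG n ∧ g • x = v then
    π (Classical.epsilon fun g => g ∈ 𝔖.ballG n ∧ g • x = v) else o

theorem ext_of_mem (𝔖 : Sys X G) {Y : Type*} {n : ℕ} {o : Y} {π : G → Y} {x : X} {s : X → Y}
    (h : ∀ g ∈ 𝔖.ballG n, π g = s (g • x)) {v : X} (hv : v ∈ 𝔖.ball n x) :
    ext 𝔖 n o π x v = s v := by
  obtain ⟨g, hg, rfl⟩ := Sys.mem_ball.1 hv
  have hex : ∃ g', g' ∈ 𝔖.ballG n ∧ g' • x = g • x := ⟨g, hg, rfl⟩
  unfold ext
  rw [if_pos hex]
  have h2 := Classical.epsilon_spec hex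
  rw [h _ h2.1, h2.2]

theorem ext_ev (𝔖 : Sys X G) {Y : Type*} (n : ℕ) (o : Y) (π : G → Y) (x0 : X) (g : G) :
    ∀ᶠ x in 𝓝 x0, ext 𝔖 n o π x (g • x) = ext 𝔖 n o π x0 (g • x0) := by
  have h1 : ∀ᶠ x in 𝓝 x0, ∀ g' ∈ 𝔖.ballG n, (g' • x = g • x ↔ g' • x0 = g • x0) :=
    (Filter.eventually_all_finset _).2 fun g' _ => 𝔖.nice_ev_eq g' g x0
  filter_upwards [h1] with x hx
  have h2 : (fun g' => g' ∈ 𝔖.ballG n ∧ g' • x = g • x) =
      fun g' => g' ∈ 𝔖.ballG n ∧ g' • x0 = g • x0 := by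
    funext g'
    exact propext (and_congr_right fun hg' => hx g' hg')
  unfold ext
  by_cases h3 : ∃ g', g' ∈ 𝔖.ballG n ∧ g' • x = g • x
  · have h4 : ∃ g', g' ∈ 𝔖.ballG n ∧ g' • x0 = g • x0 := by
      obtain ⟨g', h5⟩ := h3
      exact ⟨g', (congrFun h2 g') ▸ h5⟩
    rw [if_pos h3, if_pos h4, h2]
  · have h4 : ¬ ∃ g', g' ∈ 𝔖.ballG n ∧ g' • x0 = g • x0 := by
      rintro ⟨g', h5⟩
      exact h3 ⟨g', (congrFun h2 g').symm ▸ h5⟩
    rw [if_neg h3, if_neg h4]

/-- the state attached to a partial colouring -/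
def toSt {r : ℕ} (σ : St) (val : Fin r → St) (o : Option (Fin r)) : St := o.elim σ val

variable {r : ℕ}

/-- the change of the functional of the ball around `x` when `x` gets the colour `a` and the
pattern around `x` is `π` -/
noncomputable def DD (L : LocF 𝔖 St n) (σ : St) (val : Fin r → St) (π : G → Option (Fin r))
    (a : Fin r) (x : X) : ℝ :=
  L.F (fun v => toSt σ val (Function.update (ext 𝔖 n none π x) x (some a) v)) (𝔖.ball n x) -
    L.F (fun v => toSt σ val (ext 𝔖 n none π x v)) (𝔖.ball n x)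

theorem DD_continuous (L : LocF 𝔖 St n) (σ : St) (val : Fin r → St) (π : G → Option (Fin r))
    (a : Fin r) : Continuous (DD L σ val π a) := by
  rw [continuous_iff_continuousAt]
  intro x0
  refine ContinuousAt.sub ?_ ?_
  · refine L.cont (𝔖.ballG n) x0 (fun x v => toSt σ val
      (Function.update (ext 𝔖 n none π x) x (some a) v)) fun g _ => ?_
    filter_upwards [ext_ev 𝔖 n none π x0 g, 𝔖.nice_ev_eq g 1 x0] with x hx hx2
    rw [one_smul, one_smul] at hx2
    by_cases h : g • x0 = x0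
    · rw [h, hx2.2 h, Function.update_self, Function.update_self]
    · have h' : g • x ≠ x := fun h' => h (hx2.1 h')
      rw [Function.update_of_ne h, Function.update_of_ne h', hx]
  · refine L.cont (𝔖.ballG n) x0 (fun x v => toSt σ val (ext 𝔖 n none π x v)) fun g _ => ?_
    filter_upwards [ext_ev 𝔖 n none π x0 g] with x hx
    rw [hx]

theorem ext_self_lc (𝔖 : Sys X G) {Y : Type*} (n : ℕ) (o : Y) (π : G → Y) :
    IsLocallyConstant fun x => ext 𝔖 n o π x x := by
  rw [IsLocallyConstant.iff_eventually_eq]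
  intro x0
  filter_upwards [ext_ev 𝔖 n o π x0 1] with x hx
  rwa [one_smul, one_smul] at hx

theorem exists_sel [CompactSpace X] [T2Space X] [TotallyDisconnectedSpace X] (L : LocF 𝔖 St n)
    [NeZero r] (σ : St) (val : Fin r → St) {κ κ' : ℝ} (hκ' : 0 < κ')
    (hsel : ∀ (s : X → Option (Fin r)) (W : Finset X), ∀ w ∈ W, s w = none →
      ∃ c, L.F (fun v => toSt σ val (Function.update s w (some c) v)) W ≤
        L.F (fun v => toSt σ val (s v)) W + κ) (π : G → Option (Fin r)) :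
    ∃ c : X → Fin r, IsLocallyConstant c ∧ ∀ x, ext 𝔖 n none π x x = none →
      DD L σ val π (c x) x ≤ κ + κ' := by
  have hC : IsClopen {x | ext 𝔖 n none π x x = none} := by
    have := (ext_self_lc 𝔖 n none π).isClopen_fiber none
    exact this
  obtain ⟨c, hc, h⟩ := Sys.exists_selection {x | ext 𝔖 n none π x x = none} hC
    (fun a => DD L σ val π a) (fun a => (DD_continuous L σ val π a).continuousOn) κ κ' hκ'
    (by
      intro x hx
      obtain ⟨a, ha⟩ := hsel (ext 𝔖 n none π x) (𝔖.ball n x) x (𝔖.mem_ball_self _ _) hx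
      refine ⟨a, ?_⟩
      unfold DD
      linarith only [ha]) (NeZero.pos r)
  exact ⟨c, hc, fun x hx => h x hx⟩

variable [NeZero r]

/-- rotation of partial colours -/
def rotO (a : Fin r) (o : Option (Fin r)) : Option (Fin r) := o.map fun b => b + a

theorem rotO_rotO (a b : Fin r) (o : Option (Fin r)) : rotO b (rotO a o) = rotO (a + b) o := by
  cases o with
  | none => rfl
  | some c => simp [rotO, add_assoc]

theorem rotO_zero (o : Option (Fin r)) : rotO 0 o = o := by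
  cases o with
  | none => rfl
  | some c => simp [rotO]

/-- the rule after `k` stages -/
noncomputable def psi (𝔖 : Sys X G) (n : ℕ) (j : X → ℕ)
    (c : (G → Option (Fin r)) → X → Fin r) : ℕ → X → (G → Fin r) → Option (Fin r)
  | 0 => fun _ _ => none
  | k + 1 => fun x τ => if j x = k then
      some (c (fun h => if h ∈ 𝔖.ballG n then
        rotO (-τ 1) (psi 𝔖 n j c k (h • x) fun g => τ (g * h)) else none) x + τ 1)
      else psi 𝔖 n j c k x τ

/-- the normalized pattern around `x` -/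
noncomputable def pat (𝔖 : Sys X G) (n : ℕ) (j : X → ℕ)
    (c : (G → Option (Fin r)) → X → Fin r) (k : ℕ) (x : X) (τ : G → Fin r) :
    G → Option (Fin r) := fun h => if h ∈ 𝔖.ballG n then
        rotO (-τ 1) (psi 𝔖 n j c k (h • x) fun g => τ (g * h)) else none

variable {j : X → ℕ} {c : (G → Option (Fin r)) → X → Fin r}

theorem psi_succ (k : ℕ) (x : X) (τ : G → Fin r) :
    psi 𝔖 n j c (k + 1) x τ = if j x = k then some (c (pat 𝔖 n j c k x τ) x + τ 1)
      else psi 𝔖 n j c k x τ := rfl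

theorem psi_none (k : ℕ) (x : X) (τ : G → Fin r) (h : k ≤ j x) : psi 𝔖 n j c k x τ = none := by
  induction k with
  | zero => rfl
  | succ k ih =>
    rw [psi_succ, if_neg (by omega)]
    exact ih (by omega)

theorem psi_some (k : ℕ) (x : X) (τ : G → Fin r) (h : j x < k) :
    (psi 𝔖 n j c k x τ).isSome := by
  induction k with
  | zero => omega
  | succ k ih =>
    rw [psi_succ]
    by_cases hk : j x = k
    · rw [if_pos hk]; rfl
    · rw [if_neg hk]
      exact ih (by omega)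

theorem psi_lc (hj : IsLocallyConstant j) (hc : ∀ π, IsLocallyConstant (c π)) (k : ℕ) :
    ∀ τ : G → Fin r, IsLocallyConstant fun x => psi 𝔖 n j c k x τ := by
  induction k with
  | zero => exact fun τ => IsLocallyConstant.const _
  | succ k ih =>
    intro τ
    rw [IsLocallyConstant.iff_eventually_eq]
    intro x0
    have h1 : ∀ᶠ x in 𝓝 x0, ∀ h ∈ 𝔖.ballG n, psi 𝔖 n j c k (h • x) (fun g => τ (g * h)) =
        psi 𝔖 n j c k (h • x0) fun g => τ (g * h) :=
      (Filter.eventually_all_finset _).2 fun h _ =>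
        (𝔖.nice_locConst (ih fun g => τ (g * h)) h).eventually_eq x0
    filter_upwards [h1, hj.eventually_eq x0, (ih τ).eventually_eq x0,
      (hc (pat 𝔖 n j c k x0 τ)).eventually_eq x0] with x hx1 hx2 hx3 hx4
    rw [psi_succ, psi_succ]
    have h2 : pat 𝔖 n j c k x τ = pat 𝔖 n j c k x0 τ := by
      funext h
      unfold pat
      by_cases hh : h ∈ 𝔖.ballG n
      · rw [if_pos hh, if_pos hh, hx1 h hh]
      · rw [if_neg hh, if_neg hh]
    rw [h2, hx2, hx3, hx4]

theorem psi_loc (k : ℕ) : ∀ (x : X) (τ τ' : G → Fin r), (∀ g ∈ 𝔖.ballG (k * n), τ g = τ' g) →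
    psi 𝔖 n j c k x τ = psi 𝔖 n j c k x τ' := by
  induction k with
  | zero => exact fun _ _ _ _ => rfl
  | succ k ih =>
    intro x τ τ' h
    have h1 : τ 1 = τ' 1 := h 1 (𝔖.one_mem_ballG _)
    have h2 : pat 𝔖 n j c k x τ = pat 𝔖 n j c k x τ' := by
      funext l
      unfold pat
      by_cases hl : l ∈ 𝔖.ballG n
      · rw [if_pos hl, if_pos hl, h1]
        congr 1
        refine ih _ _ _ fun g hg => h _ ?_
        unfold Sys.ballG at hg hl ⊢
        rw [add_mul, one_mul, pow_add]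
        exact Finset.mul_mem_mul hg hl
      · rw [if_neg hl, if_neg hl]
    have h3 : psi 𝔖 n j c k x τ = psi 𝔖 n j c k x τ' := by
      refine ih _ _ _ fun g hg => h _ (Sys.ballG_mono ?_ hg)
      rw [add_mul, one_mul]
      omega
    rw [psi_succ, psi_succ, h1, h2, h3]

theorem psi_equiv (k : ℕ) : ∀ (x : X) (τ : G → Fin r) (a : Fin r),
    psi 𝔖 n j c k x (fun g => τ g + a) = rotO a (psi 𝔖 n j c k x τ) := by
  induction k with
  | zero => exact fun _ _ _ => rfl
  | succ k ih =>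
    intro x τ a
    have h2 : pat 𝔖 n j c k x (fun g => τ g + a) = pat 𝔖 n j c k x τ := by
      funext l
      unfold pat
      by_cases hl : l ∈ 𝔖.ballG n
      · rw [if_pos hl, if_pos hl, ih (l • x) (fun g => τ (g * l)) a, rotO_rotO]
        congr 1
        rw [neg_add_rev, add_neg_cancel_left]
      · rw [if_neg hl, if_neg hl]
    rw [psi_succ, psi_succ, h2, ih x τ a]
    by_cases h : j x = k
    · rw [if_pos h, if_pos h]
      simp [rotO, add_assoc]
    · rw [if_neg h, if_neg h]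

end Rule

namespace LocF

open Rule

theorem exists_rule [CompactSpace X] [T2Space X] [TotallyDisconnectedSpace X] (L : LocF 𝔖 St n)
    {r : ℕ} [NeZero r] (σ : St) (val : Fin r → St) (rot : Fin r → St → St)
    (hrot0 : ∀ a, rot a σ = σ) (hrot : ∀ a b, rot a (val b) = val (b + a))
    (hF : ∀ (s : X → St) (a : Fin r) (W : Finset X), (∀ i, s i = σ ∨ ∃ b, s i = val b) →
      L.F (fun i => rot a (s i)) W = L.F s W)
    {κ κ' : ℝ} (hκ' : 0 < κ')
    (hsel : ∀ (s : X → St) (W : Finset X), ∀ w ∈ W, (∀ i, s i = σ ∨ ∃ b, s i = val b) → s w = σ →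
      ∃ c, L.F (Function.update s w (val c)) W ≤ L.F s W + κ) :
    ∃ (R : ℕ) (Φ : X → (G → Fin r) → Fin r), IsRule 𝔖 R Φ ∧
      ∀ U : X → Fin r, IsLocallyConstant U →
        L.P (fun x => val (IsRule.col Φ U x)) ≤ L.P (fun _ => σ) + (κ + κ') := by
  have hval : ∀ o : Option (Fin r), toSt σ val o = σ ∨ ∃ b, toSt σ val o = val b := by
    intro o
    cases o with
    | none => exact Or.inl rfl
    | some b => exact Or.inr ⟨b, rfl⟩
  have hrotO : ∀ (a : Fin r) (o : Option (Fin r)),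
      rot a (toSt σ val o) = toSt σ val (rotO a o) := by
    intro a o
    cases o with
    | none => exact hrot0 a
    | some b => exact hrot a b
  have hupd : ∀ (s : X → Option (Fin r)) (w : X) (a : Fin r),
      (fun v => toSt σ val (Function.update s w (some a) v)) =
        Function.update (fun v => toSt σ val (s v)) w (val a) := by
    intro s w a
    funext v
    by_cases hv : v = w
    · subst hv
      rw [Function.update_self, Function.update_self]
      rfl
    · rw [Function.update_of_ne hv, Function.update_of_ne hv]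
  obtain ⟨m, j, hj, hsp⟩ := 𝔖.exists_sparse n
  have hsel' := exists_sel (r := r) L σ val hκ' (fun s W w hw hs => by
    obtain ⟨c, hc⟩ := hsel (fun v => toSt σ val (s v)) W w hw (fun i => hval _) (by rw [hs]; rfl)
    refine ⟨c, ?_⟩
    rw [hupd]
    exact hc)
  choose c hc hc2 using hsel'
  set j' : X → ℕ := fun x => (j x : ℕ) with hj'
  have hj'lc : IsLocallyConstant j' := hj.comp fun i : Fin m => (i : ℕ)
  have hjm : ∀ x, j' x < m := fun x => (j x).isLt
  have hsome : ∀ x τ, psi 𝔖 n j' c m x τ = some ((psi 𝔖 n j' c m x τ).getD 0) := by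
    intro x τ
    obtain ⟨b, hb⟩ := Option.isSome_iff_exists.1 (psi_some (𝔖 := 𝔖) (n := n) (c := c) m x τ (hjm x))
    rw [hb]
    rfl
  refine ⟨m * n, fun x τ => (psi 𝔖 n j' c m x τ).getD 0, ⟨?_, ?_, ?_⟩, ?_⟩
  · intro τ
    exact (psi_lc hj'lc hc m τ).comp fun o => o.getD 0
  · intro x τ τ' h
    show (psi 𝔖 n j' c m x τ).getD 0 = (psi 𝔖 n j' c m x τ').getD 0
    rw [psi_loc m x τ τ' h]
  · intro x τ a
    show (psi 𝔖 n j' c m x fun g => τ g + a).getD 0 = (psi 𝔖 n j' c m x τ).getD 0 + a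
    rw [psi_equiv]
    conv_lhs => rw [hsome x τ]
    rfl
  intro U hU
  set S : ℕ → X → St := fun k x => toSt σ val (psi 𝔖 n j' c k x fun g => U (g • x)) with hS
  have hlc : ∀ k, IsLocallyConstant (S k) := by
    intro k
    have h1 := rule_lc (𝔖 := 𝔖) (R := k * n) (psi_lc (𝔖 := 𝔖) (n := n) hj'lc hc k) (psi_loc k) hU
    exact h1.comp (toSt σ val)
  have hout : ∀ k x, (j x : ℕ) ≠ k → S (k + 1) x = S k x := by
    intro k x h
    show toSt σ val (psi 𝔖 n j' c (k + 1) x _) = _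
    rw [psi_succ, if_neg h]
  have hstage : ∀ k x, (j x : ℕ) = k → L.F (Function.update (S k) x (S (k + 1) x)) (𝔖.ball n x) ≤
      L.F (S k) (𝔖.ball n x) + (κ + κ') := by
    intro k x hk
    set τ : G → Fin r := fun g => U (g • x) with hτ
    set π := pat 𝔖 n j' c k x τ with hπ
    set o : X → Option (Fin r) := fun v => psi 𝔖 n j' c k v fun g => U (g • v) with ho
    have hox : o x = none := psi_none k x _ (le_of_eq hk.symm)
    have hπo : ∀ h ∈ 𝔖.ballG n, π h = rotO (-τ 1) (o (h • x)) := by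
      intro h hh
      rw [hπ]
      unfold pat
      rw [if_pos hh]
      have e : (fun g => τ (g * h)) = fun g => U (g • h • x) := by
        funext g
        rw [hτ]
        simp only [mul_smul]
      rw [e]
    have hext : ∀ v ∈ 𝔖.ball n x, ext 𝔖 n none π x v = rotO (-τ 1) (o v) := fun v hv =>
      ext_of_mem 𝔖 (s := fun v => rotO (-τ 1) (o v)) hπo hv
    have hextx : ext 𝔖 n none π x x = none := by
      rw [hext x (𝔖.mem_ball_self _ _), hox]
      rfl
    have h1 := hc2 π x hextx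
    have hS1 : S (k + 1) x = val (c π x + τ 1) := by
      show toSt σ val (psi 𝔖 n j' c (k + 1) x _) = _
      rw [psi_succ, if_pos hk]
      rfl
    have e1 : L.F (fun v => toSt σ val (Function.update (ext 𝔖 n none π x) x (some (c π x)) v))
        (𝔖.ball n x) = L.F (Function.update (S k) x (S (k + 1) x)) (𝔖.ball n x) := by
      rw [← hF (fun v => toSt σ val (Function.update (ext 𝔖 n none π x) x (some (c π x)) v))
        (τ 1) (𝔖.ball n x) fun i => hval _]
      refine L.congr _ _ _ fun v hv => ?_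
      show rot (τ 1) (toSt σ val _) = _
      rw [hrotO]
      by_cases hvx : v = x
      · subst hvx
        rw [Function.update_self, Function.update_self, hS1]
        rfl
      · rw [Function.update_of_ne hvx, Function.update_of_ne hvx, hext v hv, rotO_rotO,
          neg_add_cancel, rotO_zero]
    have e2 : L.F (fun v => toSt σ val (ext 𝔖 n none π x v)) (𝔖.ball n x) =
        L.F (S k) (𝔖.ball n x) := by
      rw [← hF (fun v => toSt σ val (ext 𝔖 n none π x v)) (τ 1) (𝔖.ball n x) fun i => hval _]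
      refine L.congr _ _ _ fun v hv => ?_
      show rot (τ 1) (toSt σ val _) = _
      rw [hrotO, hext v hv, rotO_rotO, neg_add_cancel, rotO_zero]
    unfold DD at h1
    rw [e1, e2] at h1
    linarith only [h1]
  have key := L.P_stages hj hsp S hlc hout hstage
  have hSm : S m = fun x => val (IsRule.col (fun x τ => (psi 𝔖 n j' c m x τ).getD 0) U x) := by
    funext x
    show toSt σ val (psi 𝔖 n j' c m x _) = _
    conv_lhs => rw [hsome x]
    rfl
  have hS0 : S 0 = fun _ => σ := rfl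
  rw [hSm, hS0] at key
  exact key

end LocF

end Vale.Agent.P078.D
end

section

/-! Two-sided control of the pinched kernel in infinite volume, for all colourings given by one
local equivariant rule. -/

namespace Vale.Agent.P078.D

open Finset Polynomial
open scoped Pointwise Classical Topology
open Vale.Agent.P078.C (Sys Herm ZD FB qf yc locmom GoodPoly eb exists_goodPoly)

variable {X G : Type*} [TopologicalSpace X] [Group G] [MulAction G X]

variable {r : ℕ}

/-- the functional `sp` as a local functional -/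
noncomputable def spL (𝔖 : Sys X G) (hr : 0 < r) (p : ℝ[X]) :
    LocF 𝔖 (Option (Fin r)) p.natDegree where
  F := fun s W => sp p 𝔖.y s W
  congr := fun _ _ _ h => sp_congr (fun _ _ _ _ => rfl) h
  cont := fun J x0 s hs => 𝔖.nice_sp_contAt hr p J x0 s hs
  tt := fun _ _ h => 𝔖.TT_of_kp_ne_zero hr h

/-- rotation invariance -/
theorem sp_rot [NeZero r] {α : Type*} [DecidableEq α] (p : ℝ[X]) (y : α → α → ℂ)
    (s : α → Option (Fin r)) (a : Fin r) (W : Finset α) :
    sp p y (fun i => Rule.rotO a (s i)) W = sp p y s W := by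
  have h : rts (tw r y) (sl s) W = rts (tw r y) (sl fun i => Rule.rotO a (s i)) W := by
    rw [rts_relabel (Equiv.prodCongr (Equiv.addRight a) (Equiv.refl Bool)) (tw r y) (sl s)]
    congr 1
    funext i k
    obtain ⟨k1, k2⟩ := k
    cases h : s i with
    | none => simp [sl, h, Rule.rotO]
    | some b => simp [sl, h, Rule.rotO]
  unfold sp SP
  rw [h]

/-- from a small functional to small local moments -/
theorem locmom_of_small [CompactSpace X] [T2Space X] [TotallyDisconnectedSpace X] (𝔖 : Sys X G)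
    (hr : 0 < r) {a : ℝ} (hFB : FB a a 𝔖.y) {u ρ η κ : ℝ} (hρ : 0 < ρ)
    (hab : 2 * max a a ≤ ρ) (hη : 0 < η) (hκ : 0 < κ) {p : ℝ[X]} (hp : GoodPoly p u η ρ κ)
    (P : ℝ[X]) {C : ℝ} (hC : 0 ≤ C)
    (hP0 : ∀ t, |t| ≤ u → P.eval t ≤ 0) (hPC : ∀ t, |t| ≤ a → P.eval t ≤ C)
    {m : ℕ} {j : X → Fin m} (hj : IsLocallyConstant j)
    (hsp : ∀ i, 𝔖.Sparse (2 * P.natDegree + 1) (j ⁻¹' {i}))
    (hN : 1 ≤ Real.pi / 2 - 2 * ρ * κ * ((𝔖.ballG P.natDegree).card : ℝ))
    {c : X → Fin r} (hc : IsLocallyConstant c) (F : C(X, ℝ))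
    (hF : ∀ x, F x = 𝔖.dens2 p p.natDegree (fun x => some (c x)) x) {B : ℝ} (hB : 𝔖.I F ≤ B) :
    ∃ mm : C(X, ℝ), (∀ x, mm x = locmom P 𝔖.y c (𝔖.ball P.natDegree x) x) ∧
      𝔖.I mm ≤ C * (2 * (m * (B + 2 * ρ * κ))) := by
  set R := P.natDegree with hR
  refine ⟨⟨_, 𝔖.continuous_locmom P R hc⟩, fun x => rfl, ?_⟩
  set mm : C(X, ℝ) := ⟨_, 𝔖.continuous_locmom P R hc⟩ with hmm
  have hmmx : ∀ x, mm x = locmom P 𝔖.y c (𝔖.ball R x) x := fun x => rfl
  have hsc : IsLocallyConstant fun x => some (c x) := hc.comp some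
  obtain ⟨D, hD, hD0, hD1⟩ := 𝔖.exists_bad hr p hsc (b₀ := 1 / 2) (b₁ := 1) (by norm_num) R
  obtain ⟨χ, hχ⟩ := Sys.main_ind hD
  have hκ₁ : 0 ≤ 2 * ρ * κ := by (clear * - hρ hκ; positivity)
  have hbad := 𝔖.bad_le hr p hsc hκ₁ (fun W w hw =>
    erase_le hr 𝔖.herm hFB hη hab hρ hκ.le hp hw) R hj hsp hD hD0 F χ hF hχ
  have hpt : ∀ x, mm x ≤ C * χ x := by
    intro x
    rw [hmmx x, hχ x]
    by_cases hx : x ∈ D
    · rw [if_pos hx, mul_one]
      have hb := FB_kc (y := fun _ : Fin r => 𝔖.y) (fun _ => hFB) c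
      refine locmom_le 𝔖.herm c (𝔖.mem_ball_self R x) (lo := -a) (hi := a)
        (fun v => (hb (𝔖.ball R x) v).1) (fun v => (hb (𝔖.ball R x) v).2) P fun t ht => ?_
      exact hPC t (abs_le.2 ⟨ht.1, ht.2⟩)
    · rw [if_neg hx, mul_zero]
      have hlt : ∀ l ∈ rts (tw r 𝔖.y) (sl fun i => some (c i)) (𝔖.ball R x), l < u := by
        intro l hl
        by_contra hcon
        push Not at hcon
        have h1 := sp_ge hr 𝔖.herm hFB hη hab hp hl hcon
        have h2 := hD1 x hx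
        have h3 : ((𝔖.ball R x).card : ℝ) ≤ ((𝔖.ballG R).card : ℝ) := by
          exact_mod_cast Finset.card_image_le
        have h4 : 2 * ρ * κ * ((𝔖.ball R x).card : ℝ) ≤ 2 * ρ * κ * ((𝔖.ballG R).card : ℝ) :=
          mul_le_mul_of_nonneg_left h3 hκ₁
        linarith only [hN, h1, h2, h4]
      have hform := form_of_rts hr 𝔖.herm 𝔖.zd c hlt
      refine locmom_le 𝔖.herm c (𝔖.mem_ball_self R x) (lo := -u) (hi := u)
        (fun v => (hform v).1) (fun v => (hform v).2) P fun t ht => ?_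
      exact hP0 t (abs_le.2 ⟨ht.1, ht.2⟩)
  have h2 : 0 ≤ 𝔖.I (C • χ - mm) := by
    refine 𝔖.I_nonneg _ fun x => ?_
    rw [ContinuousMap.sub_apply, ContinuousMap.smul_apply, smul_eq_mul]
    have := hpt x
    linarith only [this]
  rw [map_sub, map_smul, smul_eq_mul] at h2
  have h3 : 𝔖.I χ ≤ 2 * (m * (B + 2 * ρ * κ)) := by
    have h4 : (m : ℝ) * (𝔖.I F + 2 * ρ * κ) ≤ m * (B + 2 * ρ * κ) := by
      (clear * - hB; gcongr)
    linarith only [hbad, h4]
  calc 𝔖.I mm ≤ C * 𝔖.I χ := by linarith only [h2]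
    _ ≤ C * (2 * (m * (B + 2 * ρ * κ))) := by (clear * - hC h3; gcongr)

/-- one rule controls the pinched kernel from both sides, for every source -/
theorem two_sided_rule_sys [CompactSpace X] [T2Space X] [TotallyDisconnectedSpace X]
    (𝔖 : Sys X G) [NeZero r] {a : ℝ} (ha0 : 0 < a) (hFB : FB a a 𝔖.y) {t₀ u : ℝ}
    (ht : 2 * a < t₀) (hu : eb (2 * r) (2 * a) (2 * a) t₀ < u) (P : ℝ[X]) {C : ℝ} (hC : 0 ≤ C)
    (hP0 : ∀ t, |t| ≤ u → P.eval t ≤ 0) (hPC : ∀ t, |t| ≤ a → P.eval t ≤ C) {θ : ℝ}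
    (hθ : 0 < θ) :
    ∃ (R : ℕ) (Φ : X → (G → Fin r) → Fin r), IsRule 𝔖 R Φ ∧
      ∀ U : X → Fin r, IsLocallyConstant U → ∃ m : C(X, ℝ),
        (∀ x, m x = locmom P 𝔖.y (IsRule.col Φ U) (𝔖.ball P.natDegree x) x) ∧ 𝔖.I m ≤ θ := by
  have hr : 0 < r := NeZero.pos r
  set e := eb (2 * r) (2 * a) (2 * a) t₀ with he
  set ρ := 2 * a with hρdef
  have hρ : 0 < ρ := by (clear * - ha0; positivity)
  obtain ⟨m, j, hj, hsp⟩ := 𝔖.exists_sparse (2 * P.natDegree + 1)
  obtain ⟨η, κ, hη, hκ, hN, hfin⟩ := two_constants (N := ((𝔖.ballG P.natDegree).card : ℝ))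
    (m := (m : ℝ)) hρ hu hC hθ (Nat.cast_nonneg _) (Nat.cast_nonneg _)
  obtain ⟨p, hp⟩ := exists_goodPoly (u := u) (η := η) (ρ := ρ) (κ := κ) hη hρ hκ
  have hab : 2 * max a a ≤ ρ := by rw [max_self]
  have hrb : ∀ (W : Finset X), ∀ l ∈ rts (tw r 𝔖.y) (sl fun _ => (none : Option (Fin r))) W,
      l ≤ e := by
    intro W l hl
    rw [sl_none] at hl
    have h1 := root_bound_slot (a := 2 * a) (b := 2 * a) (t₀ := t₀) (by rw [card_slot]; (clear * - hr; omega))
      (herm_tw 𝔖.herm) (zd_tw 𝔖.zd) (fun k => by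
        have := fb_tw hFB k
        rwa [max_self] at this) (by (clear * - ha0; positivity)) (by (clear * - ha0; positivity)) ht hl
    rwa [card_slot] at h1
  set L := spL 𝔖 hr p with hL
  obtain ⟨R, Φ, hΦ, hrule⟩ := L.exists_rule (none : Option (Fin r)) some Rule.rotO
    (fun _ => rfl) (fun _ _ => rfl) (fun s a W _ => sp_rot p 𝔖.y s a W)
    (κ := 2 * ρ * κ) (κ' := κ) hκ
    (fun s W w hw _ hs => sel hr 𝔖.herm hFB hη hab hρ hp hw hs)
  have hinit : L.P (fun _ => (none : Option (Fin r))) ≤ η / (u - e) + 2 * ρ * κ :=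
    L.P_initial none fun W w hw => ini hr 𝔖.herm hFB hη hab hρ hκ.le hp hw (hrb W) hu
  refine ⟨R, Φ, hΦ, fun U hU => ?_⟩
  have hc : IsLocallyConstant (IsRule.col Φ U) := hΦ.col_lc hU
  have hsc : IsLocallyConstant fun x => some (IsRule.col Φ U x) := hc.comp some
  obtain ⟨F, hF⟩ : ∃ F : C(X, ℝ), ∀ x, F x = L.dens (fun x => some (IsRule.col Φ U x)) x :=
    ⟨⟨_, L.continuous_dens hsc⟩, fun x => rfl⟩
  have hFI : 𝔖.I F ≤ η / (u - e) + 2 * ρ * κ + 2 * ρ * κ + κ := by
    rw [← L.P_eq hsc F hF]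
    have := hrule U hU
    linarith only [hinit, this]
  obtain ⟨mm, hmm, hmI⟩ := locmom_of_small 𝔖 hr hFB hρ hab hη hκ hp P hC hP0 hPC hj hsp hN hc F
    (fun x => hF x) hFI
  exact ⟨mm, hmm, hmI.trans hfin⟩

end Vale.Agent.P078.D
end

end
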