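import Vale.Agent.P078.MathlibUsed
import Vale.Agent.P078.Bdl.B8
import Vale.Agent.P078.Bdl.Fast

set_option linter.all false
attribute [local instance] Vale.Agent.P078.Fast.a01 Vale.Agent.P078.Fast.a02
  Vale.Agent.P078.Fast.a03 Vale.Agent.P078.Fast.a04 Vale.Agent.P078.Fast.a05
  Vale.Agent.P078.Fast.a06 Vale.Agent.P078.Fast.a07 Vale.Agent.P078.Fast.a08
  Vale.Agent.P078.Fast.a09 Vale.Agent.P078.Fast.a10 Vale.Agent.P078.Fast.a11
  Vale.Agent.P078.Fast.a12 Vale.Agent.P078.Fast.a13 Vale.Agent.P078.Fast.a14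
  Vale.Agent.P078.Fast.a15 Vale.Agent.P078.Fast.a16 Vale.Agent.P078.Fast.a17
  Vale.Agent.P078.Fast.a18 Vale.Agent.P078.Fast.a19 Vale.Agent.P078.Fast.a20
  Vale.Agent.P078.Fast.a21 Vale.Agent.P078.Fast.a22 Vale.Agent.P078.Fast.a23
  Vale.Agent.P078.Fast.a24 Vale.Agent.P078.Fast.a25 Vale.Agent.P078.Fast.a26
  Vale.Agent.P078.Fast.a27 Vale.Agent.P078.Fast.a28 Vale.Agent.P078.Fast.a29
  Vale.Agent.P078.Fast.a30 Vale.Agent.P078.Fast.a31 Vale.Agent.P078.Fast.a32
  Vale.Agent.P078.Fast.a33 Vale.Agent.P078.Fast.a34 Vale.Agent.P078.Fast.a35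
  Vale.Agent.P078.Fast.a36 Vale.Agent.P078.Fast.a37 Vale.Agent.P078.Fast.a38
  Vale.Agent.P078.Fast.a39 Vale.Agent.P078.Fast.a40 Vale.Agent.P078.Fast.a41
  Vale.Agent.P078.Fast.a42 Vale.Agent.P078.Fast.a43 Vale.Agent.P078.Fast.a44
  Vale.Agent.P078.Fast.a45 Vale.Agent.P078.Fast.a46 Vale.Agent.P078.Fast.a47
  Vale.Agent.P078.Fast.a48 Vale.Agent.P078.Fast.a49 Vale.Agent.P078.Fast.a50
  Vale.Agent.P078.Fast.a51 Vale.Agent.P078.Fast.a52 Vale.Agent.P078.Fast.a53
  Vale.Agent.P078.Fast.a54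

section
section

/-! so-pavings pass to corners. -/

namespace Vale.Agent.P078

open Filter Topology
open scoped InnerProductSpace

variable {H : Type*} [NormedAddCommGroup H] [InnerProductSpace ℂ H] [CompleteSpace H]
variable {M : VonNeumannAlgebra H} {A : StarSubalgebra ℂ (H →L[ℂ] H)}

theorem norm_pinch_le {r : ℕ} {p : Fin r → (H →L[ℂ] H)}
    (hp : ∀ i, p i ∈ A ∧ IsStarProjection (p i)) (ho : ∀ i j, i ≠ j → p i * p j = 0)
    (hs : ∑ i, p i = 1) (x : H →L[ℂ] H) : ‖∑ i, p i * x * p i‖ ≤ ‖x‖ := by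
  let Q : Part A :=
    { ι := Fin r
      e := p
      mem := fun i => (hp i).1
      proj := fun i => (hp i).2
      orth := ho
      sum_eq := hs }
  exact Q.norm_E_le x

/-- so-paving in `M` gives so-paving in the corner `z M z`, with a slightly larger error. -/
theorem SOPavable.corner (hA : IsMASA A M) {z : H →L[ℂ] H} (hzA : z ∈ A)
    (hz : IsStarProjection z) {x : H →L[ℂ] H} (hxs : IsSelfAdjoint x)
    (hzx : z * x * z = x) {ε ε' : ℝ} (hε : ε < ε') {r : ℕ} (h : SOPavable M A 1 x ε r) :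
    SOPavable M A z x ε' r := by
  intro F hF δ hδ
  have hc := hA.2.1
  have hzM : z ∈ M := hA.1 hzA
  have hzz : z * z = z := hz.isIdempotentElem
  have hzx1 : z * x = x := by rw [← hzx, ← mul_assoc, ← mul_assoc, hzz]
  have hxz1 : x * z = x := by rw [← hzx, mul_assoc, hzz]
  -- parameters
  obtain ⟨s, hs0, hs1, hsε⟩ : ∃ s : ℝ, 0 < s ∧ s < 1 ∧ 4 * Real.sqrt s ≤ ε' - ε := by
    set η := min ((ε' - ε) / 4) (1 / 2) with hη
    have hη0 : 0 < η := lt_min (by linarith only [hε]) (by norm_num)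
    refine ⟨η ^ 2, by (clear * - hε; (clear * - hε; positivity)), ?_, ?_⟩
    · have : η ≤ 1 / 2 := min_le_right _ _
      nlinarith only [hη0, this]
    · rw [Real.sqrt_sq hη0.le]
      have : η ≤ (ε' - ε) / 4 := min_le_left _ _
      linarith only [this]
  set σ := Real.sqrt s with hσ
  have hσ0 : 0 ≤ σ := Real.sqrt_nonneg _
  have hσ2 : σ ^ 2 = s := Real.sq_sqrt hs0.le
  obtain ⟨p, a, q, hp, ho, hsum, haA, -, has, han, hqM, -, hqp, hqF, hqS⟩ :=
    h F (fun ξ _ => rfl) (s * δ / 2) (by (clear * - hδ hs0; (clear * - hs0 hδ; positivity)))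
  set T : H →L[ℂ] H := ∑ i, p i * x * p i - a with hT
  have hTn : ‖T‖ ≤ 2 * ‖x‖ := by
    calc ‖T‖ ≤ ‖∑ i, p i * x * p i‖ + ‖a‖ := norm_sub_le _ _
      _ ≤ ‖x‖ + ‖x‖ := add_le_add (norm_pinch_le hp ho hsum x) han
      _ = 2 * ‖x‖ := by ring
  have hzp : ∀ i, z * p i = p i * z := fun i => hc z hzA _ (hp i).1
  have hza : z * a = a * z := hc z hzA a haA
  have hzpx : ∀ i, z * (p i * x * p i) = p i * x * p i := by
    intro i
    rw [← mul_assoc, ← mul_assoc, hzp, mul_assoc (p i), hzx1]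
  have hpxz : ∀ i, (p i * x * p i) * z = p i * x * p i := by
    intro i
    rw [mul_assoc, ← hzp, ← mul_assoc, mul_assoc (p i), hxz1]
  -- the operator zqz and its spectral projection
  set b : H →L[ℂ] H := z * q * z with hb
  have hbs : IsSelfAdjoint b := by
    rw [IsSelfAdjoint, hb, star_mul, star_mul, hz.isSelfAdjoint.star_eq, hqp.isSelfAdjoint.star_eq,
      mul_assoc]
  have hbM : b ∈ M := mul_mem (mul_mem hzM hqM) hzM
  obtain ⟨e, hep, hec, he1, he2⟩ := exists_spectral_proj b hbs (1 - s)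
  have heM : e ∈ M := spectral_proj_mem hbM hec
  have hbz : b * z = b := by rw [hb, mul_assoc, hzz]
  have hzb : z * b = b := by rw [hb, ← mul_assoc, ← mul_assoc, hzz]
  have hez : z * e = e * z := hec z (by rw [hbz, hzb])
  have hze : z * e = e := by
    have h1 : ∀ v, e (v - z v) = 0 := by
      intro v
      set ζ := e (v - z v) with hζ
      have h2 : e ζ = ζ := proj_apply_apply hep _
      have h3 := he1 ζ h2
      have h4 : b ζ = 0 := by
        have h5 : z ζ = 0 := by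
          have : z ζ = e (z (v - z v)) := DFunLike.congr_fun hez (v - z v)
          rw [this, map_sub, proj_apply_apply hz, sub_self, map_zero]
        have h6 : b ζ = b (z ζ) := (DFunLike.congr_fun hbz ζ).symm
        rw [h6, h5, map_zero]
      rw [h4, inner_zero_right, Complex.zero_re] at h3
      have h5 : ‖ζ‖ ^ 2 ≤ 0 := by
        by_contra hcon
        push Not at hcon
        have : 0 < (1 - s) * ‖ζ‖ ^ 2 := mul_pos (by linarith only [hs1]) hcon
        linarith only [h3, this]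
      have h6 : ‖ζ‖ ^ 2 = 0 := le_antisymm h5 (sq_nonneg _)
      exact norm_eq_zero.mp (pow_eq_zero_iff two_ne_zero |>.mp h6)
    rw [hez]
    ext v
    have := h1 v
    rw [map_sub, sub_eq_zero] at this
    exact this.symm
  have hbe : ∀ v, (⟪v, b v⟫_ℂ).re = ‖q (z v)‖ ^ 2 := by
    intro v
    have : ⟪v, b v⟫_ℂ = ⟪z v, q (z v)⟫_ℂ := by
      rw [proj_inner hz]
      rfl
    rw [this, proj_inner_self hqp]
  -- q is close to 1 on the range of e
  have hqe : ∀ v, ‖e v - q (e v)‖ ≤ σ * ‖v‖ := by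
    intro v
    have h1 := he1 (e v) (proj_apply_apply hep v)
    rw [hbe] at h1
    have h2 : z (e v) = e v := DFunLike.congr_fun hze v
    rw [h2] at h1
    have h3 := proj_norm_sq hqp (e v)
    have h4 : ‖e v - q (e v)‖ ^ 2 ≤ s * ‖e v‖ ^ 2 := by linarith only [h1, h3]
    have h5 : ‖e v‖ ^ 2 ≤ ‖v‖ ^ 2 := pow_le_pow_left₀ (norm_nonneg _) (proj_norm_le hep v) 2
    have h6 : ‖e v - q (e v)‖ ^ 2 ≤ (σ * ‖v‖) ^ 2 := by
      rw [mul_pow, hσ2]
      exact h4.trans (mul_le_mul_of_nonneg_left h5 hs0.le)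
    exact (sq_le_sq₀ (norm_nonneg _) (by (clear * - hs0; (clear * - hs0; positivity)))).mp h6
  have hqe' : ‖e * (1 - q)‖ ≤ σ := by
    have h1 : ‖(1 - q) * e‖ ≤ σ :=
      ContinuousLinearMap.opNorm_le_bound _ hσ0 fun v => hqe v
    have h2 : star ((1 - q) * e) = e * (1 - q) := by
      rw [star_mul, hep.isSelfAdjoint.star_eq, hqp.one_sub.isSelfAdjoint.star_eq]
    rw [← h2, norm_star]
    exact h1
  refine ⟨fun i => z * p i, z * a, e, ?_, ?_, ?_, mul_mem hzA haA, ?_, ?_, ?_, heM, hze, hep,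
    ?_, ?_⟩
  · intro i
    refine ⟨mul_mem hzA (hp i).1, ?_, ?_⟩
    · change z * p i * (z * p i) = z * p i
      rw [mul_assoc, ← mul_assoc (p i), ← hzp, mul_assoc z (p i), (hp i).2.isIdempotentElem.eq,
        ← mul_assoc, hzz]
    · change star (z * p i) = z * p i
      rw [star_mul, hz.isSelfAdjoint.star_eq, (hp i).2.isSelfAdjoint.star_eq, hzp]
  · intro i j hij
    change z * p i * (z * p j) = 0
    rw [mul_assoc, ← mul_assoc (p i), ← hzp, mul_assoc z (p i), ho i j hij, mul_zero, mul_zero]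
  · rw [← Finset.mul_sum, hsum, mul_one]
  · rw [← mul_assoc, hzz]
  · rw [IsSelfAdjoint, star_mul, hz.isSelfAdjoint.star_eq, has.star_eq, hza]
  · calc ‖z * a‖ ≤ ‖z‖ * ‖a‖ := norm_mul_le _ _
      _ ≤ 1 * ‖x‖ := by
          apply mul_le_mul _ han (norm_nonneg _) zero_le_one
          exact ContinuousLinearMap.opNorm_le_bound _ zero_le_one fun v => by
            rw [one_mul]; exact proj_norm_le hz v
      _ = ‖x‖ := one_mul _
  · intro ξ hξ
    have hzξ : z ξ = ξ := hF ξ hξ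
    set η := ξ - e ξ with hη
    have heη : e η = 0 := by rw [hη, map_sub, proj_apply_apply hep, sub_self]
    have h1 := he2 η heη
    have h2 : ‖ξ - b ξ‖ ≤ s * δ / 2 := by
      have : ξ - b ξ = z (ξ - q ξ) := by
        have h3 : b ξ = z (q (z ξ)) := rfl
        rw [h3, hzξ, map_sub, hzξ]
      rw [this]
      exact (proj_norm_le hz _).trans (hqF ξ hξ).le
    have h3 : η - b η = (ξ - b ξ) - e (ξ - b ξ) := by
      have h4 : b (e ξ) = e (b ξ) := DFunLike.congr_fun (hec b rfl) ξ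
      rw [hη, map_sub, map_sub, h4]
      abel
    have h5 : s * ‖η‖ ^ 2 ≤ ‖η‖ * (s * δ / 2) := by
      calc s * ‖η‖ ^ 2 ≤ ‖η‖ ^ 2 - (⟪η, b η⟫_ℂ).re := by linarith only [h1]
        _ = (⟪η, η - b η⟫_ℂ).re := by
            rw [inner_sub_right, Complex.sub_re, inner_self_re]
        _ ≤ ‖⟪η, η - b η⟫_ℂ‖ := Complex.re_le_norm _
        _ ≤ ‖η‖ * ‖η - b η‖ := norm_inner_le_norm _ _
        _ ≤ ‖η‖ * (s * δ / 2) := by
            apply mul_le_mul_of_nonneg_left _ (norm_nonneg _)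
            rw [h3]
            exact (sub_proj_norm_le hep _).trans h2
    by_contra hcon
    push Not at hcon
    have h6 : 0 < ‖η‖ := hδ.trans_le hcon
    have h7 : s * ‖η‖ ≤ s * δ / 2 := by
      have : ‖η‖ * (s * ‖η‖) ≤ ‖η‖ * (s * δ / 2) := by linarith only [h5]
      exact le_of_mul_le_mul_left this h6
    have h8 : s * δ ≤ s * ‖η‖ := mul_le_mul_of_nonneg_left hcon hs0.le
    have h9 : 0 < s * δ := mul_pos hs0 hδ
    linarith only [h7, h8, h9]
  · have hkey : e * (∑ i, z * p i * x * (z * p i) - z * a) * e = e * T * e := by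
      have h1 : ∀ i, z * p i * x * (z * p i) = p i * x * p i := by
        intro i
        calc z * p i * x * (z * p i) = z * (p i * x * z) * p i := by simp only [mul_assoc]
          _ = z * (p i * x * p i) := by rw [mul_assoc (p i), hxz1, mul_assoc z]
          _ = _ := hzpx i
      simp_rw [h1]
      have h2 : e * (z * a) = e * a := by rw [← mul_assoc, ← hez, hze]
      rw [hT, mul_sub, mul_sub, h2]
    rw [hkey]
    refine ContinuousLinearMap.opNorm_le_bound _ ?_ fun v => ?_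
    · have h1 : 0 ≤ ‖q * T * q‖ := norm_nonneg _
      by_cases hx0 : ‖x‖ = 0
      · rw [hx0, mul_zero]
      · have hxpos : 0 < ‖x‖ := lt_of_le_of_ne (norm_nonneg _) (Ne.symm hx0)
        have h2 : 0 ≤ ε * ‖x‖ := h1.trans hqS
        have h3 : 0 ≤ ε := by
          by_contra hneg
          push Not at hneg
          have := mul_neg_of_neg_of_pos hneg hxpos
          linarith only [hqS, h1, this]
        have : 0 ≤ ε' := by linarith only [hε, h3]
        (clear * - hx0 this; (clear * - this hx0; positivity))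
    · change ‖e (T (e v))‖ ≤ ε' * ‖x‖ * ‖v‖
      have h1 : e (T (e v)) = e ((q * T * q) (e v)) + (e * (1 - q)) (T (q (e v))) +
          e (T (e v - q (e v))) := by
        change e (T (e v)) = e (q (T (q (e v)))) + e (T (q (e v)) - q (T (q (e v)))) +
          e (T (e v - q (e v)))
        rw [map_sub T, map_sub e, map_sub e]
        abel
      have hev : ‖e v‖ ≤ ‖v‖ := proj_norm_le hep v
      have h2 : ‖e ((q * T * q) (e v))‖ ≤ ε * ‖x‖ * ‖v‖ := by
        calc ‖e ((q * T * q) (e v))‖ ≤ ‖(q * T * q) (e v)‖ := proj_norm_le hep _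
          _ ≤ ‖q * T * q‖ * ‖e v‖ := ContinuousLinearMap.le_opNorm _ _
          _ ≤ ‖q * T * q‖ * ‖v‖ := mul_le_mul_of_nonneg_left hev (norm_nonneg _)
          _ ≤ ε * ‖x‖ * ‖v‖ := mul_le_mul_of_nonneg_right hqS (norm_nonneg _)
      have h3 : ‖(e * (1 - q)) (T (q (e v)))‖ ≤ σ * (2 * ‖x‖ * ‖v‖) := by
        calc ‖(e * (1 - q)) (T (q (e v)))‖ ≤ ‖e * (1 - q)‖ * ‖T (q (e v))‖ :=
              ContinuousLinearMap.le_opNorm _ _
          _ ≤ σ * (2 * ‖x‖ * ‖v‖) := by
              apply mul_le_mul hqe' _ (norm_nonneg _) hσ0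
              calc ‖T (q (e v))‖ ≤ ‖T‖ * ‖q (e v)‖ := T.le_opNorm _
                _ ≤ 2 * ‖x‖ * ‖v‖ := by
                    apply mul_le_mul hTn _ (norm_nonneg _) (by (clear * -; (clear * -; positivity)))
                    exact (proj_norm_le hqp _).trans hev
      have h4 : ‖e (T (e v - q (e v)))‖ ≤ 2 * ‖x‖ * (σ * ‖v‖) := by
        calc ‖e (T (e v - q (e v)))‖ ≤ ‖T (e v - q (e v))‖ := proj_norm_le hep _
          _ ≤ ‖T‖ * ‖e v - q (e v)‖ := T.le_opNorm _
          _ ≤ 2 * ‖x‖ * (σ * ‖v‖) := mul_le_mul hTn (hqe v) (norm_nonneg _) (by (clear * -; positivity))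
      have hxv : 0 ≤ ‖x‖ * ‖v‖ := by (clear * -; positivity)
      rw [h1]
      calc _ ≤ ‖e ((q * T * q) (e v))‖ + ‖(e * (1 - q)) (T (q (e v)))‖ +
            ‖e (T (e v - q (e v)))‖ :=
            (norm_add_le _ _).trans (add_le_add_left (norm_add_le _ _) _)
        _ ≤ ε * ‖x‖ * ‖v‖ + σ * (2 * ‖x‖ * ‖v‖) + 2 * ‖x‖ * (σ * ‖v‖) :=
            add_le_add (add_le_add h2 h3) h4
        _ = (ε + 4 * σ) * (‖x‖ * ‖v‖) := by ring
        _ ≤ ε' * (‖x‖ * ‖v‖) := mul_le_mul_of_nonneg_right (by linarith only [hsε]) hxv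
        _ = ε' * ‖x‖ * ‖v‖ := by ring

theorem pavingNumber_corner_le (hA : IsMASA A M) {z : H →L[ℂ] H} (hzA : z ∈ A)
    (hz : IsStarProjection z) {ε ε' : ℝ} (hε : ε < ε') :
    pavingNumber M A z ε' ≤ pavingNumber M A 1 ε := by
  refine le_pavingNumber fun r hr h => ?_
  refine pavingNumber_le hr fun x hx hxs hzx => ?_
  exact (h x hx hxs (by simp)).corner hA hzA hz hxs hzx hε

end Vale.Agent.P078
end

section

/-! Order-normal positive functionals are continuous for the weak operator topology on bounded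
sets. -/

namespace Vale.Agent.P078

open Filter Topology
open scoped ComplexOrder InnerProductSpace

variable {H : Type*} [NormedAddCommGroup H] [InnerProductSpace ℂ H] [CompleteSpace H]
variable {M : VonNeumannAlgebra H} {A : StarSubalgebra ℂ (H →L[ℂ] H)}

/-- suprema of directed sets of projections -/
theorem exists_sup_proj {D : Set (H →L[ℂ] H)} (hne : D.Nonempty)
    (hdir : DirectedOn (· ≤ ·) D) (hD : ∀ g ∈ D, g ∈ M ∧ IsStarProjection g) :
    ∃ g ∈ M, IsStarProjection g ∧ IsLUB D g ∧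
      ∀ η : H, ∀ ε > 0, ∃ e ∈ D, ‖g η - e η‖ < ε := by
  have hle : ∀ e ∈ D, ∀ f ∈ D, e ≤ f → f * e = e := fun e he f hf h =>
    (IsStarProjection.le_iff_mul_eq_right (hD e he).2 (hD f hf).2).1 h
  let S : Submodule ℂ H :=
    { carrier := {v | ∃ e ∈ D, e v = v}
      add_mem' := by
        rintro a b ⟨e, he, hea⟩ ⟨f, hf, hfb⟩
        obtain ⟨c, hc, hec, hfc⟩ := hdir e he f hf
        refine ⟨c, hc, ?_⟩
        have h1 : c a = a := by
          rw [← hea]; exact DFunLike.congr_fun (hle e he c hc hec) a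
        have h2 : c b = b := by
          rw [← hfb]; exact DFunLike.congr_fun (hle f hf c hc hfc) b
        rw [map_add, h1, h2]
      zero_mem' := by
        obtain ⟨e, he⟩ := hne
        exact ⟨e, he, map_zero e⟩
      smul_mem' := by
        rintro c a ⟨e, he, hea⟩
        exact ⟨e, he, by rw [map_smul, hea]⟩ }
  let K := S.topologicalClosure
  have hKc : IsClosed (K : Set H) := S.isClosed_topologicalClosure
  have : CompleteSpace K := hKc.completeSpace_coe
  obtain ⟨g, hg⟩ : ∃ g, g = K.starProjection := ⟨_, rfl⟩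
  have hgp : IsStarProjection g := by rw [hg]; exact isStarProjection_starProjection
  have hinv : ∀ y : H →L[ℂ] H, (∀ e ∈ D, y * e = e * y) → ∀ v ∈ K, y v ∈ K := by
    intro y hy v hv
    have h1 : ∀ v ∈ S, y v ∈ S := by
      rintro v ⟨e, he, hev⟩
      refine ⟨e, he, ?_⟩
      have := DFunLike.congr_fun (hy e he) v
      simp only [mul_apply_eq_comp] at this
      rw [← this, hev]
    have h2 : S ≤ K.comap (y : H →ₗ[ℂ] H) := fun v hv => S.le_topologicalClosure (h1 v hv)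
    have h3 : IsClosed ((K.comap (y : H →ₗ[ℂ] H) : Submodule ℂ H) : Set H) :=
      hKc.preimage y.continuous
    exact (S.topologicalClosure_minimal h2 h3) hv
  have hcomm : ∀ y : H →L[ℂ] H, (∀ e ∈ D, y * e = e * y) → y * g = g * y := by
    intro y hy
    rw [hg]
    refine commute_starProjection K (hinv y hy) (hinv _ fun e he => ?_)
    have := congrArg star (hy e he)
    rw [star_mul, star_mul, (hD e he).2.isSelfAdjoint.star_eq] at this
    exact this.symm
  have hgM : g ∈ M := mem_of_commute fun y hy => hcomm y fun e he =>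
    commutant_comm (M := M) (hD e he).1 hy
  have hge : ∀ e ∈ D, g * e = e := by
    intro e he
    ext v
    change g (e v) = e v
    rw [hg]
    refine K.starProjection_eq_self_iff.2 (S.le_topologicalClosure ⟨e, he, ?_⟩)
    exact proj_apply_apply (hD e he).2 v
  have heg : ∀ e ∈ D, e * g = e := by
    intro e he
    have := congrArg star (hge e he)
    rwa [star_mul, (hD e he).2.isSelfAdjoint.star_eq, hgp.isSelfAdjoint.star_eq] at this
  have hconv : ∀ η : H, ∀ ε > 0, ∃ e ∈ D, ‖g η - e η‖ < ε := by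
    intro η ε hε
    have h1 : g η ∈ closure (S : Set H) := by rw [hg]; exact K.starProjection_apply_mem η
    obtain ⟨v, ⟨e, he, hev⟩, hd⟩ := Metric.mem_closure_iff.1 h1 ε hε
    refine ⟨e, he, ?_⟩
    have h4 : e (g η) = e η := DFunLike.congr_fun (heg e he) η
    have h7 : g η - e η = (1 - e) (g η - v) := by
      simp only [sub_apply, one_apply_eq_self, map_sub]
      rw [hev, h4]
      abel
    rw [h7]
    rw [dist_eq_norm] at hd
    exact (proj_norm_le (hD e he).2.one_sub _).trans_lt hd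
  refine ⟨g, hgM, hgp, ⟨?_, ?_⟩, hconv⟩
  · intro e he
    exact (IsStarProjection.le_iff_mul_eq_right (hD e he).2 hgp).2 (hge e he)
  · intro T hT
    obtain ⟨e0, he0⟩ := hne
    have hTsa : IsSelfAdjoint T := by
      have h1 : 0 ≤ T - e0 := sub_nonneg.2 (hT he0)
      have h2 := IsSelfAdjoint.of_nonneg h1
      have h3 := h2.add (hD e0 he0).2.isSelfAdjoint
      rwa [sub_add_cancel] at h3
    rw [← sub_nonneg]
    refine nonneg_of_inner (hTsa.sub hgp.isSelfAdjoint) fun ζ => ?_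
    rw [sub_apply, inner_sub_right, Complex.sub_re, proj_inner_self hgp, sub_nonneg]
    have hTn : ∀ e ∈ D, ‖e ζ‖ ^ 2 ≤ (⟪ζ, T ζ⟫_ℂ).re := by
      intro e he
      rw [← proj_inner_self (hD e he).2]
      exact inner_le_of_le (hT he) ζ
    have hT0 : 0 ≤ (⟪ζ, T ζ⟫_ℂ).re := (sq_nonneg _).trans (hTn e0 he0)
    have h5 : ‖g ζ‖ ≤ Real.sqrt (⟪ζ, T ζ⟫_ℂ).re := by
      refine le_of_forall_pos_le_add fun ε hε => ?_
      obtain ⟨e, he, hed⟩ := hconv ζ ε hε
      have h6 : ‖e ζ‖ ≤ Real.sqrt (⟪ζ, T ζ⟫_ℂ).re := Real.le_sqrt_of_sq_le (hTn e he)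
      calc ‖g ζ‖ = ‖e ζ + (g ζ - e ζ)‖ := by congr 1; abel
        _ ≤ ‖e ζ‖ + ‖g ζ - e ζ‖ := norm_add_le _ _
        _ ≤ _ := add_le_add h6 hed.le
    calc ‖g ζ‖ ^ 2 ≤ Real.sqrt (⟪ζ, T ζ⟫_ℂ).re ^ 2 := pow_le_pow_left₀ (norm_nonneg _) h5 2
      _ = _ := Real.sq_sqrt hT0

/-- positive functionals on `M` -/
def PosOn (M : VonNeumannAlgebra H) (ψ : (H →L[ℂ] H) →ₗ[ℂ] ℂ) : Prop :=
  ∀ x ∈ M, 0 ≤ x → 0 ≤ (ψ x).re ∧ (ψ x).im = 0

/-- order-continuity on directed sets of projections -/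
def ProjNormal (M : VonNeumannAlgebra H) (ψ : (H →L[ℂ] H) →ₗ[ℂ] ℂ) : Prop :=
  ∀ D : Set (H →L[ℂ] H), D.Nonempty → DirectedOn (· ≤ ·) D →
    (∀ g ∈ D, g ∈ M ∧ IsStarProjection g) → ∀ g, IsLUB D g →
    ∀ ε > 0, ∃ e ∈ D, (ψ g).re - ε < (ψ e).re

namespace PosOn

variable {ψ : (H →L[ℂ] H) →ₗ[ℂ] ℂ} (hψ : PosOn M ψ)
include hψ

theorem mono {x y : H →L[ℂ] H} (hx : x ∈ M) (hy : y ∈ M) (h : x ≤ y) :
    (ψ x).re ≤ (ψ y).re := by
  have := (hψ (y - x) (sub_mem hy hx) (sub_nonneg.2 h)).1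
  rw [map_sub, Complex.sub_re] at this
  linarith only [this]

theorem im_sa {x : H →L[ℂ] H} (hx : x ∈ M) (hxs : IsSelfAdjoint x) : (ψ x).im = 0 := by
  have h1 : 0 ≤ ((‖x‖ : ℝ) : ℂ) • (1 : H →L[ℂ] H) + x := by
    refine nonneg_of_inner ?_ fun ζ => ?_
    · refine IsSelfAdjoint.add ?_ hxs
      rw [IsSelfAdjoint, star_smul, star_one, Complex.star_def, Complex.conj_ofReal]
    · rw [add_apply, inner_add_right, Complex.add_re, smul_apply, inner_smul_right,
        Complex.re_ofReal_mul, one_apply_eq_self, inner_self_re]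
      have h2 : |(⟪ζ, x ζ⟫_ℂ).re| ≤ ‖x‖ * ‖ζ‖ ^ 2 := by
        calc |(⟪ζ, x ζ⟫_ℂ).re| ≤ ‖⟪ζ, x ζ⟫_ℂ‖ := Complex.abs_re_le_norm _
          _ ≤ ‖ζ‖ * ‖x ζ‖ := norm_inner_le_norm _ _
          _ ≤ ‖ζ‖ * (‖x‖ * ‖ζ‖) := mul_le_mul_of_nonneg_left (x.le_opNorm _) (norm_nonneg _)
          _ = _ := by ring
      linarith only [h2, neg_abs_le (⟪ζ, x ζ⟫_ℂ).re]
  have h2 : ((‖x‖ : ℝ) : ℂ) • (1 : H →L[ℂ] H) + x ∈ M :=
    add_mem (M.toStarSubalgebra.smul_mem (one_mem M) _) hx
  have h3 := (hψ _ h2 h1).2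
  have h4 := (hψ 1 (one_mem M) zero_le_one).2
  rw [map_add, map_smul, smul_eq_mul, Complex.add_im, Complex.im_ofReal_mul, h4, mul_zero,
    zero_add] at h3
  exact h3

theorem map_star {x : H →L[ℂ] H} (hx : x ∈ M) : ψ (star x) = (starRingEnd ℂ) (ψ x) := by
  have h1 := hψ.im_sa (add_mem hx (star_mem hx)) (IsSelfAdjoint.add_star_self x)
  have h2 := hψ.im_sa (x := Complex.I • (x - star x))
    (M.toStarSubalgebra.smul_mem (sub_mem hx (star_mem hx)) _) (by
      rw [IsSelfAdjoint, star_smul, star_sub, star_star, Complex.star_def, Complex.conj_I,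
        neg_smul, ← smul_neg, neg_sub])
  rw [map_add, Complex.add_im] at h1
  rw [map_smul, map_sub, smul_eq_mul] at h2
  have h3 : (Complex.I * (ψ x - ψ (star x))).im = (ψ x).re - (ψ (star x)).re := by simp only [Complex.mul_im, Complex.I_re, Complex.sub_im, zero_mul, Complex.I_im, Complex.sub_re, one_mul, zero_add]
  rw [h3] at h2
  apply Complex.ext
  · rw [Complex.conj_re]; linarith only [h2]
  · rw [Complex.conj_im]; linarith only [h1]

theorem cauchy {x y : H →L[ℂ] H} (hx : x ∈ M) (hy : y ∈ M) :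
    ‖ψ (star y * x)‖ ^ 2 ≤ (ψ (star y * y)).re * (ψ (star x * x)).re := by
  have hxx : ∀ z ∈ M, 0 ≤ (ψ (star z * z)).re := fun z hz =>
    (hψ _ (mul_mem (star_mem hz) hz) (star_mul_self_nonneg z)).1
  obtain ⟨c, hc⟩ : ∃ c : ℂ, c = ψ (star y * x) := ⟨_, rfl⟩
  obtain ⟨a, ha⟩ : ∃ a : ℝ, a = (ψ (star y * y)).re := ⟨_, rfl⟩
  obtain ⟨b, hb⟩ : ∃ b : ℝ, b = (ψ (star x * x)).re := ⟨_, rfl⟩
  rw [← hc, ← ha, ← hb]
  have ha0 : 0 ≤ a := by rw [ha]; exact hxx y hy
  have hb0 : 0 ≤ b := by rw [hb]; exact hxx x hx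
  have hcc : ψ (star x * y) = (starRingEnd ℂ) c := by
    rw [hc, ← hψ.map_star (mul_mem (star_mem hy) hx), star_mul, star_star]
  -- expand the square of x - (t c) y
  have h1 : ∀ t : ℝ, 0 ≤ b - 2 * t * ‖c‖ ^ 2 + t ^ 2 * ‖c‖ ^ 2 * a := by
    intro t
    obtain ⟨u, hu⟩ : ∃ u : ℂ, u = (t : ℂ) * c := ⟨_, rfl⟩
    have h2 := hxx (x - u • y) (sub_mem hx (M.toStarSubalgebra.smul_mem hy _))
    have h3 : star (x - u • y) * (x - u • y) = star x * x - u • (star x * y) -
        (starRingEnd ℂ) u • (star y * x) + ((starRingEnd ℂ) u * u) • (star y * y) := by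
      rw [star_sub, star_smul, Complex.star_def, sub_mul, mul_sub, mul_sub, mul_smul_comm,
        smul_mul_assoc, smul_mul_assoc, mul_smul_comm, smul_smul]
      abel
    rw [h3, map_add, map_sub, map_sub, map_smul, map_smul, map_smul, hcc, ← hc] at h2
    simp only [smul_eq_mul] at h2
    have h4 : (starRingEnd ℂ) u * u = ((t ^ 2 * ‖c‖ ^ 2 : ℝ) : ℂ) := by
      rw [hu, map_mul, Complex.conj_ofReal]
      have : (starRingEnd ℂ) c * c = ((‖c‖ ^ 2 : ℝ) : ℂ) := by
        rw [mul_comm, Complex.mul_conj, Complex.normSq_eq_norm_sq]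
      calc (t : ℂ) * (starRingEnd ℂ) c * ((t : ℂ) * c) = (t : ℂ) ^ 2 * ((starRingEnd ℂ) c * c) := by
            ring
        _ = _ := by rw [this]; push_cast; ring
    have h5 : u * (starRingEnd ℂ) c = ((t * ‖c‖ ^ 2 : ℝ) : ℂ) := by
      rw [hu, mul_assoc, Complex.mul_conj, Complex.normSq_eq_norm_sq]; push_cast; ring
    have h6 : (starRingEnd ℂ) u * c = ((t * ‖c‖ ^ 2 : ℝ) : ℂ) := by
      rw [hu, map_mul, Complex.conj_ofReal, mul_assoc, mul_comm ((starRingEnd ℂ) c) c,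
        Complex.mul_conj, Complex.normSq_eq_norm_sq]; push_cast; ring
    rw [h4, h5, h6] at h2
    simp only [Complex.add_re, Complex.sub_re, Complex.ofReal_re, Complex.re_ofReal_mul] at h2
    rw [← ha, ← hb] at h2
    linarith only [h2]
  rcases ha0.eq_or_lt with h2 | h2
  · rw [← h2] at h1 ⊢
    rw [zero_mul]
    by_contra hcon
    push Not at hcon
    have h3 := h1 ((b + 1) / (2 * ‖c‖ ^ 2))
    have h4 : 2 * ((b + 1) / (2 * ‖c‖ ^ 2)) * ‖c‖ ^ 2 = b + 1 := by
      have hc0 : ‖c‖ ^ 2 ≠ 0 := hcon.ne'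
      generalize ‖c‖ ^ 2 = w at hc0 ⊢
      field_simp
    rw [h4] at h3
    linarith only [h3]
  · have h3 := h1 (1 / a)
    have h4 : (1 / a) ^ 2 * ‖c‖ ^ 2 * a = 1 / a * ‖c‖ ^ 2 := by (clear * - h2; field_simp)
    rw [h4] at h3
    have h5 : ‖c‖ ^ 2 / a ≤ b := by
      have : 2 * (1 / a) * ‖c‖ ^ 2 = 2 * (‖c‖ ^ 2 / a) := by ring
      rw [this] at h3
      have : 1 / a * ‖c‖ ^ 2 = ‖c‖ ^ 2 / a := by ring
      rw [this] at h3
      linarith only [h3]
    rw [div_le_iff₀ h2] at h5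
    linarith only [h5]

/-- domination by a vector functional below a nonzero projection -/
theorem exists_dominated {e : H →L[ℂ] H} (heM : e ∈ M)
    (hep : IsStarProjection e) (he : e ≠ 0) :
    ∃ f ∈ M, IsStarProjection f ∧ f ≠ 0 ∧ e * f = f ∧ ∃ η : H,
      ∀ y ∈ M, 0 ≤ y → y ≤ f → (ψ y).re ≤ (⟪η, y η⟫_ℂ).re := by
  obtain ⟨ζ, hζ⟩ : ∃ ζ, e ζ ≠ 0 := by
    by_contra hcon
    push Not at hcon
    exact he (ContinuousLinearMap.ext hcon)
  have heζ : 0 < ‖e ζ‖ := norm_pos_iff.2 hζ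
  obtain ⟨s, hs⟩ : ∃ s : ℝ, (ψ e).re < s ^ 2 * ‖e ζ‖ ^ 2 := by
    refine ⟨Real.sqrt ((|(ψ e).re| + 1) / ‖e ζ‖ ^ 2), ?_⟩
    rw [Real.sq_sqrt (by (clear * - hζ; positivity)), div_mul_cancel₀ _ (by positivity)]
    linarith only [le_abs_self (ψ e).re]
  obtain ⟨η, hη⟩ : ∃ η : H, η = (s : ℂ) • ζ := ⟨_, rfl⟩
  have hωe : (ψ e).re < ‖e η‖ ^ 2 := by
    rw [hη, map_smul, norm_smul, mul_pow, Complex.norm_real, Real.norm_eq_abs, sq_abs]
    exact hs
  let S : Set (H →L[ℂ] H) := {g | g ∈ M ∧ IsStarProjection g ∧ g ≤ e ∧ ‖g η‖ ^ 2 ≤ (ψ g).re}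
  have h0 : (0 : H →L[ℂ] H) ∈ S := by
    refine ⟨zero_mem M, IsStarProjection.zero _, hep.nonneg, ?_⟩
    rw [map_zero, Complex.zero_re, zero_apply, norm_zero]
    norm_num
  obtain ⟨g, -, hg⟩ := zorn_le_nonempty₀ S (by
    intro c hcS hc y hy
    have hne : c.Nonempty := ⟨y, hy⟩
    have hdir : DirectedOn (· ≤ ·) c := hc.directedOn
    obtain ⟨g, hgM, hgp, hglub, hgconv⟩ := exists_sup_proj (M := M) hne hdir
      fun g hg => ⟨(hcS hg).1, (hcS hg).2.1⟩
    refine ⟨g, ⟨hgM, hgp, hglub.2 fun d hd => (hcS hd).2.2.1, ?_⟩, hglub.1⟩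
    have hψg : 0 ≤ (ψ g).re := (hψ g hgM hgp.nonneg).1
    have h1 : ‖g η‖ ≤ Real.sqrt (ψ g).re := by
      refine le_of_forall_pos_le_add fun ε hε => ?_
      obtain ⟨d, hd, hdd⟩ := hgconv η ε hε
      have h2 : ‖d η‖ ≤ Real.sqrt (ψ g).re := by
        refine Real.le_sqrt_of_sq_le ((hcS hd).2.2.2.trans ?_)
        exact hψ.mono (hcS hd).1 hgM (hglub.1 hd)
      calc ‖g η‖ = ‖d η + (g η - d η)‖ := by congr 1; abel
        _ ≤ ‖d η‖ + ‖g η - d η‖ := norm_add_le _ _
        _ ≤ _ := add_le_add h2 hdd.le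
    calc ‖g η‖ ^ 2 ≤ Real.sqrt (ψ g).re ^ 2 := pow_le_pow_left₀ (norm_nonneg _) h1 2
      _ = _ := Real.sq_sqrt hψg) 0 h0
  obtain ⟨⟨hgM, hgp, hge, hgη⟩, hmax⟩ := hg
  have heg : e * g = g := (IsStarProjection.le_iff_mul_eq_right hgp hep).1 hge
  have hge' : g * e = g := by
    have := congrArg star heg
    rwa [star_mul, hgp.isSelfAdjoint.star_eq, hep.isSelfAdjoint.star_eq] at this
  obtain ⟨f, hf⟩ : ∃ f, f = e - g := ⟨_, rfl⟩
  have hee : e * e = e := hep.isIdempotentElem.eq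
  have hgg : g * g = g := hgp.isIdempotentElem.eq
  have hfp : IsStarProjection f := by
    refine ⟨?_, by rw [hf]; exact hep.isSelfAdjoint.sub hgp.isSelfAdjoint⟩
    change f * f = f
    rw [hf, sub_mul, mul_sub, mul_sub, hee, heg, hge', hgg]
    abel
  have hfM : f ∈ M := by rw [hf]; exact sub_mem heM hgM
  have hf0 : f ≠ 0 := by
    intro h
    rw [hf, sub_eq_zero] at h
    rw [← h] at hgη
    linarith only [hωe, hgη]
  have hef : e * f = f := by rw [hf, mul_sub, hee, heg]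
  have hgf : g * f = 0 := by rw [hf, mul_sub, hge', hgg, sub_self]
  -- strict inequality below f
  have hsub : ∀ h ∈ M, IsStarProjection h → f * h = h → (ψ h).re ≤ ‖h η‖ ^ 2 := by
    intro h hhM hhp hfh
    by_contra hcon
    push Not at hcon
    have hgh : g * h = 0 := by rw [← hfh, ← mul_assoc, hgf, zero_mul]
    have hghp : IsStarProjection (g + h) := hgp.add hhp hgh
    have h1 : g + h ∈ S := by
      refine ⟨add_mem hgM hhM, hghp, ?_, ?_⟩
      · refine (IsStarProjection.le_iff_mul_eq_right hghp hep).2 ?_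
        have : e * h = h := by rw [← hfh, ← mul_assoc, hef]
        rw [mul_add, heg, this]
      · have h2 : ‖(g + h) η‖ ^ 2 = ‖g η‖ ^ 2 + ‖h η‖ ^ 2 := by
          rw [← proj_inner_self hghp, add_apply, inner_add_right, Complex.add_re,
            proj_inner_self hgp, proj_inner_self hhp]
        rw [h2, map_add, Complex.add_re]
        linarith only [hgη, hcon]
    have h3 := hmax h1 (le_add_of_nonneg_right hhp.nonneg)
    have h4 : h ≤ 0 := by
      have := sub_nonneg.2 h3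
      rw [← sub_sub, sub_self, zero_sub] at this
      exact neg_nonneg.1 this
    have h5 : h = 0 := le_antisymm h4 hhp.nonneg
    rw [h5, map_zero] at hcon
    simp only [zero_apply, norm_zero, ne_eq, OfNat.ofNat_ne_zero, not_false_eq_true, zero_pow, Complex.zero_re, lt_self_iff_false] at hcon
  refine ⟨f, hfM, hfp, hf0, hef, η, ?_⟩
  have hff : f * f = f := hfp.isIdempotentElem.eq
  have hψf : 0 ≤ (ψ f).re := (hψ f hfM hfp.nonneg).1
  -- dyadic approximation
  have key : ∀ n : ℕ, ∀ y ∈ M, 0 ≤ y → y ≤ f →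
      (ψ y).re ≤ (⟪η, y η⟫_ℂ).re + (1 / 2) ^ n * (ψ f).re := by
    intro n
    induction n with
    | zero =>
      intro y hyM hy0 hyf
      have h1 := hψ.mono hyM hfM hyf
      have h2 := inner_nonneg_of_nonneg hy0 η
      rw [pow_zero, one_mul]
      linarith only [h1, h2]
    | succ n ih =>
      intro y hyM hy0 hyf
      have hysa : IsSelfAdjoint y := IsSelfAdjoint.of_nonneg hy0
      -- y lives under f
      have hyfz : ∀ ζ, f ζ = 0 → y ζ = 0 := by
        intro ζ hζ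
        have h1 := inner_le_of_le hyf ζ
        rw [hζ, inner_zero_right, Complex.zero_re] at h1
        have h2 := inner_nonneg_of_nonneg hy0 ζ
        have h3 : (⟪ζ, y ζ⟫_ℂ).re = 0 := le_antisymm h1 h2
        -- Cauchy-Schwarz through the square root
        have h4 : ‖CFC.sqrt y ζ‖ ^ 2 = 0 := by
          have h5 : CFC.sqrt y * CFC.sqrt y = y := CFC.sqrt_mul_sqrt_self y hy0
          have h6 : IsSelfAdjoint (CFC.sqrt y) := IsSelfAdjoint.of_nonneg (CFC.sqrt_nonneg y)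
          have h7 : (⟪ζ, y ζ⟫_ℂ).re = ‖CFC.sqrt y ζ‖ ^ 2 := by
            have h8 : y ζ = CFC.sqrt y (CFC.sqrt y ζ) := (DFunLike.congr_fun h5 ζ).symm
            rw [h8, ← inner_self_re, ← star_apply_inner, h6.star_eq]
          rw [← h7, h3]
        have h5 : CFC.sqrt y ζ = 0 := norm_eq_zero.1 (pow_eq_zero_iff two_ne_zero |>.1 h4)
        have h6 : y ζ = CFC.sqrt y (CFC.sqrt y ζ) :=
          (DFunLike.congr_fun (CFC.sqrt_mul_sqrt_self y hy0) ζ).symm
        rw [h6, h5, map_zero]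
      have hyf1 : y * f = y := by
        ext ζ
        change y (f ζ) = y ζ
        have h1 : y (ζ - f ζ) = 0 := hyfz _ (by rw [map_sub, proj_apply_apply hfp, sub_self])
        rw [map_sub, sub_eq_zero] at h1
        exact h1.symm
      have hyf2 : f * y = y := by
        have := congrArg star hyf1
        rwa [star_mul, hysa.star_eq, hfp.isSelfAdjoint.star_eq] at this
      obtain ⟨h, hhp, hhc, hh1, hh2⟩ := exists_spectral_proj y hysa (1 / 2)
      have hhM : h ∈ M := Vale.Agent.P078.spectral_proj_mem hyM hhc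
      have hfh' : f * h = h * f := hhc f (by rw [hyf1, hyf2])
      have hyh : y * h = h * y := hhc y rfl
      have hfh : f * h = h := by
        have h1 : ∀ v, h (v - f v) = 0 := by
          intro v
          obtain ⟨ζ, hζ⟩ : ∃ ζ, ζ = h (v - f v) := ⟨_, rfl⟩
          rw [← hζ]
          have h2 : h ζ = ζ := by rw [hζ]; exact proj_apply_apply hhp _
          have h3 := hh1 ζ h2
          have h4 : y ζ = 0 := by
            refine hyfz ζ ?_
            have : f ζ = h (f (v - f v)) := by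
              rw [hζ]; exact DFunLike.congr_fun hfh' (v - f v)
            rw [this, map_sub, proj_apply_apply hfp, sub_self, map_zero]
          rw [h4, inner_zero_right, Complex.zero_re] at h3
          have h5 : ‖ζ‖ ^ 2 = 0 := le_antisymm (by linarith only [h3]) (sq_nonneg _)
          exact norm_eq_zero.1 (pow_eq_zero_iff two_ne_zero |>.1 h5)
        rw [hfh']
        ext v
        have := h1 v
        rw [map_sub, sub_eq_zero] at this
        exact this.symm
      have hhf : h * f = h := by rw [← hfh', hfh]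
      obtain ⟨z, hz⟩ : ∃ z, z = (2 : ℂ) • y - h := ⟨_, rfl⟩
      have hzM : z ∈ M := by
        rw [hz]; exact sub_mem (M.toStarSubalgebra.smul_mem hyM _) hhM
      have hzsa : IsSelfAdjoint z := by
        rw [hz]
        refine IsSelfAdjoint.sub ?_ hhp.isSelfAdjoint
        rw [IsSelfAdjoint, star_smul, hysa.star_eq]
        simp
      have hzq : ∀ ζ, (⟪ζ, z ζ⟫_ℂ).re = 2 * (⟪ζ, y ζ⟫_ℂ).re - ‖h ζ‖ ^ 2 := by
        intro ζ
        rw [hz, sub_apply, inner_sub_right, smul_apply, inner_smul_right, Complex.sub_re,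
          proj_inner_self hhp]
        have : ((2 : ℂ) * ⟪ζ, y ζ⟫_ℂ).re = 2 * (⟪ζ, y ζ⟫_ℂ).re := by simp
        rw [this]
      have hydec : ∀ ζ, (⟪ζ, y ζ⟫_ℂ).re = (⟪h ζ, y (h ζ)⟫_ℂ).re +
          (⟪ζ - h ζ, y (ζ - h ζ)⟫_ℂ).re := by
        intro ζ
        have e1 : y = h * y * h + (1 - h) * y * (1 - h) := by
          have : (1 - h) * y * (1 - h) = y - y * h - h * y + h * y * h := by noncomm_ring
          rw [this, mul_assoc h y h, hyh, ← mul_assoc, hhp.isIdempotentElem.eq]; abel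
        have e2 : ⟪h ζ, y (h ζ)⟫_ℂ = ⟪ζ, (h * y * h) ζ⟫_ℂ := proj_inner hhp _ _
        have e3 : ⟪ζ - h ζ, y (ζ - h ζ)⟫_ℂ = ⟪ζ, ((1 - h) * y * (1 - h)) ζ⟫_ℂ :=
          proj_inner hhp.one_sub _ _
        rw [e2, e3, ← Complex.add_re, ← inner_add_right, ← add_apply, ← e1]
      have hz0 : 0 ≤ z := by
        refine nonneg_of_inner hzsa fun ζ => ?_
        rw [hzq, hydec]
        have h1 := hh1 (h ζ) (proj_apply_apply hhp ζ)
        have h2 := inner_nonneg_of_nonneg hy0 (ζ - h ζ)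
        linarith only [h2, h1]
      have hzf : z ≤ f := by
        rw [← sub_nonneg]
        refine nonneg_of_inner (hfp.isSelfAdjoint.sub hzsa) fun ζ => ?_
        rw [sub_apply, inner_sub_right, Complex.sub_re, hzq, proj_inner_self hfp]
        -- reduce to vectors in the range of f
        have h3 : ‖f ζ‖ ^ 2 = ‖h ζ‖ ^ 2 + ‖f ζ - h ζ‖ ^ 2 := by
          have h4 := proj_norm_sq hhp (f ζ)
          have h5 : h (f ζ) = h ζ := DFunLike.congr_fun hhf ζ
          rw [h5] at h4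
          exact h4
        have h6 : (⟪ζ, y ζ⟫_ℂ).re = (⟪f ζ, y (f ζ)⟫_ℂ).re := by
          have e1 : ⟪f ζ, y (f ζ)⟫_ℂ = ⟪ζ, (f * (y * f)) ζ⟫_ℂ := proj_inner hfp _ _
          rw [e1, hyf1, hyf2]
        rw [h6, hydec (f ζ)]
        have h5 : h (f ζ) = h ζ := DFunLike.congr_fun hhf ζ
        rw [h5]
        have h7 := inner_le_of_le hyf (h ζ)
        have h8 : f (h ζ) = h ζ := DFunLike.congr_fun hfh ζ
        rw [h8, inner_self_re] at h7
        have h9 := hh2 (f ζ - h ζ) (by rw [map_sub, h5, proj_apply_apply hhp, sub_self])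
        linarith only [h3, h7, h9]
      have h1 := ih z hzM hz0 hzf
      have h2 := hsub h hhM hhp hfh
      have h3 : (ψ z).re = 2 * (ψ y).re - (ψ h).re := by
        rw [hz, map_sub, map_smul, Complex.sub_re, smul_eq_mul]
        simp
      rw [hzq, h3] at h1
      rw [pow_succ]
      linarith only [h1, h2]
  intro y hyM hy0 hyf
  have h1 : Tendsto (fun n : ℕ => (⟪η, y η⟫_ℂ).re + (1 / 2 : ℝ) ^ n * (ψ f).re) atTop
      (𝓝 ((⟪η, y η⟫_ℂ).re + 0 * (ψ f).re)) :=
    tendsto_const_nhds.add ((tendsto_pow_atTop_nhds_zero_of_lt_one (by norm_num)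
      (by norm_num)).mul_const _)
  rw [zero_mul, add_zero] at h1
  exact ge_of_tendsto h1 (Eventually.of_forall fun n => key n y hyM hy0 hyf)

end PosOn

/-- Riesz representation relative to a linear map -/
theorem exists_riesz {E : Type*} [AddCommGroup E] [Module ℂ E] (Λ : E →ₗ[ℂ] H) (φ : E →ₗ[ℂ] ℂ)
    {C : ℝ} (h : ∀ x, ‖φ x‖ ≤ C * ‖Λ x‖) : ∃ κ : H, ∀ x, φ x = ⟪κ, Λ x⟫_ℂ := by
  have hker : LinearMap.ker Λ ≤ LinearMap.ker φ := by
    intro x hx
    rw [LinearMap.mem_ker] at hx ⊢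
    have := h x
    rw [hx, norm_zero, mul_zero] at this
    exact norm_le_zero_iff.1 this
  let g : LinearMap.range Λ →ₗ[ℂ] ℂ :=
    ((LinearMap.ker Λ).liftQ φ hker).comp (LinearMap.quotKerEquivRange Λ).symm.toLinearMap
  have hg : ∀ x, g ⟨Λ x, x, rfl⟩ = φ x := by
    intro x
    have h1 : (LinearMap.quotKerEquivRange Λ).symm ⟨Λ x, x, rfl⟩ =
        Submodule.Quotient.mk x := by
      rw [LinearEquiv.symm_apply_eq]
      rfl
    change ((LinearMap.ker Λ).liftQ φ hker) ((LinearMap.quotKerEquivRange Λ).symm _) = φ x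
    rw [h1]
    rfl
  let G : StrongDual ℂ (LinearMap.range Λ) := g.mkContinuous C (by
    rintro ⟨_, x, rfl⟩
    rw [hg]
    exact h x)
  obtain ⟨G', hG', -⟩ := exists_extension_norm_eq (LinearMap.range Λ) G
  refine ⟨(InnerProductSpace.toDual ℂ H).symm G', fun x => ?_⟩
  rw [InnerProductSpace.toDual_symm_apply]
  rw [← hg x]
  exact (hG' ⟨Λ x, x, rfl⟩).symm

theorem PosOn.wcont_of_dominated {ψ : (H →L[ℂ] H) →ₗ[ℂ] ℂ} (hψ : PosOn M ψ)
    {f : H →L[ℂ] H} (hfM : f ∈ M) (hfp : IsStarProjection f) {η : H}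
    (h : ∀ y ∈ M, 0 ≤ y → y ≤ f → (ψ y).re ≤ (⟪η, y η⟫_ℂ).re) :
    WCont M (fun x => ψ (x * f)) := by
  have hff : f * f = f := hfp.isIdempotentElem.eq
  -- domination without the bound
  have h1 : ∀ x ∈ M, (ψ (star (x * f) * (x * f))).re ≤ ‖x (f η)‖ ^ 2 := by
    intro x hx
    obtain ⟨y, hy⟩ : ∃ y, y = star (x * f) * (x * f) := ⟨_, rfl⟩
    have hyM : y ∈ M := by
      rw [hy]; exact mul_mem (star_mem (mul_mem hx hfM)) (mul_mem hx hfM)
    have hy0 : 0 ≤ y := by rw [hy]; exact star_mul_self_nonneg _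
    have hyη : (⟪η, y η⟫_ℂ).re = ‖x (f η)‖ ^ 2 := by
      have : ⟪η, y η⟫_ℂ = ⟪x (f η), x (f η)⟫_ℂ := by
        rw [hy]
        change ⟪η, star (x * f) ((x * f) η)⟫_ℂ = _
        rw [← star_apply_inner, star_star]
        rfl
      rw [this, inner_self_re]
    rw [← hy, ← hyη]
    by_cases hn : ‖y‖ = 0
    · rw [norm_eq_zero] at hn
      rw [hn, map_zero, zero_apply, inner_zero_right]
    · have hnpos : 0 < ‖y‖ := lt_of_le_of_ne (norm_nonneg _) (Ne.symm hn)
      have hyf : y * f = y := by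
        rw [hy, mul_assoc, mul_assoc, hff]
      have hys : IsSelfAdjoint y := IsSelfAdjoint.of_nonneg hy0
      have hfy : f * y = y := by
        have := congrArg star hyf
        rwa [star_mul, hys.star_eq, hfp.isSelfAdjoint.star_eq] at this
      obtain ⟨z, hz⟩ : ∃ z, z = ((‖y‖⁻¹ : ℝ) : ℂ) • y := ⟨_, rfl⟩
      have hzs : IsSelfAdjoint z := by
        rw [hz, IsSelfAdjoint, star_smul, hys.star_eq, Complex.star_def, Complex.conj_ofReal]
      have hzM : z ∈ M := by rw [hz]; exact M.toStarSubalgebra.smul_mem hyM _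
      have hzq : ∀ ζ, (⟪ζ, z ζ⟫_ℂ).re = ‖y‖⁻¹ * (⟪ζ, y ζ⟫_ℂ).re := by
        intro ζ
        rw [hz, smul_apply, inner_smul_right, Complex.re_ofReal_mul]
      have hz0 : 0 ≤ z := nonneg_of_inner hzs fun ζ => by
        rw [hzq]
        exact mul_nonneg (inv_nonneg.2 hnpos.le) (inner_nonneg_of_nonneg hy0 ζ)
      have hzf : z ≤ f := by
        rw [← sub_nonneg]
        refine nonneg_of_inner (hfp.isSelfAdjoint.sub hzs) fun ζ => ?_
        rw [sub_apply, inner_sub_right, Complex.sub_re, proj_inner_self hfp, hzq]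
        have e1 : ⟪ζ, y ζ⟫_ℂ = ⟪f ζ, y (f ζ)⟫_ℂ := by
          have : ⟪f ζ, y (f ζ)⟫_ℂ = ⟪ζ, (f * (y * f)) ζ⟫_ℂ := proj_inner hfp _ _
          rw [this, hyf, hfy]
        have e2 : (⟪f ζ, y (f ζ)⟫_ℂ).re ≤ ‖y‖ * ‖f ζ‖ ^ 2 := by
          calc (⟪f ζ, y (f ζ)⟫_ℂ).re ≤ ‖⟪f ζ, y (f ζ)⟫_ℂ‖ := Complex.re_le_norm _
            _ ≤ ‖f ζ‖ * ‖y (f ζ)‖ := norm_inner_le_norm _ _
            _ ≤ ‖f ζ‖ * (‖y‖ * ‖f ζ‖) :=
                mul_le_mul_of_nonneg_left (y.le_opNorm _) (norm_nonneg _)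
            _ = _ := by ring
        rw [e1, sub_nonneg]
        calc ‖y‖⁻¹ * (⟪f ζ, y (f ζ)⟫_ℂ).re ≤ ‖y‖⁻¹ * (‖y‖ * ‖f ζ‖ ^ 2) :=
              mul_le_mul_of_nonneg_left e2 (inv_nonneg.2 hnpos.le)
          _ = ‖f ζ‖ ^ 2 := by rw [← mul_assoc, inv_mul_cancel₀ hnpos.ne', one_mul]
      have h2 := h z hzM hz0 hzf
      rw [hzq, hz, map_smul, smul_eq_mul, Complex.re_ofReal_mul] at h2
      exact le_of_mul_le_mul_left h2 (inv_pos.2 hnpos)
  -- Riesz
  let Λ : M.toStarSubalgebra.toSubalgebra.toSubmodule →ₗ[ℂ] H :=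
    { toFun := fun x => x.1 (f η)
      map_add' := fun x y => rfl
      map_smul' := fun c x => rfl }
  let φ : M.toStarSubalgebra.toSubalgebra.toSubmodule →ₗ[ℂ] ℂ :=
    { toFun := fun x => ψ (x.1 * f)
      map_add' := fun x y => by
        change ψ ((x.1 + y.1) * f) = _
        rw [add_mul, map_add]
      map_smul' := fun c x => by
        change ψ ((c • x.1) * f) = _
        rw [smul_mul_assoc, map_smul]
        rfl }
  obtain ⟨κ, hκ⟩ := exists_riesz Λ φ (C := Real.sqrt (ψ 1).re) (by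
    rintro ⟨x, hx⟩
    change ‖ψ (x * f)‖ ≤ Real.sqrt (ψ 1).re * ‖x (f η)‖
    have hx' : x ∈ M := hx
    have h2 := hψ.cauchy (x := x * f) (y := 1) (mul_mem hx' hfM) (one_mem M)
    rw [star_one, one_mul, one_mul] at h2
    have h3 : 0 ≤ (ψ 1).re := (hψ 1 (one_mem M) zero_le_one).1
    have h4 : ‖ψ (x * f)‖ ^ 2 ≤ (Real.sqrt (ψ 1).re * ‖x (f η)‖) ^ 2 := by
      rw [mul_pow, Real.sq_sqrt h3]
      exact h2.trans (mul_le_mul_of_nonneg_left (h1 x hx') h3)
    exact (sq_le_sq₀ (norm_nonneg _) (by (clear * -; positivity))).mp h4)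
  refine (WCont.inner_apply κ (f η)).congr fun x hx => ?_
  exact (hκ ⟨x, hx⟩).symm

/-- an order-normal positive functional is weak operator continuous on bounded sets -/
theorem PosOn.wcont {ψ : (H →L[ℂ] H) →ₗ[ℂ] ℂ} (hψ : PosOn M ψ) (hn : ProjNormal M ψ) :
    WCont M ψ := by
  let S : Set (H →L[ℂ] H) := {g | g ∈ M ∧ IsStarProjection g ∧ WCont M (fun x => ψ (x * g))}
  have h0 : (0 : H →L[ℂ] H) ∈ S := by
    refine ⟨zero_mem M, IsStarProjection.zero _, ?_⟩
    simp only [mul_zero, map_zero]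
    exact WCont.zero
  have hψ1 : 0 ≤ (ψ 1).re := (hψ 1 (one_mem M) zero_le_one).1
  obtain ⟨g, -, hg⟩ := zorn_le_nonempty₀ S (by
    intro c hcS hc y hy
    have hne : c.Nonempty := ⟨y, hy⟩
    have hdir : DirectedOn (· ≤ ·) c := hc.directedOn
    obtain ⟨g, hgM, hgp, hglub, hgconv⟩ := exists_sup_proj (M := M) hne hdir
      fun g hg => ⟨(hcS hg).1, (hcS hg).2.1⟩
    refine ⟨g, ⟨hgM, hgp, ?_⟩, hglub.1⟩
    refine WCont.of_approx fun ε hε => ?_
    obtain ⟨d, hd, hdε⟩ := hn c hne hdir (fun g hg => ⟨(hcS hg).1, (hcS hg).2.1⟩) g hglub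
      (ε ^ 2 / ((ψ 1).re + 1)) (by (clear * - hψ1 hε; (clear * - hε hψ1; positivity)))
    refine ⟨fun x => ψ (x * d), (hcS hd).2.2, fun x hx => ?_⟩
    obtain ⟨k, hk⟩ : ∃ k, k = g - d := ⟨_, rfl⟩
    have hdM := (hcS hd).1
    have hdp := (hcS hd).2.1
    have hgd : g * d = d := (IsStarProjection.le_iff_mul_eq_right hdp hgp).1 (hglub.1 hd)
    have hdg : d * g = d := by
      have := congrArg star hgd
      rwa [star_mul, hdp.isSelfAdjoint.star_eq, hgp.isSelfAdjoint.star_eq] at this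
    have hkp : IsStarProjection k := by
      refine ⟨?_, by rw [hk]; exact hgp.isSelfAdjoint.sub hdp.isSelfAdjoint⟩
      change k * k = k
      rw [hk, sub_mul, mul_sub, mul_sub, hgp.isIdempotentElem.eq, hgd, hdg,
        hdp.isIdempotentElem.eq]
      abel
    have hkM : k ∈ M := by rw [hk]; exact sub_mem hgM hdM
    have h1 : ψ (x * g) - ψ (x * d) = ψ (x * k) := by rw [hk, mul_sub, map_sub]
    rw [h1]
    have h2 := hψ.cauchy (x := k) (y := star x) hkM (star_mem hx)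
    rw [star_star, hkp.isSelfAdjoint.star_eq, hkp.isIdempotentElem.eq] at h2
    have h3 : (ψ k).re ≤ ε ^ 2 / ((ψ 1).re + 1) := by
      rw [hk, map_sub, Complex.sub_re]; linarith only [hdε]
    have hk0 : 0 ≤ (ψ k).re := (hψ k hkM hkp.nonneg).1
    have h4 : (ψ (x * star x)).re ≤ ‖x‖ ^ 2 * (ψ 1).re := by
      have h5 : x * star x ≤ ((‖x‖ ^ 2 : ℝ) : ℂ) • (1 : H →L[ℂ] H) := by
        rw [← sub_nonneg]
        refine nonneg_of_inner ?_ fun ζ => ?_
        · refine IsSelfAdjoint.sub ?_ (IsSelfAdjoint.mul_star_self x)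
          rw [IsSelfAdjoint, star_smul, star_one, Complex.star_def, Complex.conj_ofReal]
        · rw [sub_apply, inner_sub_right, Complex.sub_re, smul_apply, inner_smul_right,
            Complex.re_ofReal_mul, one_apply_eq_self, inner_self_re]
          have h6 : ⟪ζ, (x * star x) ζ⟫_ℂ = ⟪star x ζ, star x ζ⟫_ℂ := by
            rw [star_apply_inner]; rfl
          rw [h6, inner_self_re]
          have h7 : ‖star x ζ‖ ≤ ‖x‖ * ‖ζ‖ := by
            rw [← norm_star x]; exact (star x).le_opNorm ζ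
          have h8 : ‖star x ζ‖ ^ 2 ≤ (‖x‖ * ‖ζ‖) ^ 2 := pow_le_pow_left₀ (norm_nonneg _) h7 2
          rw [mul_pow] at h8
          linarith only [h8]
      have h6 := hψ.mono (mul_mem hx (star_mem hx))
        (M.toStarSubalgebra.smul_mem (one_mem M) _) h5
      rw [map_smul, smul_eq_mul, Complex.re_ofReal_mul] at h6
      exact h6
    have h5 : ‖ψ (x * k)‖ ^ 2 ≤ (ε * ‖x‖) ^ 2 := by
      calc ‖ψ (x * k)‖ ^ 2 ≤ (ψ (x * star x)).re * (ψ k).re := h2
        _ ≤ (‖x‖ ^ 2 * (ψ 1).re) * (ε ^ 2 / ((ψ 1).re + 1)) :=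
            mul_le_mul h4 h3 hk0 (by (clear * - hψ1; positivity))
        _ = (‖x‖ ^ 2 * ε ^ 2) * ((ψ 1).re / ((ψ 1).re + 1)) := by ring
        _ ≤ (‖x‖ ^ 2 * ε ^ 2) * 1 := by
            refine mul_le_mul_of_nonneg_left ?_ (by (clear * - hε; positivity))
            rw [div_le_one (by (clear * - hψ1; positivity))]
            linarith only
        _ = (ε * ‖x‖) ^ 2 := by ring
    exact (sq_le_sq₀ (norm_nonneg _) (by (clear * - hε; (clear * - hε; positivity)))).mp h5) 0 h0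
  obtain ⟨⟨hgM, hgp, hgw⟩, hmax⟩ := hg
  by_cases hg1 : 1 - g = 0
  · have : g = 1 := (sub_eq_zero.1 hg1).symm
    rw [this] at hgw
    simpa using hgw
  · exfalso
    obtain ⟨f, hfM, hfp, hf0, hef, η, hη⟩ := hψ.exists_dominated (sub_mem (one_mem M) hgM)
      hgp.one_sub hg1
    have hgf : g * f = 0 := by
      rw [sub_mul, one_mul] at hef
      have := sub_eq_self.1 hef
      exact this
    have h1 : g + f ∈ S := by
      refine ⟨add_mem hgM hfM, hgp.add hfp hgf, ?_⟩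
      have h2 := hgw.add (hψ.wcont_of_dominated hfM hfp hη)
      simpa only [mul_add, map_add] using h2
    have h3 := hmax h1 (le_add_of_nonneg_right hfp.nonneg)
    have h4 : f ≤ 0 := by
      have := sub_nonneg.2 h3
      rw [← sub_sub, sub_self, zero_sub] at this
      exact neg_nonneg.1 this
    exact hf0 (le_antisymm h4 hfp.nonneg)

end Vale.Agent.P078
end

section

/-! The expected part `z` is the largest projection of `A` admitting a normal expectation. -/

namespace Vale.Agent.P078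

open Filter Topology
open scoped ComplexOrder InnerProductSpace

variable {H : Type*} [NormedAddCommGroup H] [InnerProductSpace ℂ H] [CompleteSpace H]
variable {M : VonNeumannAlgebra H} {A : StarSubalgebra ℂ (H →L[ℂ] H)}

theorem conj_nonneg' {p : H →L[ℂ] H} (hp : IsStarProjection p) {x : H →L[ℂ] H} (hx : 0 ≤ x) :
    0 ≤ p * x * p := by
  have := star_left_conjugate_nonneg hx p
  rwa [hp.isSelfAdjoint.star_eq] at this

theorem conj_mono' {p : H →L[ℂ] H} (hp : IsStarProjection p) {x y : H →L[ℂ] H} (hx : x ≤ y) :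
    p * x * p ≤ p * y * p := by
  have h := conj_nonneg' hp (sub_nonneg.2 hx)
  rw [mul_sub, sub_mul] at h
  exact sub_nonneg.1 h

/-- compression by a projection preserves suprema of directed sets -/
theorem isLUB_conj {p : H →L[ℂ] H} (hp : IsStarProjection p) {D : Set (H →L[ℂ] H)}
    (hne : D.Nonempty) (hdir : DirectedOn (· ≤ ·) D) {g : H →L[ℂ] H} (hg : IsLUB D g) :
    IsLUB ((fun d => p * d * p) '' D) (p * g * p) := by
  obtain ⟨l, hl1, hl2, -, -, hl5⟩ := tendsto_of_isLUB hne hdir hg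
  constructor
  · rintro _ ⟨d, hd, rfl⟩
    exact conj_mono' hp (hg.1 hd)
  · intro c hc
    rw [← sub_nonneg]
    refine nonneg_of_tendsto (l := l) (T := fun d => c - p * d * p) ?_ ?_
    · filter_upwards [hl2] with d hd
      exact sub_nonneg.2 (hc ⟨d, hd, rfl⟩)
    · intro ξ η
      simp only [sub_apply, inner_sub_right]
      refine tendsto_const_nhds.sub ?_
      have h1 := hl5 (p ξ) (p η)
      simp only [proj_inner hp] at h1
      exact h1

theorem directedOn_image_of_mono {f : (H →L[ℂ] H) → (H →L[ℂ] H)} {D : Set (H →L[ℂ] H)}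
    (hdir : DirectedOn (· ≤ ·) D) (hf : ∀ x ∈ D, ∀ y ∈ D, x ≤ y → f x ≤ f y) :
    DirectedOn (· ≤ ·) (f '' D) := by
  rintro _ ⟨a, ha, rfl⟩ _ ⟨b, hb, rfl⟩
  obtain ⟨c, hc, hac, hbc⟩ := hdir a ha b hb
  exact ⟨f c, ⟨c, hc, rfl⟩, hf a ha c hc hac, hf b hb c hc hbc⟩

theorem mul_eq_zero_of_isNormalExpectation (hA : IsMASA A M) {w : H →L[ℂ] H} (hwA : w ∈ A)
    (hwp : IsStarProjection w)
    (h0 : ∀ ψ : (H →L[ℂ] H) →ₗ[ℂ] ℂ, CentralNormal M A ψ → ψ w = 0)
    {p : H →L[ℂ] H} (hpA : p ∈ A) (hp : IsStarProjection p)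
    {E : (H →L[ℂ] H) →ₗ[ℂ] (H →L[ℂ] H)} (hE : IsNormalExpectation M A p E) :
    w * p = 0 := by
  by_contra hne
  have hpp : p * p = p := hp.isIdempotentElem
  have hww : w * w = w := hwp.isIdempotentElem
  have hwpc : w * p = p * w := hA.2.1 w hwA p hpA
  have hpM : p ∈ M := hA.1 hpA
  have hwM : w ∈ M := hA.1 hwA
  obtain ⟨e, he⟩ : ∃ e, e = w * p := ⟨_, rfl⟩
  have heA : e ∈ A := by rw [he]; exact mul_mem hwA hpA
  have hpe : p * e = e := by rw [he, hwpc, ← mul_assoc, hpp]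
  have hep : e * p = e := by rw [he, mul_assoc, hpp]
  have hee : e * e = e := by
    rw [he]
    calc w * p * (w * p) = w * (p * w) * p := by noncomm_ring
      _ = (w * w) * (p * p) := by rw [← hwpc]; noncomm_ring
      _ = w * p := by rw [hww, hpp]
  have hes : IsSelfAdjoint e := by
    rw [IsSelfAdjoint, he, star_mul, hwp.isSelfAdjoint.star_eq, hp.isSelfAdjoint.star_eq, hwpc]
  have hepr : IsStarProjection e := ⟨hee, hes⟩
  rw [← he] at hne
  obtain ⟨ζ, hζ⟩ : ∃ ζ, e ζ ≠ 0 := by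
    by_contra hcon
    push Not at hcon
    exact hne (by ext ζ; rw [hcon ζ, zero_apply])
  have hcor : ∀ x, p * (p * x * p) * p = p * x * p := fun x => by
    have : p * (p * x * p) * p = (p * p) * x * (p * p) := by noncomm_ring
    rw [this, hpp]
  have hcM : ∀ x ∈ M, p * x * p ∈ M := fun x hx => mul_mem (mul_mem hpM hx) hpM
  let ψ : (H →L[ℂ] H) →ₗ[ℂ] ℂ :=
    { toFun := fun x => ⟪e ζ, E (p * x * p) (e ζ)⟫_ℂ
      map_add' := fun x y => by
        rw [mul_add, add_mul, map_add, add_apply, inner_add_right]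
      map_smul' := fun c x => by
        rw [mul_smul_comm, smul_mul_assoc, map_smul, smul_apply, inner_smul_right,
          RingHom.id_apply, smul_eq_mul] }
  have hψ : ∀ x, ψ x = ⟪e ζ, E (p * x * p) (e ζ)⟫_ℂ := fun x => rfl
  have hpos : PosOn M ψ := by
    intro x hx hx0
    have h1 : 0 ≤ E (p * x * p) := hE.nonneg _ (hcM x hx) (hcor x) (conj_nonneg' hp hx0)
    refine ⟨by rw [hψ]; exact inner_nonneg_of_nonneg h1 _, ?_⟩
    rw [hψ]
    have h2 := (IsSelfAdjoint.of_nonneg h1).star_eq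
    have h3 : (starRingEnd ℂ) ⟪e ζ, E (p * x * p) (e ζ)⟫_ℂ = ⟪e ζ, E (p * x * p) (e ζ)⟫_ℂ := by
      rw [inner_conj_symm]
      conv_lhs => rw [← h2]
      exact star_apply_inner _ _ _
    exact Complex.conj_eq_iff_im.1 h3
  have hcen : ∀ f ∈ A, IsStarProjection f → ∀ x ∈ M, ψ (f * x) = ψ (x * f) := by
    intro f hf _ x hx
    have h1 : p * (f * x) * p = f * (p * x * p) * 1 := by
      rw [mul_one, ← mul_assoc, hA.2.1 p hpA f hf]; noncomm_ring
    have h2 : p * (x * f) * p = 1 * (p * x * p) * f := by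
      rw [one_mul, mul_assoc, mul_assoc, ← hA.2.1 p hpA f hf]; noncomm_ring
    rw [hψ, hψ, h1, h2, hE.bimod f hf 1 (one_mem A) _ (hcM x hx) (hcor x),
      hE.bimod 1 (one_mem A) f hf _ (hcM x hx) (hcor x), mul_one, one_mul,
      hA.2.1 f hf _ (hE.mem _ (hcM x hx) (hcor x)).1]
  have hnorm : ProjNormal M ψ := by
    intro D hne hdir hD g hg ε hε
    have h1 : IsLUB ((fun d => p * d * p) '' D) (p * g * p) := isLUB_conj hp hne hdir hg
    have h2 : DirectedOn (· ≤ ·) ((fun d => p * d * p) '' D) :=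
      directedOn_image_of_mono hdir fun x _ y _ hxy => conj_mono' hp hxy
    have h3 : ∀ x ∈ (fun d => p * d * p) '' D, x ∈ M ∧ p * x * p = x := by
      rintro _ ⟨d, hd, rfl⟩
      exact ⟨hcM d (hD d hd).1, hcor d⟩
    have h4 := hE.normal _ (hne.image _) h2 h3 _ h1
    have h5 : DirectedOn (· ≤ ·) (E '' ((fun d => p * d * p) '' D)) := by
      refine directedOn_image_of_mono h2 fun x hx y hy hxy => ?_
      have h6 := hE.nonneg (y - x) (sub_mem (h3 y hy).1 (h3 x hx).1)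
        (by rw [mul_sub, sub_mul, (h3 y hy).2, (h3 x hx).2]) (sub_nonneg.2 hxy)
      rw [map_sub] at h6
      exact sub_nonneg.1 h6
    obtain ⟨l, hl1, hl2, -, -, hl5⟩ := tendsto_of_isLUB ((hne.image _).image _) h5 h4
    have h7 := (Complex.continuous_re.tendsto _).comp (hl5 (e ζ) (e ζ))
    have h8 : ∀ᶠ x : H →L[ℂ] H in l, (⟪e ζ, E (p * g * p) (e ζ)⟫_ℂ).re - ε
        < (⟪e ζ, x (e ζ)⟫_ℂ).re := h7.eventually (lt_mem_nhds (sub_lt_self _ hε))
    obtain ⟨x, hx, hxl⟩ := (h8.and hl2).exists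
    obtain ⟨_, ⟨d, hd, rfl⟩, rfl⟩ := hxl
    exact ⟨d, hd, hx⟩
  have hcn : CentralNormal M A ψ := ⟨hpos, hcen, hpos.wcont hnorm⟩
  have h1 := h0 ψ hcn
  rw [hψ] at h1
  have h2 : p * w * p = e := by rw [he, hwpc, mul_assoc, hwpc, ← mul_assoc, hpp]
  rw [h2, hE.idem e heA hpe, proj_apply_apply hepr, inner_self_eq_zero] at h1
  exact hζ h1

/-- the expected part is the largest projection of `A` admitting a normal expectation -/
theorem exists_largest (hA : IsMASA A M) :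
    ∃ z ∈ A, IsStarProjection z ∧ (∃ E, IsNormalExpectation M A z E) ∧
      (∀ ψ : (H →L[ℂ] H) →ₗ[ℂ] ℂ, CentralNormal M A ψ → ψ (1 - z) = 0) ∧
      ∀ p ∈ A, IsStarProjection p → (∃ E, IsNormalExpectation M A p E) → z * p = p := by
  obtain ⟨z, hzA, hzp, hE, h0⟩ := exists_expected_part hA
  refine ⟨z, hzA, hzp, hE, h0, fun p hpA hp ⟨E, hpE⟩ => ?_⟩
  have := mul_eq_zero_of_isNormalExpectation hA (sub_mem (one_mem A) hzA) hzp.one_sub h0 hpA hp hpE
  rw [sub_mul, one_mul, sub_eq_zero] at this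
  exact this.symm

end Vale.Agent.P078
end

section

/-! Factors of type II one. -/

namespace Vale.Agent.P078

variable {H : Type*} [NormedAddCommGroup H] [InnerProductSpace ℂ H] [CompleteSpace H]

/-- `M` is a factor: every element of `M` commuting with `M` is a scalar. -/
def IsFactor (M : VonNeumannAlgebra H) : Prop :=
  ∀ x ∈ M, (∀ y ∈ M, x * y = y * x) → ∃ c : ℂ, x = c • (1 : H →L[ℂ] H)

/-- The normal positive functional `x ↦ ∑ ⟪ξ n, x (ξ n)⟫` given by a square-summable sequence of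
vectors; every normal positive functional on a von Neumann algebra has this form. -/
noncomputable def vecTrace (ξ : ℕ → H) (x : H →L[ℂ] H) : ℂ := ∑' n, inner ℂ (ξ n) (x (ξ n))

/-- `M` is a factor of type II one: an infinite-dimensional factor with a nonzero normal finite
trace. -/
def IsTypeII1Factor (M : VonNeumannAlgebra H) : Prop :=
  IsFactor M ∧ ¬ FiniteDimensional ℂ M.toStarSubalgebra ∧
    ∃ ξ : ℕ → H, Summable (fun n => ‖ξ n‖ ^ 2) ∧ (∃ n, ξ n ≠ 0) ∧
      ∀ x ∈ M, ∀ y ∈ M, vecTrace ξ (x * y) = vecTrace ξ (y * x)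

end Vale.Agent.P078
end

section

/-! The Hilbert space vector attached to a square-summable sequence. -/

namespace Vale.Agent.P078

open Filter Topology
open scoped InnerProductSpace

variable {H : Type*} [NormedAddCommGroup H] [InnerProductSpace ℂ H] [CompleteSpace H]
variable {M : VonNeumannAlgebra H}

theorem memlp_vec {ξ : ℕ → H} (hξ : Summable fun n => ‖ξ n‖ ^ 2) (x : H →L[ℂ] H) :
    Memℓp (fun n => x (ξ n)) 2 := by
  refine memℓp_gen ?_
  have : Summable fun n => ‖x (ξ n)‖ ^ 2 := by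
    refine Summable.of_nonneg_of_le (fun n => sq_nonneg _) (fun n => ?_)
      (hξ.mul_left (‖x‖ ^ 2))
    rw [← mul_pow]
    exact pow_le_pow_left₀ (norm_nonneg _) (x.le_opNorm _) 2
  simpa only [ENNReal.toReal_ofNat, Real.rpow_ofNat] using this

/-- the vector `(x ξ n)` of the Hilbert sum -/
noncomputable def vecMap (ξ : ℕ → H) (hξ : Summable fun n => ‖ξ n‖ ^ 2) :
    (H →L[ℂ] H) →ₗ[ℂ] lp (fun _ : ℕ => H) 2 where
  toFun x := ⟨fun n => x (ξ n), memlp_vec hξ x⟩
  map_add' x y := by ext n; rfl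
  map_smul' c x := by ext n; rfl

variable {ξ : ℕ → H} (hξ : Summable fun n => ‖ξ n‖ ^ 2)

theorem vecMap_apply (x : H →L[ℂ] H) (n : ℕ) : vecMap ξ hξ x n = x (ξ n) := rfl

theorem vecMap_inner (x y : H →L[ℂ] H) :
    ⟪vecMap ξ hξ x, vecMap ξ hξ y⟫_ℂ = vecTrace ξ (star x * y) := by
  rw [lp.inner_eq_tsum]
  unfold vecTrace
  refine tsum_congr fun n => ?_
  rw [vecMap_apply, vecMap_apply]
  change ⟪x (ξ n), y (ξ n)⟫_ℂ = ⟪ξ n, star x (y (ξ n))⟫_ℂ
  rw [← star_apply_inner (star x), star_star]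

theorem vecMap_inner_one (y : H →L[ℂ] H) :
    ⟪vecMap ξ hξ 1, vecMap ξ hξ y⟫_ℂ = vecTrace ξ y := by
  rw [vecMap_inner, star_one, one_mul]

theorem vecMap_norm_sq (x : H →L[ℂ] H) :
    ‖vecMap ξ hξ x‖ ^ 2 = ∑' n, ‖x (ξ n)‖ ^ 2 := by
  have h1 := lp.norm_rpow_eq_tsum (p := 2) (by norm_num) (vecMap ξ hξ x)
  simpa only [ENNReal.toReal_ofNat, Real.rpow_ofNat, vecMap_apply] using h1

theorem vecMap_mul_le (a b : H →L[ℂ] H) :
    ‖vecMap ξ hξ (a * b)‖ ≤ ‖a‖ * ‖vecMap ξ hξ b‖ := by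
  have h1 : ‖vecMap ξ hξ (a * b)‖ ^ 2 ≤ (‖a‖ * ‖vecMap ξ hξ b‖) ^ 2 := by
    rw [mul_pow, vecMap_norm_sq, vecMap_norm_sq, ← tsum_mul_left]
    have hs : ∀ x : H →L[ℂ] H, Summable fun n => ‖x (ξ n)‖ ^ 2 := by
      intro x
      have := (memlp_vec hξ x).summable (by norm_num)
      simpa only [ENNReal.toReal_ofNat, Real.rpow_ofNat] using this
    refine Summable.tsum_le_tsum (fun n => ?_) (hs _) ((hs b).mul_left _)
    rw [← mul_pow]
    exact pow_le_pow_left₀ (norm_nonneg _) (a.le_opNorm _) 2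
  exact (sq_le_sq₀ (norm_nonneg _) (by positivity)).mp h1

theorem vecMap_congr {x y : H →L[ℂ] H} (h : ∀ n, x (ξ n) = y (ξ n)) :
    vecMap ξ hξ x = vecMap ξ hξ y := by
  ext n
  rw [vecMap_apply, vecMap_apply, h n]

/-- smallness of `‖X (1 - q)‖` when `q` almost fixes finitely many vectors -/
theorem exists_finset_small {κ : ℝ} (hκ : 0 < κ) :
    ∃ (F : Finset ℕ) (δ : ℝ), 0 < δ ∧ ∀ q : H →L[ℂ] H, ‖q‖ ≤ 1 →
      (∀ n ∈ F, ‖ξ n - q (ξ n)‖ < δ) → ‖vecMap ξ hξ (1 - q)‖ ≤ κ := by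
  obtain ⟨F, hF⟩ := (hξ.hasSum.eventually_const_lt (show ∑' n, ‖ξ n‖ ^ 2 - κ ^ 2 / 8 <
    ∑' n, ‖ξ n‖ ^ 2 by have : 0 < κ ^ 2 := by positivity
                       linarith only [this])).exists
  set δ : ℝ := κ / (2 * (F.card + 1)) with hδ
  have hδ0 : 0 < δ := by (clear * - hκ; (clear * - hκ; positivity))
  refine ⟨F, δ, hδ0, fun q hq hqF => ?_⟩
  have hs : Summable fun n => ‖(1 - q) (ξ n)‖ ^ 2 := by
    have := (memlp_vec hξ (1 - q)).summable (by norm_num)
    simpa only [sub_apply, one_apply_eq_self, ENNReal.toReal_ofNat, Real.rpow_ofNat] using this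
  have h1 : ‖vecMap ξ hξ (1 - q)‖ ^ 2 ≤ κ ^ 2 := by
    rw [vecMap_norm_sq]
    have h2 : ∀ n, ‖(1 - q) (ξ n)‖ ^ 2 ≤ 4 * ‖ξ n‖ ^ 2 := by
      intro n
      have h3 : ‖(1 - q) (ξ n)‖ ≤ 2 * ‖ξ n‖ := by
        change ‖ξ n - q (ξ n)‖ ≤ _
        calc ‖ξ n - q (ξ n)‖ ≤ ‖ξ n‖ + ‖q (ξ n)‖ := norm_sub_le _ _
          _ ≤ ‖ξ n‖ + 1 * ‖ξ n‖ := by
              gcongr
              exact q.le_of_opNorm_le hq _
          _ = 2 * ‖ξ n‖ := by ring
      calc ‖(1 - q) (ξ n)‖ ^ 2 ≤ (2 * ‖ξ n‖) ^ 2 := pow_le_pow_left₀ (norm_nonneg _) h3 2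
        _ = 4 * ‖ξ n‖ ^ 2 := by ring
    rw [← hs.sum_add_tsum_compl (s := F)]
    have h4 : ∑' n : ↑(↑F : Set ℕ)ᶜ, ‖(1 - q) (ξ n)‖ ^ 2 ≤ κ ^ 2 / 2 := by
      have h5 : ∑' n : ↑(↑F : Set ℕ)ᶜ, ‖(1 - q) (ξ n)‖ ^ 2 ≤
          ∑' n : ↑(↑F : Set ℕ)ᶜ, 4 * ‖ξ n‖ ^ 2 := by
        refine Summable.tsum_le_tsum (fun n => h2 n) (hs.subtype _) ?_
        exact ((hξ.mul_left 4).subtype _)
      have h6 := hξ.sum_add_tsum_compl (s := F)
      rw [tsum_mul_left] at h5
      linarith only [hF, h5, h6]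
    have h7 : ∑ n ∈ F, ‖(1 - q) (ξ n)‖ ^ 2 ≤ κ ^ 2 / 2 := by
      calc ∑ n ∈ F, ‖(1 - q) (ξ n)‖ ^ 2 ≤ ∑ n ∈ F, δ ^ 2 := by
            refine Finset.sum_le_sum fun n hn => ?_
            exact pow_le_pow_left₀ (norm_nonneg _) (hqF n hn).le 2
        _ = F.card * δ ^ 2 := by rw [Finset.sum_const, nsmul_eq_mul]
        _ ≤ κ ^ 2 / 2 := by
            rw [hδ, div_pow]
            have h8 : (0 : ℝ) ≤ F.card := Nat.cast_nonneg _
            rw [mul_div_assoc', div_le_div_iff₀ (by (clear * -; positivity)) (by norm_num)]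
            linarith only [sq_nonneg κ, mul_nonneg h8 (sq_nonneg κ), mul_nonneg (mul_nonneg h8 h8) (sq_nonneg κ)]
    linarith only [h4, h7]
  exact (sq_le_sq₀ (norm_nonneg _) hκ.le).mp h1

end Vale.Agent.P078
end

section

/-! Partial isometries from extreme points. -/

namespace Vale.Agent.P078

open Filter Topology
open scoped InnerProductSpace

variable {H : Type*} [NormedAddCommGroup H] [InnerProductSpace ℂ H] [CompleteSpace H]
variable {M : VonNeumannAlgebra H} {A : StarSubalgebra ℂ (H →L[ℂ] H)}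

/-- the set whose extreme points we use -/
def ballSet (M : VonNeumannAlgebra H) (e f : H →L[ℂ] H) : Set (H →WOT[ℂ] H) :=
  {v | v.toCLM ∈ M ∧ f * v.toCLM = v.toCLM ∧ v.toCLM * e = v.toCLM ∧ ‖v.toCLM‖ ≤ 1}

theorem isCompact_ballSet (M : VonNeumannAlgebra H) (e f : H →L[ℂ] H) :
    IsCompact (ballSet M e f) := by
  rw [isCompact_iff_ultrafilter_le_nhds]
  intro U hU
  have hmem : ∀ᶠ v in (U : Filter (H →WOT[ℂ] H)), v ∈ ballSet M e f :=
    Filter.le_principal_iff.mp hU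
  obtain ⟨t, ht1, ht⟩ := exists_wot_limit U (fun v : H →WOT[ℂ] H => v.toCLM) 1
    (hmem.mono fun v hv => hv.2.2.2) zero_le_one
  have hleft : ∀ (y : H →L[ℂ] H) (ξ η : H),
      Tendsto (fun v : H →WOT[ℂ] H => ⟪ξ, (y * v.toCLM) η⟫_ℂ) U (𝓝 ⟪ξ, (y * t) η⟫_ℂ) := by
    intro y ξ η
    have := ht (star y ξ) η
    simp only [star_apply_inner] at this
    exact this
  have hright : ∀ (y : H →L[ℂ] H) (ξ η : H),
      Tendsto (fun v : H →WOT[ℂ] H => ⟪ξ, (v.toCLM * y) η⟫_ℂ) U (𝓝 ⟪ξ, (t * y) η⟫_ℂ) := by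
    intro y ξ η
    exact ht ξ (y η)
  refine ⟨ContinuousLinearMapWOT.ofCLM t, ⟨?_, ?_, ?_, ht1⟩, ?_⟩
  · refine mem_of_commute fun y hy => inner_ext fun ξ η => ?_
    refine tendsto_nhds_unique (hleft y ξ η) ((hright y ξ η).congr' ?_)
    filter_upwards [hmem] with v hv
    rw [commutant_comm hv.1 hy]
  · refine inner_ext fun ξ η => ?_
    refine tendsto_nhds_unique (hleft f ξ η) ((ht ξ η).congr' ?_)
    filter_upwards [hmem] with v hv
    rw [hv.2.1]
  · refine inner_ext fun ξ η => ?_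
    refine tendsto_nhds_unique (hright e ξ η) ((ht ξ η).congr' ?_)
    filter_upwards [hmem] with v hv
    rw [hv.2.2.1]
  · rw [ContinuousLinearMapWOT.le_nhds_iff_forall_inner_apply_le_nhds]
    intro x y
    exact ht y x

theorem exists_extreme (M : VonNeumannAlgebra H) (e f : H →L[ℂ] H) :
    ∃ v ∈ M, f * v = v ∧ v * e = v ∧ ‖v‖ ≤ 1 ∧
      ∀ u ∈ M, f * u = u → u * e = u → ‖v + u‖ ≤ 1 → ‖v - u‖ ≤ 1 → u = 0 := by
  have hne : (ballSet M e f).Nonempty :=
    ⟨0, zero_mem _, by simp, by simp, by simp only [ContinuousLinearMapWOT.toCLM_zero, norm_zero, zero_le_one]⟩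
  obtain ⟨v, hv⟩ := (isCompact_ballSet M e f).extremePoints_nonempty hne
  obtain ⟨hvK, hvE⟩ := hv
  refine ⟨v.toCLM, hvK.1, hvK.2.1, hvK.2.2.1, hvK.2.2.2, ?_⟩
  intro u huM hfu hue hp hm
  have h1 : ContinuousLinearMapWOT.ofCLM (v.toCLM + u) ∈ ballSet M e f := by
    refine ⟨add_mem hvK.1 huM, ?_, ?_, hp⟩
    · change f * (v.toCLM + u) = v.toCLM + u
      rw [mul_add, hvK.2.1, hfu]
    · change (v.toCLM + u) * e = v.toCLM + u
      rw [add_mul, hvK.2.2.1, hue]
  have h2 : ContinuousLinearMapWOT.ofCLM (v.toCLM - u) ∈ ballSet M e f := by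
    refine ⟨sub_mem hvK.1 huM, ?_, ?_, hm⟩
    · change f * (v.toCLM - u) = v.toCLM - u
      rw [mul_sub, hvK.2.1, hfu]
    · change (v.toCLM - u) * e = v.toCLM - u
      rw [sub_mul, hvK.2.2.1, hue]
  have h3 : v ∈ openSegment ℝ (ContinuousLinearMapWOT.ofCLM (v.toCLM + u))
      (ContinuousLinearMapWOT.ofCLM (v.toCLM - u)) := by
    refine ⟨1 / 2, 1 / 2, by norm_num, by (clear * -; norm_num), by norm_num, ?_⟩
    apply ContinuousLinearMapWOT.ext
    intro w
    change (1 / 2 : ℝ) • (v.toCLM w + u w) + (1 / 2 : ℝ) • (v.toCLM w - u w) = v.toCLM w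
    rw [← smul_add]
    have : v.toCLM w + u w + (v.toCLM w - u w) = (2 : ℝ) • v.toCLM w := by
      rw [two_smul]; abel
    rw [this, smul_smul]
    norm_num
  have h4 := hvE h1 h2 h3
  have h5 : v.toCLM + u = v.toCLM := congrArg ContinuousLinearMapWOT.toCLM h4
  simpa using h5

theorem norm_sub_of_contraction {v : H →L[ℂ] H} (hv : ‖v‖ ≤ 1) (ξ : H) :
    ‖v ξ‖ ^ 2 ≤ ‖ξ‖ ^ 2 :=
  pow_le_pow_left₀ (norm_nonneg _) (v.le_of_opNorm_le hv ξ |>.trans (by rw [one_mul])) 2

/-- Extreme points of the ball of `f M e` are partial isometries `v` with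
`(f - v v*) M (e - v* v) = 0`. -/
theorem exists_partial_isometry (M : VonNeumannAlgebra H) {e f : H →L[ℂ] H} (heM : e ∈ M)
    (hfM : f ∈ M) (he : IsStarProjection e) (hf : IsStarProjection f) :
    ∃ v ∈ M, f * v = v ∧ v * e = v ∧ v * star v * v = v ∧
      ∀ y ∈ M, (f - v * star v) * y * (e - star v * v) = 0 := by
  obtain ⟨v, hvM, hfv, hve, hv1, hext⟩ := exists_extreme M e f
  have hsv1 : ‖star v‖ ≤ 1 := by rwa [norm_star]
  have hsvM : star v ∈ M := star_mem hvM
  have hesv : e * star v = star v := by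
    have := congrArg star hve
    rwa [star_mul, he.isSelfAdjoint.star_eq] at this
  have hsvf : star v * f = star v := by
    have := congrArg star hfv
    rwa [star_mul, hf.isSelfAdjoint.star_eq] at this
  -- first perturbation
  have hinn : ∀ ξ, ⟪ξ, star v (v ξ)⟫_ℂ = ((‖v ξ‖ ^ 2 : ℝ) : ℂ) := by
    intro ξ
    have h1 : ⟪ξ, star v (v ξ)⟫_ℂ = ⟪v ξ, v ξ⟫_ℂ := by
      rw [← star_apply_inner, star_star]
    rw [h1, inner_self_eq_norm_sq_to_K]
    norm_cast
  have key : v - v * star v * v = 0 := by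
    set u : H →L[ℂ] H := (1 / 2 : ℂ) • (v - v * star v * v) with hu
    have huM : u ∈ M := M.toStarSubalgebra.smul_mem
      (sub_mem hvM (mul_mem (mul_mem hvM hsvM) hvM)) _
    have hfu : f * u = u := by
      rw [hu, mul_smul_comm, mul_sub, hfv, ← mul_assoc, ← mul_assoc, hfv]
    have hue : u * e = u := by
      rw [hu, smul_mul_assoc, sub_mul, hve, mul_assoc, hve]
    have hk : ∀ ξ, ‖u ξ‖ ^ 2 ≤ (1 / 4) * ‖ξ - star v (v ξ)‖ ^ 2 := by
      intro ξ
      have e1 : u ξ = (1 / 2 : ℂ) • v (ξ - star v (v ξ)) := by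
        rw [hu]
        change (1 / 2 : ℂ) • (v ξ - v (star v (v ξ))) = _
        rw [map_sub]
      rw [e1, norm_smul, mul_pow]
      have h1 := norm_sub_of_contraction hv1 (ξ - star v (v ξ))
      have h2 : ‖(1 / 2 : ℂ)‖ ^ 2 = 1 / 4 := by norm_num
      rw [h2]
      linarith only [h1]
    have hns : ∀ ξ, ‖ξ - star v (v ξ)‖ ^ 2 = ‖ξ‖ ^ 2 - 2 * ‖v ξ‖ ^ 2 + ‖star v (v ξ)‖ ^ 2 := by
      intro ξ
      rw [norm_sub_sq (𝕜 := ℂ), hinn]
      norm_cast
    have hre : ∀ ξ, (⟪v ξ, u ξ⟫_ℂ).re = (1 / 2) * (‖v ξ‖ ^ 2 - ‖star v (v ξ)‖ ^ 2) := by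
      intro ξ
      have e1 : u ξ = (1 / 2 : ℂ) • (v ξ - v (star v (v ξ))) := rfl
      have e2 : ⟪v ξ, v (star v (v ξ))⟫_ℂ = ((‖star v (v ξ)‖ ^ 2 : ℝ) : ℂ) := by
        rw [← star_apply_inner, inner_self_eq_norm_sq_to_K]
        norm_cast
      rw [e1, inner_smul_right, inner_sub_right, e2, inner_self_eq_norm_sq_to_K]
      have : (1 / 2 : ℂ) * (((‖v ξ‖ : ℝ) : ℂ) ^ 2 - ((‖star v (v ξ)‖ ^ 2 : ℝ) : ℂ)) =
          (((1 / 2) * (‖v ξ‖ ^ 2 - ‖star v (v ξ)‖ ^ 2) : ℝ) : ℂ) := by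
        push_cast; ring
      erw [this, Complex.ofReal_re]
    have hu0 : u = 0 := by
      refine hext u huM hfu hue ?_ ?_
      · refine ContinuousLinearMap.opNorm_le_bound _ zero_le_one fun ξ => ?_
        rw [one_mul]
        have h1 : ‖(v + u) ξ‖ ^ 2 ≤ ‖ξ‖ ^ 2 := by
          rw [_root_.add_apply, norm_add_sq (𝕜 := ℂ)]
          have h2 := hk ξ
          have h3 := hns ξ
          have h4 := hre ξ
          have h5 := sq_nonneg ‖ξ - star v (v ξ)‖
          change ‖v ξ‖ ^ 2 + 2 * (⟪v ξ, u ξ⟫_ℂ).re + ‖u ξ‖ ^ 2 ≤ ‖ξ‖ ^ 2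
          rw [h4]
          rw [h3] at h2 h5
          linarith only [h2, h5]
        exact (sq_le_sq₀ (norm_nonneg _) (norm_nonneg _)).mp h1
      · refine ContinuousLinearMap.opNorm_le_bound _ zero_le_one fun ξ => ?_
        rw [one_mul]
        have h1 : ‖(v - u) ξ‖ ^ 2 ≤ ‖ξ‖ ^ 2 := by
          rw [_root_.sub_apply, norm_sub_sq (𝕜 := ℂ)]
          have h2 := hk ξ
          have h3 := hns ξ
          have h4 := hre ξ
          have h5 := norm_sub_of_contraction hv1 ξ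
          have h6 := norm_sub_of_contraction hsv1 (v ξ)
          change ‖v ξ‖ ^ 2 - 2 * (⟪v ξ, u ξ⟫_ℂ).re + ‖u ξ‖ ^ 2 ≤ ‖ξ‖ ^ 2
          rw [h4]
          rw [h3] at h2
          (clear M e f heM hfM he hf hvM hfv hve hv1 hext hsv1 hsvM hesv hsvf hinn hu huM hfu hue hk hns hre h3 h4; linarith only [h2, h5, h6])
        exact (sq_le_sq₀ (norm_nonneg _) (norm_nonneg _)).mp h1
    have := congrArg (fun w => (2 : ℂ) • w) hu0
    simpa only [hu, one_div, smul_smul, ne_eq, OfNat.ofNat_ne_zero, not_false_eq_true, mul_inv_cancel₀, one_smul,     smul_zero] using this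
  have hpi : v * star v * v = v := (sub_eq_zero.mp key).symm
  refine ⟨v, hvM, hfv, hve, hpi, ?_⟩
  -- second perturbation
  have hpi' : star v * v * star v = star v := by
    have := congrArg star hpi
    rwa [star_mul, star_mul, star_star, ← mul_assoc] at this
  have hsvv : IsStarProjection (star v * v) := by
    refine ⟨?_, IsSelfAdjoint.star_mul_self v⟩
    change star v * v * (star v * v) = star v * v
    rw [← mul_assoc, hpi']
  have hvsv : IsStarProjection (v * star v) := by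
    refine ⟨?_, IsSelfAdjoint.mul_star_self v⟩
    change v * star v * (v * star v) = v * star v
    rw [← mul_assoc, hpi]
  set e' : H →L[ℂ] H := e - star v * v with he'
  set f' : H →L[ℂ] H := f - v * star v with hf'
  have hee : e * e = e := he.isIdempotentElem.eq
  have hff : f * f = f := hf.isIdempotentElem.eq
  have he'p : IsStarProjection e' := by
    refine ⟨?_, he.isSelfAdjoint.sub hsvv.isSelfAdjoint⟩
    change e' * e' = e'
    rw [he', sub_mul, mul_sub, mul_sub, hee, ← mul_assoc, hesv, mul_assoc, hve,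
      hsvv.isIdempotentElem.eq]
    abel
  have hf'p : IsStarProjection f' := by
    refine ⟨?_, hf.isSelfAdjoint.sub hvsv.isSelfAdjoint⟩
    change f' * f' = f'
    rw [hf', sub_mul, mul_sub, mul_sub, hff, ← mul_assoc, hfv, mul_assoc, hsvf,
      hvsv.isIdempotentElem.eq]
    abel
  have hve' : v * e' = 0 := by
    rw [he', mul_sub, hve, ← mul_assoc, hpi, sub_self]
  have hvf' : star v * f' = 0 := by
    rw [hf', mul_sub, hsvf, ← mul_assoc, hpi', sub_self]
  intro y hy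
  by_contra hne
  set w : H →L[ℂ] H := f' * y * e' with hw
  have hwpos : 0 < ‖w‖ := norm_pos_iff.mpr hne
  set u : H →L[ℂ] H := ((‖w‖⁻¹ : ℝ) : ℂ) • w with hu
  have hun : ‖u‖ = 1 := by
    rw [hu, norm_smul, Complex.norm_real, Real.norm_eq_abs, abs_of_pos (inv_pos.mpr hwpos),
      inv_mul_cancel₀ hwpos.ne']
  have he'M : e' ∈ M := sub_mem heM (mul_mem hsvM hvM)
  have hf'M : f' ∈ M := sub_mem hfM (mul_mem hvM hsvM)
  have huM : u ∈ M := M.toStarSubalgebra.smul_mem (mul_mem (mul_mem hf'M hy) he'M) _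
  have hff' : f * f' = f' := by rw [hf', mul_sub, hff, ← mul_assoc, hfv]
  have he'e : e' * e = e' := by rw [he', sub_mul, hee, mul_assoc, hve]
  have hfu : f * u = u := by
    rw [hu, mul_smul_comm, hw, ← mul_assoc, ← mul_assoc, hff']
  have hue : u * e = u := by
    have : w * e = w := by rw [hw, mul_assoc, he'e]
    rw [hu, smul_mul_assoc, this]
  have hue' : u * e' = u := by
    have : w * e' = w := by rw [hw, mul_assoc, he'p.isIdempotentElem.eq]
    rw [hu, smul_mul_assoc, this]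
  have hsvu : star v * u = 0 := by
    rw [hu, mul_smul_comm, hw, ← mul_assoc, ← mul_assoc, hvf', zero_mul, zero_mul, smul_zero]
  have horth : ∀ ξ, ⟪v ξ, u ξ⟫_ℂ = 0 := by
    intro ξ
    have h1 : star v (u ξ) = 0 := DFunLike.congr_fun hsvu ξ
    rw [← star_star v, star_apply_inner, h1, inner_zero_right]
  have hbound : ∀ ξ, ‖v ξ‖ ^ 2 + ‖u ξ‖ ^ 2 ≤ ‖ξ‖ ^ 2 := by
    intro ξ
    have h1 : v ξ = v ((1 - e') ξ) := by
      have : v (e' ξ) = 0 := DFunLike.congr_fun hve' ξ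
      rw [_root_.sub_apply, one_apply_eq_self, map_sub, this, sub_zero]
    have h2 : u ξ = u (e' ξ) := (DFunLike.congr_fun hue' ξ).symm
    have h3 := norm_sub_of_contraction hv1 ((1 - e') ξ)
    have h4 := norm_sub_of_contraction hun.le (e' ξ)
    rw [h1, h2]
    have h5 := proj_norm_sq he'p ξ
    rw [_root_.sub_apply, one_apply_eq_self] at h3 ⊢
    rw [h5]
    linarith only [h3, h4]
  have hu0 : u = 0 := by
    refine hext u huM hfu hue ?_ ?_
    · refine ContinuousLinearMap.opNorm_le_bound _ zero_le_one fun ξ => ?_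
      rw [one_mul]
      have h1 : ‖(v + u) ξ‖ ^ 2 ≤ ‖ξ‖ ^ 2 := by
        rw [_root_.add_apply, norm_add_sq (𝕜 := ℂ), horth]
        have := hbound ξ
        simp only [RCLike.re_to_complex, Complex.zero_re, mul_zero, add_zero, ge_iff_le]
        linarith only [this]
      exact (sq_le_sq₀ (norm_nonneg _) (norm_nonneg _)).mp h1
    · refine ContinuousLinearMap.opNorm_le_bound _ zero_le_one fun ξ => ?_
      rw [one_mul]
      have h1 : ‖(v - u) ξ‖ ^ 2 ≤ ‖ξ‖ ^ 2 := by
        rw [_root_.sub_apply, norm_sub_sq (𝕜 := ℂ), horth]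
        have := hbound ξ
        simp only [RCLike.re_to_complex, Complex.zero_re, mul_zero, sub_zero, ge_iff_le]
        linarith only [this]
      exact (sq_le_sq₀ (norm_nonneg _) (norm_nonneg _)).mp h1
  rw [hu0, norm_zero] at hun
  exact zero_ne_one hun

end Vale.Agent.P078
end

section

/-! Basic facts on factors. -/

namespace Vale.Agent.P078

open Filter Topology
open scoped InnerProductSpace

variable {H : Type*} [NormedAddCommGroup H] [InnerProductSpace ℂ H] [CompleteSpace H]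
variable {M : VonNeumannAlgebra H} {A : StarSubalgebra ℂ (H →L[ℂ] H)}

/-- the closed span of `M b H` -/
def cspan (M : VonNeumannAlgebra H) (b : H →L[ℂ] H) : Submodule ℂ H :=
  (Submodule.span ℂ {u : H | ∃ y ∈ M, ∃ v, u = y (b v)}).topologicalClosure

instance (M : VonNeumannAlgebra H) (b : H →L[ℂ] H) : (cspan M b).HasOrthogonalProjection := by
  have : CompleteSpace (cspan M b) :=
    (Submodule.isClosed_topologicalClosure _).completeSpace_coe
  infer_instance

theorem cspan_gen {b : H →L[ℂ] H} {y : H →L[ℂ] H} (hy : y ∈ M) (v : H) :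
    y (b v) ∈ cspan M b :=
  Submodule.le_topologicalClosure _ (Submodule.subset_span ⟨y, hy, v, rfl⟩)

theorem cspan_le {b : H →L[ℂ] H} {K : Submodule ℂ H} (hK : IsClosed (K : Set H))
    (h : ∀ y ∈ M, ∀ v, y (b v) ∈ K) : cspan M b ≤ K := by
  refine Submodule.topologicalClosure_minimal _ ?_ hK
  rw [Submodule.span_le]
  rintro _ ⟨y, hy, v, rfl⟩
  exact h y hy v

theorem cspan_invariant {b z : H →L[ℂ] H}
    (h : ∀ y ∈ M, ∀ v, z (y (b v)) ∈ cspan M b) : ∀ w ∈ cspan M b, z w ∈ cspan M b := by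
  have : cspan M b ≤ (cspan M b).comap (z : H →ₗ[ℂ] H) := by
    refine cspan_le ?_ h
    exact (Submodule.isClosed_topologicalClosure _).preimage z.continuous
  exact this

/-- In a factor, `a M b = 0` with `b ≠ 0` in `M` forces `a = 0`. -/
theorem IsFactor.eq_zero (hM : IsFactor M) {a b : H →L[ℂ] H} (hb : b ∈ M) (hb0 : b ≠ 0)
    (h : ∀ y ∈ M, ∀ v, a (y (b v)) = 0) : a = 0 := by
  set P := (cspan M b).starProjection with hP
  have hinvM : ∀ z ∈ M, ∀ w ∈ cspan M b, z w ∈ cspan M b := by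
    intro z hz
    refine cspan_invariant fun y hy v => ?_
    exact cspan_gen (mul_mem hz hy) v
  have hinvM' : ∀ z ∈ M.commutant, ∀ w ∈ cspan M b, z w ∈ cspan M b := by
    intro z hz
    refine cspan_invariant fun y hy v => ?_
    have h1 : z (y (b v)) = y (b (z v)) := by
      have := commutant_comm (mul_mem hy hb) hz
      exact DFunLike.congr_fun this v
    rw [h1]
    exact cspan_gen hy _
  have hPM : P ∈ M := by
    refine mem_of_commute fun z hz => ?_
    exact commute_starProjection _ (hinvM' z hz) (hinvM' _ (star_mem hz))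
  obtain ⟨c, hc⟩ := hM P hPM fun z hz =>
    (commute_starProjection _ (hinvM z hz) (hinvM _ (star_mem hz))).symm
  have hPb : ∀ v, P (b v) = b v := fun v =>
    Submodule.starProjection_eq_self_iff.mpr (cspan_gen (one_mem M) v)
  obtain ⟨v, hv⟩ : ∃ v, b v ≠ 0 := by
    by_contra hcon
    push Not at hcon
    exact hb0 (ContinuousLinearMap.ext hcon)
  have hc1 : c = 1 := by
    have h1 := hPb v
    rw [hc] at h1
    have h2 : (c - 1) • b v = 0 := by
      rw [sub_smul, one_smul]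
      have : c • b v = b v := h1
      rw [this, sub_self]
    rcases smul_eq_zero.mp h2 with h3 | h3
    · exact sub_eq_zero.mp h3
    · exact absurd h3 hv
  have hP1 : ∀ w, P w = w := by
    intro w
    rw [hc, hc1, one_smul]
    rfl
  have htop : ∀ w, w ∈ cspan M b := by
    intro w
    rw [← hP1 w]
    exact Submodule.starProjection_apply_mem _ _
  have hker : cspan M b ≤ LinearMap.ker (a : H →ₗ[ℂ] H) := by
    refine cspan_le ?_ fun y hy v => ?_
    · exact ContinuousLinearMap.isClosed_ker a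
    · rw [LinearMap.mem_ker]
      exact h y hy v
  ext w
  exact LinearMap.mem_ker.mp (hker (htop w))

theorem IsFactor.eq_zero_or (hM : IsFactor M) {a b : H →L[ℂ] H} (hb : b ∈ M)
    (h : ∀ y ∈ M, a * y * b = 0) : a = 0 ∨ b = 0 := by
  by_cases hb0 : b = 0
  · exact Or.inr hb0
  · exact Or.inl (hM.eq_zero hb hb0 fun y hy v => DFunLike.congr_fun (h y hy) v)

/-- Comparison of projections in a factor. -/
theorem IsFactor.exists_compare (hM : IsFactor M) {e f : H →L[ℂ] H} (heM : e ∈ M)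
    (hfM : f ∈ M) (he : IsStarProjection e) (hf : IsStarProjection f) :
    ∃ v ∈ M, f * v = v ∧ v * e = v ∧ (v * star v = f ∨ star v * v = e) := by
  obtain ⟨v, hvM, hfv, hve, -, h⟩ := exists_partial_isometry M heM hfM he hf
  refine ⟨v, hvM, hfv, hve, ?_⟩
  rcases hM.eq_zero_or (sub_mem heM (mul_mem (star_mem hvM) hvM)) h with h1 | h1
  · exact Or.inl (sub_eq_zero.mp h1).symm
  · exact Or.inr (sub_eq_zero.mp h1).symm

end Vale.Agent.P078
end

section

/-! Symmetric flat orthogonal matrices of size a power of two. -/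

namespace Vale.Agent.P078

/-- symmetric matrices with entries `± 1` and orthogonal rows, of size `2 ^ m` -/
theorem exists_walsh_int (m : ℕ) : ∃ h : Fin (2 ^ m) → Fin (2 ^ m) → ℝ,
    (∀ i j, h i j = h j i) ∧ (∀ i j, h i j ^ 2 = 1) ∧
      ∀ i l, ∑ j, h i j * h j l = if i = l then (2 : ℝ) ^ m else 0 := by
  induction m with
  | zero =>
    refine ⟨fun _ _ => 1, fun _ _ => rfl, fun _ _ => by norm_num, fun i l => ?_⟩
    have : i = l := Subsingleton.elim (α := Fin 1) i l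
    simp [this]
  | succ m ih =>
    obtain ⟨h, h1, h2, h3⟩ := ih
    have eq : 2 ^ (m + 1) = 2 ^ m * 2 := by ring
    set φ : Fin (2 ^ (m + 1)) ≃ Fin (2 ^ m) × Fin 2 := (finCongr eq).trans finProdFinEquiv.symm
    set s : Fin 2 → Fin 2 → ℝ := fun a b => if a = 1 ∧ b = 1 then -1 else 1 with hs
    have s1 : ∀ a b, s a b = s b a := by
      intro a b; simp only [hs, and_comm]
    have s2 : ∀ a b, s a b ^ 2 = 1 := by
      intro a b; simp only [hs]; split_ifs <;> norm_num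
    have s3 : ∀ a b, ∑ c, s a c * s c b = if a = b then (2 : ℝ) else 0 := by
      intro a b
      fin_cases a <;> fin_cases b <;> simp [hs, Fin.sum_univ_two] <;> norm_num
    refine ⟨fun i j => h (φ i).1 (φ j).1 * s (φ i).2 (φ j).2, ?_, ?_, ?_⟩
    · intro i j
      beta_reduce
      rw [h1, s1]
    · intro i j
      rw [mul_pow, h2, s2, one_mul]
    · intro i l
      have e1 : ∑ j, h (φ i).1 (φ j).1 * s (φ i).2 (φ j).2 *
          (h (φ j).1 (φ l).1 * s (φ j).2 (φ l).2) =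
          ∑ y : Fin (2 ^ m) × Fin 2, h (φ i).1 y.1 * s (φ i).2 y.2 *
          (h y.1 (φ l).1 * s y.2 (φ l).2) :=
        Equiv.sum_comp φ fun y => h (φ i).1 y.1 * s (φ i).2 y.2 *
          (h y.1 (φ l).1 * s y.2 (φ l).2)
      rw [e1, Fintype.sum_prod_type]
      have e2 : ∀ a, ∑ c, h (φ i).1 a * s (φ i).2 c * (h a (φ l).1 * s c (φ l).2) =
          h (φ i).1 a * h a (φ l).1 * (if (φ i).2 = (φ l).2 then (2 : ℝ) else 0) := by
        intro a
        rw [← s3, Finset.mul_sum]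
        exact Finset.sum_congr rfl fun c _ => by ring
      simp only [e2]
      rw [← Finset.sum_mul, h3]
      by_cases hil : i = l
      · subst hil
        simp only [↓reduceIte]
        ring
      · rw [if_neg hil]
        by_cases h5 : (φ i).1 = (φ l).1
        · have h6 : (φ i).2 ≠ (φ l).2 := fun h6 => hil (φ.injective (Prod.ext h5 h6))
          rw [if_neg h6, mul_zero]
        · rw [if_neg h5, zero_mul]

/-- symmetric orthogonal matrices with flat entries -/
theorem exists_walsh (m : ℕ) : ∃ h : Fin (2 ^ m) → Fin (2 ^ m) → ℝ,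
    (∀ i j, h i j = h j i) ∧ (∀ i j, h i j ^ 2 = 1 / (2 : ℝ) ^ m) ∧
      ∀ i l, ∑ j, h i j * h j l = if i = l then (1 : ℝ) else 0 := by
  obtain ⟨h, h1, h2, h3⟩ := exists_walsh_int m
  set c : ℝ := (Real.sqrt (2 ^ m))⁻¹ with hc
  have hpos : (0 : ℝ) < 2 ^ m := by positivity
  have hc2 : c * c = 1 / (2 : ℝ) ^ m := by
    rw [hc, ← mul_inv, Real.mul_self_sqrt hpos.le, one_div]
  refine ⟨fun i j => c * h i j, fun i j => ?_, fun i j => ?_, fun i l => ?_⟩
  · beta_reduce
    rw [h1]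
  · rw [mul_pow, h2, mul_one, sq, hc2]
  · have : ∑ j, c * h i j * (c * h j l) = c * c * ∑ j, h i j * h j l := by
      rw [Finset.mul_sum]
      exact Finset.sum_congr rfl fun j _ => by ring
    rw [this, h3, hc2]
    split_ifs
    · rw [one_div, inv_mul_cancel₀ hpos.ne']
    · rw [mul_zero]

end Vale.Agent.P078
end

section

/-! The two-norm lower bound for pinchings. -/

namespace Vale.Agent.P078

open Filter Topology
open scoped InnerProductSpace

variable {H : Type*} [NormedAddCommGroup H] [InnerProductSpace ℂ H] [CompleteSpace H]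
variable {M : VonNeumannAlgebra H} {A : StarSubalgebra ℂ (H →L[ℂ] H)}

/-- The functional `vecTrace ξ` is a trace on the corner `e0 M e0`, and the vectors are in the
range of `e0`. -/
structure CornerTrace (M : VonNeumannAlgebra H) (e0 : H →L[ℂ] H) (ξ : ℕ → H) : Prop where
  summable : Summable fun n => ‖ξ n‖ ^ 2
  mem : e0 ∈ M
  proj : IsStarProjection e0
  apply : ∀ n, e0 (ξ n) = ξ n
  trace : ∀ x ∈ M, ∀ y ∈ M, e0 * x * e0 = x → e0 * y * e0 = y →
    vecTrace ξ (x * y) = vecTrace ξ (y * x)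

namespace CornerTrace

variable {e0 : H →L[ℂ] H} {ξ : ℕ → H} (T : CornerTrace M e0 ξ)

/-- the vector map -/
noncomputable def X : (H →L[ℂ] H) →ₗ[ℂ] lp (fun _ : ℕ => H) 2 := vecMap ξ T.summable

/-- the trace as a linear map -/
noncomputable def tr : (H →L[ℂ] H) →ₗ[ℂ] ℂ :=
  (innerₛₗ ℂ (T.X 1)).comp T.X

theorem tr_eq (x : H →L[ℂ] H) : T.tr x = vecTrace ξ x :=
  vecMap_inner_one T.summable x

theorem inner_X (x y : H →L[ℂ] H) : ⟪T.X x, T.X y⟫_ℂ = T.tr (star x * y) := by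
  rw [tr_eq]; exact vecMap_inner T.summable x y

theorem norm_X_mul (a b : H →L[ℂ] H) : ‖T.X (a * b)‖ ≤ ‖a‖ * ‖T.X b‖ :=
  vecMap_mul_le T.summable a b

theorem X_mul_e0 (x : H →L[ℂ] H) : T.X (x * e0) = T.X x :=
  vecMap_congr T.summable fun n => by
    change x (e0 (ξ n)) = x (ξ n)
    rw [T.apply]

theorem tr_mul_e0 (x : H →L[ℂ] H) : T.tr (x * e0) = T.tr x := by
  change ⟪T.X 1, T.X (x * e0)⟫_ℂ = ⟪T.X 1, T.X x⟫_ℂ
  rw [X_mul_e0]

theorem tr_e0_mul (x : H →L[ℂ] H) : T.tr (e0 * x) = T.tr x := by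
  have h1 := T.inner_X e0 x
  have h2 := T.inner_X 1 x
  have h3 : T.X e0 = T.X 1 := by
    have := T.X_mul_e0 1
    rwa [one_mul] at this
  rw [T.proj.isSelfAdjoint.star_eq] at h1
  rw [star_one, one_mul] at h2
  rw [← h1, ← h2, h3]

theorem tr_comm {u p : H →L[ℂ] H} (hu : u ∈ M) (hue : e0 * u * e0 = u) (hp : p ∈ M)
    (hpe : e0 * p = p * e0) : T.tr (u * p) = T.tr (p * u) := by
  have hee : e0 * e0 = e0 := T.proj.isIdempotentElem.eq
  have hu1 : e0 * u = u := by rw [← hue, ← mul_assoc, ← mul_assoc, hee]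
  have hu2 : u * e0 = u := by rw [← hue, mul_assoc, hee]
  have h1 : T.tr (u * (e0 * p)) = T.tr ((e0 * p) * u) := by
    rw [tr_eq, tr_eq]
    refine T.trace u hu (e0 * p) (mul_mem T.mem hp) hue ?_
    rw [← mul_assoc, hee, hpe, mul_assoc, hee]
  rw [← mul_assoc, hu2, hpe, mul_assoc, hu1] at h1
  exact h1

theorem norm_X_sq (x : H →L[ℂ] H) : ‖T.X x‖ ^ 2 = (T.tr (star x * x)).re := by
  rw [← inner_X, inner_self_eq_norm_sq_to_K]
  norm_cast

theorem norm_X_sq_sa {x : H →L[ℂ] H} (hx : IsSelfAdjoint x) :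
    ‖T.X x‖ ^ 2 = (T.tr (x * x)).re := by
  rw [norm_X_sq, hx.star_eq]

theorem norm_X_proj_sq {x : H →L[ℂ] H} (hx : IsStarProjection x) :
    ‖T.X x‖ ^ 2 = (T.tr x).re := by
  rw [norm_X_sq, hx.isSelfAdjoint.star_eq, hx.isIdempotentElem.eq]

/-- the operator of a so-paving has small two-norm -/
theorem norm_X_le_of_compress {S q : H →L[ℂ] H} (hS : S ∈ M) (hSs : IsSelfAdjoint S)
    (hSe : e0 * S = S * e0) (hq : q ∈ M) (hqp : IsStarProjection q) {C κ : ℝ}
    (hC : ‖S‖ ≤ C) (h1 : ‖T.X 1‖ ≤ 1) (hκ : ‖T.X (1 - q)‖ ≤ κ) :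
    ‖T.X S‖ ≤ ‖q * S * q‖ + C * κ + C * Real.sqrt κ := by
  have hee : e0 * e0 = e0 := T.proj.isIdempotentElem.eq
  have hC0 : 0 ≤ C := (norm_nonneg _).trans hC
  have hκ0 : 0 ≤ κ := (norm_nonneg _).trans hκ
  have hqq : q * q = q := hqp.isIdempotentElem.eq
  have hsplit : S = q * S * q + q * S * (1 - q) + (1 - q) * S := by noncomm_ring
  have a1 : ‖T.X (q * S * q)‖ ≤ ‖q * S * q‖ := by
    have := T.norm_X_mul (q * S * q) 1
    rw [mul_one] at this
    calc ‖T.X (q * S * q)‖ ≤ ‖q * S * q‖ * ‖T.X 1‖ := this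
      _ ≤ ‖q * S * q‖ * 1 := mul_le_mul_of_nonneg_left h1 (norm_nonneg _)
      _ = _ := mul_one _
  have hqn : ‖q‖ ≤ 1 := ContinuousLinearMap.opNorm_le_bound _ zero_le_one fun v => by
    rw [one_mul]; exact proj_norm_le hqp v
  have a2 : ‖T.X (q * S * (1 - q))‖ ≤ C * κ := by
    calc ‖T.X (q * S * (1 - q))‖ ≤ ‖q * S‖ * ‖T.X (1 - q)‖ := T.norm_X_mul _ _
      _ ≤ C * κ := by
          refine mul_le_mul ?_ hκ (norm_nonneg _) hC0
          calc ‖q * S‖ ≤ ‖q‖ * ‖S‖ := norm_mul_le _ _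
            _ ≤ 1 * C := mul_le_mul hqn hC (norm_nonneg _) zero_le_one
            _ = C := one_mul _
  have a3 : ‖T.X ((1 - q) * S)‖ ≤ C * Real.sqrt κ := by
    obtain ⟨b, hb⟩ : ∃ b : H →L[ℂ] H, b = e0 * (1 - q) * e0 := ⟨_, rfl⟩
    obtain ⟨S0, hS0⟩ : ∃ S0 : H →L[ℂ] H, S0 = e0 * S := ⟨_, rfl⟩
    have hbM : b ∈ M := by
      rw [hb]; exact mul_mem (mul_mem T.mem (sub_mem (one_mem M) hq)) T.mem
    have hbe : e0 * b * e0 = b := by
      rw [hb]
      calc e0 * (e0 * (1 - q) * e0) * e0 = (e0 * e0) * (1 - q) * (e0 * e0) := by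
            simp only [mul_assoc]
        _ = _ := by rw [hee]
    have hS0M : S0 ∈ M := by rw [hS0]; exact mul_mem T.mem hS
    have hS0e : e0 * S0 * e0 = S0 := by
      rw [hS0, ← mul_assoc, hee, hSe, mul_assoc, hee]
    have e1 : ‖T.X ((1 - q) * S)‖ ^ 2 = (T.tr (b * (S0 * S0))).re := by
      rw [T.norm_X_sq, star_mul, hSs.star_eq, hqp.one_sub.isSelfAdjoint.star_eq]
      have e2 : S * (1 - q) * ((1 - q) * S) = S * ((1 - q) * S) := by
        rw [mul_assoc, ← mul_assoc (1 - q), hqp.one_sub.isIdempotentElem.eq]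
      rw [e2, ← T.tr_mul_e0, ← T.tr_e0_mul]
      have e3 : e0 * (S * ((1 - q) * S) * e0) = S0 * (b * S0) := by
        calc e0 * (S * ((1 - q) * S) * e0) = (e0 * S) * (1 - q) * (S * e0) := by
              simp only [mul_assoc]
          _ = (S * e0) * (1 - q) * (e0 * S) := by rw [hSe]
          _ = (S * (e0 * e0)) * (1 - q) * ((e0 * e0) * S) := by rw [hee]
          _ = (S * e0) * b * (e0 * S) := by rw [hb]; simp only [mul_assoc]
          _ = S0 * (b * S0) := by rw [← hSe, hS0]; simp only [mul_assoc]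
      have f1 : e0 * b = b := by rw [← hbe, ← mul_assoc, ← mul_assoc, hee]
      have f2 : S0 * e0 = S0 := by rw [← hS0e, mul_assoc, hee]
      have f3 : e0 * (b * S0) = b * S0 * e0 := by rw [← mul_assoc, f1, mul_assoc, f2]
      rw [e3, T.tr_comm hS0M hS0e (mul_mem hbM hS0M) f3, mul_assoc]
    have e4 : (T.tr (b * (S0 * S0))).re ≤ κ * C ^ 2 := by
      have e5 : T.tr (b * (S0 * S0)) = ⟪T.X (star b), T.X (S0 * S0)⟫_ℂ := by
        rw [T.inner_X, star_star]
      have hbs : star b = b := by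
        rw [hb, star_mul, star_mul, T.proj.isSelfAdjoint.star_eq,
          hqp.one_sub.isSelfAdjoint.star_eq, mul_assoc]
      rw [hbs] at e5
      have he0n : ‖e0‖ ≤ 1 := ContinuousLinearMap.opNorm_le_bound _ zero_le_one fun v => by
        rw [one_mul]; exact proj_norm_le T.proj v
      have e6 : ‖T.X b‖ ≤ κ := by
        rw [hb, T.X_mul_e0]
        calc _ ≤ ‖e0‖ * ‖T.X (1 - q)‖ := T.norm_X_mul _ _
          _ ≤ 1 * κ := mul_le_mul he0n hκ (norm_nonneg _) zero_le_one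
          _ = κ := one_mul _
      have hS0n : ‖S0‖ ≤ C := by
        calc ‖S0‖ ≤ ‖e0‖ * ‖S‖ := by rw [hS0]; exact norm_mul_le _ _
          _ ≤ 1 * C := mul_le_mul he0n hC (norm_nonneg _) zero_le_one
          _ = C := one_mul _
      have e7 : ‖T.X (S0 * S0)‖ ≤ C ^ 2 := by
        have := T.norm_X_mul (S0 * S0) 1
        rw [mul_one] at this
        calc _ ≤ ‖S0 * S0‖ * ‖T.X 1‖ := this
          _ ≤ (‖S0‖ * ‖S0‖) * 1 := mul_le_mul (norm_mul_le _ _) h1 (norm_nonneg _) (by (clear * -; (clear * -; positivity)))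
          _ ≤ C ^ 2 := by rw [mul_one, sq]; exact mul_le_mul hS0n hS0n (norm_nonneg _) hC0
      calc (T.tr (b * (S0 * S0))).re ≤ ‖T.tr (b * (S0 * S0))‖ := Complex.re_le_norm _
        _ ≤ ‖T.X b‖ * ‖T.X (S0 * S0)‖ := by rw [e5]; exact norm_inner_le_norm _ _
        _ ≤ κ * C ^ 2 := mul_le_mul e6 e7 (norm_nonneg _) hκ0
    have e8 : ‖T.X ((1 - q) * S)‖ ^ 2 ≤ (C * Real.sqrt κ) ^ 2 := by
      rw [e1, mul_pow, Real.sq_sqrt hκ0]
      linarith only [e4]
    exact (sq_le_sq₀ (norm_nonneg _) (by (clear * - hC0; (clear * - hC0; positivity)))).mp e8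
  calc ‖T.X S‖ = ‖T.X (q * S * q) + T.X (q * S * (1 - q)) + T.X ((1 - q) * S)‖ := by
        rw [← map_add, ← map_add, ← hsplit]
    _ ≤ ‖T.X (q * S * q)‖ + ‖T.X (q * S * (1 - q))‖ + ‖T.X ((1 - q) * S)‖ :=
        (norm_add_le _ _).trans (add_le_add_left (norm_add_le _ _) _)
    _ ≤ _ := add_le_add (add_le_add a1 a2) a3

end CornerTrace

end Vale.Agent.P078
end

section

/-! The flat self-adjoint element attached to equivalent projections. -/

namespace Vale.Agent.P078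

open Filter Topology
open scoped InnerProductSpace

variable {H : Type*} [NormedAddCommGroup H] [InnerProductSpace ℂ H] [CompleteSpace H]
variable {M : VonNeumannAlgebra H} {A : StarSubalgebra ℂ (H →L[ℂ] H)}

/-- orthogonal projections of `A`, contractions of `M` from `g` into them, and a flat symmetric
orthogonal matrix -/
structure HFrame (M : VonNeumannAlgebra H) (A : StarSubalgebra ℂ (H →L[ℂ] H))
    (e0 g : H →L[ℂ] H) (ι : Type) [Fintype ι] [DecidableEq ι] where
  e : ι → (H →L[ℂ] H)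
  v : ι → (H →L[ℂ] H)
  h : ι → ι → ℝ
  eA : ∀ i, e i ∈ A
  eP : ∀ i, IsStarProjection (e i)
  eo : ∀ i j, i ≠ j → e i * e j = 0
  ee : ∀ i, e0 * e i = e i
  gM : g ∈ M
  gP : IsStarProjection g
  eg : e0 * g = g
  vM : ∀ i, v i ∈ M
  ev : ∀ i, e i * v i = v i
  vg : ∀ i, v i * g = v i
  vn : ∀ i, ‖v i‖ ≤ 1
  hs : ∀ i j, h i j = h j i
  h2 : ∀ i j, h i j ^ 2 = 1 / (Fintype.card ι : ℝ)
  ho : ∀ i l, ∑ j, h i j * h j l = if i = l then (1 : ℝ) else 0

theorem norm_sum_sq_of_orth {ι : Type*} (s : Finset ι) (u : ι → H)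
    (h : ∀ i ∈ s, ∀ j ∈ s, i ≠ j → ⟪u i, u j⟫_ℂ = 0) :
    ‖∑ i ∈ s, u i‖ ^ 2 = ∑ i ∈ s, ‖u i‖ ^ 2 := by
  classical
  have h1 : ⟪∑ i ∈ s, u i, ∑ i ∈ s, u i⟫_ℂ = ((∑ i ∈ s, ‖u i‖ ^ 2 : ℝ) : ℂ) := by
    rw [sum_inner]
    push_cast
    refine Finset.sum_congr rfl fun i hi => ?_
    rw [inner_sum, Finset.sum_eq_single i]
    · rw [inner_self_eq_norm_sq_to_K]
      norm_cast
    · intro j hj hji
      exact h i hi j hj hji.symm
    · intro hi'; exact absurd hi hi'
  have h2 := congrArg Complex.re h1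
  rw [inner_self_re, Complex.ofReal_re] at h2
  exact h2

namespace HFrame

variable {e0 g : H →L[ℂ] H} {ι : Type} [Fintype ι] [DecidableEq ι] (Fr : HFrame M A e0 g ι)

/-- the flat element -/
noncomputable def x : H →L[ℂ] H :=
  ∑ i, ∑ j, ((Fr.h i j : ℝ) : ℂ) • (Fr.v i * star (Fr.v j))

theorem sve (j : ι) : star (Fr.v j) * Fr.e j = star (Fr.v j) := by
  have := congrArg star (Fr.ev j)
  rwa [star_mul, (Fr.eP j).isSelfAdjoint.star_eq] at this

theorem x_mem : Fr.x ∈ M :=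
  sum_mem fun i _ => sum_mem fun j _ =>
    M.toStarSubalgebra.smul_mem (mul_mem (Fr.vM i) (star_mem (Fr.vM j))) _

theorem x_sa : IsSelfAdjoint Fr.x := by
  unfold x
  rw [IsSelfAdjoint, star_sum]
  simp_rw [star_sum, star_smul, star_mul, star_star]
  rw [Finset.sum_comm]
  refine Finset.sum_congr rfl fun i _ => Finset.sum_congr rfl fun j _ => ?_
  rw [Fr.hs j i, Complex.star_def, Complex.conj_ofReal]

theorem e0v (i : ι) : e0 * Fr.v i = Fr.v i := by
  rw [← Fr.ev i, ← mul_assoc, Fr.ee]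

theorem sve0 (he0 : IsStarProjection e0) (i : ι) : star (Fr.v i) * e0 = star (Fr.v i) := by
  have := congrArg star (Fr.e0v i)
  rwa [star_mul, he0.isSelfAdjoint.star_eq] at this

theorem x_e0 (he0 : IsStarProjection e0) : e0 * Fr.x * e0 = Fr.x := by
  unfold x
  rw [Finset.mul_sum, Finset.sum_mul]
  refine Finset.sum_congr rfl fun i _ => ?_
  rw [Finset.mul_sum, Finset.sum_mul]
  refine Finset.sum_congr rfl fun j _ => ?_
  rw [mul_smul_comm, smul_mul_assoc, ← mul_assoc, Fr.e0v, mul_assoc, Fr.sve0 he0]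

theorem x_norm : ‖Fr.x‖ ≤ 1 := by
  refine ContinuousLinearMap.opNorm_le_bound _ zero_le_one fun ζ => ?_
  rw [one_mul]
  set u : ι → H := fun j => star (Fr.v j) ζ with hu
  set w : ι → H := fun i => ∑ j, ((Fr.h i j : ℝ) : ℂ) • u j with hw
  have h1 : Fr.x ζ = ∑ i, Fr.v i (w i) := by
    unfold x
    rw [_root_.sum_apply]
    refine Finset.sum_congr rfl fun i _ => ?_
    rw [_root_.sum_apply, hw, map_sum]
    refine Finset.sum_congr rfl fun j _ => ?_
    rw [map_smul]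
    rfl
  have h2 : ‖Fr.x ζ‖ ^ 2 = ∑ i, ‖Fr.v i (w i)‖ ^ 2 := by
    rw [h1]
    refine norm_sum_sq_of_orth _ _ fun i _ j _ hij => ?_
    have e1 : Fr.v i (w i) = Fr.e i (Fr.v i (w i)) := (DFunLike.congr_fun (Fr.ev i) _).symm
    have e2 : Fr.v j (w j) = Fr.e j (Fr.v j (w j)) := (DFunLike.congr_fun (Fr.ev j) _).symm
    rw [e1, e2, proj_inner (Fr.eP i)]
    have e3 : Fr.e i (Fr.e j (Fr.v j (w j))) = 0 :=
      DFunLike.congr_fun (Fr.eo i j hij) (Fr.v j (w j))
    rw [e3, inner_zero_right]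
  have h3 : ∑ i, ‖Fr.v i (w i)‖ ^ 2 ≤ ∑ i, ‖w i‖ ^ 2 :=
    Finset.sum_le_sum fun i _ => norm_sub_of_contraction (Fr.vn i) _
  have h4 : ∑ i, ‖w i‖ ^ 2 = ∑ j, ‖u j‖ ^ 2 := by
    have e1 : ((∑ i, ‖w i‖ ^ 2 : ℝ) : ℂ) = ((∑ j, ‖u j‖ ^ 2 : ℝ) : ℂ) := by
      push_cast
      have e2 : ∀ i, ((‖w i‖ : ℝ) : ℂ) ^ 2 =
          ∑ j, ∑ l, ((Fr.h j i * Fr.h i l : ℝ) : ℂ) * ⟪u j, u l⟫_ℂ := by
        intro i
        have : ((‖w i‖ : ℝ) : ℂ) ^ 2 = ⟪w i, w i⟫_ℂ := by
          rw [inner_self_eq_norm_sq_to_K]; rfl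
        rw [this, hw]
        beta_reduce
        rw [sum_inner]
        refine Finset.sum_congr rfl fun j _ => ?_
        rw [inner_sum]
        refine Finset.sum_congr rfl fun l _ => ?_
        rw [inner_smul_left, inner_smul_right, Complex.conj_ofReal, Fr.hs j i]
        push_cast
        ring
      simp_rw [e2]
      rw [Finset.sum_comm]
      refine Finset.sum_congr rfl fun j _ => ?_
      rw [Finset.sum_comm]
      have e3 : ∀ l, ∑ i, ((Fr.h j i * Fr.h i l : ℝ) : ℂ) * ⟪u j, u l⟫_ℂ =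
          if j = l then ⟪u j, u l⟫_ℂ else 0 := by
        intro l
        rw [← Finset.sum_mul, ← Complex.ofReal_sum, Fr.ho]
        split_ifs <;> simp
      simp_rw [e3]
      rw [Finset.sum_ite_eq Finset.univ j]
      rw [if_pos (Finset.mem_univ j), inner_self_eq_norm_sq_to_K]
      rfl
    exact_mod_cast e1
  have h5 : ∑ j, ‖u j‖ ^ 2 ≤ ∑ j, ‖Fr.e j ζ‖ ^ 2 := by
    refine Finset.sum_le_sum fun j _ => ?_
    have e1 : u j = star (Fr.v j) (Fr.e j ζ) := (DFunLike.congr_fun (Fr.sve j) ζ).symm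
    rw [e1]
    exact norm_sub_of_contraction (by rw [norm_star]; exact Fr.vn j) _
  have h6 : ∑ j, ‖Fr.e j ζ‖ ^ 2 ≤ ‖ζ‖ ^ 2 := by
    set G : H →L[ℂ] H := ∑ j, Fr.e j with hG
    have hGp : IsStarProjection G := by
      refine ⟨?_, ?_⟩
      · change G * G = G
        rw [hG, Finset.sum_mul_sum]
        refine Finset.sum_congr rfl fun i _ => ?_
        rw [Finset.sum_eq_single i]
        · exact (Fr.eP i).isIdempotentElem.eq
        · intro j _ hj; exact Fr.eo i j hj.symm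
        · intro h; exact absurd (Finset.mem_univ i) h
      · rw [IsSelfAdjoint, hG, star_sum]
        exact Finset.sum_congr rfl fun i _ => (Fr.eP i).isSelfAdjoint.star_eq
    have e1 : ∑ j, ‖Fr.e j ζ‖ ^ 2 = ‖G ζ‖ ^ 2 := by
      rw [hG, _root_.sum_apply]
      symm
      refine norm_sum_sq_of_orth _ _ fun i _ j _ hij => ?_
      rw [proj_inner (Fr.eP i)]
      have e3 : Fr.e i (Fr.e j ζ) = 0 := DFunLike.congr_fun (Fr.eo i j hij) ζ
      rw [e3, inner_zero_right]
    rw [e1]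
    exact pow_le_pow_left₀ (norm_nonneg _) (proj_norm_le hGp ζ) 2
  have h7 : ‖Fr.x ζ‖ ^ 2 ≤ ‖ζ‖ ^ 2 := by
    rw [h2]
    (clear hu h1 h2; linarith only [h3, h4, h5, h6])
  exact (sq_le_sq₀ (norm_nonneg _) (norm_nonneg _)).mp h7

/-- off-diagonal compressions vanish -/
theorem cross (hc : ∀ x ∈ A, ∀ y ∈ A, x * y = y * x) {p : H →L[ℂ] H} (hp : p ∈ A) {i j : ι}
    (hij : i ≠ j) : star (Fr.v i) * p * Fr.v j = 0 := by
  rw [← Fr.sve i, ← Fr.ev j]
  calc star (Fr.v i) * Fr.e i * p * (Fr.e j * Fr.v j)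
      = star (Fr.v i) * (Fr.e i * (p * Fr.e j)) * Fr.v j := by simp only [mul_assoc]
    _ = star (Fr.v i) * ((Fr.e i * Fr.e j) * p) * Fr.v j := by
        rw [hc p hp _ (Fr.eA j), mul_assoc (Fr.e i)]
    _ = 0 := by rw [Fr.eo i j hij]; simp only [zero_mul, mul_zero]

/-- the compression of `p` to the first projection -/
noncomputable def y (p : H →L[ℂ] H) (i : ι) : H →L[ℂ] H := star (Fr.v i) * p * Fr.v i

/-- the sum of the compressions -/
noncomputable def Y (p : H →L[ℂ] H) : H →L[ℂ] H := ∑ i, Fr.y p i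

/-- the sum of the range projections -/
noncomputable def G : H →L[ℂ] H := ∑ i, Fr.v i * star (Fr.v i)

theorem sv_p_x (hc : ∀ x ∈ A, ∀ y ∈ A, x * y = y * x) {p : H →L[ℂ] H} (hp : p ∈ A) (j : ι) :
    star (Fr.v j) * (p * Fr.x) = ∑ b, ((Fr.h j b : ℝ) : ℂ) • (Fr.y p j * star (Fr.v b)) := by
  unfold x y
  rw [Finset.mul_sum, Finset.mul_sum, Finset.sum_eq_single j]
  · rw [Finset.mul_sum, Finset.mul_sum]
    refine Finset.sum_congr rfl fun b _ => ?_
    rw [mul_smul_comm, mul_smul_comm]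
    simp only [mul_assoc]
  · intro a _ haj
    rw [Finset.mul_sum, Finset.mul_sum]
    refine Finset.sum_eq_zero fun b _ => ?_
    rw [mul_smul_comm, mul_smul_comm]
    have := Fr.cross hc hp haj.symm
    have e1 : star (Fr.v j) * (p * (Fr.v a * star (Fr.v b))) =
        star (Fr.v j) * p * Fr.v a * star (Fr.v b) := by simp only [mul_assoc]
    rw [e1, this, zero_mul, smul_zero]
  · intro h; exact absurd (Finset.mem_univ j) h

end HFrame

end Vale.Agent.P078
end

end

section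
section

/-! Trace computations for the flat element. -/

namespace Vale.Agent.P078

open Filter Topology
open scoped InnerProductSpace

variable {H : Type*} [NormedAddCommGroup H] [InnerProductSpace ℂ H] [CompleteSpace H]
variable {M : VonNeumannAlgebra H} {A : StarSubalgebra ℂ (H →L[ℂ] H)}

namespace HFrame

variable {e0 g : H →L[ℂ] H} {ι : Type} [Fintype ι] [DecidableEq ι] (Fr : HFrame M A e0 g ι)
variable {ξ : ℕ → H} (T : CornerTrace M e0 ξ)

theorem gsv (i : ι) : g * star (Fr.v i) = star (Fr.v i) := by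
  have := congrArg star (Fr.vg i)
  rwa [star_mul, Fr.gP.isSelfAdjoint.star_eq] at this

theorem e0sv (i : ι) : e0 * star (Fr.v i) = star (Fr.v i) := by
  rw [← Fr.gsv, ← mul_assoc, Fr.eg]

theorem ve0 (he0 : IsStarProjection e0) (i : ι) : Fr.v i * e0 = Fr.v i := by
  have := congrArg star (Fr.e0sv i)
  rwa [star_mul, star_star, he0.isSelfAdjoint.star_eq] at this

theorem av_corner (he0 : IsStarProjection e0) {a : H →L[ℂ] H} (ha : e0 * a = a * e0) (i : ι) :
    e0 * (a * Fr.v i) * e0 = a * Fr.v i := by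
  calc e0 * (a * Fr.v i) * e0 = (e0 * a) * (Fr.v i * e0) := by simp only [mul_assoc]
    _ = a * (e0 * Fr.v i) := by rw [ha, Fr.ve0 he0, mul_assoc]
    _ = a * Fr.v i := by rw [Fr.e0v]

theorem y_mem (hA : A ≤ M.toStarSubalgebra) {p : H →L[ℂ] H} (hp : p ∈ A) (i : ι) :
    Fr.y p i ∈ M := mul_mem (mul_mem (star_mem (Fr.vM i)) (hA hp)) (Fr.vM i)

theorem y_sa {p : H →L[ℂ] H} (hp : IsSelfAdjoint p) (i : ι) : IsSelfAdjoint (Fr.y p i) := by
  unfold y
  rw [IsSelfAdjoint, star_mul, star_mul, star_star, hp.star_eq, mul_assoc]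

theorem Y_sa {p : H →L[ℂ] H} (hp : IsSelfAdjoint p) : IsSelfAdjoint (Fr.Y p) := by
  unfold Y
  rw [IsSelfAdjoint, star_sum]
  exact Finset.sum_congr rfl fun i _ => (Fr.y_sa hp i).star_eq

theorem gY (p : H →L[ℂ] H) : g * Fr.Y p = Fr.Y p := by
  unfold Y y
  rw [Finset.mul_sum]
  refine Finset.sum_congr rfl fun i _ => ?_
  rw [← mul_assoc, ← mul_assoc, Fr.gsv]

/-- trace identity for one projection -/
theorem tr_pxpx (hA : A ≤ M.toStarSubalgebra) (hc : ∀ x ∈ A, ∀ y ∈ A, x * y = y * x)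
    (he0 : e0 ∈ A) {p : H →L[ℂ] H} (hp : p ∈ A) :
    T.tr (p * Fr.x * (p * Fr.x)) = (1 / (Fintype.card ι : ℂ)) * T.tr (Fr.Y p * Fr.Y p) := by
  have hpM : p ∈ M := hA hp
  have hep : e0 * p = p * e0 := hc _ he0 _ hp
  have h1 : p * Fr.x * (p * Fr.x) = ∑ i, ∑ j, ∑ b, ((Fr.h i j : ℝ) : ℂ) •
      (((Fr.h j b : ℝ) : ℂ) • (p * Fr.v i * Fr.y p j * star (Fr.v b))) := by
    have e1 : p * Fr.x * (p * Fr.x) =
        ∑ i, ∑ j, ((Fr.h i j : ℝ) : ℂ) • (p * Fr.v i * (star (Fr.v j) * (p * Fr.x))) := by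
      have e2 : p * Fr.x = ∑ i, ∑ j, ((Fr.h i j : ℝ) : ℂ) • (p * (Fr.v i * star (Fr.v j))) := by
        unfold x
        rw [Finset.mul_sum]
        refine Finset.sum_congr rfl fun i _ => ?_
        rw [Finset.mul_sum]
        exact Finset.sum_congr rfl fun j _ => by rw [mul_smul_comm]
      nth_rewrite 1 [e2]
      rw [Finset.sum_mul]
      refine Finset.sum_congr rfl fun i _ => ?_
      rw [Finset.sum_mul]
      refine Finset.sum_congr rfl fun j _ => ?_
      rw [smul_mul_assoc]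
      simp only [mul_assoc]
    rw [e1]
    refine Finset.sum_congr rfl fun i _ => Finset.sum_congr rfl fun j _ => ?_
    rw [Fr.sv_p_x hc hp, Finset.mul_sum, Finset.smul_sum]
    refine Finset.sum_congr rfl fun b _ => ?_
    rw [mul_smul_comm]
    simp only [mul_assoc]
  have h2 : ∀ i j b, T.tr (p * Fr.v i * Fr.y p j * star (Fr.v b)) =
      if i = b then T.tr (Fr.y p i * Fr.y p j) else 0 := by
    intro i j b
    have hyM := Fr.y_mem hA hp j
    have hu : p * Fr.v i * Fr.y p j ∈ M := mul_mem (mul_mem hpM (Fr.vM i)) hyM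
    have hue : e0 * (p * Fr.v i * Fr.y p j) * e0 = p * Fr.v i * Fr.y p j := by
      have e1 : Fr.y p j * e0 = Fr.y p j := by
        unfold y; rw [mul_assoc, Fr.ve0 T.proj]
      have e2 : e0 * (p * Fr.v i) = p * Fr.v i := by
        rw [← mul_assoc, hep, mul_assoc, Fr.e0v]
      rw [← mul_assoc, e2, mul_assoc, e1]
    have hb : e0 * star (Fr.v b) = star (Fr.v b) * e0 := by
      rw [Fr.e0sv, Fr.sve0 T.proj]
    rw [T.tr_comm hu hue (star_mem (Fr.vM b)) hb]
    by_cases hib : i = b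
    · subst hib
      rw [if_pos rfl]
      refine congrArg T.tr ?_
      unfold y
      simp only [mul_assoc]
    · rw [if_neg hib]
      have e1 : star (Fr.v b) * (p * Fr.v i * Fr.y p j) = 0 := by
        rw [← mul_assoc, ← mul_assoc, Fr.cross hc hp (Ne.symm hib), zero_mul]
      rw [e1, map_zero]
  rw [h1]
  simp only [map_sum, map_smul, h2, smul_eq_mul]
  have h3 : ∀ i j, ∑ b, ((Fr.h i j : ℝ) : ℂ) * (((Fr.h j b : ℝ) : ℂ) *
      (if i = b then T.tr (Fr.y p i * Fr.y p j) else 0)) =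
      (1 / (Fintype.card ι : ℂ)) * T.tr (Fr.y p i * Fr.y p j) := by
    intro i j
    rw [Finset.sum_eq_single i]
    · rw [if_pos rfl, ← mul_assoc, Fr.hs j i]
      have := Fr.h2 i j
      have h4 : ((Fr.h i j : ℝ) : ℂ) * ((Fr.h i j : ℝ) : ℂ) = 1 / (Fintype.card ι : ℂ) := by
        rw [← Complex.ofReal_mul, ← sq, this]
        push_cast
        rfl
      rw [h4]
    · intro b _ hb
      rw [if_neg (Ne.symm hb), mul_zero, mul_zero]
    · intro h; exact absurd (Finset.mem_univ i) h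
  simp_rw [h3]
  unfold Y
  rw [Finset.sum_mul_sum, map_sum, Finset.mul_sum]
  refine Finset.sum_congr rfl fun i _ => ?_
  rw [map_sum, Finset.mul_sum]

/-- the trace of `Y` -/
theorem tr_Y (hA : A ≤ M.toStarSubalgebra) (hc : ∀ x ∈ A, ∀ y ∈ A, x * y = y * x)
    (he0 : e0 ∈ A) {p : H →L[ℂ] H} (hp : p ∈ A) : T.tr (Fr.Y p) = T.tr (p * Fr.G) := by
  have hpM : p ∈ M := hA hp
  have hep : e0 * p = p * e0 := hc _ he0 _ hp
  unfold Y G y
  rw [map_sum, Finset.mul_sum, map_sum]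
  refine Finset.sum_congr rfl fun i _ => ?_
  have hu : p * Fr.v i ∈ M := mul_mem hpM (Fr.vM i)
  have hue : e0 * (p * Fr.v i) * e0 = p * Fr.v i := Fr.av_corner T.proj hep i
  have hb : e0 * star (Fr.v i) = star (Fr.v i) * e0 := by
    rw [Fr.e0sv, Fr.sve0 T.proj]
  have := T.tr_comm hu hue (star_mem (Fr.vM i)) hb
  rw [mul_assoc (star (Fr.v i)), ← this, mul_assoc]

theorem G_sa : IsSelfAdjoint Fr.G := by
  unfold G
  rw [IsSelfAdjoint, star_sum]
  exact Finset.sum_congr rfl fun i _ => by rw [star_mul, star_star]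

/-- lower bound for one projection -/
theorem pxpx_ge (hA : A ≤ M.toStarSubalgebra) (hc : ∀ x ∈ A, ∀ y ∈ A, x * y = y * x)
    (he0 : e0 ∈ A) (hg : ‖T.X g‖ ^ 2 ≤ 1 / (Fintype.card ι : ℝ)) {p : H →L[ℂ] H} (hp : p ∈ A)
    (hps : IsSelfAdjoint p) :
    (T.tr (p * Fr.G)).re ^ 2 ≤ (T.tr (p * Fr.x * (p * Fr.x))).re := by
  have h1 : T.tr (Fr.Y p) = ⟪T.X g, T.X (Fr.Y p)⟫_ℂ := by
    rw [T.inner_X, Fr.gP.isSelfAdjoint.star_eq, Fr.gY]
  have h2 : ‖T.X (Fr.Y p)‖ ^ 2 = (T.tr (Fr.Y p * Fr.Y p)).re := T.norm_X_sq_sa (Fr.Y_sa hps)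
  have h3 : (T.tr (p * Fr.x * (p * Fr.x))).re =
      (1 / (Fintype.card ι : ℝ)) * ‖T.X (Fr.Y p)‖ ^ 2 := by
    rw [Fr.tr_pxpx T hA hc he0 hp, h2]
    have : (1 / (Fintype.card ι : ℂ)) = ((1 / (Fintype.card ι : ℝ) : ℝ) : ℂ) := by push_cast; rfl
    rw [this, Complex.re_ofReal_mul]
  rw [← Fr.tr_Y T hA hc he0 hp, h3]
  have h4 : |(T.tr (Fr.Y p)).re| ≤ ‖T.X g‖ * ‖T.X (Fr.Y p)‖ := by
    calc |(T.tr (Fr.Y p)).re| ≤ ‖T.tr (Fr.Y p)‖ := Complex.abs_re_le_norm _
      _ ≤ ‖T.X g‖ * ‖T.X (Fr.Y p)‖ := by rw [h1]; exact norm_inner_le_norm _ _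
  calc (T.tr (Fr.Y p)).re ^ 2 = |(T.tr (Fr.Y p)).re| ^ 2 := (sq_abs _).symm
    _ ≤ (‖T.X g‖ * ‖T.X (Fr.Y p)‖) ^ 2 := pow_le_pow_left₀ (abs_nonneg _) h4 2
    _ = ‖T.X g‖ ^ 2 * ‖T.X (Fr.Y p)‖ ^ 2 := by rw [mul_pow]
    _ ≤ _ := mul_le_mul_of_nonneg_right hg (sq_nonneg _)

/-- the part coming from `A` is small -/
theorem tr_xa_le (hA : A ≤ M.toStarSubalgebra) (hc : ∀ x ∈ A, ∀ y ∈ A, x * y = y * x)
    (he0 : e0 ∈ A) (hg : ‖T.X g‖ ^ 2 ≤ 1 / (Fintype.card ι : ℝ)) {a : H →L[ℂ] H} (ha : a ∈ A)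
    (ha1 : ‖a‖ ≤ 1) (hcard : 0 < Fintype.card ι) :
    ‖T.tr (a * Fr.x)‖ ≤ 1 / Real.sqrt (Fintype.card ι) := by
  have haM : a ∈ M := hA ha
  have hea : e0 * a = a * e0 := hc _ he0 _ ha
  have hk : (0 : ℝ) < Fintype.card ι := by exact_mod_cast hcard
  have h1 : T.tr (a * Fr.x) = ∑ i, ((Fr.h i i : ℝ) : ℂ) * T.tr (Fr.y a i) := by
    unfold x
    rw [Finset.mul_sum, map_sum]
    refine Finset.sum_congr rfl fun i _ => ?_
    rw [Finset.mul_sum, map_sum, Finset.sum_eq_single i]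
    · rw [mul_smul_comm, map_smul, smul_eq_mul]
      congr 1
      have hu : a * Fr.v i ∈ M := mul_mem haM (Fr.vM i)
      have hue : e0 * (a * Fr.v i) * e0 = a * Fr.v i := Fr.av_corner T.proj hea i
      have hb : e0 * star (Fr.v i) = star (Fr.v i) * e0 := by
        rw [Fr.e0sv, Fr.sve0 T.proj]
      have := T.tr_comm hu hue (star_mem (Fr.vM i)) hb
      unfold y
      rw [← mul_assoc, this, mul_assoc]
    · intro j _ hji
      rw [mul_smul_comm, map_smul, smul_eq_mul]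
      have hu : a * Fr.v i ∈ M := mul_mem haM (Fr.vM i)
      have hue : e0 * (a * Fr.v i) * e0 = a * Fr.v i := Fr.av_corner T.proj hea i
      have hb : e0 * star (Fr.v j) = star (Fr.v j) * e0 := by
        rw [Fr.e0sv, Fr.sve0 T.proj]
      have h2 := T.tr_comm hu hue (star_mem (Fr.vM j)) hb
      have h3 : star (Fr.v j) * (a * Fr.v i) = 0 := by
        rw [← mul_assoc]; exact Fr.cross hc ha hji
      rw [h3, map_zero] at h2
      rw [← mul_assoc, h2, mul_zero]
    · intro h; exact absurd (Finset.mem_univ i) h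
  have h2 : ∀ i, ‖T.tr (Fr.y a i)‖ ≤ 1 / (Fintype.card ι : ℝ) := by
    intro i
    have e1 : T.tr (Fr.y a i) = ⟪T.X (Fr.v i), T.X (a * Fr.v i)⟫_ℂ := by
      rw [T.inner_X]; unfold y; rw [mul_assoc]
    have e2 : ‖T.X (Fr.v i)‖ ≤ ‖T.X g‖ := by
      rw [← Fr.vg i]
      calc _ ≤ ‖Fr.v i‖ * ‖T.X g‖ := T.norm_X_mul _ _
        _ ≤ 1 * ‖T.X g‖ := mul_le_mul_of_nonneg_right (Fr.vn i) (norm_nonneg _)
        _ = _ := one_mul _
    have e3 : ‖T.X (a * Fr.v i)‖ ≤ ‖T.X g‖ := by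
      calc _ ≤ ‖a‖ * ‖T.X (Fr.v i)‖ := T.norm_X_mul _ _
        _ ≤ 1 * ‖T.X g‖ := mul_le_mul ha1 e2 (norm_nonneg _) zero_le_one
        _ = _ := one_mul _
    calc ‖T.tr (Fr.y a i)‖ ≤ ‖T.X (Fr.v i)‖ * ‖T.X (a * Fr.v i)‖ := by
          rw [e1]; exact norm_inner_le_norm _ _
      _ ≤ ‖T.X g‖ * ‖T.X g‖ := mul_le_mul e2 e3 (norm_nonneg _) (norm_nonneg _)
      _ = ‖T.X g‖ ^ 2 := by ring
      _ ≤ _ := hg
  have h3 : ∀ i, ‖((Fr.h i i : ℝ) : ℂ)‖ = 1 / Real.sqrt (Fintype.card ι) := by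
    intro i
    rw [Complex.norm_real, Real.norm_eq_abs, ← Real.sqrt_sq_eq_abs, Fr.h2, Real.sqrt_div zero_le_one,
      Real.sqrt_one]
  rw [h1]
  calc ‖∑ i, ((Fr.h i i : ℝ) : ℂ) * T.tr (Fr.y a i)‖
      ≤ ∑ i, ‖((Fr.h i i : ℝ) : ℂ) * T.tr (Fr.y a i)‖ := norm_sum_le _ _
    _ ≤ ∑ _i : ι, 1 / Real.sqrt (Fintype.card ι) * (1 / (Fintype.card ι : ℝ)) := by
        refine Finset.sum_le_sum fun i _ => ?_
        rw [norm_mul, h3]
        exact mul_le_mul_of_nonneg_left (h2 i) (by (clear * - hcard; (clear * - hcard; positivity)))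
    _ = 1 / Real.sqrt (Fintype.card ι) := by
        rw [Finset.sum_const, Finset.card_univ, nsmul_eq_mul]
        field_simp

/-- lower bound for the two-norm of a pinching of the flat element -/
theorem pinch_lower (hA : A ≤ M.toStarSubalgebra) (hc : ∀ x ∈ A, ∀ y ∈ A, x * y = y * x)
    (he0 : e0 ∈ A) (hg : ‖T.X g‖ ^ 2 ≤ 1 / (Fintype.card ι : ℝ)) (hcard : 0 < Fintype.card ι)
    {r : ℕ} (hr : 0 < r) {p : Fin r → (H →L[ℂ] H)}
    (hp : ∀ i, p i ∈ A ∧ IsStarProjection (p i)) (hpo : ∀ i j, i ≠ j → p i * p j = 0)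
    (hps : ∑ i, p i = 1) {a : H →L[ℂ] H} (ha : a ∈ A) (has : IsSelfAdjoint a) (ha1 : ‖a‖ ≤ 1) :
    (T.tr Fr.G).re ^ 2 / r - 2 / Real.sqrt (Fintype.card ι) ≤
      ‖T.X (∑ i, p i * Fr.x * p i - a)‖ ^ 2 := by
  have hr0 : (0 : ℝ) < r := by exact_mod_cast hr
  have hxe := Fr.x_e0 T.proj
  have hxM := Fr.x_mem
  have hee : e0 * e0 = e0 := T.proj.isIdempotentElem.eq
  set S : H →L[ℂ] H := ∑ i, p i * Fr.x * p i with hS
  have hSs : IsSelfAdjoint S := by
    rw [IsSelfAdjoint, hS, star_sum]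
    refine Finset.sum_congr rfl fun i _ => ?_
    rw [star_mul, star_mul, (hp i).2.isSelfAdjoint.star_eq, Fr.x_sa.star_eq, mul_assoc]
  -- the norm of X S
  have h1 : (T.tr Fr.G).re ^ 2 / r ≤ ‖T.X S‖ ^ 2 := by
    have e1 : S * S = ∑ i, p i * Fr.x * (p i * Fr.x) * p i := by
      rw [hS, Finset.sum_mul_sum]
      refine Finset.sum_congr rfl fun i _ => ?_
      rw [Finset.sum_eq_single i]
      · calc p i * Fr.x * p i * (p i * Fr.x * p i) =
            p i * Fr.x * ((p i * p i) * Fr.x) * p i := by simp only [mul_assoc]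
          _ = _ := by rw [(hp i).2.isIdempotentElem.eq]
      · intro j _ hji
        calc p i * Fr.x * p i * (p j * Fr.x * p j) =
            p i * Fr.x * (p i * p j) * Fr.x * p j := by simp only [mul_assoc]
          _ = 0 := by rw [hpo i j hji.symm]; simp
      · intro h; exact absurd (Finset.mem_univ i) h
    have e2 : ∀ i, T.tr (p i * Fr.x * (p i * Fr.x) * p i) = T.tr (p i * Fr.x * (p i * Fr.x)) := by
      intro i
      have hpi : e0 * p i = p i * e0 := hc _ he0 _ (hp i).1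
      have hpiM : p i ∈ M := hA (hp i).1
      have hu : p i * Fr.x * (p i * Fr.x) ∈ M :=
        mul_mem (mul_mem hpiM hxM) (mul_mem hpiM hxM)
      have hx1 : e0 * Fr.x = Fr.x := by rw [← hxe, ← mul_assoc, ← mul_assoc, hee]
      have hx2 : Fr.x * e0 = Fr.x := by rw [← hxe, mul_assoc, hee]
      have hue : e0 * (p i * Fr.x * (p i * Fr.x)) * e0 = p i * Fr.x * (p i * Fr.x) := by
        have f1 : e0 * (p i * Fr.x) = p i * Fr.x := by rw [← mul_assoc, hpi, mul_assoc, hx1]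
        have f2 : p i * Fr.x * e0 = p i * Fr.x := by rw [mul_assoc, hx2]
        rw [← mul_assoc, f1, mul_assoc, f2]
      rw [T.tr_comm hu hue hpiM hpi]
      refine congrArg T.tr ?_
      calc p i * (p i * Fr.x * (p i * Fr.x)) = (p i * p i) * Fr.x * (p i * Fr.x) := by
            simp only [mul_assoc]
        _ = _ := by rw [(hp i).2.isIdempotentElem.eq]
    have e3 : ‖T.X S‖ ^ 2 = ∑ i, (T.tr (p i * Fr.x * (p i * Fr.x))).re := by
      rw [T.norm_X_sq_sa hSs, e1, map_sum, Complex.re_sum]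
      exact Finset.sum_congr rfl fun i _ => by rw [e2]
    have e4 : ∑ i, (T.tr (p i * Fr.G)).re = (T.tr Fr.G).re := by
      rw [← Complex.re_sum, ← map_sum, ← Finset.sum_mul, hps, one_mul]
    have e5 : (T.tr Fr.G).re ^ 2 ≤ r * ∑ i, (T.tr (p i * Fr.G)).re ^ 2 := by
      rw [← e4]
      have := sq_sum_le_card_mul_sum_sq (s := (Finset.univ : Finset (Fin r)))
        (f := fun i => (T.tr (p i * Fr.G)).re)
      simpa only [ge_iff_le, Finset.card_univ, Fintype.card_fin] using this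
    rw [e3, div_le_iff₀ hr0, mul_comm]
    refine e5.trans ?_
    refine mul_le_mul_of_nonneg_left ?_ hr0.le
    exact Finset.sum_le_sum fun i _ =>
      Fr.pxpx_ge T hA hc he0 hg (hp i).1 (hp i).2.isSelfAdjoint
  -- the inner product with a
  have h2 : T.tr (a * S) = T.tr (a * Fr.x) := by
    have e1 : ∀ i, T.tr (a * (p i * Fr.x * p i)) = T.tr (p i * (a * Fr.x)) := by
      intro i
      have hpi : e0 * p i = p i * e0 := hc _ he0 _ (hp i).1
      have hea : e0 * a = a * e0 := hc _ he0 _ ha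
      have hpiM : p i ∈ M := hA (hp i).1
      have hu : a * (p i * Fr.x) ∈ M := mul_mem (hA ha) (mul_mem hpiM hxM)
      have hx1 : e0 * Fr.x = Fr.x := by rw [← hxe, ← mul_assoc, ← mul_assoc, hee]
      have hx2 : Fr.x * e0 = Fr.x := by rw [← hxe, mul_assoc, hee]
      have hue : e0 * (a * (p i * Fr.x)) * e0 = a * (p i * Fr.x) := by
        have f1 : e0 * (p i * Fr.x) = p i * Fr.x := by rw [← mul_assoc, hpi, mul_assoc, hx1]
        have f2 : p i * Fr.x * e0 = p i * Fr.x := by rw [mul_assoc, hx2]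
        calc e0 * (a * (p i * Fr.x)) * e0 = (e0 * a) * (p i * Fr.x * e0) := by
              simp only [mul_assoc]
          _ = a * (e0 * (p i * Fr.x)) := by rw [hea, f2, mul_assoc]
          _ = _ := by rw [f1]
      have e2 := T.tr_comm hu hue hpiM hpi
      have e3 : a * (p i * Fr.x * p i) = a * (p i * Fr.x) * p i := by simp only [mul_assoc]
      rw [e3, e2]
      refine congrArg T.tr ?_
      calc p i * (a * (p i * Fr.x)) = p i * ((a * p i) * Fr.x) := by simp only [mul_assoc]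
        _ = p i * ((p i * a) * Fr.x) := by rw [hc a ha _ (hp i).1]
        _ = (p i * p i) * (a * Fr.x) := by simp only [mul_assoc]
        _ = _ := by rw [(hp i).2.isIdempotentElem.eq]
    rw [hS, Finset.mul_sum, map_sum]
    simp_rw [e1]
    rw [← map_sum, ← Finset.sum_mul, hps, one_mul]
  have h3 := Fr.tr_xa_le T hA hc he0 hg ha ha1 hcard
  have h4 : ‖T.X (S - a)‖ ^ 2 = ‖T.X S‖ ^ 2 - 2 * (T.tr (a * S)).re + ‖T.X a‖ ^ 2 := by
    rw [map_sub, norm_sub_sq (𝕜 := ℂ)]
    have e1 : ⟪T.X S, T.X a⟫_ℂ = (starRingEnd ℂ) (T.tr (a * S)) := by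
      rw [← inner_conj_symm, T.inner_X, has.star_eq]
    rw [e1]
    change ‖T.X S‖ ^ 2 - 2 * ((starRingEnd ℂ) (T.tr (a * S))).re + ‖T.X a‖ ^ 2 = _
    rw [Complex.conj_re]
  rw [h4, h2]
  have h5 : (T.tr (a * Fr.x)).re ≤ 1 / Real.sqrt (Fintype.card ι) :=
    (Complex.re_le_norm _).trans h3
  have h6 := sq_nonneg ‖T.X a‖
  have h7 : 2 / Real.sqrt (Fintype.card ι) = 2 * (1 / Real.sqrt (Fintype.card ι)) := by ring
  rw [h7]
  linarith only [h6, h5, h1]

end HFrame

end Vale.Agent.P078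
end

section

/-! Minimal projections in a corner with a trace. -/

namespace Vale.Agent.P078

open Filter Topology
open scoped InnerProductSpace

variable {H : Type*} [NormedAddCommGroup H] [InnerProductSpace ℂ H] [CompleteSpace H]
variable {M : VonNeumannAlgebra H} {A : StarSubalgebra ℂ (H →L[ℂ] H)}
variable {e0 : H →L[ℂ] H} {ξ : ℕ → H}

namespace CornerTrace

variable (T : CornerTrace M e0 ξ)

/-- faithfulness of the trace in a factor -/
theorem X_ne_zero (hF : IsFactor M) (hne : ∃ n, ξ n ≠ 0) {e : H →L[ℂ] H} (heM : e ∈ M)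
    (hep : IsStarProjection e) (hee : e0 * e = e) (he : e ≠ 0) : T.X e ≠ 0 := by
  intro h0
  have h00 : e0 * e0 = e0 := T.proj.isIdempotentElem.eq
  have hee' : e * e0 = e := by
    have := congrArg star hee
    rwa [star_mul, hep.isSelfAdjoint.star_eq, T.proj.isSelfAdjoint.star_eq] at this
  have h1 : ∀ a ∈ M, ∀ n, e (a (ξ n)) = 0 := by
    intro a ha n
    obtain ⟨a0, ha0⟩ : ∃ a0, a0 = e0 * a * e0 := ⟨_, rfl⟩
    have ha0M : a0 ∈ M := by rw [ha0]; exact mul_mem (mul_mem T.mem ha) T.mem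
    have ha0e : a0 * e0 = a0 := by rw [ha0, mul_assoc, h00]
    have ha0e' : e0 * a0 = a0 := by rw [ha0, ← mul_assoc, ← mul_assoc, h00]
    have hu : e * a0 ∈ M := mul_mem heM ha0M
    have hue : e0 * (e * a0) * e0 = e * a0 := by
      rw [← mul_assoc, hee, mul_assoc, ha0e]
    have hb : e0 * star a0 = star a0 * e0 := by
      have e1 := congrArg star ha0e
      have e2 := congrArg star ha0e'
      rw [star_mul, T.proj.isSelfAdjoint.star_eq] at e1 e2
      rw [e1, e2]
    have h2 : ‖T.X (e * a0)‖ ^ 2 = 0 := by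
      rw [T.norm_X_sq]
      have e1 : star (e * a0) * (e * a0) = star a0 * (e * a0) := by
        rw [star_mul, hep.isSelfAdjoint.star_eq, mul_assoc, ← mul_assoc e,
          hep.isIdempotentElem.eq]
      rw [e1, ← T.tr_comm hu hue (star_mem ha0M) hb, mul_assoc]
      have e2 : T.tr (e * (a0 * star a0)) = ⟪T.X e, T.X (a0 * star a0)⟫_ℂ := by
        rw [T.inner_X, hep.isSelfAdjoint.star_eq]
      rw [e2, h0, inner_zero_left, Complex.zero_re]
    have h3 : T.X (e * a0) = 0 := norm_eq_zero.mp (pow_eq_zero_iff two_ne_zero |>.mp h2)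
    have h4 : (T.X (e * a0)) n = (0 : lp (fun _ : ℕ => H) 2) n := by rw [h3]
    have h5 : (T.X (e * a0)) n = e (a0 (ξ n)) := rfl
    rw [h5] at h4
    have h6 : e (a0 (ξ n)) = e (a (ξ n)) := by
      have e1 : a0 (ξ n) = e0 (a (ξ n)) := by
        rw [ha0]
        change e0 (a (e0 (ξ n))) = e0 (a (ξ n))
        rw [T.apply]
      rw [e1]
      exact DFunLike.congr_fun hee' (a (ξ n))
    rw [← h6, h4]
    rfl
  obtain ⟨n, hn⟩ := hne
  set R : H →L[ℂ] H := (innerSL ℂ (ξ n)).smulRight (ξ n) with hR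
  have hRa : ∀ w, R w = ⟪ξ n, w⟫_ℂ • ξ n := fun w => rfl
  have h2 : R = 0 := by
    refine hF.eq_zero heM he fun y hy v => ?_
    rw [hRa]
    have h3 : ⟪ξ n, y (e v)⟫_ℂ = ⟪e (star y (ξ n)), v⟫_ℂ := by
      rw [proj_inner hep, star_apply_inner]
    rw [h3, h1 _ (star_mem hy), inner_zero_left, zero_smul]
  have h3 : R (ξ n) = 0 := by rw [h2]; rfl
  rw [hRa] at h3
  rcases smul_eq_zero.mp h3 with h4 | h4
  · exact hn (inner_self_eq_zero.mp h4)
  · exact hn h4

include T in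
/-- a minimal projection makes the corner finite-dimensional -/
theorem finite_of_minimal (hF : IsFactor M) (hne : ∃ n, ξ n ≠ 0) {e : H →L[ℂ] H} (heM : e ∈ M)
    (hep : IsStarProjection e) (hee : e0 * e = e) (he : e ≠ 0)
    (hmin : ∀ x ∈ M, ∃ c : ℂ, e * x * e = c • e) :
    ∃ s : Finset (H →L[ℂ] H), ∀ x ∈ M, e0 * x * e0 = x →
      x ∈ Submodule.span ℂ (s : Set (H →L[ℂ] H)) := by
  classical
  have h00 : e0 * e0 = e0 := T.proj.isIdempotentElem.eq
  have hee2 : e * e = e := hep.isIdempotentElem.eq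
  set P : ℕ → Prop := fun n => ∃ v : Fin n → (H →L[ℂ] H), (∀ i, v i ∈ M) ∧
    (∀ i, e0 * v i = v i) ∧ (∀ i, v i * e = v i) ∧
    ∀ i j, star (v i) * v j = if i = j then e else 0 with hP
  -- basic consequences
  have hG : ∀ n (v : Fin n → (H →L[ℂ] H)), (∀ i, v i ∈ M) → (∀ i, e0 * v i = v i) →
      (∀ i, v i * e = v i) → (∀ i j, star (v i) * v j = if i = j then e else 0) →
      IsStarProjection (∑ i, v i * star (v i)) := by
    intro n v _ _ hve hvo
    refine ⟨?_, ?_⟩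
    · change (∑ i, v i * star (v i)) * (∑ i, v i * star (v i)) = ∑ i, v i * star (v i)
      rw [Finset.sum_mul_sum]
      refine Finset.sum_congr rfl fun i _ => ?_
      rw [Finset.sum_eq_single i]
      · calc v i * star (v i) * (v i * star (v i)) = v i * (star (v i) * v i) * star (v i) := by
              simp only [mul_assoc]
          _ = _ := by rw [hvo, if_pos rfl, hve]
      · intro j _ hji
        calc v i * star (v i) * (v j * star (v j)) = v i * (star (v i) * v j) * star (v j) := by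
              simp only [mul_assoc]
          _ = 0 := by rw [hvo, if_neg hji.symm]; simp only [mul_zero, zero_mul]
      · intro h; exact absurd (Finset.mem_univ i) h
    · rw [IsSelfAdjoint, star_sum]
      exact Finset.sum_congr rfl fun i _ => by rw [star_mul, star_star]
  have hXe : 0 < ‖T.X e‖ := norm_pos_iff.mpr (T.X_ne_zero hF hne heM hep hee he)
  have hbound : ∀ n, P n → (n : ℝ) * ‖T.X e‖ ^ 2 ≤ ‖T.X 1‖ ^ 2 := by
    rintro n ⟨v, hvM, hv0, hve, hvo⟩
    have hGp := hG n v hvM hv0 hve hvo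
    have h1 : ‖T.X (∑ i, v i * star (v i))‖ ^ 2 = (n : ℝ) * ‖T.X e‖ ^ 2 := by
      rw [T.norm_X_proj_sq hGp, map_sum, Complex.re_sum, T.norm_X_proj_sq hep]
      have h2 : ∀ i, (T.tr (v i * star (v i))).re = (T.tr e).re := by
        intro i
        have hsv : e * star (v i) = star (v i) := by
          have := congrArg star (hve i)
          rwa [star_mul, hep.isSelfAdjoint.star_eq] at this
        have hve0 : v i * e0 = v i := by
          have e1 : e * e0 = e := by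
            have := congrArg star hee
            rwa [star_mul, hep.isSelfAdjoint.star_eq, T.proj.isSelfAdjoint.star_eq] at this
          rw [← hve i, mul_assoc, e1]
        have hb : e0 * star (v i) = star (v i) * e0 := by
          have e1 : star (v i) * e0 = star (v i) := by
            have := congrArg star (hv0 i)
            rwa [star_mul, T.proj.isSelfAdjoint.star_eq] at this
          have e2 : e0 * star (v i) = star (v i) := by
            have := congrArg star hve0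
            rwa [star_mul, T.proj.isSelfAdjoint.star_eq] at this
          rw [e1, e2]
        have := T.tr_comm (hvM i) (by rw [hv0, hve0]) (star_mem (hvM i)) hb
        rw [this, hvo, if_pos rfl]
      simp_rw [h2]
      simp only [Finset.sum_const, Finset.card_univ, Fintype.card_fin, nsmul_eq_mul]
    rw [← h1]
    have hGn : ‖∑ i, v i * star (v i)‖ ≤ 1 :=
      ContinuousLinearMap.opNorm_le_bound _ zero_le_one fun w => by
        rw [one_mul]; exact proj_norm_le hGp w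
    have h3 := T.norm_X_mul (∑ i, v i * star (v i)) 1
    rw [mul_one] at h3
    refine pow_le_pow_left₀ (norm_nonneg _) (h3.trans ?_) 2
    calc _ ≤ 1 * ‖T.X 1‖ := mul_le_mul_of_nonneg_right hGn (norm_nonneg _)
      _ = _ := one_mul _
  have hex : ∃ n, P n ∧ ¬ P (n + 1) := by
    by_contra hcon
    push Not at hcon
    have hall : ∀ n, P n := by
      intro n
      induction n with
      | zero => exact ⟨fun i => i.elim0, fun i => i.elim0, fun i => i.elim0, fun i => i.elim0,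
          fun i => i.elim0⟩
      | succ n ih => exact hcon n ih
    obtain ⟨n, hn⟩ := exists_nat_gt (‖T.X 1‖ ^ 2 / ‖T.X e‖ ^ 2)
    have h1 := hbound n (hall n)
    rw [div_lt_iff₀ (by (clear * - T hXe; positivity))] at hn
    (clear hF hne heM hep hee he hmin h00 hee2 P hP hG hXe hbound hcon hall; linarith only [hn, h1])
  obtain ⟨n, ⟨v, hvM, hv0, hve, hvo⟩, hmax⟩ := hex
  have hGp := hG n v hvM hv0 hve hvo
  obtain ⟨G, hGdef⟩ : ∃ G, G = ∑ i, v i * star (v i) := ⟨_, rfl⟩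
  rw [← hGdef] at hGp
  have hGM : G ∈ M := by
    rw [hGdef]; exact sum_mem fun i _ => mul_mem (hvM i) (star_mem (hvM i))
  have hsve0 : ∀ i, star (v i) * e0 = star (v i) := by
    intro i
    have := congrArg star (hv0 i)
    rwa [star_mul, T.proj.isSelfAdjoint.star_eq] at this
  have hesv : ∀ i, e * star (v i) = star (v i) := by
    intro i
    have := congrArg star (hve i)
    rwa [star_mul, hep.isSelfAdjoint.star_eq] at this
  have hsvG : ∀ j, star (v j) * G = star (v j) := by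
    intro j
    rw [hGdef, Finset.mul_sum, Finset.sum_eq_single j]
    · rw [← mul_assoc, hvo, if_pos rfl, hesv]
    · intro i _ hij
      rw [← mul_assoc, hvo, if_neg hij.symm, zero_mul]
    · intro h; exact absurd (Finset.mem_univ j) h
  have hkey : ∀ a ∈ M, (e0 - G) * a * e = 0 := by
    intro a ha
    by_contra hb0
    obtain ⟨b, hb⟩ : ∃ b, b = (e0 - G) * a * e := ⟨_, rfl⟩
    rw [← hb] at hb0
    have hbM : b ∈ M := by
      rw [hb]; exact mul_mem (mul_mem (sub_mem T.mem hGM) ha) heM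
    have he0G : e0 * G = G := by
      rw [hGdef, Finset.mul_sum]
      exact Finset.sum_congr rfl fun i _ => by rw [← mul_assoc, hv0]
    have hb1 : e0 * b = b := by
      rw [hb, ← mul_assoc, ← mul_assoc, mul_sub, h00, he0G]
    have hb2 : b * e = b := by rw [hb, mul_assoc, hee2]
    have hb3 : ∀ j, star (v j) * b = 0 := by
      intro j
      rw [hb, ← mul_assoc, ← mul_assoc, mul_sub, hsve0, hsvG, sub_self, zero_mul, zero_mul]
    have hb4 : ∀ j, star b * v j = 0 := by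
      intro j
      have := congrArg star (hb3 j)
      rwa [star_mul, star_star, star_zero] at this
    obtain ⟨c, hc⟩ := hmin (star b * b) (mul_mem (star_mem hbM) hbM)
    have hesb : e * star b = star b := by
      have := congrArg star hb2
      rwa [star_mul, hep.isSelfAdjoint.star_eq] at this
    have hc1 : star b * b = c • e := by
      rw [← hc, ← mul_assoc, hesb, mul_assoc, hb2]
    obtain ⟨ζ, hζ⟩ : ∃ ζ, b ζ ≠ 0 := by
      by_contra hcon
      push Not at hcon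
      exact hb0 (ContinuousLinearMap.ext hcon)
    have heζ : e ζ ≠ 0 := by
      intro h1
      apply hζ
      have : b ζ = b (e ζ) := (DFunLike.congr_fun hb2 ζ).symm
      rw [this, h1, map_zero]
    have hcpos : ((‖b ζ‖ ^ 2 / ‖e ζ‖ ^ 2 : ℝ) : ℂ) = c := by
      have h1 : ⟪ζ, (star b * b) ζ⟫_ℂ = ((‖b ζ‖ ^ 2 : ℝ) : ℂ) := by
        change ⟪ζ, star b (b ζ)⟫_ℂ = _
        rw [← star_apply_inner, star_star, inner_self_eq_norm_sq_to_K]
        push_cast; rfl
      have h2 : ⟪ζ, (c • e) ζ⟫_ℂ = c * ((‖e ζ‖ ^ 2 : ℝ) : ℂ) := by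
        rw [smul_apply, inner_smul_right]
        have : ⟪ζ, e ζ⟫_ℂ = ⟪e ζ, e ζ⟫_ℂ := by
          rw [proj_inner hep, proj_apply_apply hep]
        rw [this, inner_self_eq_norm_sq_to_K]
        push_cast; rfl
      rw [hc1, h2] at h1
      have h3 : ((‖e ζ‖ ^ 2 : ℝ) : ℂ) ≠ 0 := by
        have : ‖e ζ‖ ≠ 0 := norm_ne_zero_iff.mpr heζ
        exact_mod_cast pow_ne_zero 2 this
      rw [Complex.ofReal_div, ← h1, mul_div_assoc, div_self h3, mul_one]
    obtain ⟨t, htdef⟩ : ∃ t : ℝ, t = ‖b ζ‖ ^ 2 / ‖e ζ‖ ^ 2 := ⟨_, rfl⟩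
    rw [← htdef] at hcpos
    have ht : 0 < t := by
      rw [htdef]
      have : 0 < ‖b ζ‖ := norm_pos_iff.mpr hζ
      have : 0 < ‖e ζ‖ := norm_pos_iff.mpr heζ
      (clear * - hζ heζ; (clear * - hζ heζ; positivity))
    obtain ⟨u, hu⟩ : ∃ u : H →L[ℂ] H, u = (((Real.sqrt t)⁻¹ : ℝ) : ℂ) • b := ⟨_, rfl⟩
    have huu : star u * u = e := by
      rw [hu, star_smul, smul_mul_smul_comm, hc1, smul_smul, ← hcpos, Complex.star_def,
        Complex.conj_ofReal, ← Complex.ofReal_mul, ← Complex.ofReal_mul]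
      have : (Real.sqrt t)⁻¹ * (Real.sqrt t)⁻¹ * t = 1 := by
        rw [← mul_inv, Real.mul_self_sqrt ht.le, inv_mul_cancel₀ ht.ne']
      rw [this, Complex.ofReal_one, one_smul]
    apply hmax
    refine ⟨Fin.snoc v u, ?_, ?_, ?_, ?_⟩
    · intro i
      refine Fin.lastCases ?_ (fun i => ?_) i
      · rw [Fin.snoc_last, hu]; exact M.toStarSubalgebra.smul_mem hbM _
      · rw [Fin.snoc_castSucc]; exact hvM i
    · intro i
      refine Fin.lastCases ?_ (fun i => ?_) i
      · rw [Fin.snoc_last, hu, mul_smul_comm, hb1]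
      · rw [Fin.snoc_castSucc]; exact hv0 i
    · intro i
      refine Fin.lastCases ?_ (fun i => ?_) i
      · rw [Fin.snoc_last, hu, smul_mul_assoc, hb2]
      · rw [Fin.snoc_castSucc]; exact hve i
    · intro i j
      refine Fin.lastCases ?_ (fun i => ?_) i
      · refine Fin.lastCases ?_ (fun j => ?_) j
        · rw [Fin.snoc_last, if_pos rfl, huu]
        · rw [Fin.snoc_last, Fin.snoc_castSucc, if_neg (Fin.castSucc_lt_last j).ne', hu,
            star_smul, smul_mul_assoc, hb4, smul_zero]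
      · refine Fin.lastCases ?_ (fun j => ?_) j
        · rw [Fin.snoc_last, Fin.snoc_castSucc, if_neg (Fin.castSucc_lt_last i).ne, hu,
            mul_smul_comm, hb3, smul_zero]
        · rw [Fin.snoc_castSucc, Fin.snoc_castSucc, hvo]
          simp only [Fin.castSucc_inj]
  have hGe : e0 = G := by
    have h1 : e0 - G = 0 :=
      hF.eq_zero heM he fun y hy w => DFunLike.congr_fun (hkey y hy) w
    exact sub_eq_zero.mp h1
  refine ⟨(Finset.univ : Finset (Fin n × Fin n)).image fun p => v p.1 * star (v p.2),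
    fun x hx hxe => ?_⟩
  have h1 : x = ∑ i, ∑ j, v i * (star (v i) * x * v j) * star (v j) := by
    conv_lhs => rw [← hxe, hGe, hGdef, Finset.sum_mul, Finset.sum_mul_sum]
    refine Finset.sum_congr rfl fun i _ => Finset.sum_congr rfl fun j _ => ?_
    simp only [mul_assoc]
  rw [h1]
  refine sum_mem fun i _ => sum_mem fun j _ => ?_
  obtain ⟨c, hc⟩ := hmin (star (v i) * x * v j) (mul_mem (mul_mem (star_mem (hvM i)) hx) (hvM j))
  have h2 : star (v i) * x * v j = c • e := by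
    rw [← hc]
    calc star (v i) * x * v j = (e * star (v i)) * x * (v j * e) := by rw [hesv, hve]
      _ = _ := by simp only [mul_assoc]
  rw [h2, mul_smul_comm, smul_mul_assoc, hve]
  refine Submodule.smul_mem _ _ (Submodule.subset_span ?_)
  rw [Finset.coe_image]
  exact ⟨(i, j), by simp only [Finset.coe_univ, Set.mem_univ], rfl⟩

end CornerTrace

end Vale.Agent.P078
end

section

/-! Diffuse MASAs of the algebra of all bounded operators. -/

namespace Vale.Agent.P078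

open Filter Topology
open scoped InnerProductSpace

variable {H : Type*} [NormedAddCommGroup H] [InnerProductSpace ℂ H] [CompleteSpace H]
variable {M : VonNeumannAlgebra H} {A : StarSubalgebra ℂ (H →L[ℂ] H)}

theorem mul_rangeProj_eq {f t : H →L[ℂ] H} (h : f * t = t) : f * rangeProj t = rangeProj t := by
  ext v
  rw [mul_apply_eq_comp]
  refine rangeCl_induction t (p := fun u => f u = u) ?_ ?_ (rangeProj_apply_mem _ v)
  · exact isClosed_eq f.continuous continuous_id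
  · intro u; exact DFunLike.congr_fun h u

theorem mul_rangeProj_eq_zero {f t : H →L[ℂ] H} (h : f * t = 0) : f * rangeProj t = 0 := by
  ext v
  rw [mul_apply_eq_comp]
  refine rangeCl_induction t (p := fun u => f u = 0) ?_ ?_ (rangeProj_apply_mem _ v)
  · exact isClosed_eq f.continuous continuous_const
  · intro u; exact DFunLike.congr_fun h u

/-- There are partitions with uniformly small blocks on a finite-dimensional space. -/
theorem exists_part_small_of_diffuse (hA : IsMASA A M)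
    (hdiff : ∀ e ∈ A, IsStarProjection e → e ≠ 0 →
      ∃ f ∈ A, IsStarProjection f ∧ e * f = f ∧ f ≠ 0 ∧ f ≠ e)
    {d : ℕ} (b : Fin d → H) {δ : ℝ} (hδ : 0 < δ) :
    ∃ Q : Part A, ∀ i, ∑ k, ‖Q.e i (b k)‖ ≤ δ := by
  classical
  by_contra hcon
  push Not at hcon
  choose i hi using hcon
  have hc := hA.2.1
  have : (Part.filter A).NeBot := Part.filter_neBot hc
  set U : Ultrafilter (Part A) := Ultrafilter.of (Part.filter A) with hUdef
  have hU : (U : Filter (Part A)) ≤ Part.filter A := Ultrafilter.of_le _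
  have hn : ∀ Q : Part A, ‖Q.e (i Q)‖ ≤ 1 := fun Q =>
    ContinuousLinearMap.opNorm_le_bound _ zero_le_one fun v => by
      rw [one_mul]; exact proj_norm_le (Q.proj _) v
  obtain ⟨t, ht1, ht⟩ := exists_wot_limit U (fun Q : Part A => Q.e (i Q)) 1
    (Eventually.of_forall hn) zero_le_one
  have hleft : ∀ (y : H →L[ℂ] H) (ξ η : H),
      Tendsto (fun Q : Part A => ⟪ξ, (y * Q.e (i Q)) η⟫_ℂ) U (𝓝 ⟪ξ, (y * t) η⟫_ℂ) := by
    intro y ξ η
    have := ht (star y ξ) η
    simp only [star_apply_inner] at this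
    exact this
  have hright : ∀ (y : H →L[ℂ] H) (ξ η : H),
      Tendsto (fun Q : Part A => ⟪ξ, (Q.e (i Q) * y) η⟫_ℂ) U (𝓝 ⟪ξ, (t * y) η⟫_ℂ) := by
    intro y ξ η
    exact ht ξ (y η)
  have htA : t ∈ A := by
    have htM : t ∈ M := by
      refine mem_of_commute fun y hy => inner_ext fun ξ η => ?_
      refine tendsto_nhds_unique (hleft y ξ η) ((hright y ξ η).congr fun Q => ?_)
      rw [commutant_comm (hA.1 (Q.mem (i Q))) hy]
    refine hA.mem htM fun a ha => inner_ext fun ξ η => ?_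
    refine tendsto_nhds_unique (hleft a ξ η) ((hright a ξ η).congr fun Q => ?_)
    rw [hc a ha _ (Q.mem (i Q))]
  have hdich : ∀ f ∈ A, IsStarProjection f → f * t = t ∨ f * t = 0 := by
    intro f hf hfp
    have h1 : ∀ᶠ Q in (U : Filter (Part A)),
        f * Q.e (i Q) = Q.e (i Q) ∨ f * Q.e (i Q) = 0 := by
      filter_upwards [hU (Part.eventually_finer (Part.two f hf hfp))] with Q hQ
      exact hQ true (i Q)
    rw [Ultrafilter.eventually_or] at h1
    rcases h1 with h1 | h1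
    · left
      refine inner_ext fun ξ η => ?_
      refine tendsto_nhds_unique (hleft f ξ η) ((ht ξ η).congr' ?_)
      filter_upwards [h1] with Q hQ
      rw [hQ]
    · right
      refine inner_ext fun ξ η => ?_
      refine tendsto_nhds_unique (hleft f ξ η) (tendsto_const_nhds.congr' ?_)
      filter_upwards [h1] with Q hQ
      rw [hQ]
  have hd : 0 < d := by
    rcases Nat.eq_zero_or_pos d with h | h
    · exfalso
      subst h
      have := hi (Part.trivialPart A)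
      simp only [Finset.univ_eq_empty, Finset.sum_empty] at this
      linarith only [hδ, this]
    · exact h
  have hdR : (0 : ℝ) < d := by exact_mod_cast hd
  have ht0 : t ≠ 0 := by
    intro h0
    have h1 : Tendsto (fun Q : Part A => ∑ k, (⟪b k, Q.e (i Q) (b k)⟫_ℂ).re) U
        (𝓝 (∑ k : Fin d, (⟪b k, t (b k)⟫_ℂ).re)) := by
      apply tendsto_finsetSum
      intro k _
      exact (Complex.continuous_re.tendsto _).comp (ht (b k) (b k))
    have h2 : δ ^ 2 / d ≤ ∑ k : Fin d, (⟪b k, t (b k)⟫_ℂ).re := by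
      refine ge_of_tendsto h1 (Eventually.of_forall fun Q => ?_)
      have h3 : ∀ k, (⟪b k, Q.e (i Q) (b k)⟫_ℂ).re = ‖Q.e (i Q) (b k)‖ ^ 2 := fun k =>
        proj_inner_self (Q.proj _) (b k)
      simp_rw [h3]
      rw [div_le_iff₀ hdR]
      calc δ ^ 2 ≤ (∑ k, ‖Q.e (i Q) (b k)‖) ^ 2 := pow_le_pow_left₀ hδ.le (hi Q).le 2
        _ ≤ (Finset.univ : Finset (Fin d)).card * ∑ k, ‖Q.e (i Q) (b k)‖ ^ 2 :=
            sq_sum_le_card_mul_sum_sq
        _ = _ := by rw [Finset.card_univ, Fintype.card_fin, mul_comm]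
    rw [h0] at h2
    simp only [zero_apply, inner_zero_right, Complex.zero_re, Finset.sum_const_zero] at h2
    have h4 : 0 < δ ^ 2 / d := by (clear * - hδ hd; (clear * - hδ hd; positivity))
    linarith only [h2, h4]
  set g := rangeProj t with hg
  have hgp : IsStarProjection g := rangeProj_isStarProjection t
  have htsa : star t * 1 = star t := mul_one _
  have hgA : g ∈ A := by
    refine hA.mem (rangeProj_mem M (hA.1 htA)) fun a ha => ?_
    exact (rangeProj_commute (hc a ha t htA) (hc _ (star_mem ha) t htA)).eq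
  have hg0 : g ≠ 0 := by
    intro h0
    apply ht0
    ext v
    have := rangeProj_apply_self t v
    rw [← hg, h0] at this
    exact this.symm
  obtain ⟨f, hfA, hfp, hgf, hf0, hfg⟩ := hdiff g hgA hgp hg0
  rcases hdich f hfA hfp with h1 | h1
  · apply hfg
    have h2 : f * g = g := mul_rangeProj_eq h1
    rw [← hgf, hc g hgA f hfA, h2]
  · apply hf0
    have h2 : f * g = 0 := mul_rangeProj_eq_zero h1
    rw [← hgf, hc g hgA f hfA, h2]

theorem smallProp_of_diffuse (hM : ∀ x : H →L[ℂ] H, x ∈ M) (hA : IsMASA A M)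
    (hdiff : ∀ e ∈ A, IsStarProjection e → e ≠ 0 →
      ∃ f ∈ A, IsStarProjection f ∧ e * f = f ∧ f ≠ 0 ∧ f ≠ e) : SmallProp M A 1 := by
  classical
  intro F _ δ hδ
  set K : Submodule ℂ H := Submodule.span ℂ (F : Set H) with hK
  have : FiniteDimensional ℂ K := FiniteDimensional.span_finset ℂ F
  set b := stdOrthonormalBasis ℂ K with hb
  obtain ⟨Q, hQ⟩ := exists_part_small_of_diffuse hA hdiff (fun k => (b k : H)) hδ
  refine ⟨K.starProjection, hM _, Submodule.starProjection_norm_le _, one_mul _, ?_, Q, ?_⟩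
  · intro ξ hξ
    have : K.starProjection ξ = ξ := Submodule.starProjection_eq_self_iff.mpr
      (Submodule.subset_span hξ)
    rw [this, sub_self, norm_zero]
    exact hδ
  · intro i
    refine ContinuousLinearMap.opNorm_le_bound _ hδ.le fun v => ?_
    have h1 : K.starProjection v = ∑ k, ⟪(b k : H), v⟫_ℂ • (b k : H) := by
      have h2 := b.sum_repr (K.orthogonalProjectionOnto v)
      have h3 : (K.starProjection v : H) = ((K.orthogonalProjectionOnto v : K) : H) := rfl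
      rw [h3, ← h2]
      push_cast
      refine Finset.sum_congr rfl fun k _ => ?_
      congr 1
      rw [b.repr_apply_apply]
      have h5 : ⟪b k, K.orthogonalProjectionOnto v⟫_ℂ = ⟪(b k : H), K.starProjection v⟫_ℂ := rfl
      rw [h5, ← Submodule.inner_starProjection_left_eq_right,
        Submodule.starProjection_eq_self_iff.mpr (b k).2]
    rw [mul_apply_eq_comp, h1, map_sum]
    calc ‖∑ k, Q.e i (⟪(b k : H), v⟫_ℂ • (b k : H))‖
        ≤ ∑ k, ‖Q.e i (⟪(b k : H), v⟫_ℂ • (b k : H))‖ := norm_sum_le _ _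
      _ ≤ ∑ k, ‖Q.e i (b k : H)‖ * ‖v‖ := by
          refine Finset.sum_le_sum fun k _ => ?_
          rw [map_smul, norm_smul, mul_comm]
          apply mul_le_mul_of_nonneg_left _ (norm_nonneg _)
          have h4 : ‖(b k : H)‖ = 1 := b.orthonormal.1 k
          calc ‖⟪(b k : H), v⟫_ℂ‖ ≤ ‖(b k : H)‖ * ‖v‖ := norm_inner_le_norm _ _
            _ = ‖v‖ := by rw [h4, one_mul]
      _ = (∑ k, ‖Q.e i (b k : H)‖) * ‖v‖ := by rw [Finset.sum_mul]
      _ ≤ δ * ‖v‖ := mul_le_mul_of_nonneg_right (hQ i) (norm_nonneg _)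

end Vale.Agent.P078
end

section

/-! Small partitions with respect to a trace on a corner. -/

namespace Vale.Agent.P078

open Filter Topology
open scoped InnerProductSpace

variable {H : Type*} [NormedAddCommGroup H] [InnerProductSpace ℂ H] [CompleteSpace H]
variable {M : VonNeumannAlgebra H} {A : StarSubalgebra ℂ (H →L[ℂ] H)}
variable {e0 : H →L[ℂ] H} {ξ : ℕ → H}

/-- a minimal projection of a MASA is a minimal projection of the algebra -/
theorem IsMASA.minimal (hA : IsMASA A M) {e : H →L[ℂ] H} (heA : e ∈ A)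
    (hep : IsStarProjection e) (he : e ≠ 0)
    (hmin : ∀ f ∈ A, IsStarProjection f → e * f = f → f = 0 ∨ f = e) :
    ∀ x ∈ M, ∃ c : ℂ, e * x * e = c • e := by
  have hc := hA.2.1
  have heM : e ∈ M := hA.1 heA
  have hee : e * e = e := hep.isIdempotentElem.eq
  -- elements of `e M e` belong to `A`
  have h1 : ∀ x ∈ M, e * x * e ∈ A := by
    intro x hx
    have hyM : e * x * e ∈ M := mul_mem (mul_mem heM hx) heM
    refine hA.mem hyM ?_
    have h2 : ∀ p ∈ A, IsStarProjection p → (e * x * e) * p = p * (e * x * e) := by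
      intro p hp hpp
      have hpe : e * p = p * e := hc e heA p hp
      have hepp : IsStarProjection (e * p) := by
        refine ⟨?_, ?_⟩
        · change e * p * (e * p) = e * p
          calc e * p * (e * p) = e * (p * e) * p := by simp only [mul_assoc]
            _ = (e * e) * (p * p) := by rw [← hpe]; simp only [mul_assoc]
            _ = e * p := by rw [hee, hpp.isIdempotentElem.eq]
        · rw [IsSelfAdjoint, star_mul, hep.isSelfAdjoint.star_eq, hpp.isSelfAdjoint.star_eq, hpe]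
      have h3 := hmin (e * p) (mul_mem heA hp) hepp (by rw [← mul_assoc, hee])
      have e1 : (e * x * e) * p = (e * x) * (e * p) := by simp only [mul_assoc]
      have e2 : p * (e * x * e) = (e * p) * (x * e) := by
        rw [hpe]; simp only [mul_assoc]
      rw [e1, e2]
      rcases h3 with h3 | h3
      · rw [h3, mul_zero, zero_mul]
      · rw [h3, ← mul_assoc]
    intro a ha
    exact (hA.comm_of_proj h2 a ha).symm
  obtain ⟨ζ0, hζ0⟩ : ∃ ζ, e ζ ≠ 0 := by
    by_contra hcon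
    push Not at hcon
    exact he (ContinuousLinearMap.ext hcon)
  -- self-adjoint elements
  have h4 : ∀ x ∈ M, IsSelfAdjoint x → ∃ c : ℂ, e * x * e = c • e := by
    intro x hx hxs
    obtain ⟨y, hy⟩ : ∃ y, y = e * x * e := ⟨_, rfl⟩
    have hyA : y ∈ A := by rw [hy]; exact h1 x hx
    have hys : IsSelfAdjoint y := by
      rw [hy, IsSelfAdjoint, star_mul, star_mul, hep.isSelfAdjoint.star_eq, hxs.star_eq,
        mul_assoc]
    have hye : y * e = y := by rw [hy, mul_assoc, hee]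
    have hey : e * y = y := by rw [hy, ← mul_assoc, ← mul_assoc, hee]
    have h5 : ∀ t : ℝ, (∀ ζ, e ζ = ζ → t * ‖ζ‖ ^ 2 ≤ (⟪ζ, y ζ⟫_ℂ).re) ∨
        (∀ ζ, e ζ = ζ → (⟪ζ, y ζ⟫_ℂ).re ≤ t * ‖ζ‖ ^ 2) := by
      intro t
      obtain ⟨f, hfp, hfc, hf1, hf2⟩ := exists_spectral_proj y hys t
      have hfA : f ∈ A := hA.spectral_proj_mem hyA hfc
      have hef : e * f = f * e := hc e heA f hfA
      have hefp : IsStarProjection (e * f) := by
        refine ⟨?_, ?_⟩
        · change e * f * (e * f) = e * f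
          calc e * f * (e * f) = e * (f * e) * f := by simp only [mul_assoc]
            _ = (e * e) * (f * f) := by rw [← hef]; simp only [mul_assoc]
            _ = e * f := by rw [hee, hfp.isIdempotentElem.eq]
        · rw [IsSelfAdjoint, star_mul, hep.isSelfAdjoint.star_eq, hfp.isSelfAdjoint.star_eq, hef]
      rcases hmin (e * f) (mul_mem heA hfA) hefp (by rw [← mul_assoc, hee]) with h6 | h6
      · right
        intro ζ hζ
        refine hf2 ζ ?_
        have : f (e ζ) = 0 := by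
          rw [hef] at h6
          exact DFunLike.congr_fun h6 ζ
        rwa [hζ] at this
      · left
        intro ζ hζ
        refine hf1 ζ ?_
        have : f (e ζ) = e ζ := by
          rw [hef] at h6
          exact DFunLike.congr_fun h6 ζ
        rwa [hζ] at this
    obtain ⟨ζ1, hζ1⟩ : ∃ ζ1, ζ1 = e ζ0 := ⟨_, rfl⟩
    have hζ1e : e ζ1 = ζ1 := by rw [hζ1]; exact proj_apply_apply hep ζ0
    have hζ1n : 0 < ‖ζ1‖ ^ 2 := by
      rw [hζ1]
      have := norm_pos_iff.mpr hζ0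
      (clear * - hζ0; positivity)
    obtain ⟨c, hcdef⟩ : ∃ c : ℝ, c = (⟪ζ1, y ζ1⟫_ℂ).re / ‖ζ1‖ ^ 2 := ⟨_, rfl⟩
    have hcζ : c * ‖ζ1‖ ^ 2 = (⟪ζ1, y ζ1⟫_ℂ).re := by
      rw [hcdef, div_mul_cancel₀ _ hζ1n.ne']
    have h7 : ∀ t < c, ∀ ζ, e ζ = ζ → t * ‖ζ‖ ^ 2 ≤ (⟪ζ, y ζ⟫_ℂ).re := by
      intro t ht
      rcases h5 t with h8 | h8
      · exact h8
      · exfalso
        have := h8 ζ1 hζ1e
        rw [← hcζ] at this
        linarith only [mul_pos (sub_pos.2 hζ1n) (sub_pos.2 ht), this]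
    have h8 : ∀ t > c, ∀ ζ, e ζ = ζ → (⟪ζ, y ζ⟫_ℂ).re ≤ t * ‖ζ‖ ^ 2 := by
      intro t ht
      rcases h5 t with h9 | h9
      · exfalso
        have := h9 ζ1 hζ1e
        rw [← hcζ] at this
        linarith only [mul_pos (sub_pos.2 hζ1n) (sub_pos.2 ht), this]
      · exact h9
    have h9 : ∀ ζ, e ζ = ζ → (⟪ζ, y ζ⟫_ℂ).re = c * ‖ζ‖ ^ 2 := by
      intro ζ hζ
      apply le_antisymm
      · refine le_of_forall_pos_le_add fun δ hδ => ?_
        have h10 := h8 (c + δ / (‖ζ‖ ^ 2 + 1)) (by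
          have : 0 < δ / (‖ζ‖ ^ 2 + 1) := by (clear * - hδ; (clear * - hδ; positivity))
          linarith only [this]) ζ hζ
        have h11 : δ / (‖ζ‖ ^ 2 + 1) * ‖ζ‖ ^ 2 ≤ δ := by
          rw [div_mul_eq_mul_div, div_le_iff₀ (by (clear * -; positivity))]
          linarith only [hδ]
        linarith only [h10, h11]
      · refine le_of_forall_pos_le_add fun δ hδ => ?_
        have h10 := h7 (c - δ / (‖ζ‖ ^ 2 + 1)) (by
          have : 0 < δ / (‖ζ‖ ^ 2 + 1) := by (clear * - hδ; positivity)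
          linarith only [this]) ζ hζ
        have h11 : δ / (‖ζ‖ ^ 2 + 1) * ‖ζ‖ ^ 2 ≤ δ := by
          rw [div_mul_eq_mul_div, div_le_iff₀ (by (clear * -; positivity))]
          linarith only [hδ, sq_nonneg ‖ζ‖]
        linarith only [h10, h11]
    refine ⟨(c : ℂ), ?_⟩
    rw [← hy]
    have h10 : ∀ ζ, (⟪ζ, (y - (c : ℂ) • e) ζ⟫_ℂ).re = 0 := by
      intro ζ
      rw [_root_.sub_apply, smul_apply, inner_sub_right, inner_smul_right, Complex.sub_re,
        Complex.re_ofReal_mul, proj_inner_self hep]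
      have e1 : ⟪ζ, y ζ⟫_ℂ = ⟪e ζ, y (e ζ)⟫_ℂ := by
        rw [proj_inner hep]
        have e2 : e (y (e ζ)) = y ζ := by
          have : e * (y * e) = y := by rw [hye, hey]
          exact DFunLike.congr_fun this ζ
        rw [e2]
      rw [e1, h9 (e ζ) (proj_apply_apply hep ζ), sub_self]
    have hsa : IsSelfAdjoint (y - (c : ℂ) • e) := by
      refine hys.sub ?_
      rw [IsSelfAdjoint, star_smul, hep.isSelfAdjoint.star_eq, Complex.star_def,
        Complex.conj_ofReal]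
    have h11 : 0 ≤ y - (c : ℂ) • e := nonneg_of_inner hsa fun ζ => (h10 ζ).ge
    have h12 : 0 ≤ -(y - (c : ℂ) • e) := nonneg_of_inner hsa.neg fun ζ => by
      rw [_root_.neg_apply, inner_neg_right, Complex.neg_re, h10, neg_zero]
    have h13 : y - (c : ℂ) • e = 0 := le_antisymm (neg_nonneg.mp h12) h11
    exact sub_eq_zero.mp h13
  intro x hx
  have hsx : star x ∈ M := star_mem hx
  obtain ⟨c1, hc1⟩ := h4 (x + star x) (add_mem hx hsx) (IsSelfAdjoint.add_star_self x)
  obtain ⟨c2, hc2⟩ := h4 (Complex.I • (x - star x))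
    (M.toStarSubalgebra.smul_mem (sub_mem hx hsx) _) (by
      rw [IsSelfAdjoint, star_smul, star_sub, star_star, Complex.star_def, Complex.conj_I,
        neg_smul, ← smul_neg, neg_sub])
  refine ⟨(1 / 2 : ℂ) * (c1 - Complex.I * c2), ?_⟩
  have e1 : x = (1 / 2 : ℂ) • ((x + star x) - Complex.I • (Complex.I • (x - star x))) := by
    rw [smul_smul, Complex.I_mul_I, neg_one_smul, sub_neg_eq_add]
    have : x + star x + (x - star x) = (2 : ℂ) • x := by rw [two_smul]; abel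
    rw [this, smul_smul]
    norm_num
  have e2 : e * x * e = (1 / 2 : ℂ) • (e * (x + star x) * e -
      Complex.I • (e * (Complex.I • (x - star x)) * e)) := by
    conv_lhs => rw [e1]
    simp only [mul_smul_comm, smul_mul_assoc, mul_sub, sub_mul]
  rw [e2, hc1, hc2, smul_smul, ← sub_smul, smul_smul]

/-- small partitions on finitely many vectors of a diffuse corner -/
theorem exists_part_small_corner (hA : IsMASA A M) (he0A : e0 ∈ A) (he0p : IsStarProjection e0)
    (hdiff : ∀ e ∈ A, IsStarProjection e → e0 * e = e → e ≠ 0 →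
      ∃ f ∈ A, IsStarProjection f ∧ e * f = f ∧ f ≠ 0 ∧ f ≠ e)
    {d : ℕ} (b : Fin d → H) (hb : ∀ k, e0 (b k) = b k) {δ : ℝ} (hδ : 0 < δ) :
    ∃ Q : Part A, ∀ i, ∑ k, ‖Q.e i (b k)‖ ≤ δ := by
  classical
  by_contra hcon
  push Not at hcon
  choose i hi using hcon
  have hc := hA.2.1
  have : (Part.filter A).NeBot := Part.filter_neBot hc
  set U : Ultrafilter (Part A) := Ultrafilter.of (Part.filter A) with hUdef
  have hU : (U : Filter (Part A)) ≤ Part.filter A := Ultrafilter.of_le _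
  have hn : ∀ Q : Part A, ‖Q.e (i Q)‖ ≤ 1 := fun Q =>
    ContinuousLinearMap.opNorm_le_bound _ zero_le_one fun v => by
      rw [one_mul]; exact proj_norm_le (Q.proj _) v
  obtain ⟨t, ht1, ht⟩ := exists_wot_limit U (fun Q : Part A => Q.e (i Q)) 1
    (Eventually.of_forall hn) zero_le_one
  have hleft : ∀ (y : H →L[ℂ] H) (ξ η : H),
      Tendsto (fun Q : Part A => ⟪ξ, (y * Q.e (i Q)) η⟫_ℂ) U (𝓝 ⟪ξ, (y * t) η⟫_ℂ) := by
    intro y ξ η
    have := ht (star y ξ) η
    simp only [star_apply_inner] at this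
    exact this
  have hright : ∀ (y : H →L[ℂ] H) (ξ η : H),
      Tendsto (fun Q : Part A => ⟪ξ, (Q.e (i Q) * y) η⟫_ℂ) U (𝓝 ⟪ξ, (t * y) η⟫_ℂ) := by
    intro y ξ η
    exact ht ξ (y η)
  have htA : t ∈ A := by
    have htM : t ∈ M := by
      refine mem_of_commute fun y hy => inner_ext fun ξ η => ?_
      refine tendsto_nhds_unique (hleft y ξ η) ((hright y ξ η).congr fun Q => ?_)
      rw [commutant_comm (hA.1 (Q.mem (i Q))) hy]
    refine hA.mem htM fun a ha => inner_ext fun ξ η => ?_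
    refine tendsto_nhds_unique (hleft a ξ η) ((hright a ξ η).congr fun Q => ?_)
    rw [hc a ha _ (Q.mem (i Q))]
  have hdich : ∀ f ∈ A, IsStarProjection f → f * t = t ∨ f * t = 0 := by
    intro f hf hfp
    have h1 : ∀ᶠ Q in (U : Filter (Part A)),
        f * Q.e (i Q) = Q.e (i Q) ∨ f * Q.e (i Q) = 0 := by
      filter_upwards [hU (Part.eventually_finer (Part.two f hf hfp))] with Q hQ
      exact hQ true (i Q)
    rw [Ultrafilter.eventually_or] at h1
    rcases h1 with h1 | h1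
    · left
      refine inner_ext fun ξ η => ?_
      refine tendsto_nhds_unique (hleft f ξ η) ((ht ξ η).congr' ?_)
      filter_upwards [h1] with Q hQ
      rw [hQ]
    · right
      refine inner_ext fun ξ η => ?_
      refine tendsto_nhds_unique (hleft f ξ η) (tendsto_const_nhds.congr' ?_)
      filter_upwards [h1] with Q hQ
      rw [hQ]
  have hd : 0 < d := by
    rcases Nat.eq_zero_or_pos d with h | h
    · exfalso
      subst h
      have := hi (Part.trivialPart A)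
      simp only [Finset.univ_eq_empty, Finset.sum_empty] at this
      linarith only [hδ, this]
    · exact h
  have hdR : (0 : ℝ) < d := by exact_mod_cast hd
  obtain ⟨t', ht'⟩ : ∃ t', t' = t * e0 := ⟨_, rfl⟩
  have ht'A : t' ∈ A := by rw [ht']; exact mul_mem htA he0A
  have ht0 : t' ≠ 0 := by
    intro h0
    have h1 : Tendsto (fun Q : Part A => ∑ k, (⟪b k, Q.e (i Q) (b k)⟫_ℂ).re) U
        (𝓝 (∑ k : Fin d, (⟪b k, t (b k)⟫_ℂ).re)) := by
      apply tendsto_finsetSum
      intro k _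
      exact (Complex.continuous_re.tendsto _).comp (ht (b k) (b k))
    have h2 : δ ^ 2 / d ≤ ∑ k : Fin d, (⟪b k, t (b k)⟫_ℂ).re := by
      refine ge_of_tendsto h1 (Eventually.of_forall fun Q => ?_)
      have h3 : ∀ k, (⟪b k, Q.e (i Q) (b k)⟫_ℂ).re = ‖Q.e (i Q) (b k)‖ ^ 2 := fun k =>
        proj_inner_self (Q.proj _) (b k)
      simp_rw [h3]
      rw [div_le_iff₀ hdR]
      calc δ ^ 2 ≤ (∑ k, ‖Q.e (i Q) (b k)‖) ^ 2 := pow_le_pow_left₀ hδ.le (hi Q).le 2
        _ ≤ (Finset.univ : Finset (Fin d)).card * ∑ k, ‖Q.e (i Q) (b k)‖ ^ 2 :=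
            sq_sum_le_card_mul_sum_sq
        _ = _ := by rw [Finset.card_univ, Fintype.card_fin, mul_comm]
    have h5 : ∀ k, t (b k) = 0 := by
      intro k
      have : t' (b k) = t (e0 (b k)) := by rw [ht']; rfl
      rw [hb k, h0] at this
      exact this.symm
    simp_rw [h5] at h2
    simp only [inner_zero_right, Complex.zero_re, Finset.sum_const_zero] at h2
    have h4 : 0 < δ ^ 2 / d := by (clear * - hδ hd; (clear * - hδ hd; positivity))
    linarith only [h2, h4]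
  have hdich' : ∀ f ∈ A, IsStarProjection f → f * t' = t' ∨ f * t' = 0 := by
    intro f hf hfp
    rcases hdich f hf hfp with h | h
    · left; rw [ht', ← mul_assoc, h]
    · right; rw [ht', ← mul_assoc, h, zero_mul]
  have he0t' : e0 * t' = t' := by
    have h1 : e0 * t = t * e0 := hc e0 he0A t htA
    rw [ht', ← mul_assoc, h1, mul_assoc, he0p.isIdempotentElem.eq]
  set g := rangeProj t' with hg
  have hgp : IsStarProjection g := rangeProj_isStarProjection t'
  have hgA : g ∈ A := by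
    refine hA.mem (rangeProj_mem M (hA.1 ht'A)) fun a ha => ?_
    exact (rangeProj_commute (hc a ha t' ht'A) (hc _ (star_mem ha) t' ht'A)).eq
  have hg0 : g ≠ 0 := by
    intro h0
    apply ht0
    ext v
    have := rangeProj_apply_self t' v
    rw [← hg, h0] at this
    exact this.symm
  obtain ⟨f, hfA, hfp, hgf, hf0, hfg⟩ := hdiff g hgA hgp (mul_rangeProj_eq he0t') hg0
  rcases hdich' f hfA hfp with h1 | h1
  · apply hfg
    have h2 : f * g = g := mul_rangeProj_eq h1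
    rw [← hgf, hc g hgA f hfA, h2]
  · apply hf0
    have h2 : f * g = 0 := mul_rangeProj_eq_zero h1
    rw [← hgf, hc g hgA f hfA, h2]

end Vale.Agent.P078
end

section

/-! Greedy grouping of small weights. -/

namespace Vale.Agent.P078

theorem exists_subset_sum {J : Type*} [DecidableEq J] (s : Finset J) (t : J → ℝ)
    {σ c : ℝ} (hσ : 0 ≤ σ) (hts : ∀ j ∈ s, t j ≤ σ) (hc0 : 0 ≤ c)
    (hc : c ≤ ∑ j ∈ s, t j) : ∃ s' ⊆ s, c - σ ≤ ∑ j ∈ s', t j ∧ ∑ j ∈ s', t j ≤ c := by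
  induction s using Finset.induction_on with
  | empty =>
    refine ⟨∅, subset_rfl, ?_, ?_⟩
    · simp only [Finset.sum_empty, tsub_le_iff_right, zero_add] at hc ⊢; linarith only [hσ, hc]
    · simpa only [Finset.sum_empty] using hc0
  | insert a s ha ih =>
    by_cases h : c ≤ ∑ j ∈ s, t j
    · obtain ⟨s', hs', h1, h2⟩ := ih (fun j hj => hts j (Finset.mem_insert_of_mem hj)) h
      exact ⟨s', hs'.trans (Finset.subset_insert _ _), h1, h2⟩
    · push Not at h
      refine ⟨s, Finset.subset_insert _ _, ?_, h.le⟩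
      rw [Finset.sum_insert ha] at hc
      have := hts a (Finset.mem_insert_self _ _)
      linarith only [hc, this]

theorem exists_groups {J : Type*} [DecidableEq J] (t : J → ℝ) {σ c : ℝ}
    (hσ : 0 ≤ σ) (hc0 : 0 ≤ c) (k : ℕ) : ∀ s : Finset J, (∀ j ∈ s, t j ≤ σ) →
    (k : ℝ) * c ≤ ∑ j ∈ s, t j →
    ∃ S : Fin k → Finset J, (∀ l, S l ⊆ s) ∧ (∀ l l', l ≠ l' → Disjoint (S l) (S l')) ∧
      ∀ l, c - σ ≤ ∑ j ∈ S l, t j ∧ ∑ j ∈ S l, t j ≤ c := by
  induction k with
  | zero => intro s _ _; exact ⟨fun l => l.elim0, fun l => l.elim0, fun l => l.elim0,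
      fun l => l.elim0⟩
  | succ k ih =>
    intro s hts hsum
    push_cast at hsum
    have hkc : 0 ≤ (k : ℝ) * c := mul_nonneg (Nat.cast_nonneg _) hc0
    obtain ⟨s', hs', h1, h2⟩ := exists_subset_sum s t hσ hts hc0 (by linarith only [hsum, hkc])
    obtain ⟨S, hS1, hS2, hS3⟩ := ih (s \ s') (fun j hj => hts j (Finset.mem_sdiff.mp hj).1) (by
      have := Finset.sum_sdiff hs' (f := t)
      linarith only [hsum, h2, this])
    refine ⟨Fin.cons s' S, ?_, ?_, ?_⟩
    · intro l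
      refine Fin.cases ?_ (fun l => ?_) l
      · exact hs'
      · exact (hS1 l).trans Finset.sdiff_subset
    · intro l l'
      refine Fin.cases ?_ (fun l => ?_) l
      · refine Fin.cases ?_ (fun l' => ?_) l'
        · intro h; exact absurd rfl h
        · intro _
          rw [Fin.cons_zero, Fin.cons_succ]
          exact Finset.disjoint_of_subset_right (hS1 l') Finset.disjoint_sdiff
      · refine Fin.cases ?_ (fun l' => ?_) l'
        · intro _
          rw [Fin.cons_zero, Fin.cons_succ]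
          exact Finset.disjoint_of_subset_left (hS1 l) Finset.sdiff_disjoint
        · intro h
          rw [Fin.cons_succ, Fin.cons_succ]
          exact hS2 l l' fun h' => h (by rw [h'])
    · intro l
      refine Fin.cases ?_ (fun l => ?_) l
      · exact ⟨h1, h2⟩
      · exact hS3 l

end Vale.Agent.P078
end

section

/-! The universal quadratic lower bound. -/

namespace Vale.Agent.P078

open Filter Topology
open scoped InnerProductSpace

variable {H : Type*} [NormedAddCommGroup H] [InnerProductSpace ℂ H] [CompleteSpace H]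
variable {M : VonNeumannAlgebra H} {A : StarSubalgebra ℂ (H →L[ℂ] H)}
variable {e0 : H →L[ℂ] H} {ξ : ℕ → H}

namespace CornerTrace

variable (T : CornerTrace M e0 ξ)

/-- the corner contains no finite spanning set -/
def _root_.Vale.Agent.P078.InfCorner (M : VonNeumannAlgebra H) (e0 : H →L[ℂ] H) : Prop :=
  ¬ ∃ s : Finset (H →L[ℂ] H), ∀ x ∈ M, e0 * x * e0 = x →
    x ∈ Submodule.span ℂ (s : Set (H →L[ℂ] H))

include T in
theorem exists_smaller (hA : IsMASA A M) (hF : IsFactor M) (hne : ∃ n, ξ n ≠ 0)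
    (hinf : InfCorner M e0) :
    ∀ e ∈ A, IsStarProjection e → e0 * e = e → e ≠ 0 →
      ∃ f ∈ A, IsStarProjection f ∧ e * f = f ∧ f ≠ 0 ∧ f ≠ e := by
  intro e heA hep hee he
  by_contra hcon
  push Not at hcon
  apply hinf
  refine T.finite_of_minimal hF hne (hA.1 heA) hep hee he ?_
  refine hA.minimal heA hep he fun f hfA hfp hef => ?_
  by_cases hf0 : f = 0
  · exact Or.inl hf0
  · exact Or.inr (hcon f hfA hfp hef hf0)

theorem exists_part_small (hA : IsMASA A M) (he0A : e0 ∈ A)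
    (hdiff : ∀ e ∈ A, IsStarProjection e → e0 * e = e → e ≠ 0 →
      ∃ f ∈ A, IsStarProjection f ∧ e * f = f ∧ f ≠ 0 ∧ f ≠ e) {σ : ℝ} (hσ : 0 < σ) :
    ∃ Q : Part A, ∀ i, (T.tr (Q.e i)).re ≤ σ := by
  classical
  obtain ⟨F, δ, hδ, hF⟩ := exists_finset_small T.summable (Real.sqrt_pos.mpr hσ)
  set b : Fin F.card → H := fun k => ξ (F.equivFin.symm k) with hb
  obtain ⟨Q, hQ⟩ := exists_part_small_corner hA he0A T.proj hdiff b (fun k => T.apply _)
    (half_pos hδ)
  refine ⟨Q, fun i => ?_⟩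
  rw [← T.norm_X_proj_sq (Q.proj i)]
  have h1 : ‖T.X (1 - (1 - Q.e i))‖ ≤ Real.sqrt σ := by
    refine hF (1 - Q.e i) ?_ ?_
    · exact ContinuousLinearMap.opNorm_le_bound _ zero_le_one fun v => by
        rw [one_mul]; exact proj_norm_le (Q.proj i).one_sub v
    · intro n hn
      have h2 : ξ n - (1 - Q.e i) (ξ n) = Q.e i (ξ n) := by
        rw [_root_.sub_apply, one_apply_eq_self]; abel
      rw [h2]
      have h3 : ‖Q.e i (b (F.equivFin ⟨n, hn⟩))‖ ≤ ∑ k, ‖Q.e i (b k)‖ :=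
        Finset.single_le_sum (f := fun k => ‖Q.e i (b k)‖) (fun k _ => norm_nonneg _)
          (Finset.mem_univ (F.equivFin ⟨n, hn⟩))
      have h4 : b (F.equivFin ⟨n, hn⟩) = ξ n := by rw [hb]; simp
      rw [h4] at h3
      linarith only [hQ i, h3, hδ]
  rw [sub_sub_cancel] at h1
  calc ‖T.X (Q.e i)‖ ^ 2 ≤ Real.sqrt σ ^ 2 := pow_le_pow_left₀ (norm_nonneg _) h1 2
    _ = σ := Real.sq_sqrt hσ.le

/-- existence of frames with almost full range projections -/
theorem exists_frame (hA : IsMASA A M) (hF : IsFactor M) (he0A : e0 ∈ A)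
    (h1 : ‖T.X 1‖ = 1) (hdiff : ∀ e ∈ A, IsStarProjection e → e0 * e = e → e ≠ 0 →
      ∃ f ∈ A, IsStarProjection f ∧ e * f = f ∧ f ≠ 0 ∧ f ≠ e) (m : ℕ) {σ : ℝ} (hσ : 0 < σ) :
    ∃ (g : H →L[ℂ] H) (Fr : HFrame M A e0 g (Fin (2 ^ m))),
      ‖T.X g‖ ^ 2 ≤ 1 / (Fintype.card (Fin (2 ^ m)) : ℝ) ∧
      1 - (2 : ℝ) ^ m * σ ≤ (T.tr Fr.G).re := by
  classical
  have hc := hA.2.1
  have hAM : ∀ a ∈ A, a ∈ M := fun a ha => hA.1 ha
  obtain ⟨Q, hQ⟩ := T.exists_part_small hA he0A hdiff hσ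
  have hpos : (0 : ℝ) < 2 ^ m := by positivity
  have htsum : ∑ j, (T.tr (Q.e j)).re = 1 := by
    rw [← Complex.re_sum, ← map_sum, Q.sum_eq]
    have := T.norm_X_proj_sq (IsStarProjection.one (H →L[ℂ] H))
    rw [← this, h1, one_pow]
  obtain ⟨S, -, hS2, hS3⟩ := exists_groups (fun j => (T.tr (Q.e j)).re) hσ.le
    (show (0 : ℝ) ≤ 1 / 2 ^ m by positivity) (2 ^ m) Finset.univ (fun j _ => hQ j) (by
      rw [htsum]
      push_cast
      rw [mul_one_div_cancel hpos.ne'])
  set f : Fin (2 ^ m) → (H →L[ℂ] H) := fun l => ∑ j ∈ S l, Q.e j with hf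
  have hfA : ∀ l, f l ∈ A := fun l => sum_mem fun j _ => Q.mem j
  have hfp : ∀ l, IsStarProjection (f l) := by
    intro l
    refine ⟨?_, ?_⟩
    · change (∑ j ∈ S l, Q.e j) * (∑ j ∈ S l, Q.e j) = ∑ j ∈ S l, Q.e j
      rw [Finset.sum_mul_sum]
      refine Finset.sum_congr rfl fun i hi => ?_
      rw [Finset.sum_eq_single i]
      · exact (Q.proj i).isIdempotentElem.eq
      · intro j _ hj; exact Q.orth i j hj.symm
      · intro h; exact absurd hi h
    · rw [IsSelfAdjoint, star_sum]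
      exact Finset.sum_congr rfl fun i _ => Q.star_e i
  have hfo : ∀ l l', l ≠ l' → f l * f l' = 0 := by
    intro l l' hll
    change (∑ j ∈ S l, Q.e j) * (∑ j ∈ S l', Q.e j) = 0
    rw [Finset.sum_mul_sum]
    refine Finset.sum_eq_zero fun i hi => Finset.sum_eq_zero fun j hj => ?_
    refine Q.orth i j fun hij => ?_
    subst hij
    exact Finset.disjoint_left.mp (hS2 l l' hll) hi hj
  set e : Fin (2 ^ m) → (H →L[ℂ] H) := fun l => e0 * f l with he
  have heA : ∀ l, e l ∈ A := fun l => mul_mem he0A (hfA l)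
  have h00 : e0 * e0 = e0 := T.proj.isIdempotentElem.eq
  have hef : ∀ l, e0 * f l = f l * e0 := fun l => hc _ he0A _ (hfA l)
  have hep : ∀ l, IsStarProjection (e l) := by
    intro l
    refine ⟨?_, ?_⟩
    · change e0 * f l * (e0 * f l) = e0 * f l
      calc e0 * f l * (e0 * f l) = e0 * (f l * e0) * f l := by simp only [mul_assoc]
        _ = (e0 * e0) * (f l * f l) := by rw [← hef]; simp only [mul_assoc]
        _ = _ := by rw [h00, (hfp l).isIdempotentElem.eq]
    · change star (e0 * f l) = e0 * f l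
      rw [star_mul, T.proj.isSelfAdjoint.star_eq, (hfp l).isSelfAdjoint.star_eq, hef]
  have heo : ∀ l l', l ≠ l' → e l * e l' = 0 := by
    intro l l' hll
    change e0 * f l * (e0 * f l') = 0
    calc e0 * f l * (e0 * f l') = e0 * (f l * e0) * f l' := by simp only [mul_assoc]
      _ = (e0 * e0) * (f l * f l') := by rw [← hef]; simp only [mul_assoc]
      _ = 0 := by rw [hfo l l' hll, mul_zero]
  have hee : ∀ l, e0 * e l = e l := fun l => by
    change e0 * (e0 * f l) = e0 * f l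
    rw [← mul_assoc, h00]
  have hetr : ∀ l, (T.tr (e l)).re = ∑ j ∈ S l, (T.tr (Q.e j)).re := by
    intro l
    change (T.tr (e0 * f l)).re = _
    rw [T.tr_e0_mul, map_sum, Complex.re_sum]
  obtain ⟨g, hg⟩ : ∃ g, g = e ⟨0, by (clear * -; positivity)⟩ := ⟨_, rfl⟩
  have hgA : g ∈ A := by rw [hg]; exact heA _
  have hgp : IsStarProjection g := by rw [hg]; exact hep _
  choose v hvM hv1 hv2 hv3 using fun l => hF.exists_compare (hAM g hgA) (hAM _ (heA l)) hgp (hep l)
  have hvn : ∀ l, ‖v l‖ ≤ 1 := by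
    intro l
    have hpn : ∀ p : H →L[ℂ] H, IsStarProjection p → ‖p‖ ≤ 1 := fun p hp =>
      ContinuousLinearMap.opNorm_le_bound _ zero_le_one fun v => by
        rw [one_mul]; exact proj_norm_le hp v
    have h2 : ‖v l‖ * ‖v l‖ ≤ 1 := by
      rcases hv3 l with h3 | h3
      · rw [← CStarRing.norm_self_mul_star, h3]; exact hpn _ (hep l)
      · rw [← CStarRing.norm_star_mul_self, h3]; exact hpn _ hgp
    nlinarith only [h2]
  obtain ⟨h, hh1, hh2, hh3⟩ := exists_walsh m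
  let Fr : HFrame M A e0 g (Fin (2 ^ m)) :=
    { e := e
      v := v
      h := h
      eA := heA
      eP := hep
      eo := heo
      ee := hee
      gM := hAM g hgA
      gP := hgp
      eg := by rw [hg]; exact hee _
      vM := hvM
      ev := hv1
      vg := hv2
      vn := hvn
      hs := hh1
      h2 := by intro i j; rw [hh2]; simp
      ho := hh3 }
  refine ⟨g, Fr, ?_, ?_⟩
  · rw [T.norm_X_proj_sq hgp, hg, hetr]
    have := (hS3 ⟨0, by (clear * -; positivity)⟩).2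
    simpa only [Fin.mk_zero', Fintype.card_fin, Nat.cast_pow, Nat.cast_ofNat, one_div, ge_iff_le] using this
  · have h3 : ∀ l, 1 / (2 : ℝ) ^ m - σ ≤ (T.tr (v l * star (v l))).re := by
      intro l
      rcases hv3 l with h4 | h4
      · rw [h4, hetr]
        exact (hS3 l).1
      · have hb : e0 * star (v l) = star (v l) * e0 := by
          have := Fr.e0sv l
          have h5 := Fr.sve0 T.proj l
          change e0 * star (v l) = star (v l) at this
          change star (v l) * e0 = star (v l) at h5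
          rw [this, h5]
        have h6 : e0 * v l * e0 = v l := by
          have h7 := Fr.e0v l
          have h8 := Fr.ve0 T.proj l
          change e0 * v l = v l at h7
          change v l * e0 = v l at h8
          rw [h7, h8]
        rw [T.tr_comm (hvM l) h6 (star_mem (hvM l)) hb, h4, hg, hetr]
        exact (hS3 _).1
    have h4 : (T.tr Fr.G).re = ∑ l, (T.tr (v l * star (v l))).re := by
      unfold HFrame.G
      rw [map_sum, Complex.re_sum]
    rw [h4]
    calc 1 - (2 : ℝ) ^ m * σ = ∑ _l : Fin (2 ^ m), (1 / (2 : ℝ) ^ m - σ) := by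
          rw [Finset.sum_const, Finset.card_univ, Fintype.card_fin, nsmul_eq_mul]
          push_cast
          (clear * -; field_simp)
      _ ≤ _ := Finset.sum_le_sum fun l _ => h3 l

/-- one inequality for each frame size -/
theorem step_bound (hA : IsMASA A M) (hF : IsFactor M) (he0A : e0 ∈ A)
    (h1 : ‖T.X 1‖ = 1) (hdiff : ∀ e ∈ A, IsStarProjection e → e0 * e = e → e ≠ 0 →
      ∃ f ∈ A, IsStarProjection f ∧ e * f = f ∧ f ≠ 0 ∧ f ≠ e) {ε : ℝ} (hε : 0 ≤ ε) {r : ℕ}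
    (hr : 0 < r) (hpave : ∀ x ∈ M, IsSelfAdjoint x → SOPavable M A 1 x ε r) (m : ℕ) {σ κ : ℝ}
    (hσ : 0 < σ) (hσ1 : (2 : ℝ) ^ m * σ ≤ 1) (hκ : 0 < κ) :
    (1 - (2 : ℝ) ^ m * σ) ^ 2 / r - 2 / Real.sqrt (2 ^ m) ≤
      (ε + 2 * κ + 2 * Real.sqrt κ) ^ 2 := by
  classical
  obtain ⟨g, Fr, hg, hG⟩ := T.exists_frame hA hF he0A h1 hdiff m hσ
  have hc := hA.2.1
  obtain ⟨F, δ, hδ, hFδ⟩ := exists_finset_small T.summable hκ
  obtain ⟨p, a, q, hp, hpo, hps, haA, -, has, han, hqM, -, hqp, hqF, hqS⟩ :=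
    hpave Fr.x Fr.x_mem Fr.x_sa (F.image ξ) (fun ζ _ => rfl) δ hδ
  have ha1 : ‖a‖ ≤ 1 := han.trans Fr.x_norm
  obtain ⟨S, hS⟩ : ∃ S, S = ∑ i, p i * Fr.x * p i - a := ⟨_, rfl⟩
  rw [← hS] at hqS
  have hpM : ∀ i, p i ∈ M := fun i => hA.1 (hp i).1
  have hSM : S ∈ M := by
    rw [hS]
    exact sub_mem (sum_mem fun i _ => mul_mem (mul_mem (hpM i) Fr.x_mem) (hpM i)) (hA.1 haA)
  have hSs : IsSelfAdjoint S := by
    rw [hS]
    refine IsSelfAdjoint.sub ?_ has
    rw [IsSelfAdjoint, star_sum]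
    refine Finset.sum_congr rfl fun i _ => ?_
    rw [star_mul, star_mul, (hp i).2.isSelfAdjoint.star_eq, Fr.x_sa.star_eq, mul_assoc]
  have h00 : e0 * e0 = e0 := T.proj.isIdempotentElem.eq
  have hx1 : e0 * Fr.x = Fr.x := by
    rw [← Fr.x_e0 T.proj, ← mul_assoc, ← mul_assoc, h00]
  have hx2 : Fr.x * e0 = Fr.x := by
    rw [← Fr.x_e0 T.proj, mul_assoc, h00]
  have hSe : e0 * S = S * e0 := by
    rw [hS, mul_sub, sub_mul, hc e0 he0A a haA, Finset.mul_sum, Finset.sum_mul]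
    congr 1
    refine Finset.sum_congr rfl fun i _ => ?_
    have hpe : e0 * p i = p i * e0 := hc _ he0A _ (hp i).1
    calc e0 * (p i * Fr.x * p i) = (e0 * p i) * Fr.x * p i := by simp only [mul_assoc]
      _ = p i * (e0 * Fr.x) * p i := by rw [hpe]; simp only [mul_assoc]
      _ = p i * (Fr.x * e0) * p i := by rw [hx1, hx2]
      _ = p i * Fr.x * (e0 * p i) := by simp only [mul_assoc]
      _ = p i * Fr.x * p i * e0 := by rw [hpe]; simp only [mul_assoc]
  have hSn : ‖S‖ ≤ 2 := by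
    rw [hS]
    calc _ ≤ ‖∑ i, p i * Fr.x * p i‖ + ‖a‖ := norm_sub_le _ _
      _ ≤ ‖Fr.x‖ + 1 := add_le_add (norm_pinch_le hp hpo hps _) ha1
      _ ≤ 2 := by linarith only [Fr.x_norm]
  have hκ1 : ‖T.X (1 - q)‖ ≤ κ := by
    refine hFδ q ?_ fun n hn => hqF _ (Finset.mem_image_of_mem _ hn)
    exact ContinuousLinearMap.opNorm_le_bound _ zero_le_one fun v => by
      rw [one_mul]; exact proj_norm_le hqp v
  have h2 := T.norm_X_le_of_compress hSM hSs hSe hqM hqp hSn h1.le hκ1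
  have h3 : ‖q * S * q‖ ≤ ε := by
    calc ‖q * S * q‖ ≤ ε * ‖Fr.x‖ := hqS
      _ ≤ ε * 1 := mul_le_mul_of_nonneg_left Fr.x_norm hε
      _ = ε := mul_one _
  have h4 := Fr.pinch_lower T hA.1 hc he0A hg (by rw [Fintype.card_fin]; (clear * -; positivity)) hr hp hpo hps
    haA has ha1
  rw [← hS, Fintype.card_fin] at h4
  push_cast at h4
  have hr0 : (0 : ℝ) < r := by exact_mod_cast hr
  calc (1 - (2 : ℝ) ^ m * σ) ^ 2 / r - 2 / Real.sqrt (2 ^ m)
      ≤ (T.tr Fr.G).re ^ 2 / r - 2 / Real.sqrt (2 ^ m) := by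
        refine sub_le_sub_right ?_ _
        refine div_le_div_of_nonneg_right ?_ hr0.le
        exact pow_le_pow_left₀ (by linarith only [hσ1]) hG 2
    _ ≤ ‖T.X S‖ ^ 2 := h4
    _ ≤ (ε + 2 * κ + 2 * Real.sqrt κ) ^ 2 := by
        refine pow_le_pow_left₀ (norm_nonneg _) ?_ 2
        linarith only [h2, h3]

/-- the quadratic lower bound in the presence of a trace on an infinite-dimensional corner -/
theorem quadratic (hA : IsMASA A M) (hF : IsFactor M) (he0A : e0 ∈ A)
    (h1 : ‖T.X 1‖ = 1) (hinf : InfCorner M e0) {ε : ℝ} (hε : 0 ≤ ε) {r : ℕ}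
    (hr : 0 < r) (hpave : ∀ x ∈ M, IsSelfAdjoint x → SOPavable M A 1 x ε r) :
    1 / (r : ℝ) ≤ ε ^ 2 := by
  have hne : ∃ n, ξ n ≠ 0 := by
    by_contra hcon
    push Not at hcon
    have : T.X 1 = 0 := by
      ext n
      change (1 : H →L[ℂ] H) (ξ n) = 0
      rw [hcon n, map_zero]
    rw [this, norm_zero] at h1
    exact zero_ne_one h1
  have hdiff := T.exists_smaller hA hF hne hinf
  have key : ∀ n : ℕ, (1 - 1 / ((n : ℝ) + 1)) ^ 2 / r - 2 / Real.sqrt (2 ^ n) ≤
      (ε + 2 * (1 / ((n : ℝ) + 1)) ^ 2 + 2 * (1 / ((n : ℝ) + 1))) ^ 2 := by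
    intro n
    have hn : (0 : ℝ) < (n : ℝ) + 1 := by (clear * -; positivity)
    have h2n : (0 : ℝ) < 2 ^ n := by positivity
    have h2 := T.step_bound hA hF he0A h1 hdiff hε hr hpave n
      (σ := 1 / ((n : ℝ) + 1) / 2 ^ n) (κ := (1 / ((n : ℝ) + 1)) ^ 2) (by (clear * -; (clear * -; positivity)))
      (by
        rw [mul_div_cancel₀ _ h2n.ne', div_le_one hn]
        have : (0 : ℝ) ≤ n := Nat.cast_nonneg n
        linarith only)
      (by (clear * -; (clear * -; positivity)))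
    rw [mul_div_cancel₀ _ h2n.ne', Real.sqrt_sq (by (clear * -; positivity))] at h2
    exact h2
  have t0 : Tendsto (fun n : ℕ => 1 / ((n : ℝ) + 1)) atTop (𝓝 0) :=
    tendsto_one_div_add_atTop_nhds_zero_nat
  have t1 : Tendsto (fun n : ℕ => 2 / Real.sqrt (2 ^ n)) atTop (𝓝 0) := by
    have e1 : ∀ n : ℕ, 2 / Real.sqrt ((2 : ℝ) ^ n) = 2 * (1 / Real.sqrt 2) ^ n := by
      intro n
      rw [one_div, inv_pow, ← div_eq_mul_inv]
      congr 1
      rw [Real.sqrt_eq_iff_mul_self_eq (by (clear * -; positivity)) (by (clear * -; positivity)), ← mul_pow,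
        Real.mul_self_sqrt (by norm_num)]
    simp_rw [e1]
    have e2 : Tendsto (fun n : ℕ => (1 / Real.sqrt 2) ^ n) atTop (𝓝 0) := by
      refine tendsto_pow_atTop_nhds_zero_of_lt_one (by (clear * -; positivity)) ?_
      rw [div_lt_one (by (clear * -; positivity))]
      exact Real.lt_sqrt_of_sq_lt (by norm_num)
    simpa only [one_div, inv_pow, mul_zero] using e2.const_mul 2
  have t2 : Tendsto (fun n : ℕ => (1 - 1 / ((n : ℝ) + 1)) ^ 2 / r - 2 / Real.sqrt (2 ^ n)) atTop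
      (𝓝 (((1 : ℝ) - 0) ^ 2 / (r : ℝ) - 0)) :=
    (((tendsto_const_nhds.sub t0).pow 2).div_const _).sub t1
  have t3 : Tendsto (fun n : ℕ => (ε + 2 * (1 / ((n : ℝ) + 1)) ^ 2 +
      2 * (1 / ((n : ℝ) + 1))) ^ 2) atTop (𝓝 ((ε + 2 * 0 ^ 2 + 2 * 0) ^ 2)) :=
    ((tendsto_const_nhds.add ((t0.pow 2).const_mul 2)).add (t0.const_mul 2)).pow 2
  have h2 := le_of_tendsto_of_tendsto' t2 t3 key
  simpa only [one_div, ge_iff_le, sub_zero, one_pow, ne_eq, OfNat.ofNat_ne_zero, not_false_eq_true, zero_pow,     mul_zero, add_zero] using h2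

end CornerTrace

/-- every MASA of every factor of type II one has paving number at least `ε⁻²` -/
theorem quadratic_lower (hA : IsMASA A M) (hM : IsTypeII1Factor M) {ε : ℝ} (hε : 0 < ε) :
    (⌈1 / ε ^ 2⌉₊ : ℕ∞) ≤ pavingNumber M A 1 ε := by
  obtain ⟨hF, hfd, ξ, hξs, hξ0, htr⟩ := hM
  -- normalization
  set C : ℝ := ∑' n, ‖ξ n‖ ^ 2 with hC
  have hCpos : 0 < C := by
    obtain ⟨n, hn⟩ := hξ0
    exact hξs.tsum_pos (fun n => sq_nonneg _) n (by
      have := norm_pos_iff.mpr hn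
      positivity)
  set c : ℝ := (Real.sqrt C)⁻¹ with hcdef
  have hc0 : 0 < c := inv_pos.mpr (Real.sqrt_pos.mpr hCpos)
  set η : ℕ → H := fun n => (c : ℂ) • ξ n with hη
  have hηn : ∀ n, ‖η n‖ ^ 2 = c ^ 2 * ‖ξ n‖ ^ 2 := by
    intro n
    rw [hη]
    simp only [norm_smul, mul_pow, Complex.norm_real, Real.norm_eq_abs, sq_abs]
  have hηs : Summable fun n => ‖η n‖ ^ 2 := by
    simp_rw [hηn]; exact hξs.mul_left _
  have hvt : ∀ x, vecTrace η x = ((c ^ 2 : ℝ) : ℂ) * vecTrace ξ x := by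
    intro x
    unfold vecTrace
    rw [← tsum_mul_left]
    refine tsum_congr fun n => ?_
    rw [hη]
    simp only [map_smul, inner_smul_right, inner_smul_left, Complex.conj_ofReal]
    push_cast
    ring
  have T : CornerTrace M (1 : H →L[ℂ] H) η :=
    { summable := hηs
      mem := one_mem M
      proj := IsStarProjection.one _
      apply := fun n => rfl
      trace := fun x hx y hy _ _ => by rw [hvt, hvt, htr x hx y hy] }
  have h1 : ‖T.X 1‖ = 1 := by
    have h2 : ‖T.X 1‖ ^ 2 = 1 := by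
      have h3 : ‖T.X 1‖ ^ 2 = ∑' n, ‖(1 : H →L[ℂ] H) (η n)‖ ^ 2 := vecMap_norm_sq T.summable 1
      rw [h3]
      have h4 : ∀ n, ‖(1 : H →L[ℂ] H) (η n)‖ ^ 2 = c ^ 2 * ‖ξ n‖ ^ 2 := hηn
      simp_rw [h4]
      rw [tsum_mul_left, ← hC, hcdef, inv_pow, Real.sq_sqrt hCpos.le, inv_mul_cancel₀ hCpos.ne']
    have h3 : 0 ≤ ‖T.X 1‖ := norm_nonneg _
    nlinarith only [h2, h3]
  have hinf : InfCorner M 1 := by
    rintro ⟨s, hs⟩
    apply hfd
    have h3 : (M.toStarSubalgebra.toSubalgebra.toSubmodule) ≤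
        Submodule.span ℂ (s : Set (H →L[ℂ] H)) := by
      intro x hx
      exact hs x hx (by simp)
    have h4 : FiniteDimensional ℂ (Submodule.span ℂ (s : Set (H →L[ℂ] H))) :=
      FiniteDimensional.span_finset ℂ s
    exact Submodule.finiteDimensional_of_le h3
  refine le_pavingNumber fun r hr hpave => ?_
  have h3 := T.quadratic hA hF (one_mem A) h1 hinf hε.le (by (clear * - hr; omega))
    fun x hx hxs => hpave x hx hxs (by simp)
  rw [Nat.cast_le, Nat.ceil_le]
  have hr0 : (0 : ℝ) < r := by exact_mod_cast hr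
  rw [div_le_iff₀ hr0] at h3
  rw [div_le_iff₀ (by (clear * - hε; positivity))]
  linarith only [h3]

end Vale.Agent.P078
end

section

namespace Vale.Agent.P078

variable {H : Type*} [NormedAddCommGroup H] [InnerProductSpace ℂ H] [CompleteSpace H]
variable {M : VonNeumannAlgebra H} {A : StarSubalgebra ℂ (H →L[ℂ] H)}

theorem pavingNumber_one_le (hA : IsMASA A M) {z : H →L[ℂ] H} (hzA : z ∈ A)
    (hzp : IsStarProjection z)
    (hψ : ∀ ψ : (H →L[ℂ] H) →ₗ[ℂ] ℂ, CentralNormal M A ψ → ψ (1 - z) = 0) {ε : ℝ} (hε : 0 < ε) :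
    pavingNumber M A 1 ε ≤ pavingNumber M A z ε + (⌊1 / ε⌋₊ + 1 : ℕ) := by
  have hwA : 1 - z ∈ A := sub_mem (one_mem A) hzA
  have hS := smallProp_of_null hA hwA hzp.one_sub hψ
  rcases pavingNumber_eq M A z ε with h | ⟨r, hr, hr1, hrp⟩
  · rw [h, top_add]; exact le_top
  · rw [hr, ← Nat.cast_add]
    refine pavingNumber_le (by omega) fun x hx hxs _ => ?_
    have hzM : z ∈ M := hA.1 hzA
    have hwM : 1 - z ∈ M := hA.1 hwA
    have hzz : z * z = z := hzp.isIdempotentElem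
    have hww : (1 - z) * (1 - z) = 1 - z := hzp.one_sub.isIdempotentElem
    refine SOPavable.glue hA hzA hzp hε.le (hrp _ (mul_mem (mul_mem hzM hx) hzM) ?_ ?_)
      (hS.sOPavable hA hwA hzp.one_sub (mul_mem (mul_mem hwM hx) hwM) ?_ ?_ (Nat.succ_pos _)
        (one_div_floor_lt hε))
    · rw [IsSelfAdjoint, star_mul, star_mul, hzp.isSelfAdjoint.star_eq, hxs.star_eq, mul_assoc]
    · exact corner_corner hzz x
    · rw [IsSelfAdjoint, star_mul, star_mul, hzp.one_sub.isSelfAdjoint.star_eq, hxs.star_eq,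
        mul_assoc]
    · exact corner_corner hww x

end Vale.Agent.P078
end

end
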