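import Vale.Agent.P078.C.Defs0
import Vale.Agent.P078.Bdl.B5
import Vale.Agent.P078.Paving0
import Vale.Agent.P078.Bdl.B8
import Vale.Agent.P078.Bdl.Fast
import Vale.Agent.P078.Bdl.B3

set_option linter.all false
attribute [local instance] Vale.Agent.P078.Fast.a01 Vale.Agent.P078.Fast.a02
  Vale.Agent.P078.Fast.a03 Vale.Agent.P078.Fast.a04 Vale.Agent.P078.Fast.a05
  Vale.Agent.P078.Fast.a06 Vale.Agent.P078.Fast.a07 Vale.Agent.P078.Fast.a08
  Vale.Agent.P078.Fast.a09 Vale.Agent.P078.Fast.a10 Vale.Agent.P078.Fast.a11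
  Vale.Agent.P078.Fast.a12 Vale.Agent.P078.Fast.a13 Vale.Agent.P078.Fast.a14
  Vale.Agent.P078.Fast.a15 Vale.Agent.P078.Fast.a16 Vale.Agent.P078.Fast.a17
  Vale.Agent.P078.Fast.a18 Vale.Agent.P078.Fast.a19 Vale.Agent.P078.Fast.a20
  Vale.Agent.P078.Fast.a21 Vale.Agent.P078.Fast.a22 Vale.Agent.P078.Fast.a23
  Vale.Agent.P078.Fast.a24 Vale.Agent.P078.Fast.a25 Vale.Agent.P078.Fast.a26
  Vale.Agent.P078.Fast.a27 Vale.Agent.P078.Fast.a28 Vale.Agent.P078.Fast.a29
  Vale.Agent.P078.Fast.a30 Vale.Agent.P078.Fast.a31 Vale.Agent.P078.Fast.a32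
  Vale.Agent.P078.Fast.a33 Vale.Agent.P078.Fast.a34 Vale.Agent.P078.Fast.a35
  Vale.Agent.P078.Fast.a36 Vale.Agent.P078.Fast.a37 Vale.Agent.P078.Fast.a38
  Vale.Agent.P078.Fast.a39 Vale.Agent.P078.Fast.a40 Vale.Agent.P078.Fast.a41
  Vale.Agent.P078.Fast.a42 Vale.Agent.P078.Fast.a43 Vale.Agent.P078.Fast.a44
  Vale.Agent.P078.Fast.a45 Vale.Agent.P078.Fast.a46 Vale.Agent.P078.Fast.a47
  Vale.Agent.P078.Fast.a48 Vale.Agent.P078.Fast.a49 Vale.Agent.P078.Fast.a50
  Vale.Agent.P078.Fast.a51 Vale.Agent.P078.Fast.a52 Vale.Agent.P078.Fast.a53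
  Vale.Agent.P078.Fast.a54

section
section

/-! T6: operator algebra definitions. -/

namespace Vale.Agent.P078.C

open Vale.Agent.P078.SO

variable {H : Type*} [NormedAddCommGroup H] [InnerProductSpace ℂ H] [CompleteSpace H]

/-- square of the `2`-norm -/
noncomputable def n2 (ξ : ℕ → H) (x : H →L[ℂ] H) : ℝ := ∑' n, ‖x (ξ n)‖ ^ 2

/-- the trace preserving conditional expectation of `M` onto `A` -/
structure IsTrExp (M A : VonNeumannAlgebra H) (ξ : ℕ → H)
    (E : (H →L[ℂ] H) →ₗ[ℂ] (H →L[ℂ] H)) : Prop where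
  mem : ∀ x ∈ M, E x ∈ A
  idem : ∀ a ∈ A, E a = a
  nonneg : ∀ x ∈ M, 0 ≤ x → 0 ≤ E x
  bimod : ∀ a ∈ A, ∀ b ∈ A, ∀ x ∈ M, E (a * x * b) = a * E x * b
  star : ∀ x ∈ M, E (star x) = star (E x)
  tr : ∀ x ∈ M, vtr ξ (E x) = vtr ξ x
  uniq : ∀ x ∈ M, ∀ b ∈ A, (∀ a ∈ A, vtr ξ (x * a) = vtr ξ (b * a)) → b = E x

/-- the normalizer of `A` in `M` -/
def nrm (M A : VonNeumannAlgebra H) : Subgroup (unitary (H →L[ℂ] H)) where
  carrier := {u | (u : H →L[ℂ] H) ∈ M ∧
    (∀ a ∈ A, (u : H →L[ℂ] H) * a * star (u : H →L[ℂ] H) ∈ A) ∧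
    ∀ a ∈ A, star (u : H →L[ℂ] H) * a * (u : H →L[ℂ] H) ∈ A}
  mul_mem' := by
    intro u v hu hv
    refine ⟨mul_mem hu.1 hv.1, fun a ha => ?_, fun a ha => ?_⟩
    · have h := hu.2.1 _ (hv.2.1 a ha)
      simpa [mul_assoc] using h
    · have h := hv.2.2 _ (hu.2.2 a ha)
      simpa [mul_assoc] using h
  one_mem' := ⟨one_mem M, fun a ha => by simpa using ha, fun a ha => by simpa using ha⟩
  inv_mem' := by
    intro u hu
    have e : ((u⁻¹ : unitary (H →L[ℂ] H)) : H →L[ℂ] H) = star (u : H →L[ℂ] H) := rfl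
    refine ⟨?_, fun a ha => ?_, fun a ha => ?_⟩
    · rw [e]; exact star_mem hu.1
    · rw [e, star_star]; exact hu.2.2 a ha
    · rw [e, star_star]; exact hu.2.1 a ha

/-- the linear span of the normalizer -/
def nspan (M A : VonNeumannAlgebra H) : Submodule ℂ (H →L[ℂ] H) :=
  Submodule.span ℂ {x | ∃ u : nrm M A, x = ((u : unitary (H →L[ℂ] H)) : H →L[ℂ] H)}

/-- `A` is a Cartan subalgebra of `M`: a maximal abelian subalgebra whose normalizer generates
`M` -/
def IsCartan (A M : VonNeumannAlgebra H) : Prop :=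
  SO.IsMASA A M ∧ ∀ T : H →L[ℂ] H, (∀ u : nrm M A, T * ((u : unitary (H →L[ℂ] H)) : H →L[ℂ] H) =
    ((u : unitary (H →L[ℂ] H)) : H →L[ℂ] H) * T) → ∀ m ∈ M, T * m = m * T

theorem IsCartanMASA.isCartan {A M : VonNeumannAlgebra H} (h : IsCartanMASA A M) :
    IsCartan A M := by
  refine ⟨h.1, fun T hT => h.2 T fun u hu => ?_⟩
  obtain ⟨h1, h2, h3, h4⟩ := hu
  exact hT ⟨⟨u, Unitary.mem_iff.2 ⟨h2, h3⟩⟩, h1, fun a ha => (h4 a ha).1,
    fun a ha => (h4 a ha).2⟩

/-- `P` is a partition of `1` by `r` projections of `A` -/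
def IsPart {r : ℕ} (A : VonNeumannAlgebra H) (P : Fin r → (H →L[ℂ] H)) : Prop :=
  (∀ i, P i ∈ A ∧ IsStarProjection (P i)) ∧ (∀ i j, i ≠ j → P i * P j = 0) ∧ ∑ i, P i = 1

/-- the pinching -/
noncomputable def pinch {r : ℕ} (P : Fin r → (H →L[ℂ] H)) (x : H →L[ℂ] H) : H →L[ℂ] H :=
  ∑ i, P i * x * P i

/-- the value of the real polynomial `p` at the operator `x` -/
noncomputable def pev (p : Polynomial ℝ) (x : H →L[ℂ] H) : H →L[ℂ] H :=
  Polynomial.aeval x (p.map (algebraMap ℝ ℂ))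

/-- A concrete spectrum of the maximal abelian subalgebra `A`, with the action of the
normalizer. -/
structure Spec (M A : VonNeumannAlgebra H) (X : Type*) [TopologicalSpace X]
    [MulAction (nrm M A) X] where
  val : X → (H →L[ℂ] H) → ℂ
  add : ∀ ω, ∀ a ∈ A, ∀ b ∈ A, val ω (a + b) = val ω a + val ω b
  smul : ∀ ω, ∀ (c : ℂ), ∀ a ∈ A, val ω (c • a) = c * val ω a
  mul : ∀ ω, ∀ a ∈ A, ∀ b ∈ A, val ω (a * b) = val ω a * val ω b
  one : ∀ ω, val ω 1 = 1
  star : ∀ ω, ∀ a ∈ A, val ω (star a) = star (val ω a)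
  cont : ∀ a ∈ A, Continuous fun ω => val ω a
  surj : ∀ f : C(X, ℂ), ∃ a ∈ A, ∀ ω, val ω a = f ω
  inj : ∀ a ∈ A, (∀ ω, val ω a = 0) → a = 0
  sep : ∀ ω ω', (∀ a ∈ A, val ω a = val ω' a) → ω = ω'
  act : ∀ (u : nrm M A) (ω), ∀ a ∈ A, val (u • ω) a =
    val ω (Star.star ((u : unitary (H →L[ℂ] H)) : H →L[ℂ] H) * a *
      ((u : unitary (H →L[ℂ] H)) : H →L[ℂ] H))
  contAct : ∀ u : nrm M A, Continuous fun ω : X => u • ω
  nonneg : ∀ a ∈ A, 0 ≤ a → ∀ ω, 0 ≤ (val ω a).re ∧ (val ω a).im = 0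
  nonneg' : ∀ a ∈ A, (∀ ω, 0 ≤ (val ω a).re ∧ (val ω a).im = 0) → 0 ≤ a

end Vale.Agent.P078.C
end

namespace Vale.Agent.P078.Fast
open Vale.Agent.P078.C
section nrm
variable {H : Type*} [NormedAddCommGroup H] [InnerProductSpace ℂ H] [CompleteSpace H]
variable {M A : VonNeumannAlgebra H}
@[reducible] noncomputable def b01 : Group ↥(nrm M A) := inferInstance
@[reducible] noncomputable def b02 : DivInvMonoid ↥(nrm M A) := inferInstance
@[reducible] noncomputable def b03 : Monoid ↥(nrm M A) := inferInstance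
@[reducible] noncomputable def b04 : MulOneClass ↥(nrm M A) := inferInstance
@[reducible] noncomputable def b05 : Semigroup ↥(nrm M A) := inferInstance
@[reducible] noncomputable def b06 : Mul ↥(nrm M A) := inferInstance
@[reducible] noncomputable def b07 : InvOneClass ↥(nrm M A) := inferInstance
@[reducible] noncomputable def b08 : Inv ↥(nrm M A) := inferInstance
@[reducible] noncomputable def b09 : One ↥(nrm M A) := inferInstance
@[reducible] def b10 {X : Type*} [MulAction (nrm M A) X] : SemigroupAction (nrm M A) X := inferInstance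
@[reducible] def b11 {X : Type*} [MulAction (nrm M A) X] : SMul (nrm M A) X := inferInstance
end nrm
end Vale.Agent.P078.Fast

attribute [local instance] Vale.Agent.P078.Fast.b01 Vale.Agent.P078.Fast.b02
  Vale.Agent.P078.Fast.b03 Vale.Agent.P078.Fast.b04 Vale.Agent.P078.Fast.b05
  Vale.Agent.P078.Fast.b06 Vale.Agent.P078.Fast.b07 Vale.Agent.P078.Fast.b08
  Vale.Agent.P078.Fast.b09 Vale.Agent.P078.Fast.b10 Vale.Agent.P078.Fast.b11



section

/-! T6b: expectations of normalizing unitaries. -/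

namespace Vale.Agent.P078.C

open Vale.Agent.P078.SO

variable {H : Type*} [NormedAddCommGroup H] [InnerProductSpace ℂ H] [CompleteSpace H]
variable {M A : VonNeumannAlgebra H} {ξ : ℕ → H} {E : (H →L[ℂ] H) →ₗ[ℂ] (H →L[ℂ] H)}

/-- coercion of an element of the normalizer to an operator -/
abbrev op (u : nrm M A) : H →L[ℂ] H := ((u : unitary (H →L[ℂ] H)) : H →L[ℂ] H)

theorem op_mem (u : nrm M A) : op u ∈ M := u.2.1

theorem op_one : op (1 : nrm M A) = 1 := rfl

theorem op_mul (u v : nrm M A) : op (u * v) = op u * op v := rfl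

theorem op_inv (u : nrm M A) : op u⁻¹ = star (op u) := rfl

theorem star_op_mul (u : nrm M A) : star (op u) * op u = 1 :=
  Unitary.star_mul_self_of_mem (u : unitary (H →L[ℂ] H)).2

theorem op_mul_star (u : nrm M A) : op u * star (op u) = 1 :=
  Unitary.mul_star_self_of_mem (u : unitary (H →L[ℂ] H)).2

theorem star_op_mem (u : nrm M A) : star (op u) ∈ M := star_mem (op_mem u)

theorem conj_mem (u : nrm M A) {a : H →L[ℂ] H} (ha : a ∈ A) : op u * a * star (op u) ∈ A :=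
  u.2.2.1 a ha

theorem conj_mem' (u : nrm M A) {a : H →L[ℂ] H} (ha : a ∈ A) : star (op u) * a * op u ∈ A :=
  u.2.2.2 a ha

theorem E_mul_left (hA : SO.IsMASA A M) (hE : IsTrExp M A ξ E) {a x : H →L[ℂ] H} (ha : a ∈ A)
    (hx : x ∈ M) : E (a * x) = a * E x := by
  have := hE.bimod a ha 1 (one_mem A) x hx
  simpa using this

theorem E_mul_right (hA : SO.IsMASA A M) (hE : IsTrExp M A ξ E) {a x : H →L[ℂ] H} (ha : a ∈ A)
    (hx : x ∈ M) : E (x * a) = E x * a := by
  have := hE.bimod 1 (one_mem A) a ha x hx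
  simpa using this

/-- `E` is equivariant under the normalizer -/
theorem E_conj (hA : SO.IsMASA A M) (hξ : IsTrace M ξ) (hE : IsTrExp M A ξ E) (u : nrm M A)
    {x : H →L[ℂ] H} (hx : x ∈ M) : E (star (op u) * x * op u) = star (op u) * E x * op u := by
  refine (hE.uniq _ (mul_mem (mul_mem (star_op_mem u) hx) (op_mem u)) _
    (conj_mem' u (hE.mem x hx)) fun a ha => ?_).symm
  have haM : a ∈ M := hA.1 a ha
  have hEM : E x ∈ M := hA.1 _ (hE.mem x hx)
  have e1 : vtr ξ (star (op u) * x * op u * a) = vtr ξ (x * (op u * a * star (op u))) := by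
    have h1 := hξ.tracial (star (op u)) (star_op_mem u) (x * op u * a)
      (mul_mem (mul_mem hx (op_mem u)) haM)
    have h2 : star (op u) * x * op u * a = star (op u) * (x * op u * a) := by noncomm_ring
    have h3 : x * op u * a * star (op u) = x * (op u * a * star (op u)) := by noncomm_ring
    rw [h2, h1, h3]
  have e2 : vtr ξ (star (op u) * E x * op u * a) = vtr ξ (E x * (op u * a * star (op u))) := by
    have h1 := hξ.tracial (star (op u)) (star_op_mem u) (E x * op u * a)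
      (mul_mem (mul_mem hEM (op_mem u)) haM)
    have h2 : star (op u) * E x * op u * a = star (op u) * (E x * op u * a) := by noncomm_ring
    have h3 : E x * op u * a * star (op u) = E x * (op u * a * star (op u)) := by noncomm_ring
    rw [h2, h1, h3]
  rw [e1, e2, ← E_mul_right hA hE (conj_mem u ha) hx]
  exact (hE.tr _ (mul_mem hx (hA.1 _ (conj_mem u ha)))).symm

/-- the covariance relation for `E u` -/
theorem E_op_comm (hA : SO.IsMASA A M) (hE : IsTrExp M A ξ E) (u : nrm M A)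
    {a : H →L[ℂ] H} (ha : a ∈ A) : E (op u) * a = (op u * a * star (op u)) * E (op u) := by
  rw [← E_mul_right hA hE ha (op_mem u), ← E_mul_left hA hE (conj_mem u ha) (op_mem u)]
  congr 1
  rw [mul_assoc (op u * a), star_op_mul, mul_one]

/-- `E u = u p` for a projection `p` of `A`; moreover `p = (E u)* (E u) = (E u)(E u)*` commutes
with `u` -/
theorem exists_proj_E' (hA : SO.IsMASA A M) (hE : IsTrExp M A ξ E) (u : nrm M A) :
    ∃ p ∈ A, IsStarProjection p ∧ E (op u) = op u * p ∧ star (E (op u)) * E (op u) = p ∧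
      p * op u = op u * p ∧ ∀ a ∈ A, (star (op u) * a * op u) * p = a * p := by
  set b := E (op u) with hb
  have hbA : b ∈ A := hE.mem _ (op_mem u)
  have hbs : star b ∈ A := star_mem hbA
  set c := star (op u) * b with hc
  have hbc : b = op u * c := by rw [hc, ← mul_assoc, op_mul_star, one_mul]
  have hcM : c ∈ M := mul_mem (star_op_mem u) (hA.1 b hbA)
  have hcA : c ∈ A := by
    refine hA.2.2 c hcM fun a ha => ?_
    have h1 := E_op_comm hA hE u ha
    rw [← hb] at h1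
    rw [hc, mul_assoc (star (op u)) b a, h1]
    have h2 : star (op u) * (op u * a * star (op u) * b) =
        (star (op u) * op u) * a * (star (op u) * b) := by noncomm_ring
    rw [h2, star_op_mul, one_mul]
  have hcc : c = star b * b := by
    have h1 : E (star (op u) * b) = star b * b := by
      rw [E_mul_right hA hE hbA (star_op_mem u), hE.star _ (op_mem u)]
    rw [← h1]
    exact (hE.idem c hcA).symm
  have hcs : star c = c := by rw [hcc, star_mul, star_star]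
  have hccc : c * c = c := by
    have : star b * b = star c * c := by
      rw [hbc, star_mul]
      have : star c * star (op u) * (op u * c) = star c * (star (op u) * op u) * c := by
        noncomm_ring
      rw [this, star_op_mul, mul_one]
    rw [hcs] at this
    rw [← this, ← hcc]
  have hbb : b * star b = c := by rw [hA.2.1 b hbA _ hbs, ← hcc]
  refine ⟨c, hcA, ⟨hccc, hcs⟩, hbc, hcc.symm, ?_, ?_⟩
  · -- p u = u p
    have h1 : b * star b = op u * c * star (op u) := by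
      rw [hbc, star_mul, hcs]
      have : op u * c * (c * star (op u)) = op u * (c * c) * star (op u) := by noncomm_ring
      rw [this, hccc]
    rw [hbb] at h1
    rw [h1]
    have : op u * c * star (op u) * op u = op u * c * (star (op u) * op u) := by noncomm_ring
    rw [this, star_op_mul, mul_one]
    rw [← h1]
  · intro a ha
    -- b * (u* a u) = a * b
    have h1 := E_op_comm hA hE u (conj_mem' u ha)
    rw [← hb] at h1
    have h2 : op u * (star (op u) * a * op u) * star (op u) = a := by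
      have : op u * (star (op u) * a * op u) * star (op u) =
        (op u * star (op u)) * a * (op u * star (op u)) := by noncomm_ring
      rw [this, op_mul_star, one_mul, mul_one]
    rw [h2] at h1
    -- multiply by star b on the left
    have h3 : star b * (b * (star (op u) * a * op u)) = star b * (a * b) := by rw [h1]
    rw [← mul_assoc, ← hcc] at h3
    rw [hA.2.1 _ (conj_mem' u ha) _ hcA, h3, ← mul_assoc, hA.2.1 _ hbs _ ha, mul_assoc, ← hcc]

/-- `E u = u p` for a projection `p` of `A` -/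
theorem exists_proj_E (hA : SO.IsMASA A M) (hξ : IsTrace M ξ) (hE : IsTrExp M A ξ E) (u : nrm M A) :
    ∃ p ∈ A, IsStarProjection p ∧ E (op u) = op u * p := by
  obtain ⟨p, hp, hpp, h, -⟩ := exists_proj_E' hA hE u
  exact ⟨p, hp, hpp, h⟩

end Vale.Agent.P078.C
end

section

namespace Vale.Agent.P078.SO

variable {H : Type*} [NormedAddCommGroup H] [InnerProductSpace ℂ H] [CompleteSpace H]
variable {A M : VonNeumannAlgebra H}

theorem IsMASA.toStar (h : IsMASA A M) : Vale.Agent.P078.IsMASA A.toStarSubalgebra M := by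
  refine ⟨fun x hx => h.1 x hx, fun x hx y hy => h.2.1 x hx y hy, fun B hAB hBM hB x hx => ?_⟩
  exact h.2.2 x (hBM hx) fun a ha => hB a (hAB ha) x hx

theorem isNormalExpectation_iff {z : H →L[ℂ] H} {E : (H →L[ℂ] H) →ₗ[ℂ] (H →L[ℂ] H)} :
    IsNormalExpectation M A z E ↔
      Vale.Agent.P078.IsNormalExpectation M A.toStarSubalgebra z E :=
  ⟨fun h => ⟨h.mem, h.idem, h.nonneg, h.bimod, h.normal⟩,
    fun h => ⟨h.mem, h.idem, h.nonneg, h.bimod, h.normal⟩⟩

theorem pavingNumber_eq (z : H →L[ℂ] H) (ε : ℝ) :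
    pavingNumber M A z ε = Vale.Agent.P078.pavingNumber M A.toStarSubalgebra z ε := rfl

/-- reduction and nowhere expected part together -/
theorem main (h : IsMASA A M) :
    (∃ z ∈ A, IsStarProjection z ∧ (∃ E, IsNormalExpectation M A z E) ∧
      ∀ ε : ℝ, 0 < ε → pavingNumber M A 1 ε ≤ pavingNumber M A z ε + (⌊1 / ε⌋₊ + 1 : ℕ)) ∧
    (Nontrivial H →
      (∀ p ∈ A, IsStarProjection p → (∃ E, IsNormalExpectation M A p E) → p = 0) →
      ∀ ε : ℝ, 0 < ε → (⌈1 / ε⌉₊ : ℕ∞) ≤ pavingNumber M A 1 ε ∧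
        pavingNumber M A 1 ε ≤ (⌊1 / ε⌋₊ + 1 : ℕ)) := by
  refine ⟨?_, fun _ hne ε hε => ?_⟩
  · obtain ⟨z, hzA, hzp, ⟨E, hE⟩, -, hr⟩ := reduction h.toStar
    exact ⟨z, hzA, hzp, ⟨E, isNormalExpectation_iff.2 hE⟩, hr⟩
  · exact nowhere_expected h.toStar (fun p hp hpp ⟨E, hE⟩ =>
      hne p hp hpp ⟨E, isNormalExpectation_iff.2 hE⟩) hε

end Vale.Agent.P078.SO
end

section

/-! T6c: the spectrum of a maximal abelian subalgebra. -/

set_option linter.unusedSectionVars false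
set_option linter.unusedVariables false

namespace Vale.Agent.P078.C

open Vale.Agent.P078.SO

universe u

section alg

variable {H : Type u} [NormedAddCommGroup H] [InnerProductSpace ℂ H] [CompleteSpace H]
variable {M A : VonNeumannAlgebra H}

theorem vn_isClosed (A : VonNeumannAlgebra H) :
    IsClosed (A.toStarSubalgebra : Set (H →L[ℂ] H)) := by
  have h : (A.toStarSubalgebra : Set (H →L[ℂ] H)) =
      Set.centralizer (Set.centralizer (A : Set (H →L[ℂ] H))) := A.centralizer_centralizer.symm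
  rw [h]
  exact Set.isClosed_centralizer _

/-- the commutative C*-algebra `A` -/
def Alg (A : VonNeumannAlgebra H) (_ : ∀ x ∈ A, ∀ y ∈ A, x * y = y * x) : Type u :=
  A.toStarSubalgebra

noncomputable instance instAlg (hc : ∀ x ∈ A, ∀ y ∈ A, x * y = y * x) :
    CommCStarAlgebra (Alg A hc) :=
  have : IsClosed (A.toStarSubalgebra : Set (H →L[ℂ] H)) := vn_isClosed A
  { (StarSubalgebra.cstarAlgebra A.toStarSubalgebra : CStarAlgebra A.toStarSubalgebra) with
    mul_comm := fun x y => Subtype.ext (hc x.1 x.2 y.1 y.2) }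

variable {hc : ∀ x ∈ A, ∀ y ∈ A, x * y = y * x}

/-- the operator -/
def Alg.val (x : Alg A hc) : H →L[ℂ] H := Subtype.val x

/-- the element -/
def Alg.mk (hc : ∀ x ∈ A, ∀ y ∈ A, x * y = y * x) (x : H →L[ℂ] H) (hx : x ∈ A) : Alg A hc :=
  ⟨x, hx⟩

theorem Alg.val_mem (x : Alg A hc) : x.val ∈ A := x.2

theorem Alg.val_mk (x : H →L[ℂ] H) (hx : x ∈ A) : (Alg.mk hc x hx).val = x := rfl

theorem Alg.ext {x y : Alg A hc} (h : x.val = y.val) : x = y := Subtype.ext h

theorem Alg.val_mul (x y : Alg A hc) : (x * y).val = x.val * y.val := rfl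

theorem Alg.val_add (x y : Alg A hc) : (x + y).val = x.val + y.val := rfl

theorem Alg.val_smul (c : ℂ) (x : Alg A hc) : (c • x).val = c • x.val := rfl

theorem Alg.val_one : (1 : Alg A hc).val = 1 := rfl

theorem Alg.val_zero : (0 : Alg A hc).val = 0 := rfl

theorem Alg.val_star (x : Alg A hc) : (star x).val = star x.val := rfl

theorem Alg.val_algebraMap (c : ℂ) :
    (algebraMap ℂ (Alg A hc) c).val = algebraMap ℂ (H →L[ℂ] H) c := rfl

theorem spec_conj_mem' (u : nrm M A) {x : H →L[ℂ] H} (hx : x ∈ A) : star (op u) * x * op u ∈ A :=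
  u.2.2.2 x hx

/-- conjugation by the normalizer -/
noncomputable def conjFun (hc : ∀ x ∈ A, ∀ y ∈ A, x * y = y * x) (u : nrm M A) (x : Alg A hc) :
    Alg A hc :=
  Alg.mk hc (star (op u) * x.val * op u) (spec_conj_mem' u x.val_mem)

theorem conjFun_val (u : nrm M A) (x : Alg A hc) :
    (conjFun hc u x).val = star (op u) * x.val * op u := rfl

/-- conjugation by the normalizer -/
noncomputable def conjHom (hc : ∀ x ∈ A, ∀ y ∈ A, x * y = y * x) (u : nrm M A) :
    Alg A hc →ₐ[ℂ] Alg A hc where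
  toFun := conjFun hc u
  map_one' := Alg.ext (by rw [conjFun_val, Alg.val_one, mul_one, star_op_mul])
  map_mul' x y := Alg.ext (by
    rw [Alg.val_mul, conjFun_val, conjFun_val, conjFun_val, Alg.val_mul]
    have h := op_mul_star u
    calc star (op u) * (x.val * y.val) * op u = star (op u) * x.val * 1 * y.val * op u := by
          simp only [mul_one, mul_assoc]
      _ = _ := by rw [← h]; simp only [mul_assoc])
  map_zero' := Alg.ext (by rw [conjFun_val, Alg.val_zero, mul_zero, zero_mul])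
  map_add' x y := Alg.ext (by
    rw [Alg.val_add, conjFun_val, conjFun_val, conjFun_val, Alg.val_add, mul_add, add_mul])
  commutes' c := Alg.ext (by
    rw [conjFun_val, Alg.val_algebraMap, ← Algebra.commutes, mul_assoc, star_op_mul, mul_one])

theorem conjHom_val (u : nrm M A) (x : Alg A hc) :
    (conjHom hc u x).val = star (op u) * x.val * op u := rfl

open WeakDual

/-- the action on the character space -/
noncomputable def chAct (hc : ∀ x ∈ A, ∀ y ∈ A, x * y = y * x) (u : nrm M A)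
    (ω : characterSpace ℂ (Alg A hc)) : characterSpace ℂ (Alg A hc) :=
  CharacterSpace.equivAlgHom.symm ((CharacterSpace.equivAlgHom ω).comp (conjHom hc u))

theorem chAct_apply (u : nrm M A) (ω : characterSpace ℂ (Alg A hc)) (x : Alg A hc) :
    chAct hc u ω x = ω (conjHom hc u x) := rfl

/-- the action as a `MulAction` -/
@[instance_reducible]
noncomputable def chMulAction (hc : ∀ x ∈ A, ∀ y ∈ A, x * y = y * x) :
    MulAction (nrm M A) (characterSpace ℂ (Alg A hc)) where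
  smul u ω := chAct hc u ω
  one_smul ω := by
    refine CharacterSpace.ext fun x => ?_
    change chAct hc (1 : nrm M A) ω x = ω x
    rw [chAct_apply]
    congr 1
    refine Alg.ext ?_
    rw [conjHom_val, op_one, star_one, one_mul, mul_one]
  mul_smul u v ω := by
    refine CharacterSpace.ext fun x => ?_
    change chAct hc (u * v) ω x = chAct hc u (chAct hc v ω) x
    rw [chAct_apply, chAct_apply, chAct_apply]
    congr 1
    refine Alg.ext ?_
    rw [conjHom_val, conjHom_val, conjHom_val, op_mul, star_mul]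
    simp only [mul_assoc]

theorem chAct_continuous (u : nrm M A) :
    Continuous fun ω : characterSpace ℂ (Alg A hc) => chAct hc u ω := by
  refine Continuous.subtype_mk ?_ _
  refine WeakDual.continuous_of_continuous_eval fun x => ?_
  exact (WeakDual.eval_continuous (conjHom hc u x)).comp continuous_subtype_val

theorem sqrt_mem (hA : SO.IsMASA A M) {a : H →L[ℂ] H} (ha : a ∈ A) :
    CFC.sqrt a ∈ A := by
  have hcom : ∀ y : H →L[ℂ] H, y * a = a * y → y * CFC.sqrt a = CFC.sqrt a * y := by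
    intro y hy
    have h1 : Commute a y := hy.symm
    rw [CFC.sqrt_eq_cfc]
    exact (h1.cfc_nnreal _).eq.symm
  have hM : CFC.sqrt a ∈ M :=
    mem_of_commute fun y hy => hcom y (commutant_comm (hA.1 a ha) hy)
  exact hA.2.2 _ hM fun b hb => hcom b (hA.2.1 b hb a ha)

variable (ω : characterSpace ℂ (Alg A hc))

theorem ch_star (x : Alg A hc) : ω (star x) = star (ω x) :=
  map_star ω x

theorem ch_mul (x y : Alg A hc) : ω (x * y) = ω x * ω y :=
  (CharacterSpace.toAlgHom ω).map_mul x y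

theorem ch_add (x y : Alg A hc) : ω (x + y) = ω x + ω y :=
  (CharacterSpace.toAlgHom ω).map_add x y

theorem ch_sub (x y : Alg A hc) : ω (x - y) = ω x - ω y :=
  (CharacterSpace.toAlgHom ω).map_sub x y

theorem ch_smul (c : ℂ) (x : Alg A hc) : ω (c • x) = c * ω x :=
  (CharacterSpace.toAlgHom ω).toLinearMap.map_smul c x

theorem ch_one : ω (1 : Alg A hc) = 1 :=
  (CharacterSpace.toAlgHom ω).map_one

theorem ch_nonneg (hA : SO.IsMASA A M) {a : H →L[ℂ] H}
    (ha : a ∈ A) (h0 : 0 ≤ a) : 0 ≤ (ω (Alg.mk hc a ha)).re ∧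
      (ω (Alg.mk hc a ha)).im = 0 := by
  have hb := sqrt_mem hA ha
  have h1 : Alg.mk hc a ha = star (Alg.mk hc _ hb) * Alg.mk hc _ hb := by
    refine Alg.ext ?_
    rw [Alg.val_mul, Alg.val_star, Alg.val_mk, Alg.val_mk,
      (IsSelfAdjoint.of_nonneg (CFC.sqrt_nonneg a)).star_eq, CFC.sqrt_mul_sqrt_self a h0]
  rw [h1, ch_mul, ch_star, Complex.star_def, ← Complex.normSq_eq_conj_mul_self]
  exact ⟨by rw [Complex.ofReal_re]; exact Complex.normSq_nonneg _, Complex.ofReal_im _⟩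

theorem ch_idem {E : Alg A hc} (hEE : E * E = E) : ω E = 0 ∨ ω E = 1 := by
  have h2 := congrArg ω hEE
  rw [ch_mul] at h2
  have h3 : ω E * (ω E - 1) = 0 := by linear_combination h2
  rcases mul_eq_zero.1 h3 with h | h
  · exact Or.inl h
  · exact Or.inr (sub_eq_zero.1 h)

theorem ch_real {a : Alg A hc} (hsa : IsSelfAdjoint a) : (ω a).im = 0 := by
  have h2 := ch_star ω a
  rw [hsa.star_eq] at h2
  have h3 := congrArg Complex.im h2
  rw [Complex.star_def, Complex.conj_im] at h3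
  linarith

/-- spectral projections as elements of `A` -/
theorem exists_proj_alg (hA : SO.IsMASA A M) (a : Alg A hc) (hsa : IsSelfAdjoint a) (t : ℝ) :
    ∃ E : Alg A hc, E * E = E ∧
      (∀ σ : characterSpace ℂ (Alg A hc), 0 ≤ (σ (E * (a - (t : ℂ) • 1) * E)).re) ∧
      (∀ σ : characterSpace ℂ (Alg A hc),
        0 ≤ (σ ((1 - E) * ((t : ℂ) • 1 - a) * (1 - E))).re) := by
  have hsa' : IsSelfAdjoint a.val := by
    have := congrArg Alg.val hsa.star_eq
    exact this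
  obtain ⟨e, hep, hecom, he1, he2⟩ := exists_spectral_proj a.val hsa' t
  have heA : e ∈ A := (SO.IsMASA.toStar hA).spectral_proj_mem a.val_mem hecom
  have htA : (t : ℂ) • (1 : H →L[ℂ] H) ∈ A :=
    A.toStarSubalgebra.smul_mem (one_mem A) _
  have htsa : IsSelfAdjoint ((t : ℂ) • (1 : H →L[ℂ] H)) := by
    rw [IsSelfAdjoint, star_smul, star_one, Complex.star_def, Complex.conj_ofReal]
  have hin : ∀ ζ, (inner ℂ ζ ((a.val - (t : ℂ) • (1 : H →L[ℂ] H)) ζ)).re =
      (inner ℂ ζ (a.val ζ)).re - t * ‖ζ‖ ^ 2 := by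
    intro ζ
    rw [sub_apply, inner_sub_right, Complex.sub_re, smul_apply, one_apply_eq_self,
      inner_smul_right, Complex.re_ofReal_mul, inner_self_re]
  have hp1 : 0 ≤ e * (a.val - (t : ℂ) • (1 : H →L[ℂ] H)) * e := by
    refine nonneg_of_inner ?_ fun ζ => ?_
    · rw [IsSelfAdjoint, star_mul, star_mul, hep.isSelfAdjoint.star_eq,
        (hsa'.sub htsa).star_eq, mul_assoc]
    · have h2 : inner ℂ ζ ((e * (a.val - (t : ℂ) • (1 : H →L[ℂ] H)) * e) ζ) =
          inner ℂ (e ζ) ((a.val - (t : ℂ) • (1 : H →L[ℂ] H)) (e ζ)) := by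
        rw [proj_inner hep]
        rfl
      rw [h2, hin]
      have := he1 (e ζ) (proj_apply_apply hep ζ)
      linarith
  have hfp : IsStarProjection (1 - e) := hep.one_sub
  have hfe : ∀ ζ, e ((1 - e) ζ) = 0 := by
    intro ζ
    rw [sub_apply, one_apply_eq_self, map_sub, proj_apply_apply hep, sub_self]
  have hp2 : 0 ≤ (1 - e) * ((t : ℂ) • (1 : H →L[ℂ] H) - a.val) * (1 - e) := by
    refine nonneg_of_inner ?_ fun ζ => ?_
    · rw [IsSelfAdjoint, star_mul, star_mul, hfp.isSelfAdjoint.star_eq,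
        (htsa.sub hsa').star_eq, mul_assoc]
    · have h2 : inner ℂ ζ (((1 - e) * ((t : ℂ) • (1 : H →L[ℂ] H) - a.val) * (1 - e)) ζ) =
          inner ℂ ((1 - e) ζ) (((t : ℂ) • (1 : H →L[ℂ] H) - a.val) ((1 - e) ζ)) := by
        rw [proj_inner hfp]
        rfl
      have h3 := hin ((1 - e) ζ)
      have h4 : (((t : ℂ) • (1 : H →L[ℂ] H) - a.val) ((1 - e) ζ)) =
          -((a.val - (t : ℂ) • (1 : H →L[ℂ] H)) ((1 - e) ζ)) := by
        rw [← neg_apply, neg_sub]
      rw [h2, h4, inner_neg_right, Complex.neg_re, h3]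
      have := he2 ((1 - e) ζ) (hfe ζ)
      linarith
  have hm1 : e * (a.val - (t : ℂ) • (1 : H →L[ℂ] H)) * e ∈ A :=
    mul_mem (mul_mem heA (sub_mem a.val_mem htA)) heA
  have hm2 : (1 - e) * ((t : ℂ) • (1 : H →L[ℂ] H) - a.val) * (1 - e) ∈ A :=
    mul_mem (mul_mem (sub_mem (one_mem A) heA) (sub_mem htA a.val_mem))
      (sub_mem (one_mem A) heA)
  exact ⟨Alg.mk hc e heA, Alg.ext hep.isIdempotentElem, fun σ => (ch_nonneg σ hA hm1 hp1).1,
    fun σ => (ch_nonneg σ hA hm2 hp2).1⟩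

theorem ch_separate (hA : SO.IsMASA A M) {ω ω' : characterSpace ℂ (Alg A hc)} (hne : ω ≠ ω') :
    ∃ e : Alg A hc, e * e = e ∧ ((ω e = 1 ∧ ω' e = 0) ∨ (ω e = 0 ∧ ω' e = 1)) := by
  -- a self-adjoint element separates
  have h1 : ∃ a : Alg A hc, IsSelfAdjoint a ∧ ω a ≠ ω' a := by
    by_contra hcon
    push Not at hcon
    apply hne
    refine CharacterSpace.ext fun x => ?_
    have h2 := hcon (x + star x) (IsSelfAdjoint.add_star_self x)
    have h3 := hcon (Complex.I • (x - star x)) (by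
      rw [IsSelfAdjoint, star_smul, star_sub, star_star, Complex.star_def, Complex.conj_I,
        neg_smul, ← smul_neg, neg_sub])
    rw [ch_add, ch_add] at h2
    rw [ch_smul, ch_smul, ch_sub, ch_sub] at h3
    have h4 := mul_left_cancel₀ Complex.I_ne_zero h3
    linear_combination (h2 + h4) / 2
  obtain ⟨a, hsa, hne'⟩ := h1
  -- the case `ρ' a < ρ a`
  have key : ∀ ρ ρ' : characterSpace ℂ (Alg A hc), (ρ' a).re < (ρ a).re →
      ∃ e : Alg A hc, e * e = e ∧ ρ e = 1 ∧ ρ' e = 0 := by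
    intro ρ ρ' hlt
    obtain ⟨t, ht1, ht2⟩ := exists_between hlt
    obtain ⟨E, hEE, hE1, hE2⟩ := exists_proj_alg hA a hsa t
    refine ⟨E, hEE, ?_, ?_⟩
    · have h2 := hE2 ρ
      rw [ch_mul, ch_mul, ch_sub, ch_sub, ch_smul, ch_one] at h2
      rcases ch_idem ρ hEE with h | h
      · exfalso
        rw [h, sub_zero, one_mul, mul_one, mul_one, Complex.sub_re, Complex.ofReal_re] at h2
        linarith
      · exact h
    · have h2 := hE1 ρ'
      rw [ch_mul, ch_mul, ch_sub, ch_smul, ch_one] at h2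
      rcases ch_idem ρ' hEE with h | h
      · exact h
      · exfalso
        rw [h, one_mul, mul_one, mul_one, Complex.sub_re, Complex.ofReal_re] at h2
        linarith
  have hre : (ω a).re ≠ (ω' a).re := by
    intro h
    apply hne'
    apply Complex.ext h
    rw [ch_real ω hsa, ch_real ω' hsa]
  rcases lt_or_gt_of_ne hre with h | h
  · obtain ⟨e, h0, h1, h2⟩ := key ω' ω h
    exact ⟨e, h0, Or.inr ⟨h2, h1⟩⟩
  · obtain ⟨e, h0, h1, h2⟩ := key ω ω' h
    exact ⟨e, h0, Or.inl ⟨h1, h2⟩⟩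

theorem ch_clopen (hA : SO.IsMASA A M)
    (hc : ∀ x ∈ A, ∀ y ∈ A, x * y = y * x) {ω ω' : characterSpace ℂ (Alg A hc)} (hne : ω ≠ ω') :
    ∃ U : Set (characterSpace ℂ (Alg A hc)), IsClopen U ∧ ω ∈ U ∧ ω' ∈ Uᶜ := by
  have hev : ∀ e : Alg A hc, Continuous fun σ : characterSpace ℂ (Alg A hc) => σ e := fun e =>
    (WeakDual.eval_continuous e).comp continuous_subtype_val
  have hclopen : ∀ e : Alg A hc, e * e = e →
      IsClopen {σ : characterSpace ℂ (Alg A hc) | σ e = 1} := by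
    intro e he
    refine ⟨isClosed_singleton.preimage (hev e), ?_⟩
    have h1 : {σ : characterSpace ℂ (Alg A hc) | σ e = 1} = {σ | σ e = 0}ᶜ := by
      ext σ
      constructor
      · intro h h'
        rw [Set.mem_ofPred_eq] at h h'
        rw [h] at h'
        exact one_ne_zero h'
      · intro h
        rcases ch_idem σ he with h' | h'
        · exact absurd h' h
        · exact h'
    rw [h1]
    exact (isClosed_singleton.preimage (hev e)).isOpen_compl
  obtain ⟨e, hee, ⟨h1, h2⟩ | ⟨h1, h2⟩⟩ := ch_separate hA hne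
  · exact ⟨{σ | σ e = 1}, hclopen e hee, h1, fun h => by
      rw [Set.mem_ofPred_eq, h2] at h
      exact zero_ne_one h⟩
  · refine ⟨{σ | σ e = 1}ᶜ, (hclopen e hee).compl, fun h => ?_, fun h => h h2⟩
    rw [Set.mem_ofPred_eq, h1] at h
    exact zero_ne_one h

theorem ch_totallyDisconnected (hA : SO.IsMASA A M)
    (hc : ∀ x ∈ A, ∀ y ∈ A, x * y = y * x) :
    TotallyDisconnectedSpace (characterSpace ℂ (Alg A hc)) := by
  have hsep : TotallySeparatedSpace (characterSpace ℂ (Alg A hc)) := by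
    rw [totallySeparatedSpace_iff_exists_isClopen]
    refine fun ω ω' hne => ?_
    exact ch_clopen hA hc hne
  exact hsep.totallyDisconnectedSpace

/-- the value of a character at an operator -/
noncomputable def chVal (ω : characterSpace ℂ (Alg A hc)) (a : H →L[ℂ] H) : ℂ := by
  classical
  exact if h : a ∈ A then ω (Alg.mk hc a h) else 0

theorem chVal_eq {a : H →L[ℂ] H} (ha : a ∈ A) : chVal ω a = ω (Alg.mk hc a ha) := by
  unfold chVal
  rw [dif_pos ha]

theorem chVal_val (x : Alg A hc) : chVal ω x.val = ω x := chVal_eq ω x.val_mem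

end alg

open WeakDual

theorem exists_spec {H : Type u} [NormedAddCommGroup H] [InnerProductSpace ℂ H] [CompleteSpace H]
    {M A : VonNeumannAlgebra H} (hA : SO.IsMASA A M) (hne : Nontrivial H) :
    ∃ (X : Type u) (_ : TopologicalSpace X) (_ : CompactSpace X) (_ : T2Space X)
      (_ : TotallyDisconnectedSpace X) (_ : MulAction (nrm M A) X), Nonempty (Spec M A X) := by
  obtain ⟨hc, -⟩ : ∃ hc : ∀ x ∈ A, ∀ y ∈ A, x * y = y * x, True := ⟨hA.2.1, trivial⟩
  have hsm : ∀ (c : ℂ) (a : H →L[ℂ] H), a ∈ A → c • a ∈ A :=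
    fun c a ha => A.toStarSubalgebra.smul_mem ha c
  have hgel : ∀ (x : Alg A hc) (ω : characterSpace ℂ (Alg A hc)),
      gelfandStarTransform (Alg A hc) x ω = ω x := fun x ω => rfl
  refine ⟨characterSpace ℂ (Alg A hc), inferInstance, inferInstance, inferInstance,
    ch_totallyDisconnected hA hc, chMulAction hc, ⟨?_⟩⟩
  letI := chMulAction (M := M) hc
  exact
    { val := chVal
      add := fun ω a ha b hb => by
        rw [chVal_eq ω ha, chVal_eq ω hb, chVal_eq ω (add_mem ha hb), ← ch_add]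
        rfl
      smul := fun ω c a ha => by
        rw [chVal_eq ω ha, chVal_eq ω (hsm c a ha), ← ch_smul]
        rfl
      mul := fun ω a ha b hb => by
        rw [chVal_eq ω ha, chVal_eq ω hb, chVal_eq ω (mul_mem ha hb), ← ch_mul]
        rfl
      one := fun ω => by
        rw [chVal_eq ω (one_mem A)]
        exact ch_one ω
      star := fun ω a ha => by
        rw [chVal_eq ω ha, chVal_eq ω (star_mem ha), ← ch_star]
        rfl
      cont := fun a ha => by
        have h : (fun ω : characterSpace ℂ (Alg A hc) => chVal ω a) =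
            fun ω => ω (Alg.mk hc a ha) := funext fun ω => chVal_eq ω ha
        rw [h]
        exact (WeakDual.eval_continuous _).comp continuous_subtype_val
      surj := fun f => by
        refine ⟨((gelfandStarTransform (Alg A hc)).symm f).val, Alg.val_mem _, fun ω => ?_⟩
        rw [chVal_val, ← hgel, StarAlgEquiv.apply_symm_apply]
      inj := fun a ha h => by
        have h1 : gelfandStarTransform (Alg A hc) (Alg.mk hc a ha) = 0 := by
          ext ω
          rw [hgel, ← chVal_eq, h]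
          rfl
        have h2 : Alg.mk hc a ha = 0 := by
          rw [← map_zero (gelfandStarTransform (Alg A hc))] at h1
          exact (gelfandStarTransform (Alg A hc)).injective h1
        exact congrArg Alg.val h2
      sep := fun ω ω' h => by
        refine CharacterSpace.ext fun x => ?_
        rw [← chVal_val, ← chVal_val]
        exact h _ x.val_mem
      act := fun u ω a ha => by
        rw [chVal_eq _ ha, chVal_eq ω (spec_conj_mem' u ha)]
        rfl
      contAct := fun u => chAct_continuous u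
      nonneg := fun a ha h0 ω => by
        rw [chVal_eq ω ha]
        exact ch_nonneg ω hA ha h0
      nonneg' := fun a ha h => by
        obtain ⟨f, hf⟩ : ∃ f : C(characterSpace ℂ (Alg A hc), ℂ),
            ∀ ω, f ω = ((Real.sqrt (chVal ω a).re : ℝ) : ℂ) := by
          refine ⟨⟨fun ω => ((Real.sqrt (chVal ω a).re : ℝ) : ℂ), ?_⟩, fun ω => rfl⟩
          have h : (fun ω : characterSpace ℂ (Alg A hc) => chVal ω a) =
            fun ω => ω (Alg.mk hc a ha) := funext fun ω => chVal_eq ω ha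
          have hcont : Continuous fun ω : characterSpace ℂ (Alg A hc) => chVal ω a := by
            rw [h]
            exact (WeakDual.eval_continuous _).comp continuous_subtype_val
          exact Complex.continuous_ofReal.comp
            (Real.continuous_sqrt.comp (Complex.continuous_re.comp hcont))
        obtain ⟨c, hc'⟩ : ∃ c : Alg A hc, gelfandStarTransform (Alg A hc) c = f :=
          ⟨_, StarAlgEquiv.apply_symm_apply _ f⟩
        have h1 : gelfandStarTransform (Alg A hc) (star c * c) =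
            gelfandStarTransform (Alg A hc) (Alg.mk hc a ha) := by
          rw [map_mul, map_star, hc']
          ext ω
          rw [ContinuousMap.mul_apply, ContinuousMap.star_apply, hf, hgel, ← chVal_eq,
            Complex.star_def, Complex.conj_ofReal, ← Complex.ofReal_mul,
            Real.mul_self_sqrt (h ω).1]
          apply Complex.ext
          · rw [Complex.ofReal_re]
          · rw [Complex.ofReal_im, (h ω).2]
        have h2 := congrArg Alg.val ((gelfandStarTransform (Alg A hc)).injective h1)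
        have h3 : a = star c.val * c.val := h2.symm
        rw [h3]
        exact star_mul_self_nonneg _ }

end Vale.Agent.P078.C
end

section

/-! T6a: basic facts on the trace, existence of the trace preserving expectation. -/

set_option linter.unusedSectionVars false
set_option linter.unusedVariables false

namespace Vale.Agent.P078.C

open Vale.Agent.P078.SO Filter Topology

variable {H : Type*} [NormedAddCommGroup H] [InnerProductSpace ℂ H] [CompleteSpace H]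
variable {M A : VonNeumannAlgebra H} {ξ : ℕ → H}

theorem vtr_bound (x : H →L[ℂ] H) (n : ℕ) :
    ‖inner ℂ (ξ n) (x (ξ n))‖ ≤ ‖x‖ * ‖ξ n‖ ^ 2 := by
  refine (norm_inner_le_norm _ _).trans ?_
  have := x.le_opNorm (ξ n)
  linarith only [mul_nonneg (sub_nonneg.2 this) (sub_nonneg.2 (norm_nonneg (ξ n)))]

theorem vtr_summable (hξ : IsTrace M ξ) (x : H →L[ℂ] H) :
    Summable fun n => inner ℂ (ξ n) (x (ξ n)) :=
  Summable.of_norm_bounded (hξ.summable.mul_left ‖x‖) (vtr_bound x)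

theorem vtr_add (hξ : IsTrace M ξ) (x y : H →L[ℂ] H) : vtr ξ (x + y) = vtr ξ x + vtr ξ y := by
  unfold vtr
  rw [← (vtr_summable hξ x).tsum_add (vtr_summable hξ y)]
  refine tsum_congr fun n => ?_
  rw [add_apply, inner_add_right]

theorem vtr_smul (hξ : IsTrace M ξ) (c : ℂ) (x : H →L[ℂ] H) : vtr ξ (c • x) = c * vtr ξ x := by
  unfold vtr
  rw [← tsum_mul_left]
  refine tsum_congr fun n => ?_
  rw [smul_apply, inner_smul_right]

/-- the trace as a linear map -/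
noncomputable def vtrL (hξ : IsTrace M ξ) : (H →L[ℂ] H) →ₗ[ℂ] ℂ where
  toFun := vtr ξ
  map_add' := vtr_add hξ
  map_smul' c x := vtr_smul hξ c x

theorem vtrL_apply (hξ : IsTrace M ξ) (x : H →L[ℂ] H) : vtrL hξ x = vtr ξ x := rfl

theorem vtr_sum (hξ : IsTrace M ξ) {ι : Type*} (s : Finset ι) (x : ι → (H →L[ℂ] H)) :
    vtr ξ (∑ i ∈ s, x i) = ∑ i ∈ s, vtr ξ (x i) :=
  map_sum (vtrL hξ) x s

theorem vtr_sub (hξ : IsTrace M ξ) (x y : H →L[ℂ] H) : vtr ξ (x - y) = vtr ξ x - vtr ξ y :=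
  map_sub (vtrL hξ) x y

theorem vtr_neg (hξ : IsTrace M ξ) (x : H →L[ℂ] H) : vtr ξ (-x) = -vtr ξ x :=
  map_neg (vtrL hξ) x

theorem vtr_zero (ξ : ℕ → H) : vtr ξ 0 = 0 := by
  simp [vtr]

theorem vtr_one (hξ : IsTrace M ξ) : vtr ξ 1 = 1 := by
  unfold vtr
  have h1 : ∀ n, inner ℂ (ξ n) ((1 : H →L[ℂ] H) (ξ n)) = ((‖ξ n‖ ^ 2 : ℝ) : ℂ) := by
    intro n
    rw [one_apply_eq_self, inner_self_eq_norm_sq_to_K]
    norm_cast
  rw [tsum_congr h1, ← Complex.ofReal_tsum, hξ.norm_one, Complex.ofReal_one]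

theorem vtr_star (hξ : IsTrace M ξ) (x : H →L[ℂ] H) : vtr ξ (star x) = star (vtr ξ x) := by
  unfold vtr
  rw [tsum_star]
  refine tsum_congr fun n => ?_
  have h1 := star_apply_inner x (ξ n) (ξ n)
  rw [← inner_conj_symm, h1]
  rfl

theorem vtr_nonneg (hξ : IsTrace M ξ) {x : H →L[ℂ] H} (hx : 0 ≤ x) :
    0 ≤ (vtr ξ x).re ∧ (vtr ξ x).im = 0 := by
  constructor
  · unfold vtr
    rw [Complex.re_tsum (vtr_summable hξ x)]
    exact tsum_nonneg fun n => inner_nonneg_of_nonneg hx (ξ n)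
  · have h1 := vtr_star hξ x
    rw [(IsSelfAdjoint.of_nonneg hx).star_eq] at h1
    have h2 := congrArg Complex.im h1
    rw [Complex.star_def, Complex.conj_im] at h2
    linarith

theorem norm_vtr_le (hξ : IsTrace M ξ) (x : H →L[ℂ] H) : ‖vtr ξ x‖ ≤ ‖x‖ := by
  unfold vtr
  refine (norm_tsum_le_tsum_norm (vtr_summable hξ x).norm).trans ?_
  have h1 : ∑' n, ‖inner ℂ (ξ n) (x (ξ n))‖ ≤ ∑' n, ‖x‖ * ‖ξ n‖ ^ 2 :=
    Summable.tsum_le_tsum (vtr_bound x) (vtr_summable hξ x).norm (hξ.summable.mul_left ‖x‖)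
  rw [tsum_mul_left, hξ.norm_one, mul_one] at h1
  exact h1

theorem n2_bound (x : H →L[ℂ] H) (n : ℕ) : ‖x (ξ n)‖ ^ 2 ≤ ‖x‖ ^ 2 * ‖ξ n‖ ^ 2 := by
  rw [← mul_pow]
  exact pow_le_pow_left₀ (norm_nonneg _) (x.le_opNorm _) 2

theorem n2_summable (hξ : IsTrace M ξ) (x : H →L[ℂ] H) : Summable fun n => ‖x (ξ n)‖ ^ 2 :=
  Summable.of_nonneg_of_le (fun _ => by positivity) (n2_bound x)
    (hξ.summable.mul_left (‖x‖ ^ 2))

theorem n2_eq (hξ : IsTrace M ξ) (x : H →L[ℂ] H) : n2 ξ x = (vtr ξ (star x * x)).re := by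
  unfold n2 vtr
  rw [Complex.re_tsum (vtr_summable hξ _)]
  refine tsum_congr fun n => ?_
  rw [← inner_self_re, ← star_apply_inner]
  have h1 := star_apply_inner (star x) (ξ n) (x (ξ n))
  rw [star_star] at h1
  rw [star_apply_inner, h1]
  rfl

theorem n2_nonneg (ξ : ℕ → H) (x : H →L[ℂ] H) : 0 ≤ n2 ξ x :=
  tsum_nonneg fun _ => by positivity

/-- triangle inequality for the `2`-norm -/
theorem sqrt_n2_add (hξ : IsTrace M ξ) (x y : H →L[ℂ] H) :
    Real.sqrt (n2 ξ (x + y)) ≤ Real.sqrt (n2 ξ x) + Real.sqrt (n2 ξ y) := by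
  have e : ∀ z : H →L[ℂ] H, (∑' n, ‖z (ξ n)‖ ^ (2 : ℝ)) ^ ((1 : ℝ) / 2) = Real.sqrt (n2 ξ z) := by
    intro z
    rw [Real.sqrt_eq_rpow]
    unfold n2
    congr 1
    exact tsum_congr fun n => Real.rpow_two _
  have hs : ∀ z : H →L[ℂ] H, Summable fun n => ‖z (ξ n)‖ ^ (2 : ℝ) := by
    intro z
    refine (n2_summable hξ z).congr fun n => (Real.rpow_two _).symm
  have h1 := Real.Lp_add_le_tsum_of_nonneg' (p := 2) (f := fun n => ‖x (ξ n)‖)
    (g := fun n => ‖y (ξ n)‖) (by norm_num) (fun _ => norm_nonneg _) (fun _ => norm_nonneg _)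
    (hs x) (hs y)
  have h2 := Real.summable_Lp_add_of_nonneg (p := 2) (f := fun n => ‖x (ξ n)‖)
    (g := fun n => ‖y (ξ n)‖) (by norm_num) (fun _ => norm_nonneg _) (fun _ => norm_nonneg _)
    (hs x) (hs y)
  rw [e x, e y] at h1
  refine le_trans ?_ h1
  rw [← e (x + y)]
  refine Real.rpow_le_rpow (tsum_nonneg fun n => by positivity) ?_ (by norm_num)
  refine Summable.tsum_le_tsum (fun n => ?_) (hs (x + y)) h2
  refine Real.rpow_le_rpow (norm_nonneg _) ?_ (by norm_num)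
  rw [add_apply]
  exact norm_add_le _ _

theorem n2_neg (ξ : ℕ → H) (x : H →L[ℂ] H) : n2 ξ (-x) = n2 ξ x := by
  unfold n2
  refine tsum_congr fun n => ?_
  rw [neg_apply, norm_neg]

theorem n2_le (hξ : IsTrace M ξ) (x : H →L[ℂ] H) : n2 ξ x ≤ ‖x‖ ^ 2 := by
  unfold n2
  have h1 : ∑' n, ‖x (ξ n)‖ ^ 2 ≤ ∑' n, ‖x‖ ^ 2 * ‖ξ n‖ ^ 2 :=
    Summable.tsum_le_tsum (n2_bound x) (n2_summable hξ x) (hξ.summable.mul_left _)
  rwa [tsum_mul_left, hξ.norm_one, mul_one] at h1

theorem n2_mul_le (hξ : IsTrace M ξ) (x y : H →L[ℂ] H) : n2 ξ (x * y) ≤ ‖x‖ ^ 2 * n2 ξ y := by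
  unfold n2
  rw [← tsum_mul_left]
  refine Summable.tsum_le_tsum (fun n => ?_) (n2_summable hξ _) ((n2_summable hξ y).mul_left _)
  rw [← mul_pow]
  exact pow_le_pow_left₀ (norm_nonneg _) (x.le_opNorm _) 2

theorem n2_star (hξ : IsTrace M ξ) {x : H →L[ℂ] H} (hx : x ∈ M) : n2 ξ (star x) = n2 ξ x := by
  rw [n2_eq hξ, n2_eq hξ, star_star, hξ.tracial x hx (star x) (star_mem hx)]

theorem n2_mul_le' (hξ : IsTrace M ξ) {x y : H →L[ℂ] H} (hx : x ∈ M) (hy : y ∈ M) :
    n2 ξ (x * y) ≤ n2 ξ x * ‖y‖ ^ 2 := by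
  rw [← n2_star hξ (mul_mem hx hy), star_mul, ← n2_star hξ hx, mul_comm (n2 ξ (star x)),
    ← norm_star y]
  exact n2_mul_le hξ _ _

theorem eq_zero_of_n2 (hξ : IsTrace M ξ) {x : H →L[ℂ] H} (hx : x ∈ M) (h : n2 ξ x = 0) :
    x = 0 := by
  refine hξ.faithful x hx fun n => ?_
  have h1 := (n2_summable hξ x).hasSum
  change HasSum _ (n2 ξ x) at h1
  rw [h, hasSum_zero_iff_of_nonneg (fun _ => by positivity)] at h1
  have h2 := congrFun h1 n
  simpa using h2

/-- orthogonal decomposition with respect to a partition -/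
theorem norm_sq_pinch {r : ℕ} {P : Fin r → (H →L[ℂ] H)} (hP : IsPart A P) (x : H →L[ℂ] H)
    (v : H) : ‖pinch P x v‖ ^ 2 = ∑ i, ‖(P i * x * P i) v‖ ^ 2 := by
  have h0 : pinch P x v = ∑ i, (P i * x * P i) v := by
    unfold pinch
    rw [sum_apply]
  rw [h0, ← inner_self_re, sum_inner, Complex.re_sum]
  refine Finset.sum_congr rfl fun i _ => ?_
  rw [inner_sum, Finset.sum_eq_single i]
  · rw [inner_self_re]
  · intro j _ hj
    have h1 : inner ℂ ((P i * x * P i) v) ((P j * x * P j) v) =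
        inner ℂ ((x * P i) v) (P i (P j ((x * P j) v))) := by
      rw [← proj_inner (hP.1 i).2]
      rfl
    rw [h1]
    have h2 : P i (P j ((x * P j) v)) = 0 := by
      have := DFunLike.congr_fun (hP.2.1 i j (Ne.symm hj)) ((x * P j) v)
      exact this
    rw [h2, inner_zero_right]
  · intro h
    exact absurd (Finset.mem_univ i) h

theorem norm_proj_le {e : H →L[ℂ] H} (he : IsStarProjection e) (v : H) : ‖e v‖ ≤ ‖v‖ := by
  have h1 := proj_inner_self he v
  have h2 : ‖e v‖ ^ 2 ≤ ‖v‖ * ‖e v‖ := by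
    rw [← h1]
    exact (Complex.re_le_norm _).trans (norm_inner_le_norm _ _)
  by_contra h
  push Not at h
  nlinarith [norm_nonneg v, norm_nonneg (e v)]

/-- pinching does not increase the `2`-norm -/
theorem n2_pinch_le (hA : SO.IsMASA A M) (hξ : IsTrace M ξ) {r : ℕ} {P : Fin r → (H →L[ℂ] H)}
    (hP : IsPart A P) {x : H →L[ℂ] H} (hx : x ∈ M) : n2 ξ (pinch P x) ≤ n2 ξ x := by
  have h1 : n2 ξ (pinch P x) = ∑ i, n2 ξ (P i * x * P i) := by
    unfold n2
    rw [← Summable.tsum_finsetSum fun i _ => n2_summable hξ _]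
    exact tsum_congr fun n => norm_sq_pinch hP x (ξ n)
  have h2 : ∀ i, n2 ξ (P i * x * P i) ≤ n2 ξ (x * P i) := by
    intro i
    unfold n2
    refine Summable.tsum_le_tsum (fun n => ?_) (n2_summable hξ _) (n2_summable hξ _)
    rw [mul_assoc]
    exact pow_le_pow_left₀ (norm_nonneg _) (norm_proj_le (hP.1 i).2 _) 2
  have h3 : ∀ i, n2 ξ (x * P i) = (vtr ξ (star x * x * P i)).re := by
    intro i
    have hPi : P i ∈ M := hA.1 _ (hP.1 i).1
    rw [n2_eq hξ, star_mul, (hP.1 i).2.isSelfAdjoint.star_eq, mul_assoc,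
      hξ.tracial (P i) hPi _ (mul_mem (star_mem hx) (mul_mem hx hPi))]
    congr 2
    rw [← mul_assoc, mul_assoc, (hP.1 i).2.isIdempotentElem]
  rw [h1]
  refine (Finset.sum_le_sum fun i _ => h2 i).trans ?_
  rw [Finset.sum_congr rfl fun i _ => h3 i, ← Complex.re_sum, ← vtr_sum hξ, ← Finset.mul_sum,
    hP.2.2, mul_one, ← n2_eq hξ]

/-- the vectors `y ξ_n`, `y` in the commutant, span a dense subspace -/
theorem span_dense (hξ : IsTrace M ξ) :
    (Submodule.span ℂ {v : H | ∃ y ∈ M.commutant, ∃ n, v = y (ξ n)}).topologicalClosure = ⊤ := by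
  obtain ⟨S, hS⟩ : ∃ S : Submodule ℂ H,
    S = Submodule.span ℂ {v : H | ∃ y ∈ M.commutant, ∃ n, v = y (ξ n)} := ⟨_, rfl⟩
  obtain ⟨K, hK⟩ : ∃ K : Submodule ℂ H, K = S.topologicalClosure := ⟨_, rfl⟩
  rw [← hS, ← hK]
  have hKc : IsClosed (K : Set H) := by
    rw [hK]
    exact S.isClosed_topologicalClosure
  have : CompleteSpace K := hKc.completeSpace_coe
  have hinv0 : ∀ y ∈ M.commutant, ∀ v ∈ S, y v ∈ S := by
    intro y hy v hv
    rw [hS] at hv ⊢
    induction hv using Submodule.span_induction with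
    | mem v hv =>
      obtain ⟨z, hz, n, rfl⟩ := hv
      exact Submodule.subset_span ⟨y * z, mul_mem hy hz, n, rfl⟩
    | zero =>
      rw [map_zero]
      exact Submodule.zero_mem _
    | add v w _ _ hv hw =>
      rw [map_add]
      exact Submodule.add_mem _ hv hw
    | smul c v _ hv =>
      rw [map_smul]
      exact Submodule.smul_mem _ _ hv
  have hinv : ∀ y ∈ M.commutant, ∀ v ∈ K, y v ∈ K := by
    intro y hy v hv
    rw [hK] at hv ⊢
    exact map_mem_closure y.continuous hv fun w hw => hinv0 y hy w hw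
  have hpM : K.starProjection ∈ M := by
    refine mem_of_commute fun y hy => ?_
    exact commute_starProjection K (hinv y hy) (hinv _ (star_mem hy))
  have hξK : ∀ n, ξ n ∈ K := by
    intro n
    rw [hK]
    refine S.le_topologicalClosure ?_
    rw [hS]
    exact Submodule.subset_span ⟨1, one_mem _, n, rfl⟩
  have h1 : (1 : H →L[ℂ] H) - K.starProjection = 0 := by
    refine hξ.faithful _ (sub_mem (one_mem M) hpM) fun n => ?_
    rw [sub_apply, one_apply_eq_self, (Submodule.starProjection_eq_self_iff).2 (hξK n), sub_self]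
  rw [eq_top_iff]
  intro v _
  rw [← Submodule.starProjection_eq_self_iff]
  have h2 := DFunLike.congr_fun h1 v
  rw [sub_apply, one_apply_eq_self] at h2
  exact (sub_eq_zero.1 h2).symm

theorem norm_sub_proj_le (hξ : IsTrace M ξ) {q : H →L[ℂ] H} (hq : IsStarProjection q) (n : ℕ) :
    ‖(1 - q) (ξ n)‖ ≤ Real.sqrt ((vtr ξ (1 - q)).re) := by
  have h1 : n2 ξ (1 - q) = (vtr ξ (1 - q)).re := by
    rw [n2_eq hξ, hq.one_sub.isSelfAdjoint.star_eq, hq.one_sub.isIdempotentElem]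
  rw [← h1]
  refine Real.le_sqrt_of_sq_le ?_
  exact (n2_summable hξ (1 - q)).le_tsum n fun _ _ => by positivity

/-- a projection of small cotrace is close to one on given vectors -/
theorem vec_small (hξ : IsTrace M ξ) (F : Finset H) {δ : ℝ} (hδ : 0 < δ) :
    ∃ κ : ℝ, 0 < κ ∧ ∀ q ∈ M, IsStarProjection q → (vtr ξ (1 - q)).re ≤ κ →
      ∀ ζ ∈ F, ‖ζ - q ζ‖ < δ := by
  have hspan : ∀ v ∈ Submodule.span ℂ {v : H | ∃ y ∈ M.commutant, ∃ n, v = y (ξ n)},
      ∃ C : ℝ, 0 ≤ C ∧ ∀ q ∈ M, IsStarProjection q →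
        ‖(1 - q) v‖ ≤ C * Real.sqrt ((vtr ξ (1 - q)).re) := by
    intro v hv
    induction hv using Submodule.span_induction with
    | mem v hv =>
      obtain ⟨y, hy, n, rfl⟩ := hv
      refine ⟨‖y‖, norm_nonneg _, fun q hq hqp => ?_⟩
      have h1 : (1 - q) (y (ξ n)) = y ((1 - q) (ξ n)) := by
        have := commutant_comm (sub_mem (one_mem M) hq) hy
        exact (DFunLike.congr_fun this (ξ n)).symm
      rw [h1]
      exact (y.le_opNorm _).trans
        (mul_le_mul_of_nonneg_left (norm_sub_proj_le hξ hqp n) (norm_nonneg _))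
    | zero => exact ⟨0, le_rfl, fun q _ _ => by simp⟩
    | add v w _ _ hv hw =>
      obtain ⟨C, hC, hC'⟩ := hv
      obtain ⟨D, hD, hD'⟩ := hw
      refine ⟨C + D, add_nonneg hC hD, fun q hq hqp => ?_⟩
      rw [map_add, add_mul]
      exact (norm_add_le _ _).trans (add_le_add (hC' q hq hqp) (hD' q hq hqp))
    | smul c v _ hv =>
      obtain ⟨C, hC, hC'⟩ := hv
      refine ⟨‖c‖ * C, mul_nonneg (norm_nonneg _) hC, fun q hq hqp => ?_⟩
      rw [map_smul, norm_smul, mul_assoc]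
      exact mul_le_mul_of_nonneg_left (hC' q hq hqp) (norm_nonneg _)
  have hone : ∀ ζ : H, ∃ κ : ℝ, 0 < κ ∧ ∀ q ∈ M, IsStarProjection q →
      (vtr ξ (1 - q)).re ≤ κ → ‖ζ - q ζ‖ < δ := by
    intro ζ
    have hζ : ζ ∈ (Submodule.span ℂ
        {v : H | ∃ y ∈ M.commutant, ∃ n, v = y (ξ n)}).topologicalClosure := by
      rw [span_dense hξ]
      trivial
    obtain ⟨v, hv, hv2⟩ := Metric.mem_closure_iff.1 hζ (δ / 2) (by positivity)
    obtain ⟨C, hC, hC'⟩ := hspan v hv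
    refine ⟨(δ / (2 * (C + 1))) ^ 2, by positivity, fun q hq hqp hκ => ?_⟩
    have h1 : ζ - q ζ = (1 - q) (ζ - v) + (1 - q) v := by
      rw [← map_add, sub_add_cancel, sub_apply, one_apply_eq_self]
    have h2 : ‖(1 - q) (ζ - v)‖ ≤ ‖ζ - v‖ := norm_proj_le hqp.one_sub _
    have h3 : Real.sqrt ((vtr ξ (1 - q)).re) ≤ δ / (2 * (C + 1)) :=
      Real.sqrt_le_iff.2 ⟨by positivity, hκ⟩
    have h4 : C * (δ / (2 * (C + 1))) < δ / 2 := by
      rw [← mul_div_assoc, div_lt_div_iff₀ (by positivity) (by positivity)]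
      linarith only [hδ]
    rw [h1]
    refine (norm_add_le _ _).trans_lt ?_
    have h5 := (hC' q hq hqp).trans (mul_le_mul_of_nonneg_left h3 hC)
    rw [dist_eq_norm] at hv2
    linarith only [h5, h4, h2, hv2]
  classical
  induction F using Finset.induction_on with
  | empty => exact ⟨1, one_pos, fun q _ _ _ ζ hζ => absurd hζ (Finset.notMem_empty ζ)⟩
  | insert ζ F _ ih =>
    obtain ⟨κ, hκ, hκ'⟩ := ih
    obtain ⟨κ₂, hκ₂, hκ₂'⟩ := hone ζ
    refine ⟨min κ κ₂, lt_min hκ hκ₂, fun q hq hqp h ζ' hζ' => ?_⟩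
    rcases Finset.mem_insert.1 hζ' with rfl | h'
    · exact hκ₂' q hq hqp (h.trans (min_le_right _ _))
    · exact hκ' q hq hqp (h.trans (min_le_left _ _)) ζ' h'

/-- the trace is weakly continuous on bounded sets -/
theorem wcont_vtr (hξ : IsTrace M ξ) : WCont M (vtr ξ) := by
  refine WCont.of_approx fun ε hε => ?_
  obtain ⟨s, hs⟩ : ∃ s : Finset ℕ, ∑' n, ‖ξ n‖ ^ 2 - ∑ n ∈ s, ‖ξ n‖ ^ 2 ≤ ε := by
    have h1 := hξ.summable.hasSum
    rw [HasSum, Metric.tendsto_nhds] at h1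
    obtain ⟨s, hs⟩ := (h1 ε hε).exists
    refine ⟨s, ?_⟩
    rw [dist_eq_norm, Real.norm_eq_abs, abs_lt] at hs
    linarith [hs.1]
  refine ⟨fun x => ∑ n ∈ s, inner ℂ (ξ n) (x (ξ n)),
    WCont.sum s fun n _ => WCont.inner_apply (ξ n) (ξ n), fun x _ => ?_⟩
  have h2 : vtr ξ x - ∑ n ∈ s, inner ℂ (ξ n) (x (ξ n)) =
      ∑' n : { n // n ∉ s }, inner ℂ (ξ n) (x (ξ n)) := by
    rw [sub_eq_iff_eq_add, add_comm]
    exact ((vtr_summable hξ x).sum_add_tsum_subtype_compl s).symm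
  rw [h2]
  have hsn : Summable fun n : { n // n ∉ s } => ‖inner ℂ (ξ (n : ℕ)) (x (ξ n))‖ :=
    (vtr_summable hξ x).norm.subtype _
  have hsn2 : Summable fun n : { n // n ∉ s } => ‖x‖ * ‖ξ (n : ℕ)‖ ^ 2 :=
    (hξ.summable.mul_left ‖x‖).subtype _
  refine (norm_tsum_le_tsum_norm hsn).trans ?_
  refine (Summable.tsum_le_tsum (fun n => vtr_bound x _) hsn hsn2).trans ?_
  rw [tsum_mul_left, mul_comm]
  refine mul_le_mul_of_nonneg_right ?_ (norm_nonneg _)
  have h3 := hξ.summable.sum_add_tsum_subtype_compl s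
  linarith

theorem exists_trExp (hA : SO.IsMASA A M) (hξ : IsTrace M ξ) : ∃ E, IsTrExp M A ξ E := by
  have hAs := SO.IsMASA.toStar hA
  have := Part.filter_neBot hAs.2.1
  obtain ⟨E, hlim, hnorm, hmem, hpos, hsa, hbi, hid, -⟩ := exists_limit_expectation' hAs
    (Ultrafilter.of (Part.filter A.toStarSubalgebra)) (Ultrafilter.of_le _)
  have htr : ∀ x ∈ M, vtr ξ (E x) = vtr ξ x := by
    intro x hx
    have hEx : E x ∈ M := hA.1 _ (hmem x hx)
    have h1 := wcont_vtr hξ ‖x‖ (E x) (Filter.map (fun Q : Part A.toStarSubalgebra => Q.E x)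
      (Ultrafilter.of (Part.filter A.toStarSubalgebra) : Filter _)) hEx ?_ ?_
    · refine tendsto_nhds_unique h1 ?_
      rw [tendsto_map'_iff]
      refine tendsto_const_nhds.congr fun Q => ?_
      change vtr ξ x = vtr ξ (Q.E x)
      rw [Part.E_apply, vtr_sum hξ]
      have h2 : ∀ i, vtr ξ (Q.e i * x * Q.e i) = vtr ξ (x * Q.e i) := by
        intro i
        have hei : Q.e i ∈ M := hAs.1 (Q.mem i)
        rw [mul_assoc, hξ.tracial (Q.e i) hei _ (mul_mem hx hei), mul_assoc, Q.e_mul_self]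
      rw [Finset.sum_congr rfl fun i _ => h2 i, ← vtr_sum hξ, ← Finset.mul_sum, Q.sum_eq, mul_one]
    · rw [eventually_map]
      exact Eventually.of_forall fun Q => ⟨Q.E_mem hAs.1 hx, Q.norm_E_le x⟩
    · intro a b
      rw [tendsto_map'_iff]
      exact hlim x a b
  have hstar : ∀ x ∈ M, E (star x) = star (E x) := by
    intro x _
    have h1 : IsSelfAdjoint (E (x + star x)) := hsa _ (IsSelfAdjoint.add_star_self x)
    have h2 : IsSelfAdjoint (E (Complex.I • (x - star x))) := hsa _ (by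
      rw [IsSelfAdjoint, star_smul, star_sub, star_star, Complex.star_def, Complex.conj_I,
        neg_smul, ← smul_neg, neg_sub])
    have e1 := h1.star_eq
    have e2 := h2.star_eq
    rw [map_add, star_add] at e1
    rw [map_smul, map_sub, star_smul, star_sub, Complex.star_def, Complex.conj_I] at e2
    have e3 : -(star (E x) - star (E (star x))) = E x - E (star x) := by
      have h := congrArg (fun z => (-Complex.I) • z) e2
      simp only [smul_smul] at h
      simpa using h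
    have e4 : (2 : ℂ) • E (star x) = (2 : ℂ) • star (E x) := by
      rw [two_smul, two_smul]
      have h5 : E (star x) + E (star x) = (E x + E (star x)) - (E x - E (star x)) := by abel
      rw [h5, ← e1, ← e3]
      abel
    exact smul_right_injective _ (two_ne_zero' ℂ) e4
  have hbi' : ∀ a ∈ A, ∀ b ∈ A, ∀ x ∈ M, E (a * x * b) = a * E x * b := by
    intro a ha b hb x _
    rw [(hbi b hb (a * x)).2, (hbi a ha x).1]
  refine ⟨E, hmem, hid, fun x _ hx => hpos x hx, hbi', hstar, htr, ?_⟩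
  intro x hx b hb h
  have hEx : E x ∈ A := hmem x hx
  have hc : b - E x ∈ A := sub_mem hb hEx
  have h1 : ∀ a ∈ A, vtr ξ ((b - E x) * a) = 0 := by
    intro a ha
    have h2 := htr (x * a) (mul_mem hx (hA.1 a ha))
    rw [(hbi a ha x).2] at h2
    rw [sub_mul, vtr_sub hξ, h2, ← h a ha, sub_self]
  have h3 := h1 (star (b - E x)) (star_mem hc)
  have h4 : n2 ξ (star (b - E x)) = 0 := by
    rw [n2_eq hξ, star_star, h3, Complex.zero_re]
  have h5 := eq_zero_of_n2 hξ (star_mem (hA.1 _ hc)) h4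
  rw [star_eq_zero, sub_eq_zero] at h5
  exact h5

end Vale.Agent.P078.C
end

section

/-! T6d, T6e: the local system of a self-adjoint element of the span of the normalizer. -/

namespace Vale.Agent.P078.C

open Vale.Agent.P078.SO Polynomial
open scoped Classical

variable {H : Type*} [NormedAddCommGroup H] [InnerProductSpace ℂ H] [CompleteSpace H]
variable {M A : VonNeumannAlgebra H} {ξ : ℕ → H} {E : (H →L[ℂ] H) →ₗ[ℂ] (H →L[ℂ] H)}
variable {X : Type*} [TopologicalSpace X] [MulAction (nrm M A) X]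

/-- supremum of a nonempty chain of displaced projections -/
theorem disp_chain (hA : SO.IsMASA A M) (U : H →L[ℂ] H) (c : Set (H →L[ℂ] H)) (hne : c.Nonempty)
    (hcA : ∀ q ∈ c, q ∈ A) (hcp : ∀ q ∈ c, IsStarProjection q)
    (hcU : ∀ q ∈ c, q * star U * q = 0)
    (hch : ∀ q ∈ c, ∀ q' ∈ c, q * q' = q ∨ q' * q = q') :
    ∃ w ∈ A, IsStarProjection w ∧ w * star U * w = 0 ∧ ∀ q ∈ c, q * w = q := by
  have hcomm : ∀ q ∈ c, ∀ q' ∈ c, q * q' = q' * q := fun q hq q' hq' =>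
    hA.2.1 q (hcA q hq) q' (hcA q' hq')
  let S : Submodule ℂ H :=
    { carrier := {v | ∃ e ∈ c, e v = v}
      add_mem' := by
        rintro a b ⟨e, he, hea⟩ ⟨f, hf, hfb⟩
        rcases hch e he f hf with h | h
        · refine ⟨f, hf, ?_⟩
          have h1 : f * e = e := by rw [hcomm f hf e he, h]
          have h2 : f a = a := by
            conv_lhs => rw [← hea]
            have := DFunLike.congr_fun h1 a
            simp only [mul_apply_eq_comp] at this
            rw [this, hea]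
          rw [map_add, h2, hfb]
        · refine ⟨e, he, ?_⟩
          have h1 : e * f = f := by rw [hcomm e he f hf, h]
          have h2 : e b = b := by
            conv_lhs => rw [← hfb]
            have := DFunLike.congr_fun h1 b
            simp only [mul_apply_eq_comp] at this
            rw [this, hfb]
          rw [map_add, h2, hea]
      zero_mem' := by
        obtain ⟨q, hq⟩ := hne
        exact ⟨q, hq, by simp⟩
      smul_mem' := by
        rintro k a ⟨e, he, hea⟩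
        exact ⟨e, he, by rw [map_smul, hea]⟩ }
  let K := S.topologicalClosure
  have hKc : IsClosed (K : Set H) := S.isClosed_topologicalClosure
  have : CompleteSpace K := hKc.completeSpace_coe
  set w := K.starProjection with hw
  have hwp : IsStarProjection w := isStarProjection_starProjection
  have hinv : ∀ y : H →L[ℂ] H, (∀ e ∈ c, y * e = e * y) → ∀ v ∈ K, y v ∈ K := by
    intro y hy v hv
    have h1 : ∀ v ∈ S, y v ∈ S := by
      rintro v ⟨e, he, hev⟩
      refine ⟨e, he, ?_⟩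
      have := DFunLike.congr_fun (hy e he) v
      simp only [mul_apply_eq_comp] at this
      rw [← this, hev]
    have h2 : S ≤ K.comap (y : H →ₗ[ℂ] H) := fun v hv => S.le_topologicalClosure (h1 v hv)
    have h3 : IsClosed ((K.comap (y : H →ₗ[ℂ] H) : Submodule ℂ H) : Set H) :=
      hKc.preimage y.continuous
    exact (S.topologicalClosure_minimal h2 h3) hv
  have hwcomm : ∀ y : H →L[ℂ] H, (∀ e ∈ c, y * e = e * y) → y * w = w * y := by
    intro y hy
    refine commute_starProjection K (hinv y hy) (hinv _ fun e he => ?_)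
    have := congrArg star (hy e he)
    rw [star_mul, star_mul, (hcp e he).isSelfAdjoint.star_eq] at this
    exact this.symm
  have hwM : w ∈ M := mem_of_commute fun y hy => hwcomm y fun e he =>
    commutant_comm (M := M) (hA.1 e (hcA e he)) hy
  have hwA : w ∈ A := hA.2.2 w hwM fun a ha => hwcomm a fun e he => hA.2.1 a ha e (hcA e he)
  have hwe : ∀ e ∈ c, w * e = e := by
    intro e he
    ext v
    change w (e v) = e v
    refine K.starProjection_eq_self_iff.2 (S.le_topologicalClosure ⟨e, he, ?_⟩)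
    exact proj_apply_apply (hcp e he) v
  have hK : ∀ v, w v ∈ K := fun v => K.starProjection_apply_mem v
  -- a closed condition on K
  have hcl : ∀ T : H →L[ℂ] H, (∀ v ∈ S, T v = 0) → T * w = 0 := by
    intro T hT
    ext v
    have h2 : S ≤ (T : H →ₗ[ℂ] H).ker := fun v hv => hT v hv
    have h3 : IsClosed (((T : H →ₗ[ℂ] H).ker : Submodule ℂ H) : Set H) := by
      have : (((T : H →ₗ[ℂ] H).ker : Submodule ℂ H) : Set H) = T ⁻¹' {0} := rfl
      rw [this]
      exact isClosed_singleton.preimage T.continuous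
    exact (S.topologicalClosure_minimal h2 h3) (hK v)
  -- pairs in the chain
  have hef : ∀ e ∈ c, ∀ f ∈ c, e * star U * f = 0 := by
    intro e he f hf
    rcases hch e he f hf with h | h
    · -- e f = e
      have h1 : e * star U * f = e * (f * star U * f) := by
        have : e * (f * star U * f) = (e * f) * star U * f := by noncomm_ring
        rw [this, h]
      rw [h1, hcU f hf, mul_zero]
    · -- f e = f, so e f = f
      have h0 : e * f = f := by rw [hcomm e he f hf, h]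
      have h1 : e * star U * f = (e * star U * e) * f := by
        have : (e * star U * e) * f = e * star U * (e * f) := by noncomm_ring
        rw [this, h0]
      rw [h1, hcU e he, zero_mul]
  have h1 : ∀ e ∈ c, e * star U * w = 0 := by
    intro e he
    refine hcl _ ?_
    rintro v ⟨f, hf, hfv⟩
    have := DFunLike.congr_fun (hef e he f hf) v
    simp only [mul_apply_eq_comp, zero_apply] at this
    rw [hfv] at this
    exact this
  have h2 : ∀ e ∈ c, w * U * e = 0 := by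
    intro e he
    have := congrArg star (h1 e he)
    rw [star_mul, star_mul, star_star, star_zero, (hcp e he).isSelfAdjoint.star_eq,
      hwp.isSelfAdjoint.star_eq, ← mul_assoc] at this
    exact this
  have h3 : w * U * w = 0 := by
    refine hcl _ ?_
    rintro v ⟨f, hf, hfv⟩
    have := DFunLike.congr_fun (h2 f hf) v
    simp only [mul_apply_eq_comp, zero_apply] at this
    rw [hfv] at this
    exact this
  have h4 : w * star U * w = 0 := by
    have := congrArg star h3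
    rw [star_mul, star_mul, star_zero, hwp.isSelfAdjoint.star_eq, ← mul_assoc] at this
    exact this
  refine ⟨w, hwA, hwp, h4, fun q hq => ?_⟩
  rw [hA.2.1 q (hcA q hq) w hwA, hwe q hq]

/-- a maximal displaced projection -/
theorem exists_max_disp (hA : SO.IsMASA A M) (U : H →L[ℂ] H) :
    ∃ w ∈ A, IsStarProjection w ∧ w * star U * w = 0 ∧
      ∀ q ∈ A, IsStarProjection q → q * star U * q = 0 → w * q = w → q = w := by
  let α := {q : H →L[ℂ] H // q ∈ A ∧ IsStarProjection q ∧ q * star U * q = 0}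
  have hz := exists_maximal_of_chains_bounded (α := α) (r := fun a b => a.1 * b.1 = a.1) ?_ ?_
  · obtain ⟨m, hm⟩ := hz
    refine ⟨m.1, m.2.1, m.2.2.1, m.2.2.2, fun q hq hqp hqU hmq => ?_⟩
    have := hm ⟨q, hq, hqp, hqU⟩ hmq
    change q * m.1 = q at this
    rw [← this, hA.2.1 q hq _ m.2.1, hmq]
  · intro c hc
    rcases c.eq_empty_or_nonempty with rfl | hne
    · exact ⟨⟨0, zero_mem A, IsStarProjection.zero _, by simp⟩, fun a ha => by simp at ha⟩
    · obtain ⟨w, hwA, hwp, hwU, hle⟩ := disp_chain hA U (Subtype.val '' c) (hne.image _)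
        (by rintro _ ⟨q, -, rfl⟩; exact q.2.1) (by rintro _ ⟨q, -, rfl⟩; exact q.2.2.1)
        (by rintro _ ⟨q, -, rfl⟩; exact q.2.2.2) (by
          rintro _ ⟨q, hq, rfl⟩ _ ⟨q', hq', rfl⟩
          by_cases h : q = q'
          · subst h; left; exact q.2.2.1.isIdempotentElem
          · exact hc hq hq' h)
      exact ⟨⟨w, hwA, hwp, hwU⟩, fun a ha => hle a.1 ⟨a, ha, rfl⟩⟩
  · intro a b d hab hbd
    change a.1 * b.1 = a.1 at hab
    change b.1 * d.1 = b.1 at hbd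
    change a.1 * d.1 = a.1
    conv_lhs => rw [← hab]
    rw [mul_assoc, hbd, hab]


theorem proj_mul {A M : VonNeumannAlgebra H} (hA : SO.IsMASA A M) {e f : H →L[ℂ] H} (he : e ∈ A)
    (hf : f ∈ A) (hep : IsStarProjection e) (hfp : IsStarProjection f) : IsStarProjection (e * f) :=
  hep.mul hfp (hA.2.1 e he f hf)

theorem proj_conj (u : nrm M A) {e : H →L[ℂ] H} (he : IsStarProjection e) :
    IsStarProjection (star (op u) * e * op u) := by
  refine ⟨?_, ?_⟩
  · change star (op u) * e * op u * (star (op u) * e * op u) = _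
    have : star (op u) * e * op u * (star (op u) * e * op u) =
      star (op u) * e * (op u * star (op u)) * e * op u := by noncomm_ring
    rw [this, op_mul_star, mul_one, mul_assoc (star (op u)) e e, he.isIdempotentElem]
  · rw [IsSelfAdjoint, star_mul, star_mul, star_star, he.isSelfAdjoint.star_eq, mul_assoc]

theorem vtr_conj (hξ : IsTrace M ξ) (u : nrm M A) {a : H →L[ℂ] H} (ha : a ∈ M) :
    vtr ξ (star (op u) * a * op u) = vtr ξ a := by
  have := hξ.tracial (star (op u)) (star_op_mem u) (a * op u) (mul_mem ha (op_mem u))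
  rw [mul_assoc, this, mul_assoc, op_mul_star, mul_one]

theorem four_kill {R : Type*} [Ring R] {x1 x2 x3 x4 z : R} (c1 : x1 * z = z * x1)
    (c2 : x2 * z = z * x2) (c3 : x3 * z = z * x3) (c4 : x4 * z = z * x4)
    (h : x1 * z = 0 ∨ x2 * z = 0 ∨ x3 * z = 0 ∨ x4 * z = 0) : x1 * x2 * x3 * x4 * z = 0 := by
  rcases h with h | h | h | h
  · rw [mul_assoc, c4, ← mul_assoc, mul_assoc (x1 * x2) x3 z, c3, ← mul_assoc, mul_assoc x1 x2 z,
      c2, ← mul_assoc, h]
    simp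
  · rw [mul_assoc, c4, ← mul_assoc, mul_assoc (x1 * x2) x3 z, c3, ← mul_assoc, mul_assoc x1 x2 z,
      h]
    simp
  · rw [mul_assoc, c4, ← mul_assoc, mul_assoc (x1 * x2) x3 z, h]
    simp
  · rw [mul_assoc, h, mul_zero]

/-- the complement of the support of `E u` is covered by a displaced projection and its
translates -/
theorem free_cover (hA : SO.IsMASA A M) (hξ : IsTrace M ξ) (hE : IsTrExp M A ξ E) (u : nrm M A)
    {p w : H →L[ℂ] H} (hp : p ∈ A) (hpp : IsStarProjection p) (hEp : E (op u) = op u * p)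
    (hw : w ∈ A) (hwp : IsStarProjection w) (hwU : w * star (op u) * w = 0)
    (hmax : ∀ q ∈ A, IsStarProjection q → q * star (op u) * q = 0 → w * q = w → q = w) :
    (1 - p) * (1 - w) * (1 - star (op u) * w * op u) * (1 - op u * w * star (op u)) = 0 := by
  set U := op u with hU
  have hUU : star U * U = 1 := star_op_mul u
  have hUU' : U * star U = 1 := op_mul_star u
  have hcA := hA.2.1
  have hw1 : star U * w * U ∈ A := conj_mem' u hw
  have hw2 : U * w * star U ∈ A := conj_mem u hw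
  have hw1p : IsStarProjection (star U * w * U) := proj_conj u hwp
  have hw2p : IsStarProjection (U * w * star U) := by
    have := proj_conj u⁻¹ hwp
    rwa [op_inv, star_star] at this
  have h1 : (1 : H →L[ℂ] H) ∈ A := one_mem A
  set r := (1 - p) * (1 - w) * (1 - star U * w * U) * (1 - U * w * star U) with hr
  have hrA : r ∈ A := mul_mem (mul_mem (mul_mem (sub_mem h1 hp) (sub_mem h1 hw))
    (sub_mem h1 hw1)) (sub_mem h1 hw2)
  have hrp : IsStarProjection r :=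
    proj_mul hA (mul_mem (mul_mem (sub_mem h1 hp) (sub_mem h1 hw)) (sub_mem h1 hw1))
      (sub_mem h1 hw2)
      (proj_mul hA (mul_mem (sub_mem h1 hp) (sub_mem h1 hw)) (sub_mem h1 hw1)
        (proj_mul hA (sub_mem h1 hp) (sub_mem h1 hw) hpp.one_sub hwp.one_sub) hw1p.one_sub)
      hw2p.one_sub
  have hrr : r * r = r := hrp.isIdempotentElem
  -- r kills p, w, U* w U, U w U*
  have k1 : (1 - p) * p = 0 := by rw [sub_mul, one_mul, hpp.isIdempotentElem, sub_self]
  have k2 : (1 - w) * w = 0 := by rw [sub_mul, one_mul, hwp.isIdempotentElem, sub_self]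
  have k3 : (1 - star U * w * U) * (star U * w * U) = 0 := by
    rw [sub_mul, one_mul, hw1p.isIdempotentElem, sub_self]
  have k4 : (1 - U * w * star U) * (U * w * star U) = 0 := by
    rw [sub_mul, one_mul, hw2p.isIdempotentElem, sub_self]
  have kk : ∀ z ∈ A, ((1 - p) * z = 0 ∨ (1 - w) * z = 0 ∨ (1 - star U * w * U) * z = 0 ∨
      (1 - U * w * star U) * z = 0) → r * z = 0 := fun z hz h =>
    four_kill (hcA _ (sub_mem h1 hp) z hz) (hcA _ (sub_mem h1 hw) z hz)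
      (hcA _ (sub_mem h1 hw1) z hz) (hcA _ (sub_mem h1 hw2) z hz) h
  have hrw2 : r * (U * w * star U) = 0 := kk _ hw2 (Or.inr (Or.inr (Or.inr k4)))
  have hrw1 : r * (star U * w * U) = 0 := kk _ hw1 (Or.inr (Or.inr (Or.inl k3)))
  have hrw : r * w = 0 := kk _ hw (Or.inr (Or.inl k2))
  have hrp0 : r * p = 0 := kk _ hp (Or.inl k1)
  -- step 1
  have step1 : ∀ e ∈ A, IsStarProjection e → e * r = e → e * star U * e = 0 → e = 0 := by
    intro e he hep her heU
    have hew : e * w = 0 := by rw [← her, mul_assoc, hrw, mul_zero]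
    have hwe : w * e = 0 := by rw [hcA w hw e he, hew]
    have hq : IsStarProjection (w + e) := by
      refine ⟨?_, hwp.isSelfAdjoint.add hep.isSelfAdjoint⟩
      change (w + e) * (w + e) = w + e
      rw [add_mul, mul_add, mul_add, hwe, hew, hwp.isIdempotentElem, hep.isIdempotentElem]
      simp
    have h5 : e * star U * w = 0 := by
      have : e * star U * w = e * (star U * w * U) * star U := by
        have : e * (star U * w * U) * star U = e * star U * w * (U * star U) := by noncomm_ring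
        rw [this, hUU', mul_one]
      rw [this, ← her, mul_assoc e r, hrw1, mul_zero, zero_mul]
    have h6 : w * star U * e = 0 := by
      have : w * star U * e = star U * ((U * w * star U) * e) := by
        have : star U * ((U * w * star U) * e) = (star U * U) * w * star U * e := by noncomm_ring
        rw [this, hUU, one_mul]
      rw [this, hcA _ hw2 _ he, ← her, mul_assoc e r, hrw2, mul_zero, mul_zero]
    have hqU : (w + e) * star U * (w + e) = 0 := by
      have : (w + e) * star U * (w + e) = w * star U * w + e * star U * e + e * star U * w +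
        w * star U * e := by noncomm_ring
      rw [this, hwU, heU, h5, h6]; simp
    have := hmax (w + e) (add_mem hw he) hq hqU (by rw [mul_add, hwp.isIdempotentElem, hwe, add_zero])
    simpa using this
  -- step 2
  have step2 : ∀ e ∈ A, IsStarProjection e → e * r = e → e * (star U * e * U) = e := by
    intro e he hep her
    have he1 : star U * e * U ∈ A := conj_mem' u he
    have he1p : IsStarProjection (star U * e * U) := proj_conj u hep
    have h0 : e * (1 - star U * e * U) = 0 := by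
      have hc1 : (1 - star U * e * U) ∈ A := sub_mem h1 he1
      refine step1 _ (mul_mem he hc1) (proj_mul hA he hc1 hep he1p.one_sub) ?_ ?_
      · rw [mul_assoc, hcA _ hc1 _ hrA, ← mul_assoc, her]
      · -- e (1 - U*eU) U* e (1 - U*eU) = 0 : (1 - U*eU) U* e = U* e - U* e U U* e = 0
        have h2 : (1 - star U * e * U) * star U * e = 0 := by
          have : (1 - star U * e * U) * star U * e = star U * e - star U * e * (U * star U) * e := by
            noncomm_ring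
          rw [this, hUU', mul_one, mul_assoc (star U) e e, hep.isIdempotentElem, sub_self]
        have : e * (1 - star U * e * U) * star U * (e * (1 - star U * e * U)) =
            e * ((1 - star U * e * U) * star U * e) * (1 - star U * e * U) := by noncomm_ring
        rw [this, h2]; simp
    rw [mul_sub, mul_one, sub_eq_zero] at h0
    exact h0.symm
  -- step 3
  have step3 : ∀ e ∈ A, IsStarProjection e → e * r = e → e * U = U * e := by
    intro e he hep her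
    have he1 : star U * e * U ∈ A := conj_mem' u he
    have he1p : IsStarProjection (star U * e * U) := proj_conj u hep
    have h2 := step2 e he hep her
    have h2' : (star U * e * U) * e = e := by rw [hcA _ he1 _ he, h2]
    have h3 : n2 ξ (star U * e * U - e) = 0 := by
      rw [n2_eq hξ]
      have : star (star U * e * U - e) * (star U * e * U - e) = star U * e * U - e := by
        rw [star_sub, he1p.isSelfAdjoint.star_eq, hep.isSelfAdjoint.star_eq, sub_mul, mul_sub,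
          mul_sub, he1p.isIdempotentElem, hep.isIdempotentElem, h2, h2']
        abel
      rw [this, sub_eq_add_neg, vtr_add hξ]
      have h4 : vtr ξ (-e) = - vtr ξ e := by
        have := vtr_smul hξ (-1) e
        simpa using this
      rw [h4, vtr_conj hξ u (hA.1 e he)]
      simp
    have h4 := eq_zero_of_n2 hξ (sub_mem (hA.1 _ he1) (hA.1 _ he)) h3
    rw [sub_eq_zero] at h4
    have : U * (star U * e * U) = e * U := by
      have : U * (star U * e * U) = (U * star U) * e * U := by noncomm_ring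
      rw [this, hUU', one_mul]
    rw [← this, h4]
  -- step 4
  have hrU : r * U = U * r := step3 r hrA hrp hrr
  have hUr : ∀ f ∈ A.toStarSubalgebra, IsStarProjection f → (U * r) * f = f * (U * r) := by
    intro f hf hfp
    have hf' : f ∈ A := hf
    have hrf : r * f = f * r := hcA r hrA f hf'
    have h5 := step3 (f * r) (mul_mem hf' hrA) (proj_mul hA hf' hrA hfp hrp)
      (by rw [mul_assoc, hrr])
    rw [mul_assoc U r f, hrf, ← h5, mul_assoc f r U, hrU]
  have hcomm := hA.toStar.comm_of_proj hUr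
  have hUrA : U * r ∈ A := by
    refine hA.2.2 _ (mul_mem (op_mem u) (hA.1 r hrA)) fun a ha => (hcomm a ha).symm
  have h6 : E (U * r) = U * r := hE.idem _ hUrA
  rw [E_mul_right hA hE hrA (op_mem u), hEp, mul_assoc, hcA p hp r hrA, hrp0, mul_zero] at h6
  have : r = star U * (U * r) := by rw [← mul_assoc, hUU, one_mul]
  rw [this, ← h6, mul_zero]

namespace Spec

variable (𝒮 : Spec M A X)

theorem val_neg (ω : X) {a : H →L[ℂ] H} (ha : a ∈ A) : 𝒮.val ω (-a) = -𝒮.val ω a := by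
  have := 𝒮.smul ω (-1) a ha
  simpa using this

theorem val_sub (ω : X) {a b : H →L[ℂ] H} (ha : a ∈ A) (hb : b ∈ A) :
    𝒮.val ω (a - b) = 𝒮.val ω a - 𝒮.val ω b := by
  rw [sub_eq_add_neg, 𝒮.add ω a ha (-b) (neg_mem hb), 𝒮.val_neg ω hb, ← sub_eq_add_neg]

theorem val_zero (ω : X) : 𝒮.val ω 0 = 0 := by
  have := 𝒮.smul ω 0 1 (one_mem A)
  simpa using this

theorem val_proj (ω : X) {e : H →L[ℂ] H} (he : e ∈ A) (hep : IsStarProjection e) :
    𝒮.val ω e = 0 ∨ 𝒮.val ω e = 1 := by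
  have h1 := 𝒮.mul ω e he e he
  rw [hep.isIdempotentElem] at h1
  rcases eq_or_ne (𝒮.val ω e) 0 with h | h
  · exact Or.inl h
  · right
    have h2 : 𝒮.val ω e * 1 = 𝒮.val ω e * 𝒮.val ω e := by rw [mul_one]; exact h1
    exact (mul_left_cancel₀ h h2).symm

theorem val_sum {ι : Type*} (s : Finset ι) (f : ι → (H →L[ℂ] H)) (hf : ∀ i ∈ s, f i ∈ A)
    (ω : X) : 𝒮.val ω (∑ i ∈ s, f i) = ∑ i ∈ s, 𝒮.val ω (f i) := by
  induction s using Finset.induction_on with
  | empty => simp [𝒮.val_zero ω]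
  | insert i s hi ih =>
    rw [Finset.sum_insert hi, Finset.sum_insert hi, 𝒮.add ω _ (hf i (Finset.mem_insert_self i s)) _
      (sum_mem fun j hj => hf j (Finset.mem_insert_of_mem hj)),
      ih fun j hj => hf j (Finset.mem_insert_of_mem hj)]

end Spec

/-- fixed points in terms of the support projection -/
theorem fix_iff (hA : SO.IsMASA A M) (hξ : IsTrace M ξ) (hE : IsTrExp M A ξ E)
    (𝒮 : Spec M A X) (u : nrm M A) {p : H →L[ℂ] H} (hp : p ∈ A) (hpp : IsStarProjection p)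
    (hEp : E (op u) = op u * p) (hcov : ∀ a ∈ A, (star (op u) * a * op u) * p = a * p) (ω : X) :
    u • ω = ω ↔ 𝒮.val ω p = 1 := by
  constructor
  · intro hω
    rcases 𝒮.val_proj ω hp hpp with h0 | h0
    · exfalso
      obtain ⟨w, hw, hwp, hwU, hmax⟩ := exists_max_disp hA (op u)
      have hcov := free_cover hA hξ hE u hp hpp hEp hw hwp hwU hmax
      have hw1 : star (op u) * w * op u ∈ A := conj_mem' u hw
      have hw2 : op u * w * star (op u) ∈ A := conj_mem u hw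
      have h1 : (1 : H →L[ℂ] H) ∈ A := one_mem A
      have v1 : 𝒮.val ω (star (op u) * w * op u) = 𝒮.val ω w := by
        rw [← 𝒮.act u ω w hw, hω]
      have v2 : 𝒮.val ω (op u * w * star (op u)) = 𝒮.val ω w := by
        have h2 : u⁻¹ • ω = ω := by rw [inv_smul_eq_iff]; exact hω.symm
        have h3 : 𝒮.val (u⁻¹ • ω) w = 𝒮.val ω (star (op u⁻¹) * w * op u⁻¹) := 𝒮.act u⁻¹ ω w hw
        rw [h2, op_inv, star_star] at h3
        exact h3.symm
      have h4 := congrArg (𝒮.val ω) hcov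
      rw [𝒮.val_zero, 𝒮.mul ω _ (mul_mem (mul_mem (sub_mem h1 hp) (sub_mem h1 hw)) (sub_mem h1 hw1))
        _ (sub_mem h1 hw2), 𝒮.mul ω _ (mul_mem (sub_mem h1 hp) (sub_mem h1 hw)) _ (sub_mem h1 hw1),
        𝒮.mul ω _ (sub_mem h1 hp) _ (sub_mem h1 hw), 𝒮.val_sub ω h1 hp, 𝒮.val_sub ω h1 hw,
        𝒮.val_sub ω h1 hw1, 𝒮.val_sub ω h1 hw2, v1, v2, 𝒮.one, h0, sub_zero, one_mul] at h4
      rcases 𝒮.val_proj ω hw hwp with h5 | h5
      · rw [h5] at h4; norm_num at h4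
      · -- w * (U* w U) = 0
        have h6 : w * (star (op u) * w * op u) = 0 := by
          have : w * (star (op u) * w * op u) = w * star (op u) * w * op u := by noncomm_ring
          rw [this, hwU, zero_mul]
        have h7 := congrArg (𝒮.val ω) h6
        rw [𝒮.val_zero, 𝒮.mul ω _ hw _ hw1, v1, h5] at h7
        norm_num at h7
    · exact h0
  · intro h0
    refine 𝒮.sep _ _ fun a ha => ?_
    rw [𝒮.act u ω a ha]
    have h1 := congrArg (𝒮.val ω) (hcov a ha)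
    rw [𝒮.mul ω _ (conj_mem' u ha) _ hp, 𝒮.mul ω _ ha _ hp, h0, mul_one, mul_one] at h1
    exact h1

/-- the fixed point set of `u` is clopen -/
theorem fix_clopen (hA : SO.IsMASA A M) (hξ : IsTrace M ξ) (hE : IsTrExp M A ξ E)
    (𝒮 : Spec M A X) (u : nrm M A) : IsClopen {ω : X | u • ω = ω} := by
  obtain ⟨p, hp, hpp, hEp, -, -, hcov⟩ := exists_proj_E' hA hE u
  have hc := 𝒮.cont p hp
  have e1 : {ω : X | u • ω = ω} = (fun ω => 𝒮.val ω p) ⁻¹' {1} := by
    ext ω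
    exact fix_iff hA hξ hE 𝒮 u hp hpp hEp hcov ω
  have e2 : {ω : X | u • ω = ω} = (fun ω => 𝒮.val ω p) ⁻¹' {0}ᶜ := by
    ext ω
    refine (fix_iff hA hξ hE 𝒮 u hp hpp hEp hcov ω).trans ?_
    simp only [Set.mem_preimage, Set.mem_compl_iff, Set.mem_singleton_iff]
    constructor
    · intro h; rw [h]; exact one_ne_zero
    · intro h
      exact (𝒮.val_proj ω hp hpp).resolve_left h
  refine ⟨?_, ?_⟩
  · rw [e1]; exact isClosed_singleton.preimage hc
  · rw [e2]; exact isClosed_singleton.isOpen_compl.preimage hc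

theorem norm_val_sq (𝒮 : Spec M A X) (ω : X) {b : H →L[ℂ] H} (hb : b ∈ A) :
    ((‖𝒮.val ω b‖ ^ 2 : ℝ) : ℂ) = 𝒮.val ω (star b * b) := by
  rw [𝒮.mul ω _ (star_mem hb) _ hb, 𝒮.star ω b hb, Complex.star_def, mul_comm, Complex.mul_conj,
    Complex.normSq_eq_norm_sq]

/-- the value of `E (g* h)` at `ω` is nonzero iff `g ω = h ω`, and then of modulus one -/
theorem val_E_eq_zero (hA : SO.IsMASA A M) (hξ : IsTrace M ξ) (hE : IsTrExp M A ξ E)
    (𝒮 : Spec M A X) (g h : nrm M A) {ω : X} (hω : g • ω ≠ h • ω) :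
    𝒮.val ω (E (star (op g) * op h)) = 0 := by
  obtain ⟨p, hp, hpp, hEp, hbb, -, hcov⟩ := exists_proj_E' hA hE (g⁻¹ * h)
  have h1 : star (op g) * op h = op (g⁻¹ * h) := rfl
  rw [h1]
  have h2 := norm_val_sq 𝒮 ω (hE.mem _ (op_mem (g⁻¹ * h)))
  rw [hbb] at h2
  have h3 : ¬ 𝒮.val ω p = 1 := by
    intro h3
    rw [← fix_iff hA hξ hE 𝒮 (g⁻¹ * h) hp hpp hEp hcov ω, mul_smul, inv_smul_eq_iff] at h3
    exact hω h3.symm
  rw [(𝒮.val_proj ω hp hpp).resolve_right h3] at h2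
  have h4 : ‖𝒮.val ω (E (op (g⁻¹ * h)))‖ ^ 2 = 0 := by exact_mod_cast h2
  exact norm_eq_zero.1 (pow_eq_zero_iff (two_ne_zero)|>.1 h4)

theorem norm_val_E (hA : SO.IsMASA A M) (hξ : IsTrace M ξ) (hE : IsTrExp M A ξ E)
    (𝒮 : Spec M A X) (g h : nrm M A) {ω : X} (hω : g • ω = h • ω) :
    ‖𝒮.val ω (E (star (op g) * op h))‖ = 1 := by
  obtain ⟨p, hp, hpp, hEp, hbb, -, hcov⟩ := exists_proj_E' hA hE (g⁻¹ * h)
  have h1 : star (op g) * op h = op (g⁻¹ * h) := rfl
  rw [h1]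
  have h2 := norm_val_sq 𝒮 ω (hE.mem _ (op_mem (g⁻¹ * h)))
  rw [hbb] at h2
  have h3 : 𝒮.val ω p = 1 := by
    rw [← fix_iff hA hξ hE 𝒮 (g⁻¹ * h) hp hpp hEp hcov ω, mul_smul, inv_smul_eq_iff]
    exact hω.symm
  rw [h3] at h2
  have h4 : ‖𝒮.val ω (E (op (g⁻¹ * h)))‖ ^ 2 = 1 := by exact_mod_cast h2
  exact (pow_eq_one_iff_of_nonneg (norm_nonneg _) two_ne_zero).1 h4

/-- if `g ω = g' ω`, the values at `ω` for `g` and `g'` differ by a phase -/
theorem val_E_phase (hA : SO.IsMASA A M) (hξ : IsTrace M ξ) (hE : IsTrExp M A ξ E)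
    (𝒮 : Spec M A X) (g g' : nrm M A) {ω : X} (hω : g • ω = g' • ω) {x : H →L[ℂ] H}
    (hx : x ∈ M) : 𝒮.val ω (E (star (op g) * x)) =
      𝒮.val ω (E (star (op g) * op g')) * 𝒮.val ω (E (star (op g') * x)) := by
  obtain ⟨p, hp, hpp, hEp, hbb, hpu, hcov⟩ := exists_proj_E' hA hE (g⁻¹ * g')
  set v := g⁻¹ * g' with hv
  have h1 : star (op g) * op g' = op v := rfl
  rw [h1]
  have h3 : 𝒮.val ω p = 1 := by
    rw [← fix_iff hA hξ hE 𝒮 v hp hpp hEp hcov ω, hv, mul_smul, inv_smul_eq_iff]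
    exact hω.symm
  set y := star (op g') * x with hy
  have hyM : y ∈ M := mul_mem (star_op_mem g') hx
  have h4 : star (op g) * x = op v * y := by
    rw [hy, ← h1]
    have : star (op g) * op g' * (star (op g') * x) =
      star (op g) * (op g' * star (op g')) * x := by noncomm_ring
    rw [this, op_mul_star, mul_one]
  rw [h4]
  have h5 : p * E (op v * y) = E (op v) * E y := by
    rw [← E_mul_left hA hE hp (mul_mem (op_mem v) hyM), ← mul_assoc, hpu, ← hEp,
      E_mul_left hA hE (hE.mem _ (op_mem v)) hyM]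
  have h6 := congrArg (𝒮.val ω) h5
  rw [𝒮.mul ω _ hp _ (hE.mem _ (mul_mem (op_mem v) hyM)), h3, one_mul,
    𝒮.mul ω _ (hE.mem _ (op_mem v)) _ (hE.mem _ hyM)] at h6
  exact h6

/-- a locally constant colouring is a partition in `A` -/
theorem exists_part (hA : SO.IsMASA A M) (𝒮 : Spec M A X) {r : ℕ} (c : X → Fin r)
    (hc : IsLocallyConstant c) : ∃ P : Fin r → (H →L[ℂ] H), IsPart A P ∧
      ∀ i ω, 𝒮.val ω (P i) = if c ω = i then 1 else 0 := by
  have hf : ∀ i : Fin r, Continuous fun ω : X => if c ω = i then (1 : ℂ) else 0 := fun i =>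
    (hc.comp fun j => if j = i then (1 : ℂ) else 0).continuous
  choose P hP hval using fun i : Fin r => 𝒮.surj ⟨_, hf i⟩
  simp only [ContinuousMap.coe_mk] at hval
  have hinj : ∀ a ∈ A, ∀ b ∈ A, (∀ ω, 𝒮.val ω a = 𝒮.val ω b) → a = b := by
    intro a ha b hb h
    rw [← sub_eq_zero]
    refine 𝒮.inj _ (sub_mem ha hb) fun ω => ?_
    rw [𝒮.val_sub ω ha hb, h ω, sub_self]
  refine ⟨P, ⟨fun i => ⟨hP i, ⟨?_, ?_⟩⟩, fun i j hij => ?_, ?_⟩, fun i ω => hval i ω⟩
  · refine hinj _ (mul_mem (hP i) (hP i)) _ (hP i) fun ω => ?_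
    rw [𝒮.mul ω _ (hP i) _ (hP i), hval i ω]
    split_ifs <;> simp
  · refine hinj _ (star_mem (hP i)) _ (hP i) fun ω => ?_
    rw [𝒮.star ω _ (hP i), hval i ω]
    split_ifs <;> simp
  · refine hinj _ (mul_mem (hP i) (hP j)) _ (zero_mem A) fun ω => ?_
    rw [𝒮.mul ω _ (hP i) _ (hP j), hval i ω, hval j ω, 𝒮.val_zero]
    by_cases h1 : c ω = i
    · rw [if_pos h1, if_neg (by rw [h1]; exact hij), mul_zero]
    · rw [if_neg h1, zero_mul]
  · refine hinj _ (sum_mem fun i _ => hP i) _ (one_mem A) fun ω => ?_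
    rw [𝒮.val_sum _ _ (fun i _ => hP i), 𝒮.one]
    simp only [hval]
    simp

/-- finite propagation of elements of the span of the normalizer -/
theorem span_range (hA : SO.IsMASA A M) (hξ : IsTrace M ξ) (hE : IsTrExp M A ξ E)
    (𝒮 : Spec M A X) {x : H →L[ℂ] H} (hx : x ∈ nspan M A) :
    x ∈ M ∧ ∃ S : Finset (nrm M A), ∀ g h : nrm M A, ∀ ω : X,
      𝒮.val ω (E (star (op g) * x * op h)) ≠ 0 → ∃ s ∈ S, g • ω = (s * h) • ω := by
  refine Submodule.span_induction (p := fun x _ => x ∈ M ∧ ∃ S : Finset (nrm M A),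
    ∀ g h : nrm M A, ∀ ω : X, 𝒮.val ω (E (star (op g) * x * op h)) ≠ 0 →
      ∃ s ∈ S, g • ω = (s * h) • ω) ?_ ?_ ?_ ?_ hx
  · rintro _ ⟨u, rfl⟩
    refine ⟨op_mem u, {u}, fun g h ω hne => ⟨u, Finset.mem_singleton_self u, ?_⟩⟩
    by_contra hcon
    apply hne
    have h1 : star (op g) * op u * op h = star (op g) * op (u * h) := by
      rw [op_mul, mul_assoc]
    rw [h1]
    exact val_E_eq_zero hA hξ hE 𝒮 g (u * h) hcon
  · refine ⟨zero_mem M, ∅, fun g h ω hne => ?_⟩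
    exfalso
    apply hne
    rw [mul_zero, zero_mul, map_zero]
    exact 𝒮.val_zero ω
  · rintro x y - - ⟨hxM, S, hS⟩ ⟨hyM, T, hT⟩
    refine ⟨add_mem hxM hyM, S ∪ T, fun g h ω hne => ?_⟩
    have e1 : star (op g) * (x + y) * op h = star (op g) * x * op h + star (op g) * y * op h := by
      noncomm_ring
    rw [e1, map_add, 𝒮.add ω _ (hE.mem _ (mul_mem (mul_mem (star_op_mem g) hxM) (op_mem h))) _
      (hE.mem _ (mul_mem (mul_mem (star_op_mem g) hyM) (op_mem h)))] at hne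
    by_cases h0 : 𝒮.val ω (E (star (op g) * x * op h)) = 0
    · rw [h0, zero_add] at hne
      obtain ⟨s, hs, h⟩ := hT g h ω hne
      exact ⟨s, Finset.mem_union_right _ hs, h⟩
    · obtain ⟨s, hs, h⟩ := hS g h ω h0
      exact ⟨s, Finset.mem_union_left _ hs, h⟩
  · rintro c x - ⟨hxM, S, hS⟩
    refine ⟨M.toStarSubalgebra.smul_mem hxM c, S, fun g h ω hne => hS g h ω ?_⟩
    intro h0
    apply hne
    have e1 : star (op g) * (c • x) * op h = c • (star (op g) * x * op h) := by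
      rw [mul_smul_comm, smul_mul_assoc]
    rw [e1, map_smul, 𝒮.smul ω _ _ (hE.mem _ (mul_mem (mul_mem (star_op_mem g) hxM) (op_mem h))),
      h0, mul_zero]

/-- sesquilinear expansion -/
theorem val_E_sesq (hE : IsTrExp M A ξ E) (𝒮 : Spec M A X) (W : Finset X) (v : X → ℂ)
    (c : X → nrm M A) {T : H →L[ℂ] H} (hT : T ∈ M) (ω : X) :
    𝒮.val ω (E (star (∑ j ∈ W, v j • op (c j)) * T * (∑ j ∈ W, v j • op (c j)))) =
      ∑ i ∈ W, ∑ j ∈ W, star (v i) * 𝒮.val ω (E (star (op (c i)) * T * op (c j))) * v j := by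
  have hm : ∀ i j, star (op (c i)) * T * op (c j) ∈ M := fun i j =>
    mul_mem (mul_mem (star_op_mem _) hT) (op_mem _)
  have e1 : star (∑ j ∈ W, v j • op (c j)) * T * (∑ j ∈ W, v j • op (c j)) =
      ∑ i ∈ W, ∑ j ∈ W, (star (v i) * v j) • (star (op (c i)) * T * op (c j)) := by
    rw [star_sum, Finset.sum_mul, Finset.sum_mul]
    refine Finset.sum_congr rfl fun i _ => ?_
    rw [Finset.mul_sum]
    refine Finset.sum_congr rfl fun j _ => ?_
    rw [star_smul, smul_mul_assoc, smul_mul_assoc, mul_smul_comm, smul_smul]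
  rw [e1, map_sum, 𝒮.val_sum]
  · refine Finset.sum_congr rfl fun i _ => ?_
    rw [map_sum, 𝒮.val_sum]
    · refine Finset.sum_congr rfl fun j _ => ?_
      rw [map_smul, 𝒮.smul ω _ _ (hE.mem _ (hm i j))]
      ring
    · intro j _
      rw [map_smul]
      exact A.toStarSubalgebra.smul_mem (hE.mem _ (hm i j)) _
  · intro i _
    rw [map_sum]
    refine sum_mem fun j _ => ?_
    rw [map_smul]
    exact A.toStarSubalgebra.smul_mem (hE.mem _ (hm i j)) _

/-- the form bounds at one point -/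
theorem form_bound (hA : SO.IsMASA A M) (hξ : IsTrace M ξ) (hE : IsTrExp M A ξ E)
    (𝒮 : Spec M A X) {x : H →L[ℂ] H} (hx : x ∈ M) (W : Finset X) (v : X → ℂ)
    (c : X → nrm M A) (o : X) (hc : ∀ i ∈ W, c i • o = i) {a : ℝ}
    (ha : x ≤ (a : ℂ) • (1 : H →L[ℂ] H)) :
    (∑ i ∈ W, ∑ j ∈ W, star (v i) * 𝒮.val o (E (star (op (c i)) * x * op (c j))) * v j).re ≤
      a * ∑ i ∈ W, ‖v i‖ ^ 2 := by
  set Z : H →L[ℂ] H := ∑ j ∈ W, v j • op (c j) with hZ
  have hZM : Z ∈ M := sum_mem fun j _ => M.toStarSubalgebra.smul_mem (op_mem _) _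
  have h1 := val_E_sesq hE 𝒮 W v c hx o
  have h2 := val_E_sesq hE 𝒮 W v c (one_mem M) o
  rw [← hZ] at h1 h2
  have h3 : ∑ i ∈ W, ∑ j ∈ W, star (v i) * 𝒮.val o (E (star (op (c i)) * 1 * op (c j))) * v j =
      ((∑ i ∈ W, ‖v i‖ ^ 2 : ℝ) : ℂ) := by
    rw [Complex.ofReal_sum]
    refine Finset.sum_congr rfl fun i hi => ?_
    rw [Finset.sum_eq_single i]
    · rw [mul_one, star_op_mul, hE.idem 1 (one_mem A), 𝒮.one, mul_one, Complex.star_def, mul_comm,
        Complex.mul_conj, Complex.normSq_eq_norm_sq]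
    · intro j hj hij
      rw [mul_one, val_E_eq_zero hA hξ hE 𝒮 (c i) (c j), mul_zero, zero_mul]
      rw [hc i hi, hc j hj]
      exact fun h => hij h.symm
    · exact fun h => absurd hi h
  rw [h3] at h2
  have h4 : 0 ≤ star Z * ((a : ℂ) • (1 : H →L[ℂ] H) - x) * Z :=
    star_left_conjugate_nonneg (sub_nonneg.2 ha) Z
  have hMa : (a : ℂ) • (1 : H →L[ℂ] H) ∈ M := M.toStarSubalgebra.smul_mem (one_mem M) _
  have hM4 : star Z * ((a : ℂ) • (1 : H →L[ℂ] H) - x) * Z ∈ M :=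
    mul_mem (mul_mem (star_mem hZM) (sub_mem hMa hx)) hZM
  have h5 := (𝒮.nonneg _ (hE.mem _ hM4) (hE.nonneg _ hM4 h4) o).1
  have h6 : star Z * ((a : ℂ) • (1 : H →L[ℂ] H) - x) * Z =
      (a : ℂ) • (star Z * 1 * Z) - star Z * x * Z := by
    rw [mul_sub, sub_mul, mul_smul_comm, smul_mul_assoc]
  have hM1 : star Z * 1 * Z ∈ M := mul_mem (mul_mem (star_mem hZM) (one_mem M)) hZM
  have hM2 : star Z * x * Z ∈ M := mul_mem (mul_mem (star_mem hZM) hx) hZM
  rw [h6, map_sub, map_smul, 𝒮.val_sub o (A.toStarSubalgebra.smul_mem (hE.mem _ hM1) _)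
    (hE.mem _ hM2), 𝒮.smul o _ _ (hE.mem _ hM1), h2, h1, Complex.sub_re, ← Complex.ofReal_mul,
    Complex.ofReal_re] at h5
  linarith

section kernel

variable (𝒮 : Spec M A X) (E) (x : H →L[ℂ] H)

/-- base point of the orbit -/
noncomputable def bpt (M A : VonNeumannAlgebra H) {X : Type*} [MulAction (nrm M A) X] (v : X) : X :=
  (Quotient.mk (MulAction.orbitRel (nrm M A) X) v).out

omit [TopologicalSpace X] in
theorem bpt_smul (g : nrm M A) (v : X) : bpt M A (g • v) = bpt M A v := by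
  unfold bpt
  have : (Quotient.mk (MulAction.orbitRel (nrm M A) X) (g • v)) =
      Quotient.mk (MulAction.orbitRel (nrm M A) X) v :=
    Quotient.sound (MulAction.orbitRel_apply.2 ⟨g, rfl⟩)
  rw [this]

omit [TopologicalSpace X] in
theorem exists_bpt (v : X) : ∃ g : nrm M A, g • bpt M A v = v := by
  have h : (MulAction.orbitRel (nrm M A) X) (bpt M A v) v :=
    Quotient.exact (Quotient.out_eq (Quotient.mk (MulAction.orbitRel (nrm M A) X) v))
  have h2 := MulAction.orbitRel_apply.1 h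
  have h3 : v ∈ MulAction.orbit (nrm M A) (bpt M A v) := MulAction.mem_orbit_symm.1 h2
  exact h3

/-- the group element moving the base point to `v` -/
noncomputable def cgr (M A : VonNeumannAlgebra H) {X : Type*} [MulAction (nrm M A) X] (v : X) :
    nrm M A := (exists_bpt (M := M) (A := A) v).choose

omit [TopologicalSpace X] in
theorem cgr_spec (v : X) : cgr M A v • bpt M A v = v := (exists_bpt (M := M) (A := A) v).choose_spec

/-- the kernel -/
noncomputable def sker (v w : X) : ℂ :=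
  if bpt M A v = bpt M A w then 𝒮.val (bpt M A v) (E (star (op (cgr M A v)) * x * op (cgr M A w)))
  else 0

end kernel

theorem sker_herm (hE : IsTrExp M A ξ E) (𝒮 : Spec M A X) {x : H →L[ℂ] H} (hx : x ∈ M)
    (hsa : IsSelfAdjoint x) : Herm (sker E 𝒮 x) := by
  intro i j
  unfold sker
  by_cases h : bpt M A i = bpt M A j
  · rw [if_pos h, if_pos h.symm, h]
    have hm : star (op (cgr M A i)) * x * op (cgr M A j) ∈ M :=
      mul_mem (mul_mem (star_op_mem _) hx) (op_mem _)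
    rw [← 𝒮.star _ _ (hE.mem _ hm), ← hE.star _ hm, star_mul, star_mul, star_star, hsa.star_eq,
      mul_assoc]
  · rw [if_neg h, if_neg (fun h' => h h'.symm), star_zero]

theorem sker_zd (hA : SO.IsMASA A M) (hξ : IsTrace M ξ) (hE : IsTrExp M A ξ E) (𝒮 : Spec M A X)
    {x : H →L[ℂ] H} (hx : x ∈ M) (hx0 : E x = 0) : ZD (sker E 𝒮 x) := by
  intro i
  unfold sker
  rw [if_pos rfl, E_conj hA hξ hE _ hx, hx0, mul_zero, zero_mul, 𝒮.val_zero]

theorem sker_upper (hA : SO.IsMASA A M) (hξ : IsTrace M ξ) (hE : IsTrExp M A ξ E)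
    (𝒮 : Spec M A X) {x : H →L[ℂ] H} (hx : x ∈ M) {a : ℝ}
    (ha : x ≤ (a : ℂ) • (1 : H →L[ℂ] H)) (W : Finset X) (v : X → ℂ) :
    qf (sker E 𝒮 x) W v ≤ a * ∑ i ∈ W, ‖v i‖ ^ 2 := by
  unfold qf
  set O := W.image (bpt M A) with hO
  have hmaps : ∀ i ∈ W, bpt M A i ∈ O := fun i hi => Finset.mem_image_of_mem _ hi
  have e1 : ∑ i ∈ W, ∑ j ∈ W, star (v i) * sker E 𝒮 x i j * v j =
      ∑ o ∈ O, ∑ i ∈ W.filter (fun i => bpt M A i = o), ∑ j ∈ W.filter (fun i => bpt M A i = o),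
        star (v i) * 𝒮.val o (E (star (op (cgr M A i)) * x * op (cgr M A j))) * v j := by
    rw [← Finset.sum_fiberwise_of_maps_to hmaps]
    refine Finset.sum_congr rfl fun o _ => ?_
    refine Finset.sum_congr rfl fun i hi => ?_
    have hio : bpt M A i = o := (Finset.mem_filter.1 hi).2
    rw [Finset.sum_filter]
    refine Finset.sum_congr rfl fun j _ => ?_
    unfold sker
    rw [hio]
    by_cases h : o = bpt M A j
    · rw [if_pos h, if_pos h.symm]
    · rw [if_neg h, if_neg (fun h' => h h'.symm), mul_zero, zero_mul]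
  have e2 : ∑ i ∈ W, ‖v i‖ ^ 2 = ∑ o ∈ O, ∑ i ∈ W.filter (fun i => bpt M A i = o), ‖v i‖ ^ 2 :=
    (Finset.sum_fiberwise_of_maps_to hmaps _).symm
  rw [e1, e2, Complex.re_sum, Finset.mul_sum]
  refine Finset.sum_le_sum fun o _ => ?_
  refine form_bound hA hξ hE 𝒮 hx _ v (cgr M A) o (fun i hi => ?_) ha
  rw [← (Finset.mem_filter.1 hi).2]
  exact cgr_spec i

theorem sker_neg (hE : IsTrExp M A ξ E) (𝒮 : Spec M A X) {x : H →L[ℂ] H} (hx : x ∈ M) (v w : X) :
    sker E 𝒮 (-x) v w = - sker E 𝒮 x v w := by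
  unfold sker
  split_ifs
  · have e1 : star (op (cgr M A v)) * (-x) * op (cgr M A w) =
      -(star (op (cgr M A v)) * x * op (cgr M A w)) := by noncomm_ring
    rw [e1, map_neg, 𝒮.val_neg _ (hE.mem _ (mul_mem (mul_mem (star_op_mem _) hx) (op_mem _)))]
  · simp

theorem sker_FB (hA : SO.IsMASA A M) (hξ : IsTrace M ξ) (hE : IsTrExp M A ξ E)
    (𝒮 : Spec M A X) {x : H →L[ℂ] H} (hx : x ∈ M) {a b : ℝ}
    (ha : x ≤ (a : ℂ) • (1 : H →L[ℂ] H)) (hb : -((b : ℂ) • (1 : H →L[ℂ] H)) ≤ x) :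
    FB a b (sker E 𝒮 x) := by
  intro W v
  refine ⟨?_, sker_upper hA hξ hE 𝒮 hx ha W v⟩
  have h1 := sker_upper hA hξ hE 𝒮 (neg_mem hx) (a := b) (neg_le.1 hb) W v
  have h2 : qf (sker E 𝒮 (-x)) W v = - qf (sker E 𝒮 x) W v := by
    unfold qf
    rw [← Complex.neg_re, ← Finset.sum_neg_distrib]
    congr 1
    refine Finset.sum_congr rfl fun i _ => ?_
    rw [← Finset.sum_neg_distrib]
    refine Finset.sum_congr rfl fun j _ => ?_
    rw [sker_neg hE 𝒮 hx]
    ring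
  rw [h2] at h1
  linarith

theorem sker_gauge (hA : SO.IsMASA A M) (hξ : IsTrace M ξ) (hE : IsTrExp M A ξ E)
    (𝒮 : Spec M A X) {x : H →L[ℂ] H} (hx : x ∈ M) (hsa : IsSelfAdjoint x) (z : X) :
    ∃ u : nrm M A → ℂ, (∀ g, ‖u g‖ = 1) ∧ ∀ g h, sker E 𝒮 x (g • z) (h • z) =
      star (u g) * 𝒮.val z (E (star (op g) * x * op h)) * u h := by
  set o := bpt M A z with ho
  set φ : nrm M A → ℂ := fun g => 𝒮.val o (E (star (op (cgr M A (g • z))) * op (g * cgr M A z)))
    with hφ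
  have hpt : ∀ g : nrm M A, cgr M A (g • z) • o = (g * cgr M A z) • o := by
    intro g
    have h1 : cgr M A (g • z) • bpt M A (g • z) = g • z := cgr_spec _
    rw [bpt_smul] at h1
    rw [ho, h1, mul_smul, cgr_spec]
  refine ⟨fun g => star (φ g), fun g => ?_, fun g h => ?_⟩
  · rw [norm_star]
    exact norm_val_E hA hξ hE 𝒮 _ _ (hpt g)
  · have h0 : bpt M A (g • z) = bpt M A (h • z) := by rw [bpt_smul, bpt_smul]
    unfold sker
    rw [if_pos h0, bpt_smul, ← ho]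
    -- value at z
    have hm : star (op g) * x * op h ∈ M := mul_mem (mul_mem (star_op_mem _) hx) (op_mem _)
    have e1 : 𝒮.val z (E (star (op g) * x * op h)) =
        𝒮.val o (E (star (op (g * cgr M A z)) * (x * op (h * cgr M A z)))) := by
      have e2 : z = cgr M A z • o := (cgr_spec z).symm
      conv_lhs => rw [e2]
      rw [𝒮.act _ _ _ (hE.mem _ hm)]
      change 𝒮.val o (star (op (cgr M A z)) * E (star (op g) * x * op h) * op (cgr M A z)) = _
      rw [← E_conj hA hξ hE _ hm, op_mul, op_mul, star_mul]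
      congr 2
    -- phases
    have p1 := val_E_phase hA hξ hE 𝒮 (cgr M A (g • z)) (g * cgr M A z) (hpt g)
      (x := x * op (cgr M A (h • z))) (mul_mem hx (op_mem _))
    have p2 := val_E_phase hA hξ hE 𝒮 (cgr M A (h • z)) (h * cgr M A z) (hpt h)
      (x := x * op (g * cgr M A z)) (mul_mem hx (op_mem _))
    have hst : ∀ s t : nrm M A, 𝒮.val o (E (star (op s) * (x * op t))) =
        star (𝒮.val o (E (star (op t) * (x * op s)))) := by
      intro s t
      have hm : star (op t) * (x * op s) ∈ M :=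
        mul_mem (star_op_mem _) (mul_mem hx (op_mem _))
      rw [← 𝒮.star _ _ (hE.mem _ hm), ← hE.star _ hm, star_mul, star_mul, star_star, hsa.star_eq,
        mul_assoc]
    rw [mul_assoc (star (op (cgr M A (g • z)))) x, p1, hst (g * cgr M A z), p2, star_mul, ← hst, e1]
    simp only [star_star]
    ring

theorem sker_range (hA : SO.IsMASA A M) (hξ : IsTrace M ξ) (hE : IsTrExp M A ξ E)
    (𝒮 : Spec M A X) {x : H →L[ℂ] H} {S : Finset (nrm M A)}
    (hS : ∀ g h : nrm M A, ∀ ω : X,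
      𝒮.val ω (E (star (op g) * x * op h)) ≠ 0 → ∃ s ∈ S, g • ω = (s * h) • ω) (v w : X)
    (h : sker E 𝒮 x v w ≠ 0) : ∃ g ∈ S, v = g • w := by
  unfold sker at h
  split_ifs at h with h1
  · obtain ⟨s, hs, h2⟩ := hS _ _ _ h
    refine ⟨s, hs, ?_⟩
    rw [cgr_spec, mul_smul, h1, cgr_spec] at h2
    exact h2
  · exact absurd rfl h

/-- the mean given by the trace -/
theorem exists_mean (hA : SO.IsMASA A M) (hξ : IsTrace M ξ) (𝒮 : Spec M A X) :
    ∃ I : C(X, ℝ) →ₗ[ℝ] ℝ, ∀ (f : C(X, ℝ)), ∀ d ∈ A, (∀ ω, 𝒮.val ω d = f ω) →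
      I f = (vtr ξ d).re := by
  have hinj : ∀ a ∈ A, ∀ b ∈ A, (∀ ω, 𝒮.val ω a = 𝒮.val ω b) → a = b := by
    intro a ha b hb h
    rw [← sub_eq_zero]
    refine 𝒮.inj _ (sub_mem ha hb) fun ω => ?_
    rw [𝒮.val_sub ω ha hb, h ω, sub_self]
  have hex : ∀ f : C(X, ℝ), ∃ d ∈ A, ∀ ω, 𝒮.val ω d = (f ω : ℂ) := fun f => by
    obtain ⟨d, hd, h⟩ := 𝒮.surj ⟨fun ω => (f ω : ℂ), by fun_prop⟩
    exact ⟨d, hd, h⟩
  choose d hd hval using hex
  refine ⟨{ toFun := fun f => (vtr ξ (d f)).re, map_add' := fun f g => ?_,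
            map_smul' := fun c f => ?_ }, fun f e he h => ?_⟩
  · have : d (f + g) = d f + d g := by
      refine hinj _ (hd _) _ (add_mem (hd _) (hd _)) fun ω => ?_
      rw [𝒮.add ω _ (hd f) _ (hd g), hval, hval, hval]
      simp
    rw [this, vtr_add hξ, Complex.add_re]
  · have : d (c • f) = (c : ℂ) • d f := by
      refine hinj _ (hd _) _ (A.toStarSubalgebra.smul_mem (hd _) _) fun ω => ?_
      rw [𝒮.smul ω _ _ (hd f), hval, hval]
      simp
    rw [this, vtr_smul hξ, Complex.re_ofReal_mul]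
    rfl
  · change (vtr ξ (d f)).re = _
    rw [hinj _ (hd f) e he fun ω => by rw [hval, h]]

/-- the system attached to `x`: the invariant mean is the trace, the kernel is `E (g* x h)` -/
theorem exists_sys (hA : SO.IsMASA A M) (hξ : IsTrace M ξ) (hE : IsTrExp M A ξ E)
    (𝒮 : Spec M A X) {x : H →L[ℂ] H} (hx : x ∈ nspan M A) (hsa : IsSelfAdjoint x)
    (hx0 : E x = 0) {a b : ℝ} (ha : x ≤ (a : ℂ) • (1 : H →L[ℂ] H))
    (hb : -((b : ℂ) • (1 : H →L[ℂ] H)) ≤ x) :
    ∃ 𝔖 : Sys X (nrm M A), 𝔖.a = a ∧ 𝔖.b = b ∧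
      (∀ g h ω, 𝔖.k g h ω = 𝒮.val ω (E (star (op g) * x * op h))) ∧
      (∀ (f : C(X, ℝ)), ∀ d ∈ A, (∀ ω, 𝒮.val ω d = f ω) → 𝔖.I f = (vtr ξ d).re) := by
  obtain ⟨hxM, S, hS⟩ := span_range hA hξ hE 𝒮 hx
  obtain ⟨I, hI⟩ := exists_mean hA hξ 𝒮
  have hex : ∀ f : C(X, ℝ), ∃ d ∈ A, ∀ ω, 𝒮.val ω d = (f ω : ℂ) := fun f => by
    obtain ⟨d, hd, h⟩ := 𝒮.surj ⟨fun ω => (f ω : ℂ), by fun_prop⟩
    exact ⟨d, hd, h⟩
  refine ⟨{
    cont := 𝒮.contAct
    fixc := fix_clopen hA hξ hE 𝒮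
    I := I
    I_nonneg := fun f hf => ?_
    I_one := ?_
    I_inv := fun g f f' h => ?_
    S := insert 1 (S ∪ S.image fun g => g⁻¹)
    one_mem := Finset.mem_insert_self _ _
    inv_mem := fun g hg => ?_
    y := sker E 𝒮 x
    herm := sker_herm hE 𝒮 hxM hsa
    zd := sker_zd hA hξ hE 𝒮 hxM hx0
    range := fun v w h => ?_
    a := a
    b := b
    bound := sker_FB hA hξ hE 𝒮 hxM ha hb
    k := fun g h ω => 𝒮.val ω (E (star (op g) * x * op h))
    k_cont := fun g h => 𝒮.cont _ (hE.mem _ (mul_mem (mul_mem (star_op_mem _) hxM) (op_mem _)))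
    gauge := sker_gauge hA hξ hE 𝒮 hxM hsa }, rfl, rfl, fun _ _ _ => rfl, hI⟩
  · obtain ⟨d, hd, hval⟩ := hex f
    rw [hI f d hd hval]
    refine (vtr_nonneg hξ (𝒮.nonneg' d hd fun ω => ?_)).1
    rw [hval]
    exact ⟨by simpa using hf ω, by simp⟩
  · rw [hI 1 1 (one_mem A) fun ω => by simp [𝒮.one], vtr_one hξ, Complex.one_re]
  · obtain ⟨d, hd, hval⟩ := hex f
    rw [hI f d hd hval, hI f' (star (op g) * d * op g) (conj_mem' g hd) fun ω => ?_,
      vtr_conj hξ g (hA.1 d hd)]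
    rw [← 𝒮.act g ω d hd, hval, h]
  · rcases Finset.mem_insert.1 hg with rfl | hg
    · rw [inv_one]; exact Finset.mem_insert_self _ _
    · refine Finset.mem_insert_of_mem ?_
      rcases Finset.mem_union.1 hg with hg | hg
      · exact Finset.mem_union_right _ (Finset.mem_image_of_mem _ hg)
      · obtain ⟨s, hs, rfl⟩ := Finset.mem_image.1 hg
        rw [inv_inv]
        exact Finset.mem_union_left _ hs
  · obtain ⟨g, hg, h⟩ := sker_range hA hξ hE 𝒮 hS v w h
    exact ⟨g, Finset.mem_insert_of_mem (Finset.mem_union_left _ hg), h⟩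

end Vale.Agent.P078.C
end

end

section
section

/-! T6e: the moment identity. -/

set_option linter.unusedSectionVars false
set_option linter.unusedVariables false

namespace Vale.Agent.P078.C

open Vale.Agent.P078.SO Polynomial
open scoped Classical

variable {H : Type*} [NormedAddCommGroup H] [InnerProductSpace ℂ H] [CompleteSpace H]
variable {M A : VonNeumannAlgebra H} {ξ : ℕ → H} {E : (H →L[ℂ] H) →ₗ[ℂ] (H →L[ℂ] H)}
variable {X : Type*} [TopologicalSpace X] [MulAction (nrm M A) X]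

/-- the kernel of the operator `z` at `ω` -/
noncomputable def KK (𝒮 : Spec M A X) (E : (H →L[ℂ] H) →ₗ[ℂ] (H →L[ℂ] H)) (z : H →L[ℂ] H)
    (g h : nrm M A) (ω : X) : ℂ :=
  𝒮.val ω (E (star (op g) * z * op h))

theorem mom_star_op_mem (g : nrm M A) : star (op g) ∈ M := star_mem (op_mem g)

theorem KK_add (hE : IsTrExp M A ξ E) (𝒮 : Spec M A X) {z w : H →L[ℂ] H} (hz : z ∈ M)
    (hw : w ∈ M) (g h : nrm M A) (ω : X) :
    KK 𝒮 E (z + w) g h ω = KK 𝒮 E z g h ω + KK 𝒮 E w g h ω := by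
  unfold KK
  rw [mul_add, add_mul, map_add, 𝒮.add]
  · exact hE.mem _ (mul_mem (mul_mem (mom_star_op_mem g) hz) (op_mem h))
  · exact hE.mem _ (mul_mem (mul_mem (mom_star_op_mem g) hw) (op_mem h))

theorem KK_smul (hE : IsTrExp M A ξ E) (𝒮 : Spec M A X) {z : H →L[ℂ] H} (hz : z ∈ M) (a : ℂ)
    (g h : nrm M A) (ω : X) :
    KK 𝒮 E (a • z) g h ω = a * KK 𝒮 E z g h ω := by
  unfold KK
  rw [mul_smul_comm, smul_mul_assoc, map_smul, 𝒮.smul]
  exact hE.mem _ (mul_mem (mul_mem (mom_star_op_mem g) hz) (op_mem h))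

theorem val_zero' (𝒮 : Spec M A X) (ω : X) : 𝒮.val ω 0 = 0 := by
  have h := 𝒮.smul ω 0 0 (zero_mem A)
  rwa [zero_smul, zero_mul] at h

theorem KK_zero (hE : IsTrExp M A ξ E) (𝒮 : Spec M A X) (g h : nrm M A) (ω : X) :
    KK 𝒮 E 0 g h ω = 0 := by
  unfold KK
  rw [mul_zero, zero_mul, map_zero, val_zero']

theorem KK_sum (hE : IsTrExp M A ξ E) (𝒮 : Spec M A X) {ι : Type*} (s : Finset ι)
    {z : ι → (H →L[ℂ] H)} (hz : ∀ i ∈ s, z i ∈ M) (g h : nrm M A) (ω : X) :
    KK 𝒮 E (∑ i ∈ s, z i) g h ω = ∑ i ∈ s, KK 𝒮 E (z i) g h ω := by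
  induction s using Finset.induction_on with
  | empty => simp [KK_zero hE]
  | insert a s ha ih =>
    rw [Finset.sum_insert ha, Finset.sum_insert ha, KK_add hE 𝒮 (hz a (Finset.mem_insert_self _ _))
      (sum_mem fun i hi => hz i (Finset.mem_insert_of_mem hi)),
      ih fun i hi => hz i (Finset.mem_insert_of_mem hi)]

theorem KK_left (hA : SO.IsMASA A M) (hE : IsTrExp M A ξ E) (𝒮 : Spec M A X)
    {a z : H →L[ℂ] H} (ha : a ∈ A) (hz : z ∈ M)
    (g h : nrm M A) (ω : X) :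
    KK 𝒮 E (a * z) g h ω = 𝒮.val (g • ω) a * KK 𝒮 E z g h ω := by
  unfold KK
  have hb : star (op g) * a * op g ∈ A := g.2.2.2 a ha
  have h1 : star (op g) * (a * z) * op h =
      (star (op g) * a * op g) * (star (op g) * z * op h) * 1 := by
    have h2 := op_mul_star g
    calc star (op g) * (a * z) * op h =
        star (op g) * a * (op g * star (op g)) * z * op h := by
          rw [h2, mul_one]; simp only [mul_assoc]
      _ = _ := by rw [mul_one]; simp only [mul_assoc]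
  have hm : star (op g) * z * op h ∈ M := mul_mem (mul_mem (mom_star_op_mem g) hz) (op_mem h)
  rw [h1, hE.bimod _ hb 1 (one_mem A) _ hm, mul_one, 𝒮.mul _ _ hb _ (hE.mem _ hm), 𝒮.act g ω a ha]

theorem KK_mul (hA : SO.IsMASA A M) (hξ : IsTrace M ξ) (hE : IsTrExp M A ξ E)
    (𝒮 : Spec M A X) {z : H →L[ℂ] H} (hz : z ∈ M) (W : Finset X) (γ : X → nrm M A) (ω : X)
    (hγ : ∀ u ∈ W, γ u • ω = u) (g h : nrm M A)
    (hsupp : ∀ γ' : nrm M A, γ' • ω ∉ W → KK 𝒮 E z γ' h ω = 0)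
    {x : H →L[ℂ] H} (hx : x ∈ nspan M A) :
    KK 𝒮 E (x * z) g h ω = ∑ u ∈ W, KK 𝒮 E x g (γ u) ω * KK 𝒮 E z (γ u) h ω := by
  have hspanM : ∀ w ∈ nspan M A, w ∈ M := by
    intro w hw
    unfold nspan at hw
    induction hw using Submodule.span_induction with
    | mem w hw =>
      obtain ⟨u, rfl⟩ := hw
      exact op_mem u
    | zero => exact zero_mem M
    | add v w _ _ hv hw => exact add_mem hv hw
    | smul c v _ hv => exact M.toStarSubalgebra.smul_mem hv c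
  have hx' := hx
  unfold nspan at hx
  induction hx using Submodule.span_induction with
  | mem x hx =>
    obtain ⟨u₀, rfl⟩ := hx
    change KK 𝒮 E (op u₀ * z) g h ω = ∑ u ∈ W, KK 𝒮 E (op u₀) g (γ u) ω * KK 𝒮 E z (γ u) h ω
    have hg' : star (op (u₀⁻¹ * g)) = star (op g) * op u₀ := by
      rw [op_mul, op_inv, star_mul, star_star]
    have h1 : KK 𝒮 E (op u₀ * z) g h ω =
        𝒮.val ω (E (star (op (u₀⁻¹ * g)) * (z * op h))) := by
      unfold KK
      rw [hg']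
      simp only [mul_assoc]
    have h2 : ∀ u, KK 𝒮 E (op u₀) g (γ u) ω =
        𝒮.val ω (E (star (op (u₀⁻¹ * g)) * op (γ u))) := by
      intro u
      unfold KK
      rw [hg']
    by_cases hv : (u₀⁻¹ * g) • ω ∈ W
    · rw [Finset.sum_eq_single_of_mem _ hv]
      · rw [h1, h2, val_E_phase hA hξ hE 𝒮 (u₀⁻¹ * g) (γ ((u₀⁻¹ * g) • ω)) (hγ _ hv).symm
          (mul_mem hz (op_mem h))]
        unfold KK
        simp only [mul_assoc]
      · intro u hu hne
        rw [h2, val_E_eq_zero hA hξ hE 𝒮 (u₀⁻¹ * g) (γ u) (by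
          rw [hγ u hu]
          exact Ne.symm hne), zero_mul]
    · rw [Finset.sum_eq_zero]
      · rw [h1]
        have := hsupp _ hv
        unfold KK at this
        simpa only [mul_assoc] using this
      · intro u hu
        rw [h2, val_E_eq_zero hA hξ hE 𝒮 (u₀⁻¹ * g) (γ u) (by
          rw [hγ u hu]
          rintro rfl
          exact hv hu), zero_mul]
  | zero =>
    rw [zero_mul, KK_zero hE]
    simp only [KK_zero hE, zero_mul, Finset.sum_const_zero]
  | add v w hv hw ihv ihw =>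
    have hv' : v ∈ M := hspanM v hv
    have hw' : w ∈ M := hspanM w hw
    rw [add_mul, KK_add hE 𝒮 (mul_mem hv' hz) (mul_mem hw' hz), ihv hv, ihw hw,
      ← Finset.sum_add_distrib]
    refine Finset.sum_congr rfl fun u _ => ?_
    rw [KK_add hE 𝒮 hv' hw', add_mul]
  | smul c v hv ihv =>
    have hv' : v ∈ M := hspanM v hv
    rw [smul_mul_assoc, KK_smul hE 𝒮 (mul_mem hv' hz), ihv hv, Finset.mul_sum]
    refine Finset.sum_congr rfl fun u _ => ?_
    rw [KK_smul hE 𝒮 hv', mul_assoc]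

theorem nspan_le_M {w : H →L[ℂ] H} (hw : w ∈ nspan M A) : w ∈ M := by
  unfold nspan at hw
  induction hw using Submodule.span_induction with
  | mem w hw =>
    obtain ⟨u, rfl⟩ := hw
    exact op_mem u
  | zero => exact zero_mem M
  | add v w _ _ hv hw => exact add_mem hv hw
  | smul c v _ hv => exact M.toStarSubalgebra.smul_mem hv c

/-- multiplication by the pinched element -/
theorem KK_pinch (hA : SO.IsMASA A M) (hξ : IsTrace M ξ) (hE : IsTrExp M A ξ E)
    (𝒮 : Spec M A X) {z : H →L[ℂ] H} (hz : z ∈ M) (W : Finset X) (γ : X → nrm M A) (ω : X)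
    (hγ : ∀ u ∈ W, γ u • ω = u) (g h : nrm M A)
    (hsupp : ∀ γ' : nrm M A, γ' • ω ∉ W → KK 𝒮 E z γ' h ω = 0)
    {x : H →L[ℂ] H} (hx : x ∈ nspan M A) {r : ℕ} (c : X → Fin r) (P : Fin r → (H →L[ℂ] H))
    (hP : IsPart A P) (hPc : ∀ i ω, 𝒮.val ω (P i) = if c ω = i then 1 else 0) :
    KK 𝒮 E (pinch P x * z) g h ω =
      ∑ u ∈ W, (if c (g • ω) = c u then KK 𝒮 E x g (γ u) ω else 0) * KK 𝒮 E z (γ u) h ω := by
  have hPM : ∀ i, P i ∈ M := fun i => hA.1 _ (hP.1 i).1
  have hxM : x ∈ M := nspan_le_M hx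
  have h1 : pinch P x * z = ∑ i, P i * (x * (P i * z)) := by
    unfold pinch
    rw [Finset.sum_mul]
    refine Finset.sum_congr rfl fun i _ => ?_
    simp only [mul_assoc]
  rw [h1, KK_sum hE 𝒮 _ fun i _ => mul_mem (hPM i) (mul_mem hxM (mul_mem (hPM i) hz))]
  have h2 : ∀ i, KK 𝒮 E (P i * (x * (P i * z))) g h ω =
      ∑ u ∈ W, (if c (g • ω) = i then 1 else 0) *
        (KK 𝒮 E x g (γ u) ω * ((if c u = i then 1 else 0) * KK 𝒮 E z (γ u) h ω)) := by
    intro i
    rw [KK_left hA hE 𝒮 (hP.1 i).1 (mul_mem hxM (mul_mem (hPM i) hz)), hPc,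
      KK_mul hA hξ hE 𝒮 (mul_mem (hPM i) hz) W γ ω hγ g h ?_ hx, Finset.mul_sum]
    · refine Finset.sum_congr rfl fun u hu => ?_
      rw [KK_left hA hE 𝒮 (hP.1 i).1 hz, hPc, hγ u hu]
    · intro γ' hγ'
      rw [KK_left hA hE 𝒮 (hP.1 i).1 hz, hsupp γ' hγ', mul_zero]
  rw [Finset.sum_congr rfl fun i _ => h2 i, Finset.sum_comm]
  refine Finset.sum_congr rfl fun u hu => ?_
  rw [Finset.sum_eq_single_of_mem (c (g • ω)) (Finset.mem_univ _)]
  · rw [if_pos rfl, one_mul]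
    by_cases h : c (g • ω) = c u
    · rw [if_pos h, if_pos h.symm, one_mul]
    · simp only [if_neg h, if_neg (Ne.symm h), zero_mul, mul_zero]
  · intro i _ hi
    rw [if_neg (Ne.symm hi), zero_mul]

theorem pinch_mem (hA : SO.IsMASA A M) {r : ℕ} {P : Fin r → (H →L[ℂ] H)} (hP : IsPart A P)
    {x : H →L[ℂ] H} (hx : x ∈ M) : pinch P x ∈ M := by
  unfold pinch
  exact sum_mem fun i _ => mul_mem (mul_mem (hA.1 _ (hP.1 i).1) hx) (hA.1 _ (hP.1 i).1)

theorem pinch_sa {r : ℕ} {P : Fin r → (H →L[ℂ] H)} (hP : IsPart A P)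
    {x : H →L[ℂ] H} (hx : IsSelfAdjoint x) : IsSelfAdjoint (pinch P x) := by
  unfold pinch IsSelfAdjoint
  rw [star_sum]
  refine Finset.sum_congr rfl fun i _ => ?_
  rw [star_mul, star_mul, (hP.1 i).2.isSelfAdjoint.star_eq, hx.star_eq, mul_assoc]

/-- the powers of the pinched element are given by the powers of the local kernel -/
theorem pow_local (hA : SO.IsMASA A M) (hξ : IsTrace M ξ) (hE : IsTrExp M A ξ E)
    (𝒮 : Spec M A X) {x : H →L[ℂ] H} (hx : x ∈ nspan M A)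
    (𝔖 : Sys X (nrm M A))
    (hk : ∀ g h ω, 𝔖.k g h ω = 𝒮.val ω (E (star (op g) * x * op h)))
    {r : ℕ} (c : X → Fin r) (P : Fin r → (H →L[ℂ] H)) (hP : IsPart A P)
    (hPc : ∀ i ω, 𝒮.val ω (P i) = if c ω = i then 1 else 0) (N : ℕ) (ω : X) :
    ∀ n ≤ N, pw (yc 𝔖.y c) (𝔖.ball N ω) n ω ω = 𝒮.val ω (E (pinch P x ^ n)) := by
  have hxM : x ∈ M := nspan_le_M hx
  have htM : pinch P x ∈ M := pinch_mem hA hP hxM
  obtain ⟨u, hu1, hu⟩ := 𝔖.gauge ω
  have hu0 : ∀ g, u g ≠ 0 := by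
    intro g h0
    have := hu1 g
    rw [h0, norm_zero] at this
    exact zero_ne_one this
  have huu : ∀ g, u g * star (u g) = 1 := by
    intro g
    rw [Complex.star_def, Complex.mul_conj, Complex.normSq_eq_norm_sq, hu1]
    simp
  -- a section of the orbit map
  obtain ⟨γ, hγ1, hγ⟩ : ∃ γ : X → nrm M A, γ ω = 1 ∧ ∀ v, (∃ g : nrm M A, g • ω = v) →
      γ v • ω = v := by
    refine ⟨fun v => if v = ω then 1 else if h : ∃ g : nrm M A, g • ω = v then h.choose else 1,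
      if_pos rfl, fun v hv => ?_⟩
    by_cases h : v = ω
    · simp only [h, if_true, one_smul]
    · simp only [if_neg h, dif_pos hv]
      exact hv.choose_spec
  have hball : ∀ n, ∀ v ∈ 𝔖.ball n ω, γ v • ω = v := by
    intro n v hv
    obtain ⟨g, -, hg⟩ := Sys.mem_ball.1 hv
    exact hγ v ⟨g, hg.symm⟩
  -- support of the powers
  have hsupp : ∀ n, ∀ γ' : nrm M A, γ' • ω ∉ 𝔖.ball n ω →
      KK 𝒮 E (pinch P x ^ n) γ' 1 ω = 0 := by
    intro n
    induction n with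
    | zero =>
      intro γ' hγ'
      unfold KK
      rw [pow_zero, mul_one]
      refine val_E_eq_zero hA hξ hE 𝒮 γ' 1 ?_
      intro h
      apply hγ'
      rw [h, one_smul]
      exact Sys.mem_ball_self 𝔖 0 ω
    | succ n ih =>
      intro γ' hγ'
      rw [pow_succ', KK_pinch hA hξ hE 𝒮 (pow_mem htM n) (𝔖.ball n ω) γ ω (hball n) γ' 1 ih hx c P
        hP hPc]
      refine Finset.sum_eq_zero fun v hv => ?_
      have h1 : KK 𝒮 E x γ' (γ v) ω = 0 := by
        by_contra hne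
        apply hγ'
        have h2 : 𝔖.y (γ' • ω) v ≠ 0 := by
          rw [← hball n v hv, hu, hk]
          exact mul_ne_zero (mul_ne_zero (star_ne_zero.2 (hu0 _)) hne) (hu0 _)
        exact Sys.ball_trans hv (Sys.ball_of_edge h2)
      rw [h1]
      simp
  -- comparison
  have hmain : ∀ n ≤ N, ∀ v ∈ 𝔖.ball N ω, pw (yc 𝔖.y c) (𝔖.ball N ω) n v ω =
      star (u (γ v)) * KK 𝒮 E (pinch P x ^ n) (γ v) 1 ω * u 1 := by
    intro n
    induction n with
    | zero =>
      intro _ v hv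
      change (if v = ω then (1 : ℂ) else 0) = _
      by_cases h : v = ω
      · subst h
        rw [if_pos rfl, hγ1]
        unfold KK
        rw [pow_zero, op_one, star_one, mul_one, mul_one, hE.idem 1 (one_mem A), 𝒮.one, mul_one,
          mul_comm, huu]
      · rw [if_neg h]
        have h1 : KK 𝒮 E (pinch P x ^ 0) (γ v) 1 ω = 0 := by
          unfold KK
          rw [pow_zero, mul_one]
          refine val_E_eq_zero hA hξ hE 𝒮 (γ v) 1 ?_
          rw [hball N v hv, one_smul]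
          exact h
        rw [h1, mul_zero, zero_mul]
    | succ n ih =>
      intro hn v hv
      have hsuppN : ∀ γ' : nrm M A, γ' • ω ∉ 𝔖.ball N ω →
          KK 𝒮 E (pinch P x ^ n) γ' 1 ω = 0 := by
        intro γ' hγ'
        refine hsupp n γ' fun h => hγ' (Sys.ball_mono (by (clear * - hn; omega)) ω h)
      rw [pw, pow_succ', KK_pinch hA hξ hE 𝒮 (pow_mem htM n) (𝔖.ball N ω) γ ω (hball N) (γ v) 1
        hsuppN hx c P hP hPc, Finset.mul_sum, Finset.sum_mul]
      refine Finset.sum_congr rfl fun w hw => ?_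
      rw [ih (by (clear * - hn; omega)) w hw, hball N v hv]
      have h1 : yc 𝔖.y c v w = star (u (γ v)) *
          (if c v = c w then KK 𝒮 E x (γ v) (γ w) ω else 0) * u (γ w) := by
        unfold yc
        split_ifs
        · have h2 := hu (γ v) (γ w)
          rw [hball N v hv, hball N w hw, hk] at h2
          exact h2
        · simp
      rw [h1]
      have h3 := huu (γ w)
      linear_combination (star (u (γ v)) *
          (if c v = c w then KK 𝒮 E x (γ v) (γ w) ω else 0) *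
          KK 𝒮 E (pinch P x ^ n) (γ w) 1 ω * u 1) * h3
  intro n hn
  have h1 := hmain n hn ω (Sys.mem_ball_self 𝔖 N ω)
  rw [h1, hγ1]
  unfold KK
  rw [op_one, star_one, one_mul, mul_one]
  have h2 := huu 1
  linear_combination (𝒮.val ω (E (pinch P x ^ n))) * h2

/-- the moments of the pinched element are given by the local moments -/
theorem moment (hA : SO.IsMASA A M) (hξ : IsTrace M ξ) (hE : IsTrExp M A ξ E)
    (𝒮 : Spec M A X) {x : H →L[ℂ] H} (hx : x ∈ nspan M A) (hsa : IsSelfAdjoint x)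
    (𝔖 : Sys X (nrm M A))
    (hk : ∀ g h ω, 𝔖.k g h ω = 𝒮.val ω (E (star (op g) * x * op h)))
    (hI : ∀ (f : C(X, ℝ)), ∀ d ∈ A, (∀ ω, 𝒮.val ω d = f ω) → 𝔖.I f = (vtr ξ d).re)
    {r : ℕ} (c : X → Fin r) (P : Fin r → (H →L[ℂ] H)) (hP : IsPart A P)
    (hPc : ∀ i ω, 𝒮.val ω (P i) = if c ω = i then 1 else 0)
    (p : ℝ[X]) (m : C(X, ℝ))
    (hm : ∀ ω, m ω = locmom p 𝔖.y c (𝔖.ball p.natDegree ω) ω) :
    𝔖.I m = (vtr ξ (pev p (pinch P x))).re := by
  have hxM : x ∈ M := nspan_le_M hx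
  have htM : pinch P x ∈ M := pinch_mem hA hP hxM
  have htsa : IsSelfAdjoint (pinch P x) := pinch_sa hP hsa
  have hpev : pev p (pinch P x) =
      ∑ n ∈ Finset.range (p.natDegree + 1), (p.coeff n : ℂ) • pinch P x ^ n := by
    unfold pev
    rw [Polynomial.aeval_eq_sum_range' (n := p.natDegree + 1)]
    · refine Finset.sum_congr rfl fun n _ => ?_
      rw [Polynomial.coeff_map]
      rfl
    · exact Nat.lt_succ_of_le (Polynomial.natDegree_map_le)
  have hMn : ∀ n, (p.coeff n : ℂ) • pinch P x ^ n ∈ M := fun n =>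
    M.toStarSubalgebra.smul_mem (pow_mem htM n) _
  have hpM : pev p (pinch P x) ∈ M := by
    rw [hpev]
    exact sum_mem fun n _ => hMn n
  have hpsa : star (pev p (pinch P x)) = pev p (pinch P x) := by
    rw [hpev, star_sum]
    refine Finset.sum_congr rfl fun n _ => ?_
    rw [star_smul, star_pow, htsa.star_eq, Complex.star_def, Complex.conj_ofReal]
  have hd : E (pev p (pinch P x)) ∈ A := hE.mem _ hpM
  rw [← hE.tr _ hpM]
  refine hI m _ hd fun ω => ?_
  -- the value is real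
  have hreal : (𝒮.val ω (E (pev p (pinch P x)))).im = 0 := by
    have h1 := 𝒮.star ω _ hd
    rw [← hE.star _ hpM, hpsa] at h1
    have h2 := congrArg Complex.im h1
    rw [Complex.star_def, Complex.conj_im] at h2
    linarith only [h2]
  have hre : (𝒮.val ω (E (pev p (pinch P x)))).re = m ω := by
    have h1 : 𝒮.val ω (E (pev p (pinch P x))) =
        ∑ n ∈ Finset.range (p.natDegree + 1), (p.coeff n : ℂ) * 𝒮.val ω (E (pinch P x ^ n)) := by
      have h2 := KK_sum hE 𝒮 (Finset.range (p.natDegree + 1)) (fun n _ => hMn n) 1 1 ω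
      unfold KK at h2
      simp only [op_one, star_one, one_mul, mul_one] at h2
      rw [hpev, h2]
      refine Finset.sum_congr rfl fun n _ => ?_
      rw [map_smul, 𝒮.smul]
      exact hE.mem _ (pow_mem htM n)
    rw [h1, hm, Complex.re_sum]
    unfold locmom
    refine Finset.sum_congr rfl fun n hn => ?_
    rw [Complex.re_ofReal_mul, pow_local hA hξ hE 𝒮 hx 𝔖 hk c P hP hPc p.natDegree ω n
      (Nat.lt_succ_iff.1 (Finset.mem_range.1 hn))]
  apply Complex.ext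
  · rw [Complex.ofReal_re, hre]
  · rw [Complex.ofReal_im, hreal]

end Vale.Agent.P078.C
end

section

/-! T6f: one-sided paving of elements of the span of the normalizer. -/

namespace Vale.Agent.P078.C

open Vale.Agent.P078.SO Polynomial
open scoped Classical

universe u

section Prelim

variable {H : Type*} [NormedAddCommGroup H] [InnerProductSpace ℂ H] [CompleteSpace H]
variable {M A : VonNeumannAlgebra H} {ξ : ℕ → H}

theorem nontrivial_of_trace (hξ : IsTrace M ξ) : Nontrivial H := by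
  by_contra h
  rw [not_nontrivial_iff_subsingleton] at h
  have h1 : ∀ n, ‖ξ n‖ ^ 2 = 0 := fun n => by
    rw [Subsingleton.elim (ξ n) 0]
    simp
  have h2 := hξ.norm_one
  simp only [h1, tsum_zero] at h2
  exact zero_ne_one h2

theorem nspan_subset {x : H →L[ℂ] H} (hx : x ∈ nspan M A) : x ∈ M := by
  unfold nspan at hx
  induction hx using Submodule.span_induction with
  | mem x h =>
    obtain ⟨u, rfl⟩ := h
    exact u.2.1
  | zero => exact zero_mem M
  | add x y _ _ hx hy => exact add_mem hx hy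
  | smul c x _ hx => exact M.toStarSubalgebra.smul_mem hx c

variable {r : ℕ} {P : Fin r → (H →L[ℂ] H)}

theorem pinch_isSelfAdjoint (hP : IsPart A P) {x : H →L[ℂ] H} (hx : IsSelfAdjoint x) :
    IsSelfAdjoint (pinch P x) := by
  unfold pinch IsSelfAdjoint
  rw [star_sum]
  refine Finset.sum_congr rfl fun i _ => ?_
  have h1 : star (P i) = P i := (hP.1 i).2.isSelfAdjoint.star_eq
  rw [star_mul, star_mul, h1, hx.star_eq, mul_assoc]

theorem pinch_sub (x z : H →L[ℂ] H) : pinch P (x - z) = pinch P x - pinch P z := by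
  unfold pinch
  rw [← Finset.sum_sub_distrib]
  refine Finset.sum_congr rfl fun i _ => ?_
  rw [mul_sub, sub_mul]

theorem pinch_nonneg (hP : IsPart A P) {x : H →L[ℂ] H} (hx : 0 ≤ x) : 0 ≤ pinch P x := by
  unfold pinch
  refine Finset.sum_nonneg fun i _ => ?_
  have h1 : star (P i) = P i := (hP.1 i).2.isSelfAdjoint.star_eq
  have h2 := star_left_conjugate_nonneg hx (P i)
  rwa [h1] at h2

theorem pinch_smul_one (hP : IsPart A P) (c : ℂ) :
    pinch P (c • (1 : H →L[ℂ] H)) = c • (1 : H →L[ℂ] H) := by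
  unfold pinch
  have h1 : ∀ i, P i * (c • (1 : H →L[ℂ] H)) * P i = c • P i := by
    intro i
    rw [mul_smul_comm, mul_one, smul_mul_assoc, (hP.1 i).2.isIdempotentElem.eq]
  simp_rw [h1]
  rw [← Finset.smul_sum, hP.2.2]

theorem pinch_le (hP : IsPart A P) {x : H →L[ℂ] H} {c : ℂ} (hx : x ≤ c • (1 : H →L[ℂ] H)) :
    pinch P x ≤ c • (1 : H →L[ℂ] H) := by
  have h1 := pinch_nonneg hP (sub_nonneg.mpr hx)
  rw [pinch_sub, pinch_smul_one hP] at h1
  exact sub_nonneg.mp h1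

theorem pinch_ge (hP : IsPart A P) {x : H →L[ℂ] H} {c : ℂ} (hx : -(c • (1 : H →L[ℂ] H)) ≤ x) :
    -(c • (1 : H →L[ℂ] H)) ≤ pinch P x := by
  have e : -(c • (1 : H →L[ℂ] H)) = (-c) • (1 : H →L[ℂ] H) := (neg_smul _ _).symm
  rw [e] at hx ⊢
  have h1 := pinch_nonneg hP (sub_nonneg.mpr hx)
  rw [pinch_sub, pinch_smul_one hP] at h1
  exact sub_nonneg.mp h1

theorem algebraMap_real_eq (c : ℝ) :
    algebraMap ℝ (H →L[ℂ] H) c = (c : ℂ) • (1 : H →L[ℂ] H) := by
  rw [Algebra.algebraMap_eq_smul_one]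
  ext v
  simp

theorem pev_eq_cfc (p : ℝ[X]) {S : H →L[ℂ] H} (hS : IsSelfAdjoint S) :
    pev p S = cfc (fun t => p.eval t) S := by
  unfold pev
  rw [Polynomial.aeval_map_algebraMap, ← cfc_polynomial p S hS]

theorem vtr_mono (hξ : IsTrace M ξ) {x z : H →L[ℂ] H} (h : x ≤ z) :
    (vtr ξ x).re ≤ (vtr ξ z).re := by
  have h1 := (vtr_nonneg hξ (sub_nonneg.mpr h)).1
  have h2 : vtr ξ z = vtr ξ (z - x) + vtr ξ x := by
    rw [← vtr_add hξ]
    simp
  rw [h2, Complex.add_re]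
  linarith only [h1]

end Prelim

section Main

variable {H : Type u} [NormedAddCommGroup H] [InnerProductSpace ℂ H] [CompleteSpace H]
variable {M A : VonNeumannAlgebra H} {ξ : ℕ → H} {E : (H →L[ℂ] H) →ₗ[ℂ] (H →L[ℂ] H)}

/-- T6f1: the functional version -/
theorem one_sided_poly (hA : SO.IsMASA A M) (hξ : IsTrace M ξ) (hE : IsTrExp M A ξ E)
    {x : H →L[ℂ] H} (hx : x ∈ nspan M A) (hsa : IsSelfAdjoint x) (hx0 : E x = 0) {a b : ℝ}
    (ha0 : 0 ≤ a) (hb0 : 0 < b) (ha : x ≤ (a : ℂ) • (1 : H →L[ℂ] H))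
    (hb : -((b : ℂ) • (1 : H →L[ℂ] H)) ≤ x) {r : ℕ} (hr : 2 ≤ r) {t₀ u : ℝ} (ht : a < t₀)
    (hu : eb r a b t₀ < u) {η κ : ℝ} (hη : 0 < η) (hκ : 0 < κ) :
    ∃ p : ℝ[X], GoodPoly p u η (max a b) κ ∧ ∃ P : Fin r → (H →L[ℂ] H), IsPart A P ∧
      (vtr ξ (pev p (pinch P x))).re ≤ η / (u - eb r a b t₀) + 6 * max a b * κ + κ := by
  have hρ : 0 < max a b := lt_max_of_lt_right hb0
  obtain ⟨p, hp⟩ := exists_goodPoly (u := u) (η := η) (ρ := max a b) (κ := κ) hη hρ hκ
  refine ⟨p, hp, ?_⟩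
  obtain ⟨X, _, _, _, _, _, ⟨𝒮⟩⟩ := exists_spec hA (nontrivial_of_trace hξ)
  obtain ⟨𝔖, h𝔖a, h𝔖b, hk, hI⟩ := exists_sys hA hξ hE 𝒮 hx hsa hx0 ha hb
  have hr0 : 0 < r := by (clear * - hr; omega)
  have hFB : FB a b 𝔖.y := by
    have := 𝔖.bound
    rwa [h𝔖a, h𝔖b] at this
  have hsel : ∀ (s : X → Option (Fin r)) (W : Finset X), ∀ w ∈ W, s w = none →
      ∃ c, SP p 𝔖.y (Function.update s w (some c)) W ≤ SP p 𝔖.y s W + 2 * max a b * κ :=
    fun s W w hw hs => sel hr0 𝔖.herm hFB hη (le_max_left _ _) (le_max_right _ _) hρ hp hw hs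
  have hini : ∀ (W : Finset X), ∀ w ∈ W, SP p 𝔖.y (fun _ => (none : Option (Fin r))) W ≤
      SP p 𝔖.y (fun _ => (none : Option (Fin r))) (W.erase w) +
        (η / (u - eb r a b t₀) + 2 * max a b * κ) :=
    fun W w hw => ini hr0 𝔖.herm hFB hη (le_max_left _ _) (le_max_right _ _) hρ hκ.le hp hw
      (fun l hl => root_bound hr 𝔖.herm 𝔖.zd hFB ha0 hb0 ht hl) hu
  obtain ⟨c, hc, m, hm, hmI⟩ := Sys.main 𝔖 hr0 p hκ hsel hini
  obtain ⟨P, hP, hPc⟩ := exists_part hA 𝒮 c hc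
  refine ⟨P, hP, ?_⟩
  rw [← moment hA hξ hE 𝒮 hx hsa 𝔖 hk hI c P hP hPc p m hm]
  have : 0 ≤ max a b * κ := by (clear * - hb0 hκ; positivity)
  linarith only [hmI, this]

/-- T6f2: the spectral version -/
theorem one_sided_alg (hA : SO.IsMASA A M) (hξ : IsTrace M ξ) (hE : IsTrExp M A ξ E)
    {x : H →L[ℂ] H} (hx : x ∈ nspan M A) (hsa : IsSelfAdjoint x) (hx0 : E x = 0) {a b : ℝ}
    (ha0 : 0 ≤ a) (hb0 : 0 < b) (ha : x ≤ (a : ℂ) • (1 : H →L[ℂ] H))
    (hb : -((b : ℂ) • (1 : H →L[ℂ] H)) ≤ x) {r : ℕ} (hr : 2 ≤ r) {t₀ u : ℝ} (ht : a < t₀)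
    (hu : eb r a b t₀ < u) (hu0 : -b ≤ u) {δ : ℝ} (hδ : 0 < δ) :
    ∃ P : Fin r → (H →L[ℂ] H), IsPart A P ∧ ∃ w ∈ M, IsSelfAdjoint w ∧
      -((b : ℂ) • (1 : H →L[ℂ] H)) ≤ w ∧ w ≤ (u : ℂ) • (1 : H →L[ℂ] H) ∧
      n2 ξ (pinch P x - w) ≤ δ := by
  have hρ : 0 < max a b := lt_max_of_lt_right hb0
  set ρ := max a b with hρdef
  set e := eb r a b t₀ with hedef
  -- choice of the constants
  set C : ℝ := (a + b) ^ 2 * (2 / Real.pi) with hC
  have hCpos : 0 < C := by
    have : 0 < a + b := by linarith only [ha0, hb0]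
    have := Real.pi_pos
    (clear * - ha0 hb0; positivity)
  have hue : 0 < u - e := by linarith only [hu]
  set η : ℝ := (δ / (2 * C)) * (u - e) with hη_def
  have hη : 0 < η := by (clear * - ha0 hb0 hδ hu; (clear * - hδ ha0 hb0 hu; positivity))
  set κ : ℝ := δ / (2 * C) / (8 * ρ + 1) with hκ_def
  have hκ : 0 < κ := by (clear * - ha0 hb0 hδ; positivity)
  obtain ⟨p, hp, P, hP, hval⟩ := one_sided_poly hA hξ hE hx hsa hx0 ha0 hb0 ha hb hr ht hu hη hκ
  refine ⟨P, hP, ?_⟩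
  set S := pinch P x with hS
  have hSsa : IsSelfAdjoint S := pinch_isSelfAdjoint hP hsa
  have hSM : S ∈ M := pinch_mem hA hP (nspan_subset hx)
  have hSa : S ≤ (a : ℂ) • (1 : H →L[ℂ] H) := pinch_le hP ha
  have hSb : -((b : ℂ) • (1 : H →L[ℂ] H)) ≤ S := pinch_ge hP hb
  have hspa : ∀ t ∈ spectrum ℝ S, t ≤ a := by
    rw [← algebraMap_real_eq, le_algebraMap_iff_spectrum_le hSsa] at hSa
    exact hSa
  have hspb : ∀ t ∈ spectrum ℝ S, -b ≤ t := by
    have h1 : algebraMap ℝ (H →L[ℂ] H) (-b) ≤ S := by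
      rw [algebraMap_real_eq]
      push_cast
      rwa [neg_smul]
    rw [algebraMap_le_iff_le_spectrum hSsa] at h1
    exact h1
  have hcont : ContinuousOn (fun t : ℝ => min t u) (spectrum ℝ S) :=
    (continuous_id.min continuous_const).continuousOn
  set w := cfc (fun t : ℝ => min t u) S with hw
  have hwsa : IsSelfAdjoint w := cfc_predicate _ _
  have hwM : w ∈ M := mem_of_forall_commute M hSM fun y hy => by
    have := hy.symm.cfc_real (fun t : ℝ => min t u)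
    exact this.symm
  refine ⟨w, hwM, hwsa, ?_, ?_, ?_⟩
  · have h1 : algebraMap ℝ (H →L[ℂ] H) (-b) ≤ w := by
      rw [hw]
      exact algebraMap_le_cfc _ _ _ (fun t ht => le_min (hspb t ht) hu0) hcont hSsa
    rw [algebraMap_real_eq] at h1
    push_cast at h1
    rwa [neg_smul] at h1
  · have h1 : w ≤ algebraMap ℝ (H →L[ℂ] H) u := by
      rw [hw]
      exact cfc_le_algebraMap _ _ _ (fun t _ => min_le_right _ _) hcont hSsa
    rwa [algebraMap_real_eq] at h1
  · rw [n2_eq hξ]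
    have hdiff : S - w = cfc (fun t : ℝ => t - min t u) S := by
      rw [cfc_sub (fun t : ℝ => t) (fun t : ℝ => min t u) S continuousOn_id hcont, cfc_id' ℝ S]
    have hcont2 : ContinuousOn (fun t : ℝ => t - min t u) (spectrum ℝ S) :=
      continuousOn_id.sub hcont
    have hstar : star (S - w) = S - w := (hSsa.sub hwsa).star_eq
    have hsq : star (S - w) * (S - w) = cfc (fun t : ℝ => (t - min t u) * (t - min t u)) S := by
      rw [hstar, hdiff, ← cfc_mul (fun t : ℝ => t - min t u) (fun t : ℝ => t - min t u) S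
        hcont2 hcont2]
    have hpcont : ContinuousOn (fun t : ℝ => p.eval t) (spectrum ℝ S) :=
      p.continuous.continuousOn
    have hbd : star (S - w) * (S - w) ≤ ((C : ℝ) : ℂ) • (pev p S + (((2 * ρ * κ : ℝ)) : ℂ) •
        (1 : H →L[ℂ] H)) := by
      have h1 : ((C : ℝ) : ℂ) • (pev p S + (((2 * ρ * κ : ℝ)) : ℂ) • (1 : H →L[ℂ] H)) =
          cfc (fun t : ℝ => C * (p.eval t + 2 * ρ * κ)) S := by
        rw [cfc_const_mul C (fun t : ℝ => p.eval t + 2 * ρ * κ) S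
            (hpcont.add continuousOn_const),
          cfc_add S (fun t : ℝ => p.eval t) (fun _ : ℝ => 2 * ρ * κ) hpcont continuousOn_const,
          cfc_const (2 * ρ * κ) S hSsa, ← pev_eq_cfc p hSsa, algebraMap_real_eq]
        ext v
        simp
      rw [h1, hsq]
      refine cfc_mono ?_ (hcont2.mul hcont2)
        (continuousOn_const.mul (hpcont.add continuousOn_const))
      intro t ht
      have hta := hspa t ht
      have htb := hspb t ht
      have hmem : t ∈ Set.Icc (-ρ) ρ := ⟨by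
        have := le_max_right a b
        rw [← hρdef] at this
        linarith only [htb, this], hta.trans (le_max_left a b)⟩
      have hlow := hp.lower hη hmem
      have hg0 := gf_nonneg (u := u) hη t
      by_cases htu : t ≤ u
      · rw [min_eq_left htu, sub_self, mul_zero]
        refine mul_nonneg hCpos.le ?_
        linarith only [hlow, hg0]
      · rw [not_le] at htu
        rw [min_eq_right htu.le]
        have hg1 := gf_ge (u := u) hη htu.le
        have h2 : Real.pi / 2 ≤ p.eval t + 2 * ρ * κ := by linarith only [hlow, hg1]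
        have h3 : (t - u) * (t - u) ≤ (a + b) ^ 2 := by
          have h4 : 0 ≤ t - u := by linarith only [htu]
          have h5 : t - u ≤ a + b := by linarith only [hu0, hta]
          linarith only [mul_nonneg (sub_nonneg.2 hta) (sub_nonneg.2 htb), mul_nonneg (sub_nonneg.2 hta) (sub_nonneg.2 hta), mul_nonneg (sub_nonneg.2 hu0) (le_of_lt (sub_pos.2 htu)), mul_nonneg (sub_nonneg.2 hu0) (sub_nonneg.2 htb)]
        calc (t - u) * (t - u) ≤ (a + b) ^ 2 := h3
          _ = C * (Real.pi / 2) := by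
              rw [hC]
              have := Real.pi_pos
              field_simp
          _ ≤ C * (p.eval t + 2 * ρ * κ) := mul_le_mul_of_nonneg_left h2 hCpos.le
    have h2 := vtr_mono hξ hbd
    refine h2.trans ?_
    rw [vtr_smul hξ, vtr_add hξ, vtr_smul hξ, vtr_one hξ, mul_one, Complex.re_ofReal_mul,
      Complex.add_re, Complex.ofReal_re]
    have h3 : C * ((vtr ξ (pev p S)).re + 2 * ρ * κ) ≤
        C * ((η / (u - e) + 6 * ρ * κ + κ) + 2 * ρ * κ) :=
      mul_le_mul_of_nonneg_left (by linarith only [hval]) hCpos.le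
    refine h3.trans ?_
    have h4 : η / (u - e) = δ / (2 * C) := by
      rw [hη_def]
      field_simp
    have h5 : 6 * ρ * κ + κ + 2 * ρ * κ = δ / (2 * C) := by
      rw [hκ_def]
      field_simp
      ring
    have h6 : (η / (u - e) + 6 * ρ * κ + κ) + 2 * ρ * κ = δ / (2 * C) + δ / (2 * C) := by
      linarith only [h4, h5]
    rw [h6]
    have h7 : C * (δ / (2 * C) + δ / (2 * C)) = δ := by
      field_simp
      ring
    exact h7.le

end Main

end Vale.Agent.P078.C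
end

section

/-! Two-sided paving of the elements of the span of the normalizer. -/

namespace Vale.Agent.P078.D

open Vale.Agent.P078.SO Polynomial
open Vale.Agent.P078.C (Sys eb IsTrace IsTrExp IsPart nspan pinch n2 vtr pev exists_spec exists_sys
  exists_part moment nontrivial_of_trace nspan_subset pinch_mem pinch_isSelfAdjoint pinch_le
  pinch_ge algebraMap_real_eq pev_eq_cfc vtr_mono vtr_smul vtr_add vtr_one n2_eq
  FB)
open scoped Classical

universe u

variable {H : Type u} [NormedAddCommGroup H] [InnerProductSpace ℂ H] [CompleteSpace H]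
variable {M A : VonNeumannAlgebra H} {ξ : ℕ → H} {E : (H →L[ℂ] H) →ₗ[ℂ] (H →L[ℂ] H)}

/-- the functional version -/
theorem two_sided_poly (hA : SO.IsMASA A M) (hξ : IsTrace M ξ) (hE : IsTrExp M A ξ E)
    {x : H →L[ℂ] H} (hx : x ∈ nspan M A) (hsa : IsSelfAdjoint x) (hx0 : E x = 0) {a : ℝ}
    (ha0 : 0 < a) (ha : x ≤ (a : ℂ) • (1 : H →L[ℂ] H))
    (hb : -((a : ℂ) • (1 : H →L[ℂ] H)) ≤ x) {r : ℕ} (hr : 0 < r) {t₀ u : ℝ} (ht : 2 * a < t₀)
    (hu : eb (2 * r) (2 * a) (2 * a) t₀ < u) (p : ℝ[X]) (hp0 : ∀ t, |t| ≤ u → p.eval t ≤ 0)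
    {θ : ℝ} (hθ : 0 < θ) :
    ∃ P : Fin r → (H →L[ℂ] H), IsPart A P ∧ (vtr ξ (pev p (pinch P x))).re ≤ θ := by
  obtain ⟨X, _, _, _, _, _, ⟨𝒮⟩⟩ := exists_spec hA (nontrivial_of_trace hξ)
  obtain ⟨𝔖, h𝔖a, h𝔖b, hk, hI⟩ := exists_sys hA hξ hE 𝒮 hx hsa hx0 ha hb
  have hFB : FB a a 𝔖.y := by
    have := 𝔖.bound
    rwa [h𝔖a, h𝔖b] at this
  obtain ⟨C, hC⟩ := (isCompact_Icc (a := -a) (b := a)).exists_bound_of_continuousOn
    (p.continuous.continuousOn (s := Set.Icc (-a) a))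
  obtain ⟨c, hc, m, hm, hmI⟩ := two_sided_sys 𝔖 hr ha0 hFB ht hu p (C := |C|) (abs_nonneg _) hp0
    (fun t ht => by
      have h1 := hC t (abs_le.1 ht)
      rw [Real.norm_eq_abs] at h1
      exact (le_abs_self _).trans (h1.trans (le_abs_self _))) hθ
  obtain ⟨P, hP, hPc⟩ := exists_part hA 𝒮 c hc
  refine ⟨P, hP, ?_⟩
  rw [← moment hA hξ hE 𝒮 hx hsa 𝔖 hk hI c P hP hPc p m hm]
  exact hmI

/-- two-sided paving of elements of the span of the normalizer -/
theorem two_sided_alg (hA : SO.IsMASA A M) (hξ : IsTrace M ξ) (hE : IsTrExp M A ξ E)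
    {x : H →L[ℂ] H} (hx : x ∈ nspan M A) (hsa : IsSelfAdjoint x) (hx0 : E x = 0) {a : ℝ}
    (ha0 : 0 < a) (ha : x ≤ (a : ℂ) • (1 : H →L[ℂ] H))
    (hb : -((a : ℂ) • (1 : H →L[ℂ] H)) ≤ x) {r : ℕ} (hr : 0 < r) {t₀ u : ℝ} (ht : 2 * a < t₀)
    (hu : eb (2 * r) (2 * a) (2 * a) t₀ < u) (hu0 : 0 < u) {δ : ℝ} (hδ : 0 < δ) :
    ∃ P : Fin r → (H →L[ℂ] H), IsPart A P ∧ ∃ w ∈ M, IsSelfAdjoint w ∧
      -((u : ℂ) • (1 : H →L[ℂ] H)) ≤ w ∧ w ≤ (u : ℂ) • (1 : H →L[ℂ] H) ∧
      n2 ξ (pinch P x - w) ≤ δ := by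
  set e := eb (2 * r) (2 * a) (2 * a) t₀ with he
  obtain ⟨u₁, hu₁⟩ : ∃ u₁, u₁ = (max e 0 + u) / 2 := ⟨_, rfl⟩
  have hmx : max e 0 < u := max_lt hu hu0
  have hu₁0 : 0 < u₁ := by
    have := le_max_right e 0
    rw [hu₁]; linarith only [hu0, this]
  have hu₁e : e < u₁ := by
    have := le_max_left e 0
    rw [hu₁]; linarith only [hu, this]
  have hu₁u : u₁ < u := by rw [hu₁]; linarith only [hmx]
  obtain ⟨γ, hγ⟩ : ∃ γ, γ = δ / (2 * a ^ 2) := ⟨_, rfl⟩
  have hγ0 : 0 < γ := by rw [hγ]; (clear * - ha0 hδ; positivity)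
  obtain ⟨p, hp0, hp1, hp2⟩ := exists_sepPoly hu₁0 hu₁u hγ0
  obtain ⟨P, hP, hval⟩ := two_sided_poly hA hξ hE hx hsa hx0 ha0 ha hb hr ht hu₁e p hp0 hγ0
  refine ⟨P, hP, ?_⟩
  set S := pinch P x with hS
  have hSsa : IsSelfAdjoint S := pinch_isSelfAdjoint hP hsa
  have hSM : S ∈ M := pinch_mem hA hP (nspan_subset hx)
  have hSa : S ≤ (a : ℂ) • (1 : H →L[ℂ] H) := pinch_le hP ha
  have hSb : -((a : ℂ) • (1 : H →L[ℂ] H)) ≤ S := pinch_ge hP hb
  have hspa : ∀ t ∈ spectrum ℝ S, t ≤ a := by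
    rw [← algebraMap_real_eq, le_algebraMap_iff_spectrum_le hSsa] at hSa
    exact hSa
  have hspb : ∀ t ∈ spectrum ℝ S, -a ≤ t := by
    have h1 : algebraMap ℝ (H →L[ℂ] H) (-a) ≤ S := by
      rw [algebraMap_real_eq]
      push_cast
      rwa [neg_smul]
    rw [algebraMap_le_iff_le_spectrum hSsa] at h1
    exact h1
  have hcc : Continuous fun t : ℝ => max (-u) (min t u) :=
    continuous_const.max (continuous_id.min continuous_const)
  have hcont : ContinuousOn (fun t : ℝ => max (-u) (min t u)) (spectrum ℝ S) := hcc.continuousOn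
  set w := cfc (fun t : ℝ => max (-u) (min t u)) S with hw
  have hwsa : IsSelfAdjoint w := cfc_predicate _ _
  have hwM : w ∈ M := mem_of_forall_commute M hSM fun y hy => by
    have := hy.symm.cfc_real (fun t : ℝ => max (-u) (min t u))
    exact this.symm
  refine ⟨w, hwM, hwsa, ?_, ?_, ?_⟩
  · have h1 : algebraMap ℝ (H →L[ℂ] H) (-u) ≤ w := by
      rw [hw]
      exact algebraMap_le_cfc _ _ _ (fun t _ => le_max_left _ _) hcont hSsa
    rw [algebraMap_real_eq] at h1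
    push_cast at h1
    rwa [neg_smul] at h1
  · have h1 : w ≤ algebraMap ℝ (H →L[ℂ] H) u := by
      rw [hw]
      exact cfc_le_algebraMap _ _ _ (fun t _ => max_le (by linarith only [hu₁0, hu₁u]) (min_le_right _ _)) hcont hSsa
    rwa [algebraMap_real_eq] at h1
  · rw [n2_eq hξ]
    have hdiff : S - w = cfc (fun t : ℝ => t - max (-u) (min t u)) S := by
      rw [cfc_sub (fun t : ℝ => t) (fun t : ℝ => max (-u) (min t u)) S continuousOn_id hcont,
        cfc_id' ℝ S]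
    have hcont2 : ContinuousOn (fun t : ℝ => t - max (-u) (min t u)) (spectrum ℝ S) :=
      continuousOn_id.sub hcont
    have hstar : star (S - w) = S - w := (hSsa.sub hwsa).star_eq
    have hsq : star (S - w) * (S - w) = cfc (fun t : ℝ =>
        (t - max (-u) (min t u)) * (t - max (-u) (min t u))) S := by
      rw [hstar, hdiff, ← cfc_mul (fun t : ℝ => t - max (-u) (min t u))
        (fun t : ℝ => t - max (-u) (min t u)) S hcont2 hcont2]
    have hpcont : ContinuousOn (fun t : ℝ => p.eval t) (spectrum ℝ S) :=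
      p.continuous.continuousOn
    obtain ⟨K, hK⟩ : ∃ K : ℝ, K = a ^ 2 := ⟨_, rfl⟩
    have hbd : star (S - w) * (S - w) ≤ ((K : ℝ) : ℂ) • (pev p S + ((γ : ℝ) : ℂ) •
        (1 : H →L[ℂ] H)) := by
      have h1 : ((K : ℝ) : ℂ) • (pev p S + ((γ : ℝ) : ℂ) • (1 : H →L[ℂ] H)) =
          cfc (fun t : ℝ => K * (p.eval t + γ)) S := by
        rw [cfc_const_mul K (fun t : ℝ => p.eval t + γ) S
            (hpcont.add continuousOn_const),
          cfc_add S (fun t : ℝ => p.eval t) (fun _ : ℝ => γ) hpcont continuousOn_const,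
          cfc_const γ S hSsa, ← pev_eq_cfc p hSsa, algebraMap_real_eq]
        ext v
        simp
      rw [h1, hsq]
      refine cfc_mono ?_ (hcont2.mul hcont2)
        (continuousOn_const.mul (hpcont.add continuousOn_const))
      intro t ht
      have hta := hspa t ht
      have htb := hspb t ht
      have h2 := hp1 t
      have ha2 : 0 < a ^ 2 := by (clear * - ha0; positivity)
      rw [hK]
      by_cases htu : |t| ≤ u
      · obtain ⟨h3, h4⟩ := abs_le.1 htu
        rw [min_eq_left h4, max_eq_right h3, sub_self, mul_zero]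
        exact mul_nonneg ha2.le (by linarith only [h2])
      · push Not at htu
        have h3 := hp2 t htu.le
        have h4 : (t - max (-u) (min t u)) * (t - max (-u) (min t u)) ≤ a ^ 2 := by
          rcases le_or_gt 0 t with h0 | h0
          · rw [abs_of_nonneg h0] at htu
            rw [min_eq_right htu.le, max_eq_right (by linarith only [hu₁0, hu₁u])]
            nlinarith only [hu₁0, hu₁u, hta, htb, htu]
          · rw [abs_of_neg h0] at htu
            rw [min_eq_left (by linarith only [hu₁0, hu₁u, htu]), max_eq_left (by linarith only [htu])]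
            nlinarith only [hu₁0, hu₁u, hta, htb, htu]
        calc (t - max (-u) (min t u)) * (t - max (-u) (min t u)) ≤ a ^ 2 * 1 := by linarith only [h4]
          _ ≤ a ^ 2 * (p.eval t + γ) := by
            apply mul_le_mul_of_nonneg_left _ ha2.le
            linarith only [hγ0, h3]
    have h2 := vtr_mono hξ hbd
    refine h2.trans ?_
    rw [vtr_smul hξ, vtr_add hξ, vtr_smul hξ, vtr_one hξ, mul_one, Complex.re_ofReal_mul,
      Complex.add_re, Complex.ofReal_re]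
    rw [hK]
    calc a ^ 2 * ((vtr ξ (pev p S)).re + γ) ≤ a ^ 2 * (γ + γ) := by (clear * - ha0 hval; gcongr)
      _ = δ := by
        rw [hγ]
        field_simp
        ring

end Vale.Agent.P078.D
end

section

/-! T7: density with bounds. -/

namespace Vale.Agent.P078.C

open Vale.Agent.P078.SO

variable {H : Type*} [NormedAddCommGroup H] [InnerProductSpace ℂ H] [CompleteSpace H]
variable {M A : VonNeumannAlgebra H} {ξ : ℕ → H} {E : (H →L[ℂ] H) →ₗ[ℂ] (H →L[ℂ] H)}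

namespace Dn

theorem op_nspan (u : nrm M A) : op u ∈ nspan M A := Submodule.subset_span ⟨u, rfl⟩

end Dn

open Dn

/-- the span of the normalizer is a unital star subalgebra containing `A` -/
theorem nspan_mul {x y : H →L[ℂ] H} (hx : x ∈ nspan M A) (hy : y ∈ nspan M A) :
    x * y ∈ nspan M A := by
  induction hx using Submodule.span_induction with
  | mem x hx =>
    obtain ⟨u, rfl⟩ := hx
    induction hy using Submodule.span_induction with
    | mem y hy =>
      obtain ⟨v, rfl⟩ := hy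
      exact op_nspan (u * v)
    | zero => rw [mul_zero]; exact zero_mem _
    | add a b _ _ ha hb => rw [mul_add]; exact add_mem ha hb
    | smul c a _ ha => rw [mul_smul_comm]; exact Submodule.smul_mem _ c ha
  | zero => rw [zero_mul]; exact zero_mem _
  | add a b _ _ ha hb => rw [add_mul]; exact add_mem ha hb
  | smul c a _ ha => rw [smul_mul_assoc]; exact Submodule.smul_mem _ c ha

theorem nspan_star {x : H →L[ℂ] H} (hx : x ∈ nspan M A) : star x ∈ nspan M A := by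
  induction hx using Submodule.span_induction with
  | mem x hx =>
    obtain ⟨u, rfl⟩ := hx
    exact op_nspan u⁻¹
  | zero => rw [star_zero]; exact zero_mem _
  | add a b _ _ ha hb => rw [star_add]; exact add_mem ha hb
  | smul c a _ ha => rw [star_smul]; exact Submodule.smul_mem _ _ ha

theorem nspan_le {x : H →L[ℂ] H} (hx : x ∈ nspan M A) : x ∈ M := by
  induction hx using Submodule.span_induction with
  | mem x hx =>
    obtain ⟨u, rfl⟩ := hx
    exact op_mem u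
  | zero => exact zero_mem M
  | add a b _ _ ha hb => exact add_mem ha hb
  | smul c a _ ha => exact M.toStarSubalgebra.smul_mem ha c

namespace Dn

theorem nspan_one : (1 : H →L[ℂ] H) ∈ nspan M A := op_nspan 1

theorem nspan_sa_unit (hA : SO.IsMASA A M) {x : H →L[ℂ] H} (hx : x ∈ A) (hsa : IsSelfAdjoint x)
    (h1 : ‖x‖ ≤ 1) : x ∈ nspan M A := by
  obtain ⟨hAM, hAc, -⟩ := hA
  let a : selfAdjoint (H →L[ℂ] H) := ⟨x, hsa⟩
  let u : unitary (H →L[ℂ] H) := selfAdjoint.unitarySelfAddISMul a h1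
  have hu : (u : H →L[ℂ] H) = x + Complex.I • CFC.sqrt (1 - x ^ 2) := rfl
  have hus : star (u : H →L[ℂ] H) = x - Complex.I • CFC.sqrt (1 - x ^ 2) :=
    selfAdjoint.star_coe_unitarySelfAddISMul a h1
  have huA : (u : H →L[ℂ] H) ∈ A := by
    apply mem_of_forall_commute A hx
    intro y hy
    rw [hu]
    refine Commute.add_right hy (Commute.smul_right ?_ _)
    have h2 : Commute (1 - x ^ 2) y :=
      (Commute.one_left y).sub_left (hy.symm.pow_left 2)
    rw [CFC.sqrt]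
    exact (h2.cfcₙ_nnreal _).symm
  have hun : u ∈ nrm M A := by
    refine ⟨hAM _ huA, fun b hb => ?_, fun b hb => ?_⟩
    · exact mul_mem (mul_mem huA hb) (star_mem huA)
    · exact mul_mem (mul_mem (star_mem huA) hb) huA
  have h2 : x = (1 / 2 : ℂ) • ((u : H →L[ℂ] H) + star (u : H →L[ℂ] H)) := by
    rw [hus, hu]
    have : x + Complex.I • CFC.sqrt (1 - x ^ 2) + (x - Complex.I • CFC.sqrt (1 - x ^ 2))
        = (2 : ℂ) • x := by
      rw [two_smul]; abel
    rw [this, smul_smul]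
    norm_num
  rw [h2]
  have h3 : (u : H →L[ℂ] H) ∈ nspan M A := op_nspan ⟨u, hun⟩
  exact Submodule.smul_mem _ _ (add_mem h3 (nspan_star h3))

theorem nspan_sa (hA : SO.IsMASA A M) {x : H →L[ℂ] H} (hx : x ∈ A) (hsa : IsSelfAdjoint x) :
    x ∈ nspan M A := by
  by_cases h0 : ‖x‖ ≤ 1
  · exact nspan_sa_unit hA hx hsa h0
  · push Not at h0
    have h1 : 0 < ‖x‖ := by linarith only [h0]
    have h2 : x = ((‖x‖ : ℝ) : ℂ) • (((‖x‖⁻¹ : ℝ) : ℂ) • x) := by
      rw [smul_smul, ← Complex.ofReal_mul, mul_inv_cancel₀ h1.ne', Complex.ofReal_one, one_smul]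
    rw [h2]
    apply Submodule.smul_mem
    apply nspan_sa_unit hA
    · exact A.toStarSubalgebra.smul_mem hx _
    · rw [IsSelfAdjoint, star_smul, hsa.star_eq, Complex.star_def, Complex.conj_ofReal]
    · rw [norm_smul, Complex.norm_real, norm_inv, norm_norm, inv_mul_cancel₀ h1.ne']

end Dn

theorem nspan_of_mem (hA : SO.IsMASA A M) {x : H →L[ℂ] H} (hx : x ∈ A) : x ∈ nspan M A := by
  have h1 : x = (1 / 2 : ℂ) • (x + star x) + (Complex.I / 2) • (Complex.I • (star x - x)) := by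
    rw [smul_smul]
    have : Complex.I / 2 * Complex.I = - (1 / 2) := by
      rw [div_mul_eq_mul_div, Complex.I_mul_I]; ring
    rw [this, smul_add, smul_sub]
    module
  rw [h1]
  refine add_mem (Submodule.smul_mem _ _ (nspan_sa hA (add_mem hx (star_mem hx)) ?_))
    (Submodule.smul_mem _ _ (nspan_sa hA
      (A.toStarSubalgebra.smul_mem (sub_mem (star_mem hx) hx) _) ?_))
  · rw [IsSelfAdjoint, star_add, star_star, add_comm]
  · rw [IsSelfAdjoint, star_smul, star_sub, star_star, Complex.star_def, Complex.conj_I, neg_smul,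
      ← smul_neg, neg_sub]


namespace Dn

/-! ### density -/

/-- the span of the normalizer as a star subalgebra -/
def nalg (M A : VonNeumannAlgebra H) : StarSubalgebra ℂ (H →L[ℂ] H) where
  carrier := {x | x ∈ nspan M A}
  mul_mem' := fun hx hy => nspan_mul hx hy
  one_mem' := nspan_one
  add_mem' := fun hx hy => (nspan M A).add_mem hx hy
  zero_mem' := (nspan M A).zero_mem
  algebraMap_mem' := fun c => by
    rw [Algebra.algebraMap_eq_smul_one]
    exact Submodule.smul_mem _ _ nspan_one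
  star_mem' := fun hx => nspan_star hx

theorem mem_nalg {x : H →L[ℂ] H} : x ∈ nalg M A ↔ x ∈ nspan M A := Iff.rfl

theorem cartan_comm (hA : IsCartan A M) {x : H →L[ℂ] H} (hx : x ∈ M) :
    ∀ T : H →L[ℂ] H, (∀ a ∈ nalg M A, a * T = T * a) → x * T = T * x := by
  intro T hT
  exact (hA.2 T (fun u => (hT _ (op_nspan u)).symm) x hx).symm

/-- `ξ` as a vector of the Hilbert sum -/
noncomputable def xvec (hξ : IsTrace M ξ) : P078.L2.Sp ℕ H :=
  ⟨ξ, by
    apply memℓp_gen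
    simpa using hξ.summable⟩

theorem norm_amp_xvec (hξ : IsTrace M ξ) (x : H →L[ℂ] H) :
    ‖P078.L2.amp x (xvec hξ)‖ ^ 2 = n2 ξ x := by
  have h := lp.norm_rpow_eq_tsum (p := 2) (by norm_num) (P078.L2.amp x (xvec hξ))
  simp only [ENNReal.toReal_ofNat, Real.rpow_ofNat] at h
  rw [h]
  rfl

theorem exists_near (hA : IsCartan A M) (hξ : IsTrace M ξ) {x : H →L[ℂ] H} (hx : x ∈ M) {δ : ℝ}
    (hδ : 0 < δ) : ∃ a ∈ nspan M A, Real.sqrt (n2 ξ (a - x)) < δ := by
  obtain ⟨a, ha, h⟩ := P078.L2.exists_approx (nalg M A) (cartan_comm hA hx) (xvec hξ) hδ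
  refine ⟨a, ha, ?_⟩
  rw [← P078.L2.amp_sub] at h
  rw [← norm_amp_xvec hξ, Real.sqrt_sq (norm_nonneg _)]
  have h1 : P078.L2.amp (a - x) (xvec hξ) = - P078.L2.amp (x - a) (xvec hξ) := by
    rw [P078.L2.amp_sub, P078.L2.amp_sub, neg_sub]
  rw [h1, norm_neg]
  exact h

/-! ### the `2`-norm -/

/-- the `2`-norm -/
noncomputable def nn (ξ : ℕ → H) (x : H →L[ℂ] H) : ℝ := Real.sqrt (n2 ξ x)

theorem nn_sq (x : H →L[ℂ] H) : nn ξ x ^ 2 = n2 ξ x := Real.sq_sqrt (n2_nonneg ξ x)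

theorem nn_nonneg (x : H →L[ℂ] H) : 0 ≤ nn ξ x := Real.sqrt_nonneg _

theorem nn_add (hξ : IsTrace M ξ) (x y : H →L[ℂ] H) : nn ξ (x + y) ≤ nn ξ x + nn ξ y :=
  sqrt_n2_add hξ x y

theorem nn_neg (x : H →L[ℂ] H) : nn ξ (-x) = nn ξ x := by rw [nn, n2_neg, nn]

theorem nn_sub (hξ : IsTrace M ξ) (x y : H →L[ℂ] H) : nn ξ (x - y) ≤ nn ξ x + nn ξ y := by
  rw [sub_eq_add_neg, ← nn_neg y]
  exact nn_add hξ _ _

theorem nn_sub_comm (x y : H →L[ℂ] H) : nn ξ (x - y) = nn ξ (y - x) := by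
  rw [← nn_neg (x - y), neg_sub]

theorem nn_triangle (hξ : IsTrace M ξ) (x y z : H →L[ℂ] H) :
    nn ξ (x - z) ≤ nn ξ (x - y) + nn ξ (y - z) := by
  have : x - z = (x - y) + (y - z) := by abel
  rw [this]
  exact nn_add hξ _ _

theorem nn_le (hξ : IsTrace M ξ) (x : H →L[ℂ] H) : nn ξ x ≤ ‖x‖ := by
  rw [nn, ← Real.sqrt_sq (norm_nonneg x)]
  exact Real.sqrt_le_sqrt (n2_le hξ x)

theorem nn_mul (hξ : IsTrace M ξ) (x y : H →L[ℂ] H) : nn ξ (x * y) ≤ ‖x‖ * nn ξ y := by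
  rw [nn, nn, ← Real.sqrt_sq (norm_nonneg x), ← Real.sqrt_mul (by positivity)]
  exact Real.sqrt_le_sqrt (n2_mul_le hξ x y)

theorem nn_mul' (hξ : IsTrace M ξ) {x y : H →L[ℂ] H} (hx : x ∈ M) (hy : y ∈ M) :
    nn ξ (x * y) ≤ nn ξ x * ‖y‖ := by
  rw [nn, nn, ← Real.sqrt_sq (norm_nonneg y), ← Real.sqrt_mul (n2_nonneg ξ x)]
  exact Real.sqrt_le_sqrt (n2_mul_le' hξ hx hy)

theorem nn_star (hξ : IsTrace M ξ) {x : H →L[ℂ] H} (hx : x ∈ M) : nn ξ (star x) = nn ξ x := by
  rw [nn, n2_star hξ hx, nn]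

theorem n2_smul (c : ℂ) (x : H →L[ℂ] H) : n2 ξ (c • x) = ‖c‖ ^ 2 * n2 ξ x := by
  rw [n2, n2, ← tsum_mul_left]
  congr 1
  funext n
  show ‖c • x (ξ n)‖ ^ 2 = _
  rw [norm_smul, mul_pow]

theorem nn_smul (c : ℂ) (x : H →L[ℂ] H) : nn ξ (c • x) = ‖c‖ * nn ξ x := by
  rw [nn, n2_smul, Real.sqrt_mul (by positivity), Real.sqrt_sq (norm_nonneg c), nn]

/-- self-adjoint approximations -/
theorem exists_near_sa (hA : IsCartan A M) (hξ : IsTrace M ξ) {x : H →L[ℂ] H} (hx : x ∈ M)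
    (hsa : IsSelfAdjoint x) {δ : ℝ} (hδ : 0 < δ) :
    ∃ a ∈ nspan M A, IsSelfAdjoint a ∧ nn ξ (a - x) < δ := by
  obtain ⟨a, ha, h⟩ := exists_near hA hξ hx hδ
  change nn ξ (a - x) < δ at h
  refine ⟨(1 / 2 : ℂ) • (a + star a), Submodule.smul_mem _ _ (add_mem ha (nspan_star ha)), ?_, ?_⟩
  · rw [IsSelfAdjoint, star_smul, star_add, star_star, add_comm]
    congr 1
    norm_num
  · have h1 : (1 / 2 : ℂ) • (a + star a) - x
        = (1 / 2 : ℂ) • (a - x) + (1 / 2 : ℂ) • star (a - x) := by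
      rw [star_sub, hsa.star_eq]
      module
    rw [h1]
    have h2 := nn_add hξ ((1 / 2 : ℂ) • (a - x)) ((1 / 2 : ℂ) • star (a - x))
    rw [nn_smul, nn_smul, nn_star hξ (sub_mem (nspan_le ha) hx)] at h2
    have h3 : ‖(1 / 2 : ℂ)‖ = 1 / 2 := by norm_num
    rw [h3] at h2
    linarith only [h, h2]


/-! ### functional calculus -/

theorem cfc_mem_M (N : VonNeumannAlgebra H) {x : H →L[ℂ] H} (hx : x ∈ N) (f : ℝ → ℝ) :
    cfc f x ∈ N := by
  apply mem_of_forall_commute N hx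
  intro y hy
  exact (hy.symm.cfc_real f).symm

theorem exists_z {y : H →L[ℂ] H} (hy : IsSelfAdjoint y) (h1 : ‖y‖ ≤ 1) :
    ∃ g : ℝ → ℝ, y * (1 + cfc g y * cfc g y) = (2 : ℂ) • cfc g y := by
  refine ⟨fun s => s / (1 + Real.sqrt (1 - s ^ 2)), ?_⟩
  set g : ℝ → ℝ := fun s => s / (1 + Real.sqrt (1 - s ^ 2)) with hg
  have hgc : Continuous g := by
    apply Continuous.div continuous_id (by fun_prop)
    intro s
    have := Real.sqrt_nonneg (1 - s ^ 2)
    positivity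
  have e1 : y * (1 + cfc g y * cfc g y) = cfc (fun s => s * (1 + g s * g s)) y := by
    rw [cfc_mul (fun s => s) (fun s => 1 + g s * g s) y, cfc_id' ℝ y,
      cfc_const_add 1 (fun s => g s * g s) y, cfc_mul g g y]
    congr 2
    simp
  have e2 : (2 : ℂ) • cfc g y = cfc (fun s => 2 * g s) y := by
    rw [cfc_const_mul 2 g y]
    rw [two_smul, two_smul]
  rw [e1, e2]
  apply cfc_congr
  intro s hs
  have hs1 : |s| ≤ 1 := by
    have h5 := spectrum.norm_le_norm_mul_of_mem hs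
    have h6 : ‖(1 : H →L[ℂ] H)‖ ≤ 1 := ContinuousLinearMap.norm_id_le
    rw [← Real.norm_eq_abs]
    linarith only [mul_nonneg (sub_nonneg.2 h6) (sub_nonneg.2 (norm_nonneg (1 : H →L[ℂ] H))), mul_nonneg (sub_nonneg.2 h6) (sub_nonneg.2 h6), mul_nonneg (sub_nonneg.2 h5) (sub_nonneg.2 (norm_nonneg (1 : H →L[ℂ] H))), mul_nonneg (sub_nonneg.2 h5) (sub_nonneg.2 h6), mul_nonneg (sub_nonneg.2 h1) (sub_nonneg.2 (norm_nonneg (1 : H →L[ℂ] H)))]
  have hs2 : s ^ 2 ≤ 1 := by
    rw [← sq_abs]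
    have := abs_nonneg s
    linarith only [mul_nonneg (sub_nonneg.2 hs1) (sub_nonneg.2 this), mul_nonneg (sub_nonneg.2 hs1) (sub_nonneg.2 hs1)]
  have hw := Real.sq_sqrt (show 0 ≤ 1 - s ^ 2 by linarith only [hs2])
  have hw0 := Real.sqrt_nonneg (1 - s ^ 2)
  simp only [hg]
  set w := Real.sqrt (1 - s ^ 2) with hwdef
  have h3 : (1 + w) ≠ 0 := by (clear * -; positivity)
  have h4 : s ^ 2 = 1 - w ^ 2 := by linarith only [hw]
  field_simp
  rw [h4]
  ring

/-- the function `2 t / (1 + t ^ 2)` -/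
noncomputable def ff (t : ℝ) : ℝ := 2 * t / (1 + t ^ 2)

theorem continuous_ff : Continuous ff := by
  apply Continuous.div (by fun_prop) (by fun_prop)
  intro t
  positivity

theorem abs_ff_le (t : ℝ) : |ff t| ≤ 1 := by
  rw [ff, abs_div, div_le_one (by positivity), abs_of_pos (by positivity : (0 : ℝ) < 1 + t ^ 2),
    abs_le]
  constructor <;> linarith only [sq_nonneg (t - 1), sq_nonneg (t + 1)]

theorem norm_cfc_le' {z : H →L[ℂ] H} {f : ℝ → ℝ} {c : ℝ} (hc : 0 ≤ c) (h : ∀ t, |f t| ≤ c) :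
    ‖cfc f z‖ ≤ c := norm_cfc_le hc fun t _ => by rw [Real.norm_eq_abs]; exact h t

/-- the function `1 / (1 + t ^ 2)` -/
noncomputable def rr (t : ℝ) : ℝ := (1 + t ^ 2)⁻¹

theorem continuous_rr : Continuous rr := by
  apply Continuous.inv₀ (by fun_prop)
  intro t
  positivity

theorem mul_rr (t : ℝ) : (1 + t * t) * rr t = 1 := by
  have : (1 + t ^ 2) ≠ 0 := by positivity
  rw [rr]
  field_simp

/-- the resolvent identities of `z` -/
theorem ff_identities {z : H →L[ℂ] H} (hz : IsSelfAdjoint z) :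
    (1 + z * z) * cfc rr z = 1 ∧ cfc rr z * (1 + z * z) = 1 ∧
    cfc ff z = (2 : ℂ) • (z * cfc rr z) ∧ cfc ff z = (2 : ℂ) • (cfc rr z * z) := by
  have hc : ContinuousOn rr (spectrum ℝ z) := continuous_rr.continuousOn
  have hp : ContinuousOn (fun t : ℝ => 1 + t * t) (spectrum ℝ z) :=
    Continuous.continuousOn (by fun_prop)
  have hi : ContinuousOn (fun t : ℝ => t) (spectrum ℝ z) := continuousOn_id
  have e1 : (1 + z * z) = cfc (fun t : ℝ => 1 + t * t) z := by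
    rw [cfc_const_add 1 (fun t => t * t) z, cfc_mul (fun t => t) (fun t => t) z, cfc_id' ℝ z]
    congr 1
    simp
  have e3 : (2 : ℂ) • (z * cfc rr z) = cfc ff z := by
    have e2 : z * cfc rr z = cfc (fun t : ℝ => t * rr t) z := by
      rw [cfc_mul (fun t : ℝ => t) rr z hi hc, cfc_id' ℝ z]
    have e4 : (2 : ℂ) • cfc (fun t : ℝ => t * rr t) z = (2 : ℝ) • cfc (fun t : ℝ => t * rr t) z := by
      rw [two_smul, two_smul]
    rw [e2, e4, ← cfc_smul (2 : ℝ) (fun t : ℝ => t * rr t) z (hi.mul hc)]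
    apply cfc_congr
    intro t _
    simp only [ff, rr, smul_eq_mul]
    ring
  have e5 : Commute z (cfc rr z) := by
    have : Commute z z := Commute.refl z
    exact (this.cfc_real rr).symm
  refine ⟨?_, ?_, e3.symm, ?_⟩
  · rw [e1, ← cfc_mul (fun t : ℝ => 1 + t * t) rr z hp hc, ← cfc_one ℝ z]
    apply cfc_congr
    intro t _
    exact mul_rr t
  · rw [e1, ← cfc_mul rr (fun t : ℝ => 1 + t * t) z hc hp, ← cfc_one ℝ z]
    apply cfc_congr
    intro t _
    simp only [Pi.one_apply]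
    rw [mul_comm, mul_rr t]
  · rw [← e3, e5.eq]

/-- `f` is Lipschitz for the `2`-norm at the points `f (z)` -/
theorem nn_ff (hξ : IsTrace M ξ) {y z z' : H →L[ℂ] H} (hyM : y ∈ M) (hz : z ∈ M)
    (hzs : IsSelfAdjoint z) (hz' : z' ∈ M) (hzs' : IsSelfAdjoint z') (hy1 : ‖y‖ ≤ 1)
    (hy : y * (1 + z * z) = (2 : ℂ) • z) :
    nn ξ (cfc ff z' - y) ≤ 3 * nn ξ (z' - z) := by
  set R : H →L[ℂ] H := cfc rr z with hR
  set R' : H →L[ℂ] H := cfc rr z' with hR'
  obtain ⟨a1, a2, a3, a4⟩ := ff_identities hzs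
  obtain ⟨b1, b2, b3, b4⟩ := ff_identities hzs'
  rw [← hR] at a1 a2 a3 a4
  rw [← hR'] at b1 b2 b3 b4
  have hRb : ∀ t : ℝ, |rr t| ≤ 1 := by
    intro t
    rw [rr, abs_of_nonneg (by (clear * -; positivity))]
    exact inv_le_one_of_one_le₀ (by linarith only [sq_nonneg t])
  have hRn : ‖R‖ ≤ 1 := norm_cfc_le' zero_le_one hRb
  have hRn' : ‖R'‖ ≤ 1 := norm_cfc_le' zero_le_one hRb
  have hfn' : ‖cfc ff z'‖ ≤ 1 := norm_cfc_le' zero_le_one abs_ff_le
  have hRM : R ∈ M := cfc_mem_M M hz _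
  have hfM' : cfc ff z' ∈ M := cfc_mem_M M hz' _
  have hyR : y = (2 : ℂ) • (z * R) := by
    calc y = y * ((1 + z * z) * R) := by rw [a1, mul_one]
      _ = (y * (1 + z * z)) * R := by rw [mul_assoc]
      _ = (2 : ℂ) • (z * R) := by rw [hy, smul_mul_assoc]
  have key : cfc ff z' - y = (2 : ℂ) • (R' * ((z' - z) * R))
      - (1 / 2 : ℂ) • (cfc ff z' * ((z' - z) * y)) := by
    have c1 : cfc ff z' - y = R' * ((1 + z' * z') * (cfc ff z' - y) * (1 + z * z)) * R := by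
      have d1 : R' * ((1 + z' * z') * (cfc ff z' - y) * (1 + z * z)) * R
          = (R' * (1 + z' * z')) * (cfc ff z' - y) * ((1 + z * z) * R) := by
        simp only [mul_assoc]
      rw [d1, b2, a1, one_mul, mul_one]
    have c2 : (1 + z' * z') * (cfc ff z' - y) * (1 + z * z)
        = (2 : ℂ) • ((z' - z) - z' * (z' - z) * z) := by
      have d1 : (1 + z' * z') * cfc ff z' = (2 : ℂ) • z' := by
        have d2 : (1 + z' * z') * z' = z' * (1 + z' * z') := by noncomm_ring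
        rw [b3, mul_smul_comm, ← mul_assoc, d2, mul_assoc, b1, mul_one]
      have d3 : (1 + z' * z') * (cfc ff z' - y) * (1 + z * z)
          = ((1 + z' * z') * cfc ff z') * (1 + z * z)
            - (1 + z' * z') * (y * (1 + z * z)) := by noncomm_ring
      rw [d3, d1, hy, smul_mul_assoc, mul_smul_comm, ← smul_sub]
      congr 1
      noncomm_ring
    rw [c1, c2, hyR]
    conv_rhs => rw [b4]
    simp only [mul_smul_comm, smul_mul_assoc, smul_smul, mul_sub, sub_mul, smul_sub]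
    norm_num
    simp only [mul_assoc]
  rw [key]
  have s1 : nn ξ ((2 : ℂ) • (R' * ((z' - z) * R))) ≤ 2 * nn ξ (z' - z) := by
    rw [nn_smul]
    have t1 := nn_mul hξ R' ((z' - z) * R)
    have t2 := nn_mul' hξ (sub_mem hz' hz) hRM
    have t3 : ‖(2 : ℂ)‖ = 2 := by norm_num
    rw [t3]
    have t4 : nn ξ ((z' - z) * R) ≤ nn ξ (z' - z) := by
      linarith only [mul_nonneg (sub_nonneg.2 hRn) (sub_nonneg.2 (nn_nonneg (ξ := ξ) (z' - z))), t2]
    nlinarith only [hRn', t1, t4, nn_nonneg (ξ := ξ) ((z' - z) * R), norm_nonneg R']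
  have s2 : nn ξ ((1 / 2 : ℂ) • (cfc ff z' * ((z' - z) * y))) ≤ 1 / 2 * nn ξ (z' - z) := by
    rw [nn_smul]
    have t1 := nn_mul hξ (cfc ff z') ((z' - z) * y)
    have t2 := nn_mul' hξ (sub_mem hz' hz) hyM
    have t3 : ‖(1 / 2 : ℂ)‖ = 1 / 2 := by norm_num
    rw [t3]
    have t4 : nn ξ ((z' - z) * y) ≤ nn ξ (z' - z) := by
      linarith only [mul_nonneg (sub_nonneg.2 hy1) (sub_nonneg.2 (nn_nonneg (ξ := ξ) (z' - z))), t2]
    nlinarith only [hfn', t1, t4, nn_nonneg (ξ := ξ) ((z' - z) * y), norm_nonneg (cfc ff z')]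
  have s3 := nn_sub hξ ((2 : ℂ) • (R' * ((z' - z) * R)))
    ((1 / 2 : ℂ) • (cfc ff z' * ((z' - z) * y)))
  linarith only [s1, s2, s3, nn_nonneg (ξ := ξ) (z' - z)]


/-! ### order and norm -/

theorem le_smul_one_iff {x : H →L[ℂ] H} (hx : IsSelfAdjoint x) (a : ℝ) :
    x ≤ (a : ℂ) • (1 : H →L[ℂ] H) ↔ ∀ v, (inner ℂ (x v) v).re ≤ a * ‖v‖ ^ 2 := by
  have hs : IsSelfAdjoint ((a : ℂ) • (1 : H →L[ℂ] H) - x) := by
    refine IsSelfAdjoint.sub ?_ hx
    rw [IsSelfAdjoint, star_smul, star_one, Complex.star_def, Complex.conj_ofReal]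
  have hv : ∀ v, (inner ℂ (((a : ℂ) • (1 : H →L[ℂ] H) - x) v) v).re
      = a * ‖v‖ ^ 2 - (inner ℂ (x v) v).re := by
    intro v
    have : ((a : ℂ) • (1 : H →L[ℂ] H) - x) v = (a : ℂ) • v - x v := rfl
    rw [this, inner_sub_left, Complex.sub_re, inner_smul_left, Complex.conj_ofReal,
      Complex.re_ofReal_mul, inner_self_eq_norm_sq_to_K]
    norm_cast
  rw [ContinuousLinearMap.le_def, ContinuousLinearMap.isPositive_def']
  constructor
  · intro h v
    have h1 := h.2 v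
    rw [ContinuousLinearMap.reApplyInnerSelf_apply] at h1
    change 0 ≤ (inner ℂ (((a : ℂ) • (1 : H →L[ℂ] H) - x) v) v).re at h1
    rw [hv] at h1
    linarith only [h1]
  · intro h
    refine ⟨hs, fun v => ?_⟩
    rw [ContinuousLinearMap.reApplyInnerSelf_apply]
    change 0 ≤ (inner ℂ (((a : ℂ) • (1 : H →L[ℂ] H) - x) v) v).re
    rw [hv]
    linarith only [h v]

theorem neg_smul_one_le_iff {x : H →L[ℂ] H} (hx : IsSelfAdjoint x) (b : ℝ) :
    -((b : ℂ) • (1 : H →L[ℂ] H)) ≤ x ↔ ∀ v, -(b * ‖v‖ ^ 2) ≤ (inner ℂ (x v) v).re := by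
  rw [neg_le, le_smul_one_iff hx.neg]
  constructor
  · intro h v
    have := h v
    have e : ((-x) v) = -(x v) := rfl
    rw [e, inner_neg_left, Complex.neg_re] at this
    linarith only [this]
  · intro h v
    have := h v
    have e : ((-x) v) = -(x v) := rfl
    rw [e, inner_neg_left, Complex.neg_re]
    linarith only [this]

theorem norm_le_of_bounds {x : H →L[ℂ] H} (hx : IsSelfAdjoint x) {c : ℝ} (hc : 0 ≤ c)
    (h1 : x ≤ (c : ℂ) • (1 : H →L[ℂ] H)) (h2 : -((c : ℂ) • (1 : H →L[ℂ] H)) ≤ x) : ‖x‖ ≤ c := by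
  rw [le_smul_one_iff hx] at h1
  rw [neg_smul_one_le_iff hx] at h2
  refine norm_le_of_rayleigh hx hc fun v => ?_
  rw [abs_le]
  exact ⟨h2 v, h1 v⟩

theorem abs_re_inner_le {x : H →L[ℂ] H} {c : ℝ} (h : ‖x‖ ≤ c) (v : H) :
    |(inner ℂ (x v) v).re| ≤ c * ‖v‖ ^ 2 := by
  refine (Complex.abs_re_le_norm _).trans ((norm_inner_le_norm _ _).trans ?_)
  have h1 := x.le_of_opNorm_le h v
  nlinarith only [h1, norm_nonneg v]

theorem pow_nspan {x : H →L[ℂ] H} (hx : x ∈ nspan M A) (n : ℕ) : x ^ n ∈ nspan M A := by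
  induction n with
  | zero => rw [pow_zero]; exact nspan_one
  | succ n ih => rw [pow_succ]; exact nspan_mul ih hx

theorem aeval_nspan {x : H →L[ℂ] H} (hx : x ∈ nspan M A) (p : Polynomial ℝ) :
    Polynomial.aeval x p ∈ nspan M A := by
  rw [Polynomial.aeval_eq_sum_range]
  refine sum_mem fun i _ => ?_
  have : p.coeff i • x ^ i = ((p.coeff i : ℝ) : ℂ) • x ^ i := by
    rw [Complex.coe_smul]
  rw [this]
  exact Submodule.smul_mem _ _ (pow_nspan hx i)

/-- Kaplansky density for self-adjoint contractions -/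
theorem kap_sym (hA : IsCartan A M) (hξ : IsTrace M ξ) {y : H →L[ℂ] H} (hy : y ∈ M)
    (hsa : IsSelfAdjoint y) (h1 : ‖y‖ ≤ 1) {δ : ℝ} (hδ : 0 < δ) :
    ∃ y' ∈ nspan M A, IsSelfAdjoint y' ∧ ‖y'‖ ≤ 1 + δ ∧ nn ξ (y' - y) ≤ δ := by
  obtain ⟨g, hg⟩ := exists_z hsa h1
  set z : H →L[ℂ] H := cfc g y with hz
  have hzM : z ∈ M := cfc_mem_M M hy g
  have hzs : IsSelfAdjoint z := cfc_predicate g y
  obtain ⟨z', hz', hzs', hzz⟩ := exists_near_sa hA hξ hzM hzs (show 0 < δ / 6 by positivity)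
  have h2 := nn_ff hξ hy hzM hzs (nspan_le hz') hzs' h1 hg
  obtain ⟨p, hp⟩ := exists_polynomial_near_of_continuousOn (-‖z'‖) ‖z'‖ ff
    continuous_ff.continuousOn (δ / 2) (by (clear * - hδ; positivity))
  have h3 : ‖Polynomial.aeval z' p - cfc ff z'‖ ≤ δ / 2 := by
    rw [← cfc_polynomial p z' hzs',
      ← cfc_sub (fun t => p.eval t) ff z' (Polynomial.continuous p).continuousOn
        continuous_ff.continuousOn]
    refine norm_cfc_le (by (clear * - hδ; positivity)) fun t ht => ?_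
    rw [Real.norm_eq_abs]
    refine (hp t ?_).le
    have h5 := spectrum.norm_le_norm_mul_of_mem ht
    have h6 : ‖(1 : H →L[ℂ] H)‖ ≤ 1 := ContinuousLinearMap.norm_id_le
    rw [Real.norm_eq_abs] at h5
    have h7 : |t| ≤ ‖z'‖ := by linarith only [mul_nonneg (sub_nonneg.2 h6) (sub_nonneg.2 (norm_nonneg z')), mul_nonneg (sub_nonneg.2 h5) (sub_nonneg.2 (norm_nonneg (1 : H →L[ℂ] H))), mul_nonneg (sub_nonneg.2 h5) (sub_nonneg.2 h6)]
    exact abs_le.1 h7
  refine ⟨Polynomial.aeval z' p, aeval_nspan hz' p, ?_, ?_, ?_⟩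
  · rw [← cfc_polynomial p z' hzs']
    exact cfc_predicate _ _
  · have h4 : ‖cfc ff z'‖ ≤ 1 := norm_cfc_le' zero_le_one abs_ff_le
    have h5 : Polynomial.aeval z' p = (Polynomial.aeval z' p - cfc ff z') + cfc ff z' := by abel
    rw [h5]
    refine (norm_add_le _ _).trans ?_
    linarith only [h4, h3, hδ]
  · refine (nn_triangle hξ _ (cfc ff z') _).trans ?_
    have h4 := (nn_le hξ (Polynomial.aeval z' p - cfc ff z')).trans h3
    linarith only [hzz, h2, h4]

end Dn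

/-- Kaplansky density in the `2`-norm, keeping bounds -/
theorem kaplansky (hA : IsCartan A M) (hξ : IsTrace M ξ) {x : H →L[ℂ] H} (hx : x ∈ M)
    (hsa : IsSelfAdjoint x) {a b : ℝ} (ha : x ≤ (a : ℂ) • (1 : H →L[ℂ] H))
    (hb : -((b : ℂ) • (1 : H →L[ℂ] H)) ≤ x) {δ : ℝ} (hδ : 0 < δ) :
    ∃ x' ∈ nspan M A, IsSelfAdjoint x' ∧ x' ≤ ((a + δ : ℝ) : ℂ) • (1 : H →L[ℂ] H) ∧
      -(((b + δ : ℝ) : ℂ) • (1 : H →L[ℂ] H)) ≤ x' ∧ n2 ξ (x' - x) ≤ δ := by
  have ha' := (le_smul_one_iff hsa a).1 ha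
  have hb' := (neg_smul_one_le_iff hsa b).1 hb
  rcases subsingleton_or_nontrivial H with hH | hH
  · have e : ∀ S T : H →L[ℂ] H, S = T := fun S T => by ext v; exact Subsingleton.elim _ _
    refine ⟨0, zero_mem _, (IsSelfAdjoint.zero _), ?_, ?_, ?_⟩
    · rw [e 0 (((a + δ : ℝ) : ℂ) • (1 : H →L[ℂ] H))]
    · rw [e 0 (-(((b + δ : ℝ) : ℂ) • (1 : H →L[ℂ] H)))]
    · rw [e (0 - x) 0, n2]
      simp [hδ.le]
  obtain ⟨v0, hv0⟩ := exists_ne (0 : H)
  have hab : 0 ≤ a + b := by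
    have h1 := ha' v0
    have h2 := hb' v0
    have h3 : 0 < ‖v0‖ ^ 2 := by (clear * - hv0; positivity)
    by_contra h4
    push Not at h4
    linarith only [mul_pos (sub_pos.2 h3) (sub_pos.2 h4), h2, h1]
  set r : ℝ := (a + b) / 2 with hr
  set c : ℝ := (a - b) / 2 with hc
  have hr0 : 0 ≤ r := by rw [hr]; (clear * - hab; positivity)
  rcases hr0.eq_or_lt with hr1 | hr1
  · -- `x` is a scalar
    have hba : b = -a := by linarith only [hab, hr, hr1]
    have hxa : x = (a : ℂ) • (1 : H →L[ℂ] H) := by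
      apply le_antisymm ha
      rw [hba] at hb
      simpa using hb
    refine ⟨x, ?_, hsa, ?_, ?_, ?_⟩
    · rw [hxa]; exact Submodule.smul_mem _ _ nspan_one
    · rw [le_smul_one_iff hsa]
      intro v
      have := ha' v
      linarith only [mul_nonneg (le_of_lt (sub_pos.2 hδ)) (sq_nonneg ‖v‖), this]
    · rw [neg_smul_one_le_iff hsa]
      intro v
      have := hb' v
      linarith only [mul_nonneg (le_of_lt (sub_pos.2 hδ)) (sq_nonneg ‖v‖), this]
    · rw [sub_self, n2]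
      simp [hδ.le]
  · set y : H →L[ℂ] H := ((r⁻¹ : ℝ) : ℂ) • (x - (c : ℂ) • (1 : H →L[ℂ] H)) with hy
    have hone : IsSelfAdjoint ((c : ℂ) • (1 : H →L[ℂ] H)) := by
      rw [IsSelfAdjoint, star_smul, star_one, Complex.star_def, Complex.conj_ofReal]
    have hys : IsSelfAdjoint y := by
      rw [hy, IsSelfAdjoint, star_smul, (hsa.sub hone).star_eq, Complex.star_def,
        Complex.conj_ofReal]
    have hyM : y ∈ M := M.toStarSubalgebra.smul_mem
      (sub_mem hx (M.toStarSubalgebra.smul_mem (one_mem M) _)) _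
    have hyv : ∀ v, (inner ℂ (y v) v).re = r⁻¹ * ((inner ℂ (x v) v).re - c * ‖v‖ ^ 2) := by
      intro v
      have : y v = ((r⁻¹ : ℝ) : ℂ) • (x v - (c : ℂ) • v) := rfl
      rw [this, inner_smul_left, Complex.conj_ofReal, Complex.re_ofReal_mul, inner_sub_left,
        Complex.sub_re, inner_smul_left, Complex.conj_ofReal, Complex.re_ofReal_mul,
        inner_self_eq_norm_sq_to_K]
      norm_cast
    have hy1 : ‖y‖ ≤ 1 := by
      refine norm_le_of_rayleigh hys zero_le_one fun v => ?_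
      change |(inner ℂ (y v) v).re| ≤ _
      rw [hyv, abs_mul, abs_of_pos (inv_pos.2 hr1), inv_mul_le_iff₀ hr1, abs_le]
      have h1 := ha' v
      have h2 := hb' v
      constructor <;> nlinarith only [hr, hc, h2, h1]
    obtain ⟨y', hy', hys', hyn, hyy⟩ := kap_sym hA hξ hyM hys hy1
      (δ := min (δ / r) (Real.sqrt δ / r)) (by (clear * - hδ hr1; positivity))
    have hyn1 : ‖y'‖ ≤ 1 + δ / r := hyn.trans (by gcongr; exact min_le_left _ _)
    have hyy1 : nn ξ (y' - y) ≤ Real.sqrt δ / r := hyy.trans (min_le_right _ _)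
    have hxs' : IsSelfAdjoint ((r : ℂ) • y' + (c : ℂ) • (1 : H →L[ℂ] H)) := by
      refine IsSelfAdjoint.add ?_ hone
      rw [IsSelfAdjoint, star_smul, hys'.star_eq, Complex.star_def, Complex.conj_ofReal]
    have hxv' : ∀ v, (inner ℂ (((r : ℂ) • y' + (c : ℂ) • (1 : H →L[ℂ] H)) v) v).re
        = r * (inner ℂ (y' v) v).re + c * ‖v‖ ^ 2 := by
      intro v
      have : ((r : ℂ) • y' + (c : ℂ) • (1 : H →L[ℂ] H)) v = (r : ℂ) • y' v + (c : ℂ) • v := rfl
      rw [this, inner_add_left, Complex.add_re, inner_smul_left, Complex.conj_ofReal,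
        Complex.re_ofReal_mul, inner_smul_left, Complex.conj_ofReal,
        Complex.re_ofReal_mul, inner_self_eq_norm_sq_to_K]
      norm_cast
    have hyb : ∀ v, |(inner ℂ (y' v) v).re| ≤ (1 + δ / r) * ‖v‖ ^ 2 := abs_re_inner_le hyn1
    have hrr : r * (1 + δ / r) = r + δ := by field_simp
    refine ⟨(r : ℂ) • y' + (c : ℂ) • (1 : H →L[ℂ] H),
      add_mem (Submodule.smul_mem _ _ hy') (Submodule.smul_mem _ _ nspan_one), hxs', ?_, ?_, ?_⟩
    · rw [le_smul_one_iff hxs']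
      intro v
      rw [hxv']
      have h1 := (abs_le.1 (hyb v)).2
      have h2 : r * (inner ℂ (y' v) v).re ≤ r * ((1 + δ / r) * ‖v‖ ^ 2) :=
        mul_le_mul_of_nonneg_left h1 hr0
      rw [← mul_assoc, hrr] at h2
      have h3 : a = r + c := by rw [hr, hc]; ring
      rw [h3]
      linarith only [h2]
    · rw [neg_smul_one_le_iff hxs']
      intro v
      rw [hxv']
      have h1 := (abs_le.1 (hyb v)).1
      have h2 : r * (-((1 + δ / r) * ‖v‖ ^ 2)) ≤ r * (inner ℂ (y' v) v).re :=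
        mul_le_mul_of_nonneg_left h1 hr0
      rw [mul_neg, ← mul_assoc, hrr] at h2
      have h3 : b = r - c := by rw [hr, hc]; ring
      rw [h3]
      linarith only [h2]
    · have e1 : (r : ℂ) • y' + (c : ℂ) • (1 : H →L[ℂ] H) - x = (r : ℂ) • (y' - y) := by
        rw [hy, smul_sub, smul_smul, ← Complex.ofReal_mul, mul_inv_cancel₀ hr1.ne',
          Complex.ofReal_one, one_smul]
        abel
      rw [e1, ← nn_sq, nn_smul, Complex.norm_real, Real.norm_of_nonneg hr0]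
      have h1 : r * nn ξ (y' - y) ≤ Real.sqrt δ := by
        calc r * nn ξ (y' - y) ≤ r * (Real.sqrt δ / r) := mul_le_mul_of_nonneg_left hyy1 hr0
          _ = Real.sqrt δ := by field_simp
      have h2 : 0 ≤ r * nn ξ (y' - y) := mul_nonneg hr0 (nn_nonneg _)
      calc (r * nn ξ (y' - y)) ^ 2 ≤ Real.sqrt δ ^ 2 := pow_le_pow_left₀ h2 h1 2
        _ = δ := Real.sq_sqrt hδ.le


namespace Dn

/-! ### the expectation -/

theorem vtr_sub (hξ : IsTrace M ξ) (x y : H →L[ℂ] H) : vtr ξ (x - y) = vtr ξ x - vtr ξ y := by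
  have h1 : x - y = x + (-1 : ℂ) • y := by
    rw [neg_smul, one_smul, sub_eq_add_neg]
  rw [h1, vtr_add hξ, vtr_smul hξ]
  ring

theorem n2_E_le (hξ : IsTrace M ξ) (hA : SO.IsMASA A M) (hE : IsTrExp M A ξ E) {y : H →L[ℂ] H}
    (hy : y ∈ M) : n2 ξ (E y) ≤ n2 ξ y := by
  have hEy : E y ∈ A := hE.mem y hy
  have hEyM : E y ∈ M := hA.1 _ hEy
  have h0 : 0 ≤ n2 ξ (y - E y) := n2_nonneg _ _
  have e1 : vtr ξ (star y * E y) = vtr ξ (star (E y) * E y) := by
    rw [← hE.tr _ (mul_mem (star_mem hy) hEyM)]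
    have h1 := hE.bimod 1 (one_mem A) (E y) hEy (star y) (star_mem hy)
    rw [one_mul, one_mul] at h1
    rw [h1, hE.star y hy]
  have e2 : vtr ξ (star (E y) * y) = vtr ξ (star (E y) * E y) := by
    rw [← hE.tr _ (mul_mem (star_mem hEyM) hy)]
    have h1 := hE.bimod (star (E y)) (star_mem hEy) 1 (one_mem A) y hy
    rw [mul_one, mul_one] at h1
    rw [h1]
  rw [n2_eq hξ] at h0 ⊢
  rw [n2_eq hξ]
  have e3 : star (y - E y) * (y - E y)
      = (star y * y - star y * E y) - (star (E y) * y - star (E y) * E y) := by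
    rw [star_sub, sub_mul, mul_sub, mul_sub]
  rw [e3, vtr_sub hξ, vtr_sub hξ, vtr_sub hξ, e1, e2] at h0
  simp only [Complex.sub_re] at h0
  linarith only [h0]

theorem nn_E_le (hξ : IsTrace M ξ) (hA : SO.IsMASA A M) (hE : IsTrExp M A ξ E) {y : H →L[ℂ] H}
    (hy : y ∈ M) : nn ξ (E y) ≤ nn ξ y := Real.sqrt_le_sqrt (n2_E_le hξ hA hE hy)

/-- cutting an element of `A` -/
theorem exists_cut (hξ : IsTrace M ξ) (hA : SO.IsMASA A M) {d : H →L[ℂ] H} (hd : d ∈ A)
    {t : ℝ} (ht : 0 < t) :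
    ∃ e ∈ A, IsStarProjection e ∧ (∀ v, ‖d (e v)‖ ≤ t * ‖e v‖) ∧
      nn ξ (1 - e) ≤ nn ξ d / t := by
  have hsa : IsSelfAdjoint (star d * d) := IsSelfAdjoint.star_mul_self d
  obtain ⟨f, hf, hfc, hf1, hf0⟩ := exists_spectral_proj (star d * d) hsa (t ^ 2)
  have hfA : f ∈ A := by
    apply mem_of_forall_commute A (mul_mem (star_mem hd) hd)
    intro y hy
    exact hfc y hy
  have hin : ∀ ζ, (inner ℂ ζ ((star d * d) ζ)).re = ‖d ζ‖ ^ 2 := by
    intro ζ
    have h1 : inner ℂ ζ ((star d * d) ζ) = inner ℂ (d ζ) (d ζ) := by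
      show inner ℂ ζ (star d (d ζ)) = _
      rw [ContinuousLinearMap.star_eq_adjoint, ContinuousLinearMap.adjoint_inner_right]
    rw [h1, inner_self_eq_norm_sq_to_K]
    norm_cast
  have hff : ∀ v, f (f v) = f v := fun v => by
    have := DFunLike.congr_fun hf.isIdempotentElem v
    exact this
  refine ⟨1 - f, sub_mem (one_mem A) hfA, hf.one_sub, ?_, ?_⟩
  · intro v
    have h1 : f ((1 - f) v) = 0 := by
      show f (v - f v) = 0
      rw [map_sub, hff, sub_self]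
    have h2 := hf0 _ h1
    rw [hin] at h2
    have h3 : 0 ≤ t * ‖(1 - f) v‖ := by (clear * - ht; positivity)
    rw [← mul_pow] at h2
    exact (pow_le_pow_iff_left₀ (norm_nonneg _) h3 (by norm_num)).1 h2
  · rw [sub_sub_cancel, le_div_iff₀ ht]
    have h1 : ∀ n, t ^ 2 * ‖f (ξ n)‖ ^ 2 ≤ ‖(d * f) (ξ n)‖ ^ 2 := by
      intro n
      have h2 := hf1 _ (hff (ξ n))
      rw [hin] at h2
      exact h2
    have h2 : t ^ 2 * n2 ξ f ≤ n2 ξ (d * f) := by
      rw [n2, n2, ← tsum_mul_left]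
      exact Summable.tsum_le_tsum h1 ((n2_summable hξ f).mul_left _) (n2_summable hξ _)
    have hdM : d ∈ M := hA.1 _ hd
    have hfM : f ∈ M := hA.1 _ hfA
    have h3 : nn ξ (d * f) ≤ nn ξ d := by
      refine (nn_mul' hξ hdM hfM).trans ?_
      have h4 : ‖f‖ ≤ 1 := by
        refine ContinuousLinearMap.opNorm_le_bound _ zero_le_one fun v => ?_
        rw [one_mul]
        exact proj_norm_le hf v
      linarith only [mul_nonneg (sub_nonneg.2 h4) (sub_nonneg.2 (nn_nonneg (ξ := ξ) d))]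
    have h4 : (nn ξ f * t) ^ 2 ≤ nn ξ d ^ 2 := by
      rw [mul_pow, nn_sq, mul_comm]
      refine h2.trans ?_
      rw [← nn_sq]
      exact pow_le_pow_left₀ (nn_nonneg _) h3 2
    exact (pow_le_pow_iff_left₀ (mul_nonneg (nn_nonneg _) ht.le) (nn_nonneg _) (by norm_num)).1 h4

end Dn

/-- approximation of elements of expectation close to zero by elements of the span of the
normalizer of expectation zero, keeping bounds -/
theorem approx_zero (hA : IsCartan A M) (hξ : IsTrace M ξ) (hE : IsTrExp M A ξ E) {a b : ℝ}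
    (ha0 : 0 ≤ a) (hb0 : 0 ≤ b) {δ : ℝ} (hδ : 0 < δ) :
    ∃ δ' : ℝ, 0 < δ' ∧ ∀ x ∈ M, IsSelfAdjoint x → x ≤ (a : ℂ) • (1 : H →L[ℂ] H) →
      -((b : ℂ) • (1 : H →L[ℂ] H)) ≤ x → n2 ξ (E x) ≤ δ' →
      ∃ x' ∈ nspan M A, IsSelfAdjoint x' ∧ E x' = 0 ∧
        x' ≤ ((a + δ : ℝ) : ℂ) • (1 : H →L[ℂ] H) ∧
        -(((b + δ : ℝ) : ℂ) • (1 : H →L[ℂ] H)) ≤ x' ∧ n2 ξ (x' - x) ≤ δ := by
  have hM := hA.1
  set t : ℝ := δ / 2 with ht
  have ht0 : 0 < t := by positivity
  set R : ℝ := a + b + 1 with hR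
  have hR0 : 0 < R := by (clear * - ha0 hb0; positivity)
  set κ : ℝ := Real.sqrt δ / (2 * (2 * R / t + 2)) with hκ
  have hκ0 : 0 < κ := by
    have := Real.sqrt_pos.2 hδ
    (clear * - ha0 hb0 hδ; positivity)
  set δ₁ : ℝ := min (κ ^ 2) (min 1 t) with hδ₁
  have hδ₁0 : 0 < δ₁ := by (clear * - ha0 hb0 hδ; positivity)
  have hδ₁1 : δ₁ ≤ 1 := (min_le_right _ _).trans (min_le_left _ _)
  have hδ₁t : δ₁ ≤ t := (min_le_right _ _).trans (min_le_right _ _)
  have hδ₁κ : Real.sqrt δ₁ ≤ κ := by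
    rw [← Real.sqrt_sq hκ0.le]
    exact Real.sqrt_le_sqrt (min_le_left _ _)
  refine ⟨κ ^ 2, by (clear * - ha0 hb0 hδ; positivity), ?_⟩
  intro x hx hsa hxa hxb hEx
  obtain ⟨x0, hx0, hx0s, hx0a, hx0b, hx0n⟩ := kaplansky hA hξ hx hsa hxa hxb hδ₁0
  have hx0M := nspan_le hx0
  have hn0 : nn ξ (x0 - x) ≤ κ := (Real.sqrt_le_sqrt hx0n).trans hδ₁κ
  have hnE : nn ξ (E x) ≤ κ := by
    rw [← Real.sqrt_sq hκ0.le]
    exact Real.sqrt_le_sqrt hEx
  set d : H →L[ℂ] H := E x0 with hd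
  have hdA : d ∈ A := hE.mem _ hx0M
  have hdM : d ∈ M := hM.1 _ hdA
  have hds : IsSelfAdjoint d := by
    have := hE.star _ hx0M
    rw [hx0s.star_eq] at this
    exact this.symm
  have hdn : nn ξ d ≤ 2 * κ := by
    have h1 : d = E x + E (x0 - x) := by
      rw [hd, map_sub]; abel
    rw [h1]
    refine (nn_add hξ _ _).trans ?_
    have h2 := (nn_E_le hξ hM hE (sub_mem hx0M hx)).trans hn0
    linarith only [hnE, h2]
  obtain ⟨e, heA, hep, hed, hen⟩ := exists_cut hξ hM hdA ht0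
  have heM : e ∈ M := hM.1 _ heA
  have hes : star e = e := hep.isSelfAdjoint
  have hee : ∀ v, e (e v) = e v := fun v => DFunLike.congr_fun hep.isIdempotentElem v
  have hen1 : ∀ v, ‖e v‖ ≤ ‖v‖ := fun v => proj_norm_le hep v
  have henorm : ‖e‖ ≤ 1 := by
    refine ContinuousLinearMap.opNorm_le_bound _ zero_le_one fun v => ?_
    rw [one_mul]
    exact hen1 v
  have h1e : ‖(1 - e : H →L[ℂ] H)‖ ≤ 1 := by
    refine ContinuousLinearMap.opNorm_le_bound _ zero_le_one fun v => ?_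
    rw [one_mul]
    exact proj_norm_le hep.one_sub v
  have hx's : IsSelfAdjoint (e * (x0 - d) * e) := by
    rw [IsSelfAdjoint, star_mul, star_mul, hes, (hx0s.sub hds).star_eq, mul_assoc]
  have hx'v : ∀ v, (inner ℂ ((e * (x0 - d) * e) v) v).re
      = (inner ℂ (x0 (e v)) (e v)).re - (inner ℂ (d (e v)) (e v)).re := by
    intro v
    have h1 : (e * (x0 - d) * e) v = e (x0 (e v) - d (e v)) := rfl
    have h2 : inner ℂ (e (x0 (e v) - d (e v))) v = inner ℂ (x0 (e v) - d (e v)) (e v) := by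
      rw [sproj_inner hep]
    rw [h1, h2, inner_sub_left, Complex.sub_re]
  have hdv : ∀ v, |(inner ℂ (d (e v)) (e v)).re| ≤ t * ‖e v‖ ^ 2 := by
    intro v
    refine (Complex.abs_re_le_norm _).trans ((norm_inner_le_norm _ _).trans ?_)
    have := hed v
    linarith only [mul_nonneg (sub_nonneg.2 this) (sub_nonneg.2 (norm_nonneg (e v)))]
  have hx0a' := (le_smul_one_iff hx0s _).1 hx0a
  have hx0b' := (neg_smul_one_le_iff hx0s _).1 hx0b
  have hx0R : ‖x0‖ ≤ R := by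
    apply norm_le_of_bounds hx0s hR0.le
    · rw [le_smul_one_iff hx0s]
      intro v
      have := hx0a' v
      linarith only [mul_nonneg (sub_nonneg.2 hδ₁1) (sq_nonneg ‖v‖), mul_nonneg (sub_nonneg.2 hb0) (sq_nonneg ‖v‖), this]
    · rw [neg_smul_one_le_iff hx0s]
      intro v
      have := hx0b' v
      nlinarith only [ha0, hδ₁1, this, sq_nonneg ‖v‖]
  have hev : ∀ v, ‖e v‖ ^ 2 ≤ ‖v‖ ^ 2 := fun v => pow_le_pow_left₀ (norm_nonneg _) (hen1 v) 2
  have hx'n : e * (x0 - d) * e ∈ nspan M A := by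
    refine nspan_mul (nspan_mul (nspan_of_mem hM heA) (sub_mem hx0 (nspan_of_mem hM hdA)))
      (nspan_of_mem hM heA)
  refine ⟨e * (x0 - d) * e, hx'n, hx's, ?_, ?_, ?_, ?_⟩
  · rw [hE.bimod e heA e heA _ (sub_mem hx0M hdM), map_sub, hE.idem d hdA, ← hd, sub_self,
      mul_zero, zero_mul]
  · rw [le_smul_one_iff hx's]
    intro v
    rw [hx'v]
    have h1 := hx0a' (e v)
    have h2 := (abs_le.1 (hdv v)).1
    have h3 : (a + δ₁) * ‖e v‖ ^ 2 + t * ‖e v‖ ^ 2 ≤ (a + δ) * ‖e v‖ ^ 2 := by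
      have : a + δ₁ + t ≤ a + δ := by linarith only [ht, hδ₁t]
      linarith only [mul_nonneg (sub_nonneg.2 hδ₁t) (sq_nonneg ‖e v‖), mul_eq_zero_of_left (sub_eq_zero.2 ht) (‖e v‖ ^ 2 - (0))]
    have h4 : (a + δ) * ‖e v‖ ^ 2 ≤ (a + δ) * ‖v‖ ^ 2 :=
      mul_le_mul_of_nonneg_left (hev v) (by (clear * - ha0 hδ; positivity))
    linarith only [h1, h2, h3, h4]
  · rw [neg_smul_one_le_iff hx's]
    intro v
    rw [hx'v]
    have h1 := hx0b' (e v)
    have h2 := (abs_le.1 (hdv v)).2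
    have h3 : (b + δ₁) * ‖e v‖ ^ 2 + t * ‖e v‖ ^ 2 ≤ (b + δ) * ‖e v‖ ^ 2 := by
      have : b + δ₁ + t ≤ b + δ := by linarith only [ht, hδ₁t]
      linarith only [mul_nonneg (sub_nonneg.2 hδ₁t) (sq_nonneg ‖e v‖), mul_eq_zero_of_left (sub_eq_zero.2 ht) (‖e v‖ ^ 2 - (0))]
    have h4 : (b + δ) * ‖e v‖ ^ 2 ≤ (b + δ) * ‖v‖ ^ 2 :=
      mul_le_mul_of_nonneg_left (hev v) (by (clear * - hb0 hδ; positivity))
    linarith only [h1, h2, h3, h4]
  · have h1eM : (1 - e : H →L[ℂ] H) ∈ M := sub_mem (one_mem M) heM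
    have e1 : e * (x0 - d) * e - x
        = (x0 - x) - ((1 - e) * x0 * e + x0 * (1 - e)) - e * d * e := by noncomm_ring
    have t1 : nn ξ ((1 - e) * x0 * e) ≤ R * nn ξ (1 - e) := by
      have s1 := nn_mul' hξ (mul_mem h1eM hx0M) heM
      have s2 := nn_mul' hξ h1eM hx0M
      have s3 := nn_nonneg (ξ := ξ) ((1 - e) * x0)
      have s4 := nn_nonneg (ξ := ξ) (1 - e)
      linarith only [mul_nonneg (sub_nonneg.2 s2) (sub_nonneg.2 (norm_nonneg e)), mul_nonneg (sub_nonneg.2 s1) (sub_nonneg.2 (norm_nonneg e)), mul_nonneg (sub_nonneg.2 hx0R) (sub_nonneg.2 s4), mul_nonneg (sub_nonneg.2 henorm) (sub_nonneg.2 s3), mul_nonneg (sub_nonneg.2 henorm) (sub_nonneg.2 s2), mul_nonneg (sub_nonneg.2 henorm) (sub_nonneg.2 s1)]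
    have t2 : nn ξ (x0 * (1 - e)) ≤ R * nn ξ (1 - e) :=
      (nn_mul hξ x0 (1 - e)).trans (mul_le_mul_of_nonneg_right hx0R (nn_nonneg _))
    have t3 : nn ξ (e * d * e) ≤ nn ξ d := by
      have s1 := nn_mul' hξ (mul_mem heM hdM) heM
      have s2 := nn_mul hξ e d
      have s3 := nn_nonneg (ξ := ξ) (e * d)
      have s4 := nn_nonneg (ξ := ξ) d
      nlinarith only [henorm, s1, s2, s3, s4, norm_nonneg e]
    have t4 : nn ξ (1 - e) ≤ 2 * κ / t := hen.trans (by (clear * - hδ hdn; gcongr))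
    have t5 : nn ξ (e * (x0 - d) * e - x) ≤ κ + 2 * (R * (2 * κ / t)) + 2 * κ := by
      rw [e1]
      refine (nn_sub hξ _ _).trans ?_
      have s1 := nn_sub hξ (x0 - x) ((1 - e) * x0 * e + x0 * (1 - e))
      have s2 := nn_add hξ ((1 - e) * x0 * e) (x0 * (1 - e))
      have s3 : R * nn ξ (1 - e) ≤ R * (2 * κ / t) := mul_le_mul_of_nonneg_left t4 hR0.le
      linarith only [hn0, hdn, t1, t2, t3, s1, s2, s3]
    have t6 : κ + 2 * (R * (2 * κ / t)) + 2 * κ ≤ Real.sqrt δ := by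
      have s1 : κ * (2 * (2 * R / t + 2)) = Real.sqrt δ := by
        rw [hκ]
        field_simp
      have s2 : κ * (2 * (2 * R / t + 2)) = 2 * (R * (2 * κ / t)) + 4 * κ := by
        field_simp
        ring
      linarith only [hκ0, s1, s2]
    rw [← nn_sq]
    calc nn ξ (e * (x0 - d) * e - x) ^ 2 ≤ Real.sqrt δ ^ 2 :=
          pow_le_pow_left₀ (nn_nonneg _) (t5.trans t6) 2
      _ = δ := Real.sq_sqrt hδ.le

/-! ### density on finitely many vectors -/

/-- double commutant density on finitely many vectors (self-adjoint version) -/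
theorem nspan_dense (hA : IsCartan A M) {x : H →L[ℂ] H} (hx : x ∈ M) (hsa : IsSelfAdjoint x)
    (F : Finset H) {δ : ℝ} (hδ : 0 < δ) :
    ∃ x' ∈ nspan M A, IsSelfAdjoint x' ∧ ∀ ζ ∈ F, ‖x' ζ - x ζ‖ < δ := by
  classical
  by_contra hcon
  push Not at hcon
  let J : (H →L[ℂ] H) → PiLp 2 (fun _ : F => H) := fun y => WithLp.toLp 2 (fun ζ : F => y ζ)
  have hJ : ∀ y (ζ : F), J y ζ = y ζ := fun _ _ => rfl
  set S : Set (PiLp 2 (fun _ : F => H)) := {v | ∃ x' ∈ nspan M A, IsSelfAdjoint x' ∧ v = J x'}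
    with hS
  have hSconv : Convex ℝ S := by
    rintro _ ⟨y, hy, hys, rfl⟩ _ ⟨z, hz, hzs, rfl⟩ s t hs ht hst
    refine ⟨(s : ℂ) • y + (t : ℂ) • z,
      add_mem (Submodule.smul_mem _ _ hy) (Submodule.smul_mem _ _ hz), ?_, ?_⟩
    · rw [IsSelfAdjoint, star_add, star_smul, star_smul, hys.star_eq, hzs.star_eq,
        Complex.star_def, Complex.conj_ofReal, Complex.conj_ofReal]
    · ext ζ
      rfl
  have hnot : J x ∉ closure S := by
    rw [Metric.mem_closure_iff]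
    push Not
    refine ⟨δ, hδ, ?_⟩
    rintro _ ⟨y, hy, hys, rfl⟩
    obtain ⟨ζ, hζ, h⟩ := hcon y hy hys
    refine h.trans ?_
    rw [dist_comm, dist_eq_norm]
    exact PiLp.norm_apply_le (J y - J x) ⟨ζ, hζ⟩
  obtain ⟨f, u, hf1, hf2⟩ := RCLike.geometric_hahn_banach_closed_point (𝕜 := ℂ)
    hSconv.closure isClosed_closure hnot
  set η := (InnerProductSpace.toDual ℂ (PiLp 2 (fun _ : F => H))).symm f with hη
  have hfη : ∀ v, f v = inner ℂ η v := fun v => InnerProductSpace.toDual_symm_apply.symm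
  -- the functional
  let g : (H →L[ℂ] H) → ℂ := fun y => ∑ ζ : F, (inner ℂ (η ζ) (y ζ) + inner ℂ (ζ : H) (y (η ζ)))
  have hgf : ∀ y, IsSelfAdjoint y → g y = ((2 * (f (J y)).re : ℝ) : ℂ) := by
    intro y hys
    have h1 : g y = f (J y) + starRingEnd ℂ (f (J y)) := by
      rw [hfη, PiLp.inner_apply, map_sum, ← Finset.sum_add_distrib]
      refine Finset.sum_congr rfl fun ζ _ => ?_
      rw [inner_conj_symm, hJ]
      congr 1
      have h2 : inner ℂ (y ζ) (η ζ) = inner ℂ (ζ : H) (star y (η ζ)) := by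
        rw [ContinuousLinearMap.star_eq_adjoint, ContinuousLinearMap.adjoint_inner_right]
      rw [h2, hys.star_eq]
    rw [h1, Complex.add_conj]
  have hlin : ∀ (c : ℂ) y z, g (y + c • z) = g y + c * g z := by
    intro c y z
    show ∑ ζ : F, (inner ℂ (η ζ) ((y + c • z) ζ) + inner ℂ (ζ : H) ((y + c • z) (η ζ))) = _
    have h1 : ∀ ζ : F, (inner ℂ (η ζ) ((y + c • z) ζ) + inner ℂ (ζ : H) ((y + c • z) (η ζ)))
        = (inner ℂ (η ζ) (y ζ) + inner ℂ (ζ : H) (y (η ζ)))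
          + c * (inner ℂ (η ζ) (z ζ) + inner ℂ (ζ : H) (z (η ζ))) := by
      intro ζ
      have e1 : (y + c • z) ζ = y ζ + c • z ζ := rfl
      have e2 : (y + c • z) (η ζ) = y (η ζ) + c • z (η ζ) := rfl
      rw [e1, e2, inner_add_right, inner_add_right, inner_smul_right, inner_smul_right]
      ring
    rw [Finset.sum_congr rfl fun ζ _ => h1 ζ, Finset.sum_add_distrib, Finset.mul_sum]
  have hre0 : ∀ y ∈ nspan M A, IsSelfAdjoint y → (f (J y)).re = 0 := by
    intro y hy hys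
    by_contra hne
    have h1 : ∀ s : ℝ, s * (f (J y)).re < u := by
      intro s
      have h2 : J ((s : ℂ) • y) ∈ S := ⟨_, Submodule.smul_mem _ _ hy, by
        rw [IsSelfAdjoint, star_smul, hys.star_eq, Complex.star_def, Complex.conj_ofReal], rfl⟩
      have h3 := hf1 _ (subset_closure h2)
      have h4 : J ((s : ℂ) • y) = (s : ℂ) • J y := rfl
      rw [h4, map_smul, smul_eq_mul] at h3
      change ((s : ℂ) * f (J y)).re < u at h3
      rwa [Complex.re_ofReal_mul] at h3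
    have h5 := h1 (u / (f (J y)).re)
    rw [div_mul_cancel₀ _ hne] at h5
    exact lt_irrefl _ h5
  have hu0 : 0 < u := by
    have h2 : J 0 ∈ S := ⟨0, zero_mem _, IsSelfAdjoint.zero _, rfl⟩
    have h3 := hf1 _ (subset_closure h2)
    have h4 : J 0 = 0 := rfl
    rw [h4, map_zero] at h3
    simpa using h3
  have hg0 : ∀ y ∈ nspan M A, g y = 0 := by
    intro y hy
    have h1 : y = (1 / 2 : ℂ) • (y + star y) + (Complex.I / 2) • (Complex.I • (star y - y)) := by
      rw [smul_smul]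
      have : Complex.I / 2 * Complex.I = - (1 / 2) := by
        rw [div_mul_eq_mul_div, Complex.I_mul_I]; ring
      rw [this, smul_add, smul_sub]
      module
    have hys := nspan_star hy
    have s1 : IsSelfAdjoint ((1 / 2 : ℂ) • (y + star y)) := by
      rw [IsSelfAdjoint, star_smul, star_add, star_star, add_comm]
      congr 1
      norm_num
    have s2 : IsSelfAdjoint (Complex.I • (star y - y)) := by
      rw [IsSelfAdjoint, star_smul, star_sub, star_star, Complex.star_def, Complex.conj_I,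
        neg_smul, ← smul_neg, neg_sub]
    rw [h1, hlin, hgf _ s1, hgf _ s2,
      hre0 _ (Submodule.smul_mem _ _ (add_mem hy hys)) s1,
      hre0 _ (Submodule.smul_mem _ _ (sub_mem hys hy)) s2]
    simp
  have hgx : g x ≠ 0 := by
    rw [hgf x hsa]
    have h1 : 0 < (f (J x)).re := hu0.trans hf2
    intro h2
    have h3 : 2 * (f (J x)).re = 0 := by exact_mod_cast h2
    linarith only [h1, h3]
  -- approximation of `x` on `F` and `η`
  apply hgx
  rw [← norm_le_zero_iff]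
  refine le_of_forall_pos_le_add fun ε hε => ?_
  rw [zero_add]
  let Θ : P078.L2.Sp (F ⊕ F) H := ⟨Sum.elim (fun ζ : F => (ζ : H)) (fun ζ : F => η ζ),
    memℓp_gen (Summable.of_finite)⟩
  set C : ℝ := ∑ ζ : F, (‖η ζ‖ + ‖(ζ : H)‖) + 1 with hC
  have hC0 : 0 < C := by
    have : 0 ≤ ∑ ζ : F, (‖η ζ‖ + ‖(ζ : H)‖) := Finset.sum_nonneg fun ζ _ => by (clear * -; positivity)
    linarith only [this]
  obtain ⟨y, hy, hyn⟩ := P078.L2.exists_approx (nalg M A) (cartan_comm hA hx) Θ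
    (show 0 < ε / C by (clear * - hε; positivity))
  rw [← P078.L2.amp_sub] at hyn
  have hb : ∀ i, ‖(x - y) (Θ i)‖ ≤ ε / C := by
    intro i
    refine le_trans ?_ hyn.le
    exact lp.norm_apply_le_norm (by norm_num) (P078.L2.amp (x - y) Θ) i
  have hgy : g x = ∑ ζ : F, (inner ℂ (η ζ) ((x - y) ζ) + inner ℂ (ζ : H) ((x - y) (η ζ))) := by
    have h1 := hlin (-1) x y
    rw [hg0 y hy, mul_zero, add_zero] at h1
    rw [← h1]
    have e1 : x + (-1 : ℂ) • y = x - y := by rw [neg_smul, one_smul, sub_eq_add_neg]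
    rw [e1]
  rw [hgy]
  refine (norm_sum_le _ _).trans ?_
  calc ∑ ζ : F, ‖(inner ℂ (η ζ) ((x - y) ζ) + inner ℂ (ζ : H) ((x - y) (η ζ)))‖
      ≤ ∑ ζ : F, (‖η ζ‖ + ‖(ζ : H)‖) * (ε / C) := by
        refine Finset.sum_le_sum fun ζ _ => ?_
        refine (norm_add_le _ _).trans ?_
        have h1 := norm_inner_le_norm (𝕜 := ℂ) (η ζ) ((x - y) ζ)
        have h2 := norm_inner_le_norm (𝕜 := ℂ) (ζ : H) ((x - y) (η ζ))
        have h3 := hb (Sum.inl ζ)
        have h4 := hb (Sum.inr ζ)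
        change ‖(x - y) ζ‖ ≤ _ at h3
        change ‖(x - y) (η ζ)‖ ≤ _ at h4
        linarith only [mul_nonneg (sub_nonneg.2 h4) (sub_nonneg.2 (norm_nonneg (ζ : H))), mul_nonneg (sub_nonneg.2 h3) (sub_nonneg.2 (norm_nonneg (η ζ))), h2, h1]
    _ = (∑ ζ : F, (‖η ζ‖ + ‖(ζ : H)‖)) * (ε / C) := by rw [Finset.sum_mul]
    _ ≤ C * (ε / C) := by
        apply mul_le_mul_of_nonneg_right _ (by (clear * - hε; positivity))
        rw [hC]
        linarith only
    _ = ε := by field_simp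

end Vale.Agent.P078.C
end

end

section
section

/-! T8: assembly. -/

namespace Vale.Agent.P078.C

open Vale.Agent.P078.SO Filter Topology

variable {H : Type*} [NormedAddCommGroup H] [InnerProductSpace ℂ H] [CompleteSpace H]
variable {M A : VonNeumannAlgebra H} {ξ : ℕ → H} {E : (H →L[ℂ] H) →ₗ[ℂ] (H →L[ℂ] H)}

/-! ### order and norm -/

private theorem re_inner_smul_one (c : ℝ) (ζ : H) :
    (inner ℂ ζ (((c : ℂ) • (1 : H →L[ℂ] H)) ζ)).re = c * ‖ζ‖ ^ 2 := by
  rw [smul_apply, one_apply_eq_self, inner_smul_right,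
    Complex.re_ofReal_mul, inner_self_re]

private theorem sa_smul_one (c : ℝ) : IsSelfAdjoint ((c : ℂ) • (1 : H →L[ℂ] H)) := by
  rw [IsSelfAdjoint, star_smul, star_one]
  simp

private theorem le_of_inner {S T : H →L[ℂ] H} (hS : IsSelfAdjoint S) (hT : IsSelfAdjoint T)
    (h : ∀ ζ, (inner ℂ ζ (S ζ)).re ≤ (inner ℂ ζ (T ζ)).re) : S ≤ T := by
  rw [← sub_nonneg]
  refine nonneg_of_inner (hT.sub hS) fun ζ => ?_
  rw [sub_apply, inner_sub_right, Complex.sub_re]
  linarith only [h ζ]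

private theorem le_smul_one_iff {w : H →L[ℂ] H} (hw : IsSelfAdjoint w) {c : ℝ} :
    w ≤ (c : ℂ) • (1 : H →L[ℂ] H) ↔ ∀ ζ, (inner ℂ ζ (w ζ)).re ≤ c * ‖ζ‖ ^ 2 := by
  constructor
  · intro h ζ
    rw [← re_inner_smul_one]
    exact inner_le_of_le h ζ
  · intro h
    refine le_of_inner hw (sa_smul_one c) fun ζ => ?_
    rw [re_inner_smul_one]
    exact h ζ

private theorem neg_smul_one_le_iff {w : H →L[ℂ] H} (hw : IsSelfAdjoint w) {c : ℝ} :
    -((c : ℂ) • (1 : H →L[ℂ] H)) ≤ w ↔ ∀ ζ, -c * ‖ζ‖ ^ 2 ≤ (inner ℂ ζ (w ζ)).re := by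
  have e : ∀ ζ, (inner ℂ ζ ((-((c : ℂ) • (1 : H →L[ℂ] H))) ζ)).re = -c * ‖ζ‖ ^ 2 := by
    intro ζ
    rw [neg_apply, inner_neg_right, Complex.neg_re, re_inner_smul_one]
    ring
  constructor
  · intro h ζ
    rw [← e]
    exact inner_le_of_le h ζ
  · intro h
    refine le_of_inner (sa_smul_one c).neg hw fun ζ => ?_
    rw [e]
    exact h ζ

private theorem norm_le_of_bounds {w : H →L[ℂ] H} (hw : IsSelfAdjoint w) {b u C : ℝ} (hC : 0 ≤ C)
    (hb : b ≤ C) (hu : u ≤ C) (h1 : -((b : ℂ) • (1 : H →L[ℂ] H)) ≤ w)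
    (h2 : w ≤ (u : ℂ) • (1 : H →L[ℂ] H)) : ‖w‖ ≤ C := by
  refine norm_le_of_rayleigh hw hC fun v => ?_
  have h3 := (neg_smul_one_le_iff hw).1 h1 v
  have h4 := (le_smul_one_iff hw).1 h2 v
  have h5 : RCLike.re (inner ℂ (w v) v) = (inner ℂ v (w v)).re := by
    rw [← inner_conj_symm]
    exact RCLike.conj_re _
  rw [h5, abs_le]
  have h6 : 0 ≤ ‖v‖ ^ 2 := by positivity
  constructor
  · linarith only [mul_nonneg (sq_nonneg (‖v‖ : ℝ)) (sub_nonneg.2 hb), h3]
  · linarith only [mul_nonneg (sq_nonneg (‖v‖ : ℝ)) (sub_nonneg.2 hu), h4]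

omit [CompleteSpace H] in
private theorem re_inner_le (w : H →L[ℂ] H) (ζ : H) :
    |(inner ℂ ζ (w ζ)).re| ≤ ‖w‖ * ‖ζ‖ ^ 2 := by
  calc |(inner ℂ ζ (w ζ)).re| ≤ ‖inner ℂ ζ (w ζ)‖ := Complex.abs_re_le_norm _
    _ ≤ ‖ζ‖ * ‖w ζ‖ := norm_inner_le_norm _ _
    _ ≤ ‖ζ‖ * (‖w‖ * ‖ζ‖) := by gcongr; exact w.le_opNorm ζ
    _ = ‖w‖ * ‖ζ‖ ^ 2 := by ring

private theorem le_of_norm_le {w : H →L[ℂ] H} (hw : IsSelfAdjoint w) {C : ℝ} (h : ‖w‖ ≤ C) :
    w ≤ (C : ℂ) • (1 : H →L[ℂ] H) := by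
  rw [le_smul_one_iff hw]
  intro ζ
  have h1 := (abs_le.1 (re_inner_le w ζ)).2
  have h2 : 0 ≤ ‖ζ‖ ^ 2 := by positivity
  linarith only [mul_nonneg (sq_nonneg (‖ζ‖ : ℝ)) (sub_nonneg.2 h), h1]

private theorem neg_le_of_norm_le {w : H →L[ℂ] H} (hw : IsSelfAdjoint w) {C : ℝ} (h : ‖w‖ ≤ C) :
    -((C : ℂ) • (1 : H →L[ℂ] H)) ≤ w := by
  rw [neg_smul_one_le_iff hw]
  intro ζ
  have h1 := (abs_le.1 (re_inner_le w ζ)).1
  have h2 : 0 ≤ ‖ζ‖ ^ 2 := by positivity
  linarith only [mul_nonneg (sq_nonneg (‖ζ‖ : ℝ)) (sub_nonneg.2 h), h1]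

/-! ### partitions and pinchings -/

omit [CompleteSpace H] in
private theorem cm_pinch_sub {r : ℕ} (P : Fin r → (H →L[ℂ] H)) (x y : H →L[ℂ] H) :
    pinch P (x - y) = pinch P x - pinch P y := by
  unfold pinch
  rw [← Finset.sum_sub_distrib]
  exact Finset.sum_congr rfl fun i _ => by noncomm_ring

omit [CompleteSpace H] in
private theorem pinch_neg {r : ℕ} (P : Fin r → (H →L[ℂ] H)) (x : H →L[ℂ] H) :
    pinch P (-x) = -pinch P x := by
  unfold pinch
  rw [← Finset.sum_neg_distrib]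
  exact Finset.sum_congr rfl fun i _ => by noncomm_ring

omit [CompleteSpace H] in
private theorem pinch_smul {r : ℕ} (P : Fin r → (H →L[ℂ] H)) (c : ℂ) (x : H →L[ℂ] H) :
    pinch P (c • x) = c • pinch P x := by
  unfold pinch
  rw [Finset.smul_sum]
  exact Finset.sum_congr rfl fun i _ => by rw [mul_smul_comm, smul_mul_assoc]

private theorem cm_pinch_mem (hA : SO.IsMASA A M) {r : ℕ} {P : Fin r → (H →L[ℂ] H)}
    (hP : IsPart A P) {x : H →L[ℂ] H} (hx : x ∈ M) : pinch P x ∈ M :=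
  sum_mem fun i _ => mul_mem (mul_mem (hA.1 _ (hP.1 i).1) hx) (hA.1 _ (hP.1 i).1)

private theorem cm_pinch_sa {r : ℕ} {P : Fin r → (H →L[ℂ] H)}
    (hP : IsPart A P) {x : H →L[ℂ] H} (hx : IsSelfAdjoint x) : IsSelfAdjoint (pinch P x) := by
  unfold pinch
  refine isSelfAdjoint_sum _ fun i _ => ?_
  have h1 := (hP.1 i).2.isSelfAdjoint
  rw [IsSelfAdjoint, star_mul, star_mul, h1.star_eq, hx.star_eq, mul_assoc]

/-- elements of `A` are fixed by pinchings -/
private theorem pinch_of_mem (hA : SO.IsMASA A M) {r : ℕ} {P : Fin r → (H →L[ℂ] H)}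
    (hP : IsPart A P) {x : H →L[ℂ] H} (hx : x ∈ A) : pinch P x = x := by
  unfold pinch
  have h1 : ∀ i, P i * x * P i = x * P i := by
    intro i
    rw [hA.2.1 _ (hP.1 i).1 _ hx, mul_assoc, (hP.1 i).2.isIdempotentElem.eq]
  simp only [h1]
  rw [← Finset.mul_sum, hP.2.2, mul_one]

private theorem exp_pinch (hA : SO.IsMASA A M) (hE : IsTrExp M A ξ E) {r : ℕ}
    {P : Fin r → (H →L[ℂ] H)} (hP : IsPart A P) {x : H →L[ℂ] H} (hx : x ∈ M) :
    E (pinch P x) = E x := by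
  have h1 : E (pinch P x) = pinch P (E x) := by
    unfold pinch
    rw [map_sum]
    exact Finset.sum_congr rfl fun i _ => hE.bimod _ (hP.1 i).1 _ (hP.1 i).1 x hx
  rw [h1, pinch_of_mem hA hP (hE.mem x hx)]

/-- common refinement -/
private noncomputable def refi {r₁ r₂ : ℕ} (P₁ : Fin r₁ → (H →L[ℂ] H)) (P₂ : Fin r₂ → (H →L[ℂ] H)) :
    Fin (r₁ * r₂) → (H →L[ℂ] H) :=
  fun k => P₁ (finProdFinEquiv.symm k).1 * P₂ (finProdFinEquiv.symm k).2

private theorem isPart_refi (hA : SO.IsMASA A M) {r₁ r₂ : ℕ} {P₁ : Fin r₁ → (H →L[ℂ] H)}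
    {P₂ : Fin r₂ → (H →L[ℂ] H)} (h₁ : IsPart A P₁) (h₂ : IsPart A P₂) :
    IsPart A (refi P₁ P₂) := by
  have hc : ∀ i j, P₁ i * P₂ j = P₂ j * P₁ i := fun i j => hA.2.1 _ (h₁.1 i).1 _ (h₂.1 j).1
  refine ⟨fun k => ⟨mul_mem (h₁.1 _).1 (h₂.1 _).1, ?_, ?_⟩, fun k l hkl => ?_, ?_⟩
  · have e : ∀ i j, (P₁ i * P₂ j) * (P₁ i * P₂ j) = P₁ i * P₂ j := by
      intro i j
      calc (P₁ i * P₂ j) * (P₁ i * P₂ j) = P₁ i * (P₂ j * P₁ i) * P₂ j := by noncomm_ring
        _ = (P₁ i * P₁ i) * (P₂ j * P₂ j) := by rw [← hc]; noncomm_ring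
        _ = P₁ i * P₂ j := by
          rw [(h₁.1 i).2.isIdempotentElem.eq, (h₂.1 j).2.isIdempotentElem.eq]
    exact e _ _
  · unfold refi
    rw [IsSelfAdjoint, star_mul, (h₁.1 _).2.isSelfAdjoint.star_eq,
      (h₂.1 _).2.isSelfAdjoint.star_eq, hc]
  · have hne : finProdFinEquiv.symm k ≠ finProdFinEquiv.symm l :=
      fun h => hkl (finProdFinEquiv.symm.injective h)
    unfold refi
    generalize finProdFinEquiv.symm k = p at hne
    generalize finProdFinEquiv.symm l = q at hne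
    have e : P₁ p.1 * P₂ p.2 * (P₁ q.1 * P₂ q.2) = (P₁ p.1 * P₁ q.1) * (P₂ p.2 * P₂ q.2) := by
      calc P₁ p.1 * P₂ p.2 * (P₁ q.1 * P₂ q.2) = P₁ p.1 * (P₂ p.2 * P₁ q.1) * P₂ q.2 := by
            noncomm_ring
        _ = _ := by rw [← hc]; noncomm_ring
    rw [e]
    by_cases h : p.1 = q.1
    · have h' : p.2 ≠ q.2 := fun h' => hne (Prod.ext h h')
      rw [h₂.2.1 _ _ h', mul_zero]
    · rw [h₁.2.1 _ _ h, zero_mul]
  · unfold refi
    rw [Equiv.sum_comp finProdFinEquiv.symm (fun p : Fin r₁ × Fin r₂ => P₁ p.1 * P₂ p.2),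
      Fintype.sum_prod_type]
    simp only [← Finset.mul_sum, h₂.2.2, mul_one, h₁.2.2]

private theorem pinch_refi (hA : SO.IsMASA A M) {r₁ r₂ : ℕ} {P₁ : Fin r₁ → (H →L[ℂ] H)}
    {P₂ : Fin r₂ → (H →L[ℂ] H)} (h₁ : IsPart A P₁) (h₂ : IsPart A P₂) (x : H →L[ℂ] H) :
    pinch (refi P₁ P₂) x = pinch P₂ (pinch P₁ x) := by
  have hc : ∀ i j, P₁ i * P₂ j = P₂ j * P₁ i := fun i j => hA.2.1 _ (h₁.1 i).1 _ (h₂.1 j).1
  unfold pinch refi
  rw [Equiv.sum_comp finProdFinEquiv.symm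
    (fun p : Fin r₁ × Fin r₂ => P₁ p.1 * P₂ p.2 * x * (P₁ p.1 * P₂ p.2)),
    Fintype.sum_prod_type, Finset.sum_comm]
  refine Finset.sum_congr rfl fun j _ => ?_
  rw [Finset.mul_sum, Finset.sum_mul]
  refine Finset.sum_congr rfl fun i _ => ?_
  calc P₁ i * P₂ j * x * (P₁ i * P₂ j) = P₂ j * P₁ i * x * (P₁ i * P₂ j) := by rw [hc i j]
    _ = P₂ j * (P₁ i * x * P₁ i) * P₂ j := by noncomm_ring

/-- padding a partition by zeros -/
private theorem exists_pad {r r' : ℕ} (h : r ≤ r') {P : Fin r → (H →L[ℂ] H)} (hP : IsPart A P) :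
    ∃ P' : Fin r' → (H →L[ℂ] H), IsPart A P' ∧ ∀ x, pinch P' x = pinch P x := by
  obtain ⟨k, rfl⟩ := Nat.exists_eq_add_of_le h
  refine ⟨Fin.append P (fun _ : Fin k => 0), ⟨fun i => ?_, fun i j => ?_, ?_⟩, fun x => ?_⟩
  · refine Fin.addCases (fun i => ?_) (fun i => ?_) i
    · rw [Fin.append_left]; exact hP.1 i
    · rw [Fin.append_right]; exact ⟨zero_mem A, IsStarProjection.zero _⟩
  · refine Fin.addCases (fun i => ?_) (fun i => ?_) i <;>
      refine Fin.addCases (fun j => ?_) (fun j => ?_) j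
    · intro h
      rw [Fin.append_left, Fin.append_left]
      exact hP.2.1 i j fun h' => h (by rw [h'])
    · intro _
      rw [Fin.append_right, mul_zero]
    · intro _
      rw [Fin.append_right, zero_mul]
    · intro _
      rw [Fin.append_right, zero_mul]
  · rw [Fin.sum_univ_add]
    simp [hP.2.2]
  · unfold pinch
    rw [Fin.sum_univ_add]
    simp

/-! ### the 2-norm -/

private theorem n2_exp_le (hξ : IsTrace M ξ) (hE : IsTrExp M A ξ E) (hA : SO.IsMASA A M)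
    {z : H →L[ℂ] H} (hz : z ∈ M) : n2 ξ (E z) ≤ n2 ξ z := by
  have hEA := hE.mem z hz
  have hEM := hA.1 _ hEA
  have hzs : star z ∈ M := star_mem hz
  have hEs : star (E z) ∈ A := star_mem hEA
  have h1 : 0 ≤ star (z - E z) * (z - E z) := star_mul_self_nonneg _
  have h2 : star (z - E z) * (z - E z) ∈ M :=
    mul_mem (star_mem (sub_mem hz hEM)) (sub_mem hz hEM)
  have h3 := hE.nonneg _ h2 h1
  have h4 := (vtr_nonneg hξ h3).1
  have h5 : E (star (z - E z) * (z - E z)) = E (star z * z) - star (E z) * E z := by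
    have e1 : star (z - E z) * (z - E z) =
        star z * z - star z * E z - star (E z) * z + star (E z) * E z := by
      rw [star_sub]; noncomm_ring
    have e2 : E (star z * E z) = star (E z) * E z := by
      have := hE.bimod 1 (one_mem A) (E z) hEA (star z) hzs
      rw [one_mul, one_mul, hE.star z hz] at this
      exact this
    have e3 : E (star (E z) * z) = star (E z) * E z := by
      have := hE.bimod (star (E z)) hEs 1 (one_mem A) z hz
      rw [mul_one, mul_one] at this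
      exact this
    have e4 : E (star (E z) * E z) = star (E z) * E z := hE.idem _ (mul_mem hEs hEA)
    rw [e1, map_add, map_sub, map_sub, e2, e3, e4]
    abel
  have e0 : ∀ x y : H →L[ℂ] H, vtr ξ (x - y) = vtr ξ x - vtr ξ y := by
    intro x y
    have := vtr_add hξ (x - y) y
    rw [sub_add_cancel] at this
    rw [this]; ring
  rw [h5, e0, hE.tr _ (mul_mem hzs hz), Complex.sub_re] at h4
  rw [n2_eq hξ, n2_eq hξ]
  linarith only [h4]

private theorem norm_exp_le (hE : IsTrExp M A ξ E)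
    {x : H →L[ℂ] H} (hx : x ∈ M) (hs : IsSelfAdjoint x) : ‖E x‖ ≤ ‖x‖ := by
  have h1 := le_of_norm_le hs (le_refl ‖x‖)
  have h2 := neg_le_of_norm_le hs (le_refl ‖x‖)
  have h3 : ((‖x‖ : ℝ) : ℂ) • (1 : H →L[ℂ] H) ∈ A := A.toStarSubalgebra.smul_mem (one_mem A) _
  have h4 : ((‖x‖ : ℝ) : ℂ) • (1 : H →L[ℂ] H) ∈ M := M.toStarSubalgebra.smul_mem (one_mem M) _
  have hEs : IsSelfAdjoint (E x) := by
    rw [IsSelfAdjoint, ← hE.star x hx, hs.star_eq]
  refine norm_le_of_bounds hEs (norm_nonneg _) le_rfl le_rfl ?_ ?_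
  · have h5 : 0 ≤ x + ((‖x‖ : ℝ) : ℂ) • (1 : H →L[ℂ] H) := by
      rw [← sub_neg_eq_add]
      exact sub_nonneg.2 h2
    have h6 := hE.nonneg _ (add_mem hx h4) h5
    rw [map_add, hE.idem _ h3, ← sub_neg_eq_add] at h6
    exact sub_nonneg.1 h6
  · have h6 := hE.nonneg _ (sub_mem h4 hx) (sub_nonneg.2 h1)
    rw [map_sub, hE.idem _ h3] at h6
    exact sub_nonneg.1 h6

/-- spectral truncation -/
private theorem exists_cut (hξ : IsTrace M ξ) {z : H →L[ℂ] H} (hz : z ∈ M) {c : ℝ} (hc : 0 < c) :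
    ∃ q ∈ M, IsStarProjection q ∧ ‖z * q‖ ≤ c ∧ (vtr ξ (1 - q)).re ≤ n2 ξ z / c ^ 2 := by
  have hT : IsSelfAdjoint (star z * z) := IsSelfAdjoint.star_mul_self z
  obtain ⟨e, he, hcomm, hup, hlow⟩ := exists_spectral_proj (star z * z) hT (c ^ 2)
  have heM : e ∈ M := spectral_proj_mem (mul_mem (star_mem hz) hz) hcomm
  have hin : ∀ ζ : H, (inner ℂ ζ ((star z * z) ζ)).re = ‖z ζ‖ ^ 2 := by
    intro ζ
    have h1 : (star z * z) ζ = star z (z ζ) := rfl
    rw [h1, ← inner_conj_symm, star_apply_inner, inner_conj_symm, inner_self_re]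
  refine ⟨1 - e, sub_mem (one_mem M) heM, he.one_sub, ?_, ?_⟩
  · refine ContinuousLinearMap.opNorm_le_bound _ hc.le fun ζ => ?_
    have h1 : e ((1 - e) ζ) = 0 := by
      rw [sub_apply, one_apply_eq_self, map_sub, proj_apply_apply he, sub_self]
    have h2 := hlow _ h1
    rw [hin] at h2
    have h3 : ‖(1 - e) ζ‖ ≤ ‖ζ‖ := norm_proj_le he.one_sub ζ
    have h4 : ‖z ((1 - e) ζ)‖ ^ 2 ≤ (c * ‖ζ‖) ^ 2 := by
      calc ‖z ((1 - e) ζ)‖ ^ 2 ≤ c ^ 2 * ‖(1 - e) ζ‖ ^ 2 := h2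
        _ ≤ c ^ 2 * ‖ζ‖ ^ 2 := by (clear * - hc h3; gcongr)
        _ = (c * ‖ζ‖) ^ 2 := by ring
    exact (sq_le_sq₀ (norm_nonneg _) (by (clear * - hc; positivity))).1 h4
  · rw [sub_sub_cancel]
    have h1 : (vtr ξ e).re = n2 ξ e := by
      rw [n2_eq hξ, he.isSelfAdjoint.star_eq, he.isIdempotentElem.eq]
    have h2 : n2 ξ (z * e) ≤ n2 ξ z := by
      refine (n2_mul_le' hξ hz heM).trans ?_
      have h3 : ‖e‖ ^ 2 ≤ 1 := by
        have := he.norm_le
        linarith [mul_nonneg (sub_nonneg.2 this) (sub_nonneg.2 (norm_nonneg e)), mul_nonneg (sub_nonneg.2 this) (sub_nonneg.2 this)]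
      nlinarith only [h3, n2_nonneg ξ z]
    have h3 : c ^ 2 * n2 ξ e ≤ n2 ξ (z * e) := by
      unfold n2
      rw [← tsum_mul_left]
      refine Summable.tsum_le_tsum (fun n => ?_) ((n2_summable hξ e).mul_left _)
        (n2_summable hξ (z * e))
      have h4 := hup (e (ξ n)) (proj_apply_apply he _)
      rw [hin] at h4
      exact h4
    rw [h1, le_div_iff₀ (by (clear * - hc; positivity))]
    linarith only [h2, h3]

/-! ### the theorems -/

/-- one-sided paving of elements of `M` with small expectation -/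
theorem one_sided (hA : IsCartan A M) (hξ : IsTrace M ξ) (hE : IsTrExp M A ξ E) {a b : ℝ}
    (ha0 : 0 ≤ a) (hb0 : 0 < b) {r : ℕ} (hr : 2 ≤ r) {t₀ u : ℝ} (ht : a < t₀)
    (hu : eb r a b t₀ < u) (hu0 : 0 < u) {δ : ℝ} (hδ : 0 < δ) :
    ∃ δ' : ℝ, 0 < δ' ∧ ∀ x ∈ M, IsSelfAdjoint x → x ≤ (a : ℂ) • (1 : H →L[ℂ] H) →
      -((b : ℂ) • (1 : H →L[ℂ] H)) ≤ x → n2 ξ (E x) ≤ δ' →
      ∃ P : Fin r → (H →L[ℂ] H), IsPart A P ∧ ∃ w ∈ M, IsSelfAdjoint w ∧
        -((b : ℂ) • (1 : H →L[ℂ] H)) ≤ w ∧ w ≤ (u : ℂ) • (1 : H →L[ℂ] H) ∧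
        n2 ξ (pinch P x - w) ≤ δ := by
  have key : ∃ d : ℝ, 0 < d ∧ a + d < t₀ ∧ eb r (a + d) (b + d) t₀ < u ∧
      Real.sqrt d + Real.sqrt d + d / b * (max (b + d) u) < Real.sqrt δ := by
    have c1 : Continuous fun d : ℝ => a + d := by fun_prop
    have c2 : Continuous fun d : ℝ => eb r (a + d) (b + d) t₀ := by
      have h1 : (fun d : ℝ => eb r (a + d) (b + d) t₀) = fun d =>
          t₀ - (1 - 1 / (r : ℝ)) ^ 2 * ((t₀ - (a + d)) * (t₀ + (b + d)) / (t₀ + b - a)) := by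
        funext d
        unfold eb
        rw [show t₀ + (b + d) - (a + d) = t₀ + b - a by ring]
      rw [h1]
      fun_prop
    have c3 : Continuous fun d : ℝ =>
        Real.sqrt d + Real.sqrt d + d / b * (max (b + d) u) := by fun_prop
    have e1 : ∀ᶠ d in 𝓝[>] (0 : ℝ), a + d < t₀ :=
      ((c1.tendsto' 0 a (by simp)).eventually_lt_const ht).filter_mono nhdsWithin_le_nhds
    have e2 : ∀ᶠ d in 𝓝[>] (0 : ℝ), eb r (a + d) (b + d) t₀ < u :=
      ((c2.tendsto' 0 (eb r a b t₀) (by simp)).eventually_lt_const hu).filter_mono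
        nhdsWithin_le_nhds
    have e3 : ∀ᶠ d in 𝓝[>] (0 : ℝ),
        Real.sqrt d + Real.sqrt d + d / b * (max (b + d) u) < Real.sqrt δ :=
      ((c3.tendsto' 0 0 (by simp)).eventually_lt_const (Real.sqrt_pos.2 hδ)).filter_mono
        nhdsWithin_le_nhds
    obtain ⟨d, ⟨h1, h2⟩, h3, h4⟩ := ((e1.and e2).and (e3.and self_mem_nhdsWithin)).exists
    exact ⟨d, h4, h1, h2, h3⟩
  obtain ⟨d, hd, had, hed, hsd⟩ := key
  obtain ⟨δ', hδ', happ⟩ := approx_zero hA hξ hE ha0 hb0.le hd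
  refine ⟨δ', hδ', fun x hx hxs hxa hxb hEx => ?_⟩
  obtain ⟨x', hx', hx's, hEx', hx'a, hx'b, hn⟩ := happ x hx hxs hxa hxb hEx
  have hx'M : x' ∈ M := nspan_le hx'
  have hbd : 0 < b + d := by linarith only [hb0, hd]
  obtain ⟨P, hP, w', hw'M, hw's, hw'l, hw'u, hn'⟩ :=
    one_sided_alg hA.1 hξ hE hx' hx's hEx' (a := a + d) (b := b + d) (by linarith only [ha0, hd]) hbd hx'a hx'b
      hr had hed (by linarith only [hb0, hu0, hd]) hd
  obtain ⟨c, hc⟩ : ∃ c : ℝ, c = b / (b + d) := ⟨_, rfl⟩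
  have hc0 : 0 < c := by rw [hc]; (clear * - hb0 hd; positivity)
  have hcb : c * (b + d) = b := by rw [hc]; field_simp
  have hc1 : c ≤ 1 := by
    rw [hc, div_le_one hbd]; linarith only [hd]
  have hc2 : 1 - c ≤ d / b := by
    have : 1 - c = d / (b + d) := by rw [hc]; field_simp; ring
    rw [this]
    exact div_le_div_of_nonneg_left hd.le hb0 (by linarith only [hd])
  have hws : IsSelfAdjoint ((c : ℂ) • w') := by
    rw [IsSelfAdjoint, star_smul, hw's.star_eq]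
    simp
  have hin : ∀ ζ, (inner ℂ ζ (((c : ℂ) • w') ζ)).re = c * (inner ℂ ζ (w' ζ)).re := by
    intro ζ
    rw [smul_apply, inner_smul_right, Complex.re_ofReal_mul]
  refine ⟨P, hP, (c : ℂ) • w', M.toStarSubalgebra.smul_mem hw'M _, hws, ?_, ?_, ?_⟩
  · rw [neg_smul_one_le_iff hws]
    intro ζ
    rw [hin]
    have h1 := (neg_smul_one_le_iff hw's).1 hw'l ζ
    calc -b * ‖ζ‖ ^ 2 = c * (-(b + d) * ‖ζ‖ ^ 2) := by
          rw [← mul_assoc, mul_neg, hcb]
      _ ≤ _ := by (clear * - hc0 h1; gcongr)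
  · rw [le_smul_one_iff hws]
    intro ζ
    rw [hin]
    have h1 := (le_smul_one_iff hw's).1 hw'u ζ
    have h2 : 0 ≤ ‖ζ‖ ^ 2 := by (clear * -; positivity)
    calc c * (inner ℂ ζ (w' ζ)).re ≤ c * (u * ‖ζ‖ ^ 2) := by (clear * - hc0 h1; gcongr)
      _ ≤ 1 * (u * ‖ζ‖ ^ 2) := by (clear * - hu0 hc1; gcongr)
      _ = _ := one_mul _
  · have hw'n : ‖w'‖ ≤ max (b + d) u :=
      norm_le_of_bounds hw's (le_max_of_le_left hbd.le) (le_max_left _ _) (le_max_right _ _)
        hw'l hw'u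
    have e1 : pinch P x - (c : ℂ) • w' =
        pinch P (x - x') + ((pinch P x' - w') + ((1 - c : ℝ) : ℂ) • w') := by
      rw [cm_pinch_sub, Complex.ofReal_sub, Complex.ofReal_one, sub_smul, one_smul]
      abel
    have e2 : n2 ξ (pinch P (x - x')) ≤ d := by
      refine (n2_pinch_le hA.1 hξ hP (sub_mem hx hx'M)).trans ?_
      rw [← n2_neg, neg_sub]
      exact hn
    have e3 : Real.sqrt (n2 ξ (((1 - c : ℝ) : ℂ) • w')) ≤ d / b * max (b + d) u := by
      refine Real.sqrt_le_iff.2 ⟨by (clear * - hb0 hd; positivity), ?_⟩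
      refine (n2_le hξ _).trans ?_
      rw [norm_smul, Complex.norm_real, Real.norm_of_nonneg (by linarith only [hc1])]
      (clear * - hb0 hd hc1 hc2 hw'n; gcongr)
    have e4 : Real.sqrt (n2 ξ (pinch P x - (c : ℂ) • w')) ≤ Real.sqrt δ := by
      rw [e1]
      refine (sqrt_n2_add hξ _ _).trans ?_
      have e5 := sqrt_n2_add hξ (pinch P x' - w') (((1 - c : ℝ) : ℂ) • w')
      have e6 := Real.sqrt_le_sqrt e2
      have e7 := Real.sqrt_le_sqrt hn'
      linarith only [e7, e6, e5, e3, hsd]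
    exact (Real.sqrt_le_sqrt_iff hδ.le).1 e4

/-- numerical form of the root bounds -/
theorem eb_first {r : ℕ} (hr : 4 ≤ r) : eb r 1 1 (Real.sqrt r) ≤ 3 / Real.sqrt r := by
  have hr' : (4 : ℝ) ≤ r := by exact_mod_cast hr
  obtain ⟨t, ht⟩ : ∃ t, t = Real.sqrt r := ⟨_, rfl⟩
  have htt : (r : ℝ) = t * t := by rw [ht]; exact (Real.mul_self_sqrt (by positivity)).symm
  have ht0 : 0 < t := by rw [ht]; exact Real.sqrt_pos.2 (by linarith only [hr'])
  unfold eb
  rw [← ht, htt]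
  have h1 : t - (1 - 1 / (t * t)) ^ 2 * ((t - 1) * (t + 1) / (t + 1 - 1)) =
      (3 - (3 * (t * t) - 1) / (t * t) ^ 2) / t := by
    rw [show t + 1 - 1 = t by ring]
    field_simp
    ring
  rw [h1]
  have h2 : 0 ≤ (3 * (t * t) - 1) / (t * t) ^ 2 := by
    have : (4 : ℝ) ≤ t * t := by rw [← htt]; exact hr'
    apply div_nonneg
    · linarith only [hr', htt]
    · positivity
  gcongr
  linarith only [h2]

theorem eb_second {r : ℕ} (hr : 4 ≤ r) {b : ℝ} (hb : 0 < b) :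
    eb r 1 b (1 + Real.sqrt (b * r)) ≤ 2 / r + 3 * Real.sqrt (b / r) := by
  have hr' : (4 : ℝ) ≤ r := by exact_mod_cast hr
  have hr0 : (0 : ℝ) < r := by linarith only [hr']
  obtain ⟨t, ht⟩ : ∃ t, t = Real.sqrt (b * r) := ⟨_, rfl⟩
  have htt : b * r = t * t := by rw [ht]; exact (Real.mul_self_sqrt (by positivity)).symm
  have ht0 : 0 < t := by rw [ht]; exact Real.sqrt_pos.2 (by positivity)
  have hbt : b = t * t / r := by rw [← htt]; field_simp
  have hs : Real.sqrt (b / r) = t / r := by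
    rw [hbt, show t * t / (r : ℝ) / r = (t / r) ^ 2 by field_simp, Real.sqrt_sq (by positivity)]
  obtain ⟨ρ, hρ⟩ : ∃ ρ : ℝ, ρ = 1 / r := ⟨_, rfl⟩
  have hρ0 : 0 < ρ := by rw [hρ]; positivity
  have hρ1 : ρ ≤ 1 := by
    rw [hρ, div_le_one hr0]; linarith only [hr']
  have hbρ : b = t ^ 2 * ρ := by rw [hbt, hρ]; ring
  have h1 : (1 + t - 1) * (1 + t + b) / (1 + t + b - 1) = (1 + t) - t * ρ / (1 + t * ρ) := by
    rw [hbρ]
    have h2 : 1 + t + t ^ 2 * ρ - 1 = t * (1 + t * ρ) := by ring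
    have h3 : (0 : ℝ) < 1 + t * ρ := by (clear * - ht0 hρ0; positivity)
    rw [h2]
    field_simp
    ring
  unfold eb
  rw [← ht, h1, hs, ← hρ, show t / (r : ℝ) = t * ρ by rw [hρ]; ring,
    show (2 : ℝ) / r = 2 * ρ by rw [hρ]; ring]
  have h4 : t * ρ / (1 + t * ρ) ≤ t * ρ := by
    apply div_le_self
    · (clear * - ht0 hρ0; positivity)
    · have : 0 < t * ρ := by (clear * - ht0 hρ0; positivity)
      linarith only [this]
  have h5 : 0 ≤ (1 - ρ) ^ 2 := sq_nonneg _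
  have h6 : (1 - ρ) ^ 2 ≤ 1 := by
    apply pow_le_one₀
    · linarith only [hρ1]
    · linarith only [hρ0]
  have h7 : (1 - ρ) ^ 2 * ((1 + t) - t * ρ) ≤ (1 - ρ) ^ 2 * ((1 + t) - t * ρ / (1 + t * ρ)) := by
    (clear * - h4; gcongr)
  have h8 : 0 < t * ρ := by (clear * - ht0 hρ0; positivity)
  linarith only [ht0, h6, h7, h8, mul_nonneg h8.le (sub_nonneg.2 h6), mul_pos ht0 hρ0, sq_nonneg ρ,
    mul_nonneg ht0.le (sq_nonneg ρ)]

theorem two_sided' (hA : IsCartan A M) (hξ : IsTrace M ξ) (hE : IsTrExp M A ξ E)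
    {ε : ℝ} (hε : 0 < ε) (hε1 : ε < 1) {x : H →L[ℂ] H} (hx : x ∈ M) (hxs : IsSelfAdjoint x)
    (hx1 : ‖x‖ ≤ 1) (hEx : E x = 0) {δ : ℝ} (hδ : 0 < δ) :
    ∃ (r : ℕ) (P : Fin r → (H →L[ℂ] H)), (r : ℝ) ≤ 629 / ε ^ 3 ∧
        IsPart A P ∧ ∃ w ∈ M, ‖w‖ ≤ ε ∧ n2 ξ (pinch P x - w) ≤ δ := by
  obtain ⟨r₁, hr₁, hr₁'⟩ : ∃ r₁ : ℕ, 16 / ε ^ 2 ≤ r₁ ∧ (r₁ : ℝ) < 16 / ε ^ 2 + 1 :=
    ⟨⌈16 / ε ^ 2⌉₊, Nat.le_ceil _, Nat.ceil_lt_add_one (by positivity)⟩
  obtain ⟨r₂, hr₂, hr₂'⟩ : ∃ r₂ : ℕ, 36 / ε ≤ r₂ ∧ (r₂ : ℝ) < 36 / ε + 1 :=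
    ⟨⌈36 / ε⌉₊, Nat.le_ceil _, Nat.ceil_lt_add_one (by positivity)⟩
  have hε2 : ε ^ 2 ≤ 1 := by nlinarith only [hε, hε1]
  have hr₁16 : (16 : ℝ) ≤ r₁ := by
    refine le_trans ?_ hr₁
    rw [le_div_iff₀ (by (clear * - hε; positivity))]
    linarith only [hε2]
  have hr₂36 : (36 : ℝ) ≤ r₂ := by
    refine le_trans ?_ hr₂
    rw [le_div_iff₀ hε]
    linarith only [hε1]
  have hr₁4 : 4 ≤ r₁ := by
    have : (4 : ℝ) ≤ r₁ := by linarith only [hε, hε1, hr₁16]
    exact_mod_cast this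
  have hr₂4 : 4 ≤ r₂ := by
    have : (4 : ℝ) ≤ r₂ := by linarith only [hε, hε1, hr₂36]
    exact_mod_cast this
  -- numerics of the first step
  have hs₁ : 4 / ε ≤ Real.sqrt r₁ := by
    apply Real.le_sqrt_of_sq_le
    calc (4 / ε) ^ 2 = 16 / ε ^ 2 := by ring
      _ ≤ (r₁ : ℝ) := hr₁
  have hu₁ : eb r₁ 1 1 (Real.sqrt r₁) < ε := by
    refine (eb_first hr₁4).trans_lt ?_
    have h0 : 0 < Real.sqrt r₁ := lt_of_lt_of_le (by (clear * - hε; positivity)) hs₁
    rw [div_lt_iff₀ h0]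
    rw [div_le_iff₀ hε] at hs₁
    linarith only [hε, hε1, hs₁]
  have ht₁ : (1 : ℝ) < Real.sqrt r₁ := by
    refine lt_of_lt_of_le ?_ hs₁
    rw [lt_div_iff₀ hε]; linarith only [hε, hε1]
  -- numerics of the second step
  have hr₂0 : (0 : ℝ) < r₂ := by linarith only [hε, hε1, hr₂36]
  have hu₂ : eb r₂ 1 ε (1 + Real.sqrt (ε * r₂)) < ε := by
    refine (eb_second hr₂4 hε).trans_lt ?_
    rw [div_le_iff₀ hε] at hr₂
    have h1 : Real.sqrt (ε / r₂) ≤ ε / 6 := by
      refine Real.sqrt_le_iff.2 ⟨by (clear * - hε; positivity), ?_⟩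
      rw [div_le_iff₀ hr₂0]
      nlinarith only [hε, hr₂]
    have h2 : 2 / (r₂ : ℝ) ≤ ε / 18 := by
      rw [div_le_div_iff₀ hr₂0 (by norm_num)]
      linarith only [hr₂]
    linarith only [hε, h1, h2]
  have ht₂ : (1 : ℝ) < 1 + Real.sqrt (ε * r₂) := by
    have : 0 < Real.sqrt (ε * r₂) := Real.sqrt_pos.2 (by (clear * - hε hr₂4; positivity))
    linarith only [this]
  obtain ⟨δ₂, hδ₂, h2⟩ := one_sided hA hξ hE (a := 1) (b := ε) zero_le_one hε (r := r₂)
    (by (clear * - hr₂4; omega)) ht₂ hu₂ hε (δ := δ / 4) (by (clear * - hδ; positivity))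
  obtain ⟨δ₁, hδ₁, h1⟩ := one_sided hA hξ hE (a := 1) (b := 1) zero_le_one one_pos (r := r₁)
    (by (clear * - hr₁4; omega)) ht₁ hu₁ hε (δ := min δ₂ (δ / 4)) (lt_min hδ₂ (by (clear * - hδ; positivity)))
  obtain ⟨P₁, hP₁, w₁, hw₁M, hw₁s, hw₁l, hw₁u, hn₁⟩ := h1 x hx hxs (le_of_norm_le hxs hx1)
    (neg_le_of_norm_le hxs hx1) (by
      rw [hEx]
      refine le_trans (n2_le hξ 0) ?_
      rw [norm_zero]
      simpa using hδ₁.le)
  have hEw : n2 ξ (E (-w₁)) ≤ δ₂ := by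
    have h3 : E (-w₁) = E (pinch P₁ x - w₁) := by
      rw [map_sub, exp_pinch hA.1 hE hP₁ hx, hEx, zero_sub, map_neg]
    rw [h3]
    exact (n2_exp_le hξ hE hA.1 (sub_mem (cm_pinch_mem hA.1 hP₁ hx) hw₁M)).trans
      (hn₁.trans (min_le_left _ _))
  obtain ⟨P₂, hP₂, w₂, hw₂M, hw₂s, hw₂l, hw₂u, hn₂⟩ := h2 (-w₁) (neg_mem hw₁M) hw₁s.neg
    (by rw [neg_le]; exact hw₁l) (neg_le_neg hw₁u) hEw
  refine ⟨r₁ * r₂, refi P₁ P₂, ?_, isPart_refi hA.1 hP₁ hP₂, -w₂, neg_mem hw₂M, ?_, ?_⟩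
  · push_cast
    have e1 : (r₁ : ℝ) ≤ 17 / ε ^ 2 := by
      have : (1 : ℝ) ≤ 1 / ε ^ 2 := by
        rw [le_div_iff₀ (by (clear * - hε; positivity))]; linarith only [hε2]
      have e : (17 : ℝ) / ε ^ 2 = 16 / ε ^ 2 + 1 / ε ^ 2 := by ring
      linarith only [hr₁', this, e]
    have e2 : (r₂ : ℝ) ≤ 37 / ε := by
      have : (1 : ℝ) ≤ 1 / ε := by
        rw [le_div_iff₀ (by (clear * - hε; positivity))]; linarith only [hε1]
      have e : (37 : ℝ) / ε = 36 / ε + 1 / ε := by ring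
      linarith only [hr₂', this, e]
    calc (r₁ : ℝ) * r₂ ≤ (17 / ε ^ 2) * (37 / ε) := by (clear * - hε hr₂4 e1 e2; gcongr)
      _ = 629 / ε ^ 3 := by field_simp; norm_num
  · rw [norm_neg]
    exact norm_le_of_bounds hw₂s hε.le le_rfl le_rfl hw₂l hw₂u
  · have e1 : pinch (refi P₁ P₂) x - -w₂ =
        pinch P₂ (pinch P₁ x - w₁) + -(pinch P₂ (-w₁) - w₂) := by
      rw [pinch_refi hA.1 hP₁ hP₂, cm_pinch_sub, pinch_neg]
      abel
    have e2 : n2 ξ (pinch P₂ (pinch P₁ x - w₁)) ≤ δ / 4 :=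
      (n2_pinch_le hA.1 hξ hP₂ (sub_mem (cm_pinch_mem hA.1 hP₁ hx) hw₁M)).trans
        (hn₁.trans (min_le_right _ _))
    have e3 : n2 ξ (-(pinch P₂ (-w₁) - w₂)) ≤ δ / 4 := by
      rw [n2_neg]; exact hn₂
    have e4 : Real.sqrt (n2 ξ (pinch (refi P₁ P₂) x - -w₂)) ≤ Real.sqrt δ := by
      rw [e1]
      refine (sqrt_n2_add hξ _ _).trans ?_
      have e6 := Real.sqrt_le_sqrt e2
      have e7 := Real.sqrt_le_sqrt e3
      have e8 : Real.sqrt (δ / 4) = Real.sqrt δ / 2 := by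
        rw [Real.sqrt_div' _ (by norm_num), show (4 : ℝ) = 2 ^ 2 by norm_num,
          Real.sqrt_sq (by norm_num)]
      linarith only [e8, e7, e6]
    exact (Real.sqrt_le_sqrt_iff hδ.le).1 e4

/-- two-sided paving in the `2`-norm -/
theorem two_sided (hA : IsCartan A M) (hξ : IsTrace M ξ) (hE : IsTrExp M A ξ E) :
    ∃ K : ℕ, ∀ ε : ℝ, 0 < ε → ε < 1 → ∀ x ∈ M, IsSelfAdjoint x → ‖x‖ ≤ 1 → E x = 0 →
      ∀ δ : ℝ, 0 < δ → ∃ (r : ℕ) (P : Fin r → (H →L[ℂ] H)), (r : ℝ) ≤ K / ε ^ 3 ∧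
        IsPart A P ∧ ∃ w ∈ M, ‖w‖ ≤ ε ∧ n2 ξ (pinch P x - w) ≤ δ :=
  ⟨629, fun _ hε hε1 _ hx hxs hx1 hEx _ hδ => by
    exact_mod_cast two_sided' hA hξ hE hε hε1 hx hxs hx1 hEx hδ⟩

private theorem sopavable (hA : IsCartan A M) (hξ : IsTrace M ξ) {ε : ℝ} (hε : 0 < ε)
    (hε1 : ε < 1) {R : ℕ} (hR : (64 * 629 : ℕ) / ε ^ 3 ≤ (R : ℝ)) {x : H →L[ℂ] H} (hx : x ∈ M)
    (hxs : IsSelfAdjoint x) : SO.SOPavable M A 1 x ε R := by
  obtain ⟨E, hE⟩ := exists_trExp hA.1 hξ
  have hR' : 629 / (ε / 4) ^ 3 ≤ (R : ℝ) := by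
    refine le_trans (le_of_eq ?_) hR
    push_cast
    field_simp
    norm_num
  intro F _ δ hδ
  have hExA := hE.mem x hx
  have hExM := hA.1.1 _ hExA
  have hExs : IsSelfAdjoint (E x) := by rw [IsSelfAdjoint, ← hE.star x hx, hxs.star_eq]
  have hExn := norm_exp_le hE hx hxs
  obtain ⟨κ, hκ, hvec⟩ := vec_small hξ F hδ
  -- the scale
  obtain ⟨N, hN, hN1, hN2⟩ : ∃ N : ℝ, 0 < N ∧ ‖x - E x‖ ≤ N ∧ (x ≠ 0 → N = 2 * ‖x‖) := by
    by_cases h0 : x = 0
    · refine ⟨1, one_pos, ?_, fun h => absurd h0 h⟩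
      rw [h0, map_zero, sub_zero, norm_zero]
      exact zero_le_one
    · refine ⟨2 * ‖x‖, by (clear * - h0; positivity), ?_, fun _ => rfl⟩
      have := norm_sub_le x (E x)
      linarith only [hExn, this]
  obtain ⟨y, hy⟩ : ∃ y, y = ((N⁻¹ : ℝ) : ℂ) • (x - E x) := ⟨_, rfl⟩
  have hyM : y ∈ M := by rw [hy]; exact M.toStarSubalgebra.smul_mem (sub_mem hx hExM) _
  have hys : IsSelfAdjoint y := by
    rw [hy, IsSelfAdjoint, star_smul, (hxs.sub hExs).star_eq]
    simp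
  have hyn : ‖y‖ ≤ 1 := by
    rw [hy, norm_smul, Complex.norm_real, Real.norm_of_nonneg (by (clear * - hN; positivity)),
      inv_mul_le_iff₀ hN]
    linarith only [hN1]
  have hEy : E y = 0 := by
    rw [hy, map_smul, map_sub, hE.idem _ hExA, sub_self, smul_zero]
  have hNy : x - E x = ((N : ℝ) : ℂ) • y := by
    rw [hy, smul_smul, ← Complex.ofReal_mul, mul_inv_cancel₀ hN.ne', Complex.ofReal_one, one_smul]
  obtain ⟨r, P, hr, hP, w, hwM, hwn, hn⟩ := two_sided' hA hξ hE (ε := ε / 4) (by (clear * - hε; positivity))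
    (by linarith only [hε, hε1]) hyM hys hyn hEy (δ := κ * (ε / 4) ^ 2) (by (clear * - hε hκ; positivity))
  have hrR : r ≤ R := by
    have : (r : ℝ) ≤ R := hr.trans hR'
    exact_mod_cast this
  obtain ⟨P', hP', hpin⟩ := exists_pad hrR hP
  obtain ⟨q, hqM, hqp, hzq, htr⟩ := exists_cut hξ
    (sub_mem (cm_pinch_mem hA.1 hP hyM) hwM) (c := ε / 4) (by (clear * - hε; positivity))
  have htr' : (vtr ξ (1 - q)).re ≤ κ := by
    refine htr.trans ?_
    rw [div_le_iff₀ (by (clear * - hε; positivity))]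
    exact hn
  refine ⟨P', E x, q, hP'.1, hP'.2.1, hP'.2.2, hExA, one_mul _, hExs, hExn, hqM, one_mul _, hqp,
    hvec q hqM hqp htr', ?_⟩
  have e1 : ∑ i, P' i * x * P' i - E x = ((N : ℝ) : ℂ) • pinch P y := by
    have e2 : ∑ i, P' i * x * P' i - E x = pinch P' x - pinch P' (E x) := by
      rw [pinch_of_mem hA.1 hP' hExA]
      rfl
    rw [e2, ← cm_pinch_sub, hNy, pinch_smul, hpin]
  by_cases h0 : x = 0
  · have e3 : ∑ i, P' i * x * P' i - E x = 0 := by
      rw [h0]; simp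
    rw [e3, mul_zero, zero_mul, norm_zero]
    (clear * - hε; positivity)
  · rw [e1]
    have hqn : ‖q‖ ≤ 1 := hqp.norm_le
    have e4 : q * (((N : ℝ) : ℂ) • pinch P y) * q =
        ((N : ℝ) : ℂ) • (q * ((pinch P y - w) * q) + q * w * q) := by
      rw [mul_smul_comm, smul_mul_assoc]
      congr 1
      noncomm_ring
    have e5 : ‖q * ((pinch P y - w) * q)‖ ≤ ε / 4 := by
      refine (norm_mul_le _ _).trans ?_
      calc ‖q‖ * ‖(pinch P y - w) * q‖ ≤ 1 * (ε / 4) := by (clear * - hzq hqn; gcongr)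
        _ = ε / 4 := one_mul _
    have e6 : ‖q * w * q‖ ≤ ε / 4 := by
      refine (norm_mul_le _ _).trans ?_
      calc ‖q * w‖ * ‖q‖ ≤ (‖q‖ * ‖w‖) * ‖q‖ := by gcongr; exact norm_mul_le _ _
        _ ≤ (1 * (ε / 4)) * 1 := by (clear * - hε hwn hqn; gcongr)
        _ = ε / 4 := by ring
    rw [e4, norm_smul, Complex.norm_real, Real.norm_of_nonneg hN.le, hN2 h0]
    have e7 := norm_add_le (q * ((pinch P y - w) * q)) (q * w * q)
    calc 2 * ‖x‖ * ‖q * ((pinch P y - w) * q) + q * w * q‖ ≤ 2 * ‖x‖ * (ε / 4 + ε / 4) := by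
          gcongr
          linarith only [e5, e6, e7]
      _ = ε * ‖x‖ := by ring

/-- the so-paving number of Cartan subalgebras of finite von Neumann algebras -/
theorem cartan_paving : ∃ K : ℕ, ∀ {H : Type*} [NormedAddCommGroup H] [InnerProductSpace ℂ H]
    [CompleteSpace H] (M A : VonNeumannAlgebra H) (ξ : ℕ → H), IsCartan A M → IsTrace M ξ →
    ∀ ε : ℝ, 0 < ε → ε < 1 → SO.pavingNumber M A 1 ε ≤ (⌈(K : ℝ) / ε ^ 3⌉₊ : ℕ∞) := by
  refine ⟨64 * 629, ?_⟩
  intro H _ _ _ M A ξ hA hξ ε hε hε1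
  have h1 : 1 ≤ ⌈((64 * 629 : ℕ) : ℝ) / ε ^ 3⌉₊ := by
    rw [Nat.one_le_iff_ne_zero, ← Nat.pos_iff_ne_zero, Nat.ceil_pos]
    positivity
  exact iInf₂_le (f := fun (r : ℕ) (_ : r ∈ {r : ℕ | 1 ≤ r ∧ ∀ x ∈ M, IsSelfAdjoint x →
    1 * x * 1 = x → SO.SOPavable M A 1 x ε r}) => (r : ℕ∞)) _
    ⟨h1, fun x hx hxs _ => sopavable hA hξ hε hε1 (Nat.le_ceil _) hx hxs⟩

end Vale.Agent.P078.C
end

section

/-! Two-sided paving with the optimal exponent: the assembly, from the statement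
`TwoSidedAlg` for elements of the span of the normalizer. -/

namespace Vale.Agent.P078.D

open Vale.Agent.P078.SO Filter Topology
open Vale.Agent.P078.C

variable {H : Type*} [NormedAddCommGroup H] [InnerProductSpace ℂ H] [CompleteSpace H]
variable {M A : VonNeumannAlgebra H} {ξ : ℕ → H} {E : (H →L[ℂ] H) →ₗ[ℂ] (H →L[ℂ] H)}

/-! ### order and norm -/

private theorem re_inner_smul_one (c : ℝ) (ζ : H) :
    (inner ℂ ζ (((c : ℂ) • (1 : H →L[ℂ] H)) ζ)).re = c * ‖ζ‖ ^ 2 := by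
  rw [smul_apply, one_apply_eq_self, inner_smul_right,
    Complex.re_ofReal_mul, inner_self_re]

private theorem sa_smul_one (c : ℝ) : IsSelfAdjoint ((c : ℂ) • (1 : H →L[ℂ] H)) := by
  rw [IsSelfAdjoint, star_smul, star_one]
  simp

private theorem le_of_inner {S T : H →L[ℂ] H} (hS : IsSelfAdjoint S) (hT : IsSelfAdjoint T)
    (h : ∀ ζ, (inner ℂ ζ (S ζ)).re ≤ (inner ℂ ζ (T ζ)).re) : S ≤ T := by
  rw [← sub_nonneg]
  refine nonneg_of_inner (hT.sub hS) fun ζ => ?_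
  rw [sub_apply, inner_sub_right, Complex.sub_re]
  linarith only [h ζ]

private theorem le_smul_one_iff {w : H →L[ℂ] H} (hw : IsSelfAdjoint w) {c : ℝ} :
    w ≤ (c : ℂ) • (1 : H →L[ℂ] H) ↔ ∀ ζ, (inner ℂ ζ (w ζ)).re ≤ c * ‖ζ‖ ^ 2 := by
  constructor
  · intro h ζ
    rw [← re_inner_smul_one]
    exact inner_le_of_le h ζ
  · intro h
    refine le_of_inner hw (sa_smul_one c) fun ζ => ?_
    rw [re_inner_smul_one]
    exact h ζ

private theorem neg_smul_one_le_iff {w : H →L[ℂ] H} (hw : IsSelfAdjoint w) {c : ℝ} :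
    -((c : ℂ) • (1 : H →L[ℂ] H)) ≤ w ↔ ∀ ζ, -c * ‖ζ‖ ^ 2 ≤ (inner ℂ ζ (w ζ)).re := by
  have e : ∀ ζ, (inner ℂ ζ ((-((c : ℂ) • (1 : H →L[ℂ] H))) ζ)).re = -c * ‖ζ‖ ^ 2 := by
    intro ζ
    rw [neg_apply, inner_neg_right, Complex.neg_re, re_inner_smul_one]
    ring
  constructor
  · intro h ζ
    rw [← e]
    exact inner_le_of_le h ζ
  · intro h
    refine le_of_inner (sa_smul_one c).neg hw fun ζ => ?_
    rw [e]
    exact h ζ

private theorem norm_le_of_bounds {w : H →L[ℂ] H} (hw : IsSelfAdjoint w) {b u C : ℝ} (hC : 0 ≤ C)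
    (hb : b ≤ C) (hu : u ≤ C) (h1 : -((b : ℂ) • (1 : H →L[ℂ] H)) ≤ w)
    (h2 : w ≤ (u : ℂ) • (1 : H →L[ℂ] H)) : ‖w‖ ≤ C := by
  refine norm_le_of_rayleigh hw hC fun v => ?_
  have h3 := (neg_smul_one_le_iff hw).1 h1 v
  have h4 := (le_smul_one_iff hw).1 h2 v
  have h5 : RCLike.re (inner ℂ (w v) v) = (inner ℂ v (w v)).re := by
    rw [← inner_conj_symm]
    exact RCLike.conj_re _
  rw [h5, abs_le]
  have h6 : 0 ≤ ‖v‖ ^ 2 := by positivity
  constructor
  · linarith only [mul_nonneg (sq_nonneg (‖v‖ : ℝ)) (sub_nonneg.2 hb), h3]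
  · linarith only [mul_nonneg (sq_nonneg (‖v‖ : ℝ)) (sub_nonneg.2 hu), h4]

omit [CompleteSpace H] in
private theorem re_inner_le (w : H →L[ℂ] H) (ζ : H) :
    |(inner ℂ ζ (w ζ)).re| ≤ ‖w‖ * ‖ζ‖ ^ 2 := by
  calc |(inner ℂ ζ (w ζ)).re| ≤ ‖inner ℂ ζ (w ζ)‖ := Complex.abs_re_le_norm _
    _ ≤ ‖ζ‖ * ‖w ζ‖ := norm_inner_le_norm _ _
    _ ≤ ‖ζ‖ * (‖w‖ * ‖ζ‖) := by gcongr; exact w.le_opNorm ζ
    _ = ‖w‖ * ‖ζ‖ ^ 2 := by ring

private theorem le_of_norm_le {w : H →L[ℂ] H} (hw : IsSelfAdjoint w) {C : ℝ} (h : ‖w‖ ≤ C) :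
    w ≤ (C : ℂ) • (1 : H →L[ℂ] H) := by
  rw [le_smul_one_iff hw]
  intro ζ
  have h1 := (abs_le.1 (re_inner_le w ζ)).2
  have h2 : 0 ≤ ‖ζ‖ ^ 2 := by positivity
  linarith only [mul_nonneg (sq_nonneg (‖ζ‖ : ℝ)) (sub_nonneg.2 h), h1]

private theorem neg_le_of_norm_le {w : H →L[ℂ] H} (hw : IsSelfAdjoint w) {C : ℝ} (h : ‖w‖ ≤ C) :
    -((C : ℂ) • (1 : H →L[ℂ] H)) ≤ w := by
  rw [neg_smul_one_le_iff hw]
  intro ζ
  have h1 := (abs_le.1 (re_inner_le w ζ)).1
  have h2 : 0 ≤ ‖ζ‖ ^ 2 := by positivity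
  linarith only [mul_nonneg (sq_nonneg (‖ζ‖ : ℝ)) (sub_nonneg.2 h), h1]

/-! ### partitions and pinchings -/

omit [CompleteSpace H] in
private theorem cm_pinch_sub {r : ℕ} (P : Fin r → (H →L[ℂ] H)) (x y : H →L[ℂ] H) :
    pinch P (x - y) = pinch P x - pinch P y := by
  unfold pinch
  rw [← Finset.sum_sub_distrib]
  exact Finset.sum_congr rfl fun i _ => by noncomm_ring

omit [CompleteSpace H] in
private theorem pinch_smul {r : ℕ} (P : Fin r → (H →L[ℂ] H)) (c : ℂ) (x : H →L[ℂ] H) :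
    pinch P (c • x) = c • pinch P x := by
  unfold pinch
  rw [Finset.smul_sum]
  exact Finset.sum_congr rfl fun i _ => by rw [mul_smul_comm, smul_mul_assoc]

private theorem cm_pinch_mem (hA : SO.IsMASA A M) {r : ℕ} {P : Fin r → (H →L[ℂ] H)}
    (hP : IsPart A P) {x : H →L[ℂ] H} (hx : x ∈ M) : pinch P x ∈ M :=
  sum_mem fun i _ => mul_mem (mul_mem (hA.1 _ (hP.1 i).1) hx) (hA.1 _ (hP.1 i).1)

/-- elements of `A` are fixed by pinchings -/
private theorem pinch_of_mem (hA : SO.IsMASA A M) {r : ℕ} {P : Fin r → (H →L[ℂ] H)}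
    (hP : IsPart A P) {x : H →L[ℂ] H} (hx : x ∈ A) : pinch P x = x := by
  unfold pinch
  have h1 : ∀ i, P i * x * P i = x * P i := by
    intro i
    rw [hA.2.1 _ (hP.1 i).1 _ hx, mul_assoc, (hP.1 i).2.isIdempotentElem.eq]
  simp only [h1]
  rw [← Finset.mul_sum, hP.2.2, mul_one]

/-- padding a partition by zeros -/
private theorem exists_pad {r r' : ℕ} (h : r ≤ r') {P : Fin r → (H →L[ℂ] H)} (hP : IsPart A P) :
    ∃ P' : Fin r' → (H →L[ℂ] H), IsPart A P' ∧ ∀ x, pinch P' x = pinch P x := by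
  obtain ⟨k, rfl⟩ := Nat.exists_eq_add_of_le h
  refine ⟨Fin.append P (fun _ : Fin k => 0), ⟨fun i => ?_, fun i j => ?_, ?_⟩, fun x => ?_⟩
  · refine Fin.addCases (fun i => ?_) (fun i => ?_) i
    · rw [Fin.append_left]; exact hP.1 i
    · rw [Fin.append_right]; exact ⟨zero_mem A, IsStarProjection.zero _⟩
  · refine Fin.addCases (fun i => ?_) (fun i => ?_) i <;>
      refine Fin.addCases (fun j => ?_) (fun j => ?_) j
    · intro h
      rw [Fin.append_left, Fin.append_left]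
      exact hP.2.1 i j fun h' => h (by rw [h'])
    · intro _
      rw [Fin.append_right, mul_zero]
    · intro _
      rw [Fin.append_right, zero_mul]
    · intro _
      rw [Fin.append_right, zero_mul]
  · rw [Fin.sum_univ_add]
    simp [hP.2.2]
  · unfold pinch
    rw [Fin.sum_univ_add]
    simp

/-! ### the 2-norm -/

private theorem norm_exp_le (hE : IsTrExp M A ξ E)
    {x : H →L[ℂ] H} (hx : x ∈ M) (hs : IsSelfAdjoint x) : ‖E x‖ ≤ ‖x‖ := by
  have h1 := le_of_norm_le hs (le_refl ‖x‖)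
  have h2 := neg_le_of_norm_le hs (le_refl ‖x‖)
  have h3 : ((‖x‖ : ℝ) : ℂ) • (1 : H →L[ℂ] H) ∈ A := A.toStarSubalgebra.smul_mem (one_mem A) _
  have h4 : ((‖x‖ : ℝ) : ℂ) • (1 : H →L[ℂ] H) ∈ M := M.toStarSubalgebra.smul_mem (one_mem M) _
  have hEs : IsSelfAdjoint (E x) := by
    rw [IsSelfAdjoint, ← hE.star x hx, hs.star_eq]
  refine norm_le_of_bounds hEs (norm_nonneg _) le_rfl le_rfl ?_ ?_
  · have h5 : 0 ≤ x + ((‖x‖ : ℝ) : ℂ) • (1 : H →L[ℂ] H) := by
      rw [← sub_neg_eq_add]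
      exact sub_nonneg.2 h2
    have h6 := hE.nonneg _ (add_mem hx h4) h5
    rw [map_add, hE.idem _ h3, ← sub_neg_eq_add] at h6
    exact sub_nonneg.1 h6
  · have h6 := hE.nonneg _ (sub_mem h4 hx) (sub_nonneg.2 h1)
    rw [map_sub, hE.idem _ h3] at h6
    exact sub_nonneg.1 h6

/-- spectral truncation -/
private theorem exists_cut (hξ : IsTrace M ξ) {z : H →L[ℂ] H} (hz : z ∈ M) {c : ℝ} (hc : 0 < c) :
    ∃ q ∈ M, IsStarProjection q ∧ ‖z * q‖ ≤ c ∧ (vtr ξ (1 - q)).re ≤ n2 ξ z / c ^ 2 := by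
  have hT : IsSelfAdjoint (star z * z) := IsSelfAdjoint.star_mul_self z
  obtain ⟨e, he, hcomm, hup, hlow⟩ := exists_spectral_proj (star z * z) hT (c ^ 2)
  have heM : e ∈ M := spectral_proj_mem (mul_mem (star_mem hz) hz) hcomm
  have hin : ∀ ζ : H, (inner ℂ ζ ((star z * z) ζ)).re = ‖z ζ‖ ^ 2 := by
    intro ζ
    have h1 : (star z * z) ζ = star z (z ζ) := rfl
    rw [h1, ← inner_conj_symm, star_apply_inner, inner_conj_symm, inner_self_re]
  refine ⟨1 - e, sub_mem (one_mem M) heM, he.one_sub, ?_, ?_⟩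
  · refine ContinuousLinearMap.opNorm_le_bound _ hc.le fun ζ => ?_
    have h1 : e ((1 - e) ζ) = 0 := by
      rw [sub_apply, one_apply_eq_self, map_sub, proj_apply_apply he, sub_self]
    have h2 := hlow _ h1
    rw [hin] at h2
    have h3 : ‖(1 - e) ζ‖ ≤ ‖ζ‖ := norm_proj_le he.one_sub ζ
    have h4 : ‖z ((1 - e) ζ)‖ ^ 2 ≤ (c * ‖ζ‖) ^ 2 := by
      calc ‖z ((1 - e) ζ)‖ ^ 2 ≤ c ^ 2 * ‖(1 - e) ζ‖ ^ 2 := h2
        _ ≤ c ^ 2 * ‖ζ‖ ^ 2 := by (clear * - hc h3; gcongr)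
        _ = (c * ‖ζ‖) ^ 2 := by ring
    exact (sq_le_sq₀ (norm_nonneg _) (by (clear * - hc; positivity))).1 h4
  · rw [sub_sub_cancel]
    have h1 : (vtr ξ e).re = n2 ξ e := by
      rw [n2_eq hξ, he.isSelfAdjoint.star_eq, he.isIdempotentElem.eq]
    have h2 : n2 ξ (z * e) ≤ n2 ξ z := by
      refine (n2_mul_le' hξ hz heM).trans ?_
      have h3 : ‖e‖ ^ 2 ≤ 1 := by
        have := he.norm_le
        linarith only [mul_nonneg (sub_nonneg.2 this) (sub_nonneg.2 (norm_nonneg e)), mul_nonneg (sub_nonneg.2 this) (sub_nonneg.2 this)]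
      linarith only [mul_nonneg (sub_nonneg.2 h3) (sub_nonneg.2 (n2_nonneg ξ z))]
    have h3 : c ^ 2 * n2 ξ e ≤ n2 ξ (z * e) := by
      unfold n2
      rw [← tsum_mul_left]
      refine Summable.tsum_le_tsum (fun n => ?_) ((n2_summable hξ e).mul_left _)
        (n2_summable hξ (z * e))
      have h4 := hup (e (ξ n)) (proj_apply_apply he _)
      rw [hin] at h4
      exact h4
    rw [h1, le_div_iff₀ (by (clear * - hc; positivity))]
    linarith only [h2, h3]


/-! ### the theorems -/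

/-- two-sided paving of the elements of the span of the normalizer -/
def TwoSidedAlg (M A : VonNeumannAlgebra H) (ξ : ℕ → H) (E : (H →L[ℂ] H) →ₗ[ℂ] (H →L[ℂ] H)) :
    Prop :=
  ∀ x ∈ nspan M A, IsSelfAdjoint x → E x = 0 → ∀ a : ℝ, 0 < a →
    x ≤ (a : ℂ) • (1 : H →L[ℂ] H) → -((a : ℂ) • (1 : H →L[ℂ] H)) ≤ x →
    ∀ r : ℕ, 0 < r → ∀ t₀ u : ℝ, 2 * a < t₀ → eb (2 * r) (2 * a) (2 * a) t₀ < u → 0 < u →
    ∀ δ : ℝ, 0 < δ → ∃ P : Fin r → (H →L[ℂ] H), IsPart A P ∧ ∃ w ∈ M, IsSelfAdjoint w ∧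
      -((u : ℂ) • (1 : H →L[ℂ] H)) ≤ w ∧ w ≤ (u : ℂ) • (1 : H →L[ℂ] H) ∧
      n2 ξ (pinch P x - w) ≤ δ

/-- two-sided paving of elements of `M` with zero expectation -/
theorem two_sided_of (hA : IsCartan A M) (hξ : IsTrace M ξ) (hE : IsTrExp M A ξ E)
    (halg : TwoSidedAlg M A ξ E) {a : ℝ}
    (ha0 : 0 < a) {r : ℕ} (hr : 0 < r) {t₀ u : ℝ} (ht : 2 * a < t₀)
    (hu : eb (2 * r) (2 * a) (2 * a) t₀ < u) (hu0 : 0 < u) {x : H →L[ℂ] H} (hx : x ∈ M)
    (hxs : IsSelfAdjoint x) (hxa : x ≤ (a : ℂ) • (1 : H →L[ℂ] H))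
    (hxb : -((a : ℂ) • (1 : H →L[ℂ] H)) ≤ x) (hEx : E x = 0) {δ : ℝ} (hδ : 0 < δ) :
    ∃ P : Fin r → (H →L[ℂ] H), IsPart A P ∧ ∃ w ∈ M, ‖w‖ ≤ u ∧
      n2 ξ (pinch P x - w) ≤ δ := by
  have key : ∃ d : ℝ, 0 < d ∧ 2 * (a + d) < t₀ ∧ eb (2 * r) (2 * (a + d)) (2 * (a + d)) t₀ < u ∧
      d < δ / 4 := by
    have c1 : Continuous fun d : ℝ => 2 * (a + d) := by fun_prop
    have c2 : Continuous fun d : ℝ => eb (2 * r) (2 * (a + d)) (2 * (a + d)) t₀ := by
      have h1 : (fun d : ℝ => eb (2 * r) (2 * (a + d)) (2 * (a + d)) t₀) = fun d =>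
          t₀ - (1 - 1 / ((2 * r : ℕ) : ℝ)) ^ 2 *
            ((t₀ - 2 * (a + d)) * (t₀ + 2 * (a + d)) / t₀) := by
        funext d
        unfold eb
        rw [show t₀ + 2 * (a + d) - 2 * (a + d) = t₀ by ring]
      rw [h1]
      fun_prop
    have e1 : ∀ᶠ d in 𝓝[>] (0 : ℝ), 2 * (a + d) < t₀ :=
      ((c1.tendsto' 0 (2 * a) (by simp)).eventually_lt_const ht).filter_mono nhdsWithin_le_nhds
    have e2 : ∀ᶠ d in 𝓝[>] (0 : ℝ), eb (2 * r) (2 * (a + d)) (2 * (a + d)) t₀ < u :=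
      ((c2.tendsto' 0 (eb (2 * r) (2 * a) (2 * a) t₀) (by simp)).eventually_lt_const
        hu).filter_mono nhdsWithin_le_nhds
    have e3 : ∀ᶠ d in 𝓝[>] (0 : ℝ), d < δ / 4 :=
      ((continuous_id.tendsto' 0 0 rfl).eventually_lt_const
        (by (clear * - hδ; positivity) : (0 : ℝ) < δ / 4)).filter_mono nhdsWithin_le_nhds
    obtain ⟨d, ⟨h1, h2⟩, h3, h4⟩ := ((e1.and e2).and (e3.and self_mem_nhdsWithin)).exists
    exact ⟨d, h4, h1, h2, h3⟩
  obtain ⟨d, hd, had, hed, hsd⟩ := key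
  obtain ⟨δ', hδ', happ⟩ := approx_zero hA hξ hE ha0.le ha0.le hd
  obtain ⟨x', hx', hx's, hEx', hx'a, hx'b, hn⟩ := happ x hx hxs hxa hxb (by
    rw [hEx]
    refine le_trans (n2_le hξ 0) ?_
    rw [norm_zero]
    simpa using hδ'.le)
  have hx'M : x' ∈ M := nspan_le hx'
  obtain ⟨P, hP, w, hwM, hws, hwl, hwu, hn'⟩ :=
    halg x' hx' hx's hEx' (a + d) (by linarith only [ha0, hd]) hx'a hx'b r hr t₀ u had hed hu0 (δ / 4)
      (by (clear * - hδ; positivity))
  refine ⟨P, hP, w, hwM, norm_le_of_bounds hws hu0.le le_rfl le_rfl hwl hwu, ?_⟩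
  have e1 : pinch P x - w = pinch P (x - x') + (pinch P x' - w) := by
    rw [cm_pinch_sub]
    abel
  have e2 : n2 ξ (pinch P (x - x')) ≤ δ / 4 := by
    refine (n2_pinch_le hA.1 hξ hP (sub_mem hx hx'M)).trans ?_
    rw [← n2_neg, neg_sub]
    exact hn.trans hsd.le
  have e4 : Real.sqrt (n2 ξ (pinch P x - w)) ≤ Real.sqrt δ := by
    rw [e1]
    refine (sqrt_n2_add hξ _ _).trans ?_
    have e6 := Real.sqrt_le_sqrt e2
    have e7 := Real.sqrt_le_sqrt hn'
    have e8 : Real.sqrt (δ / 4) = Real.sqrt δ / 2 := by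
      rw [Real.sqrt_div' _ (by norm_num), show (4 : ℝ) = 2 ^ 2 by norm_num,
        Real.sqrt_sq (by norm_num)]
    linarith only [e6, e7, e8]
  exact (Real.sqrt_le_sqrt_iff hδ.le).1 e4

/-- numerical form of the root bound -/
theorem eb_two {r : ℕ} (hr : 2 ≤ r) :
    eb (2 * r) (2 * 1) (2 * 1) (2 * Real.sqrt ((2 * r : ℕ) : ℝ)) ≤
      6 / Real.sqrt ((2 * r : ℕ) : ℝ) := by
  have h := eb_first (r := 2 * r) (by omega)
  have h0 : 0 < Real.sqrt ((2 * r : ℕ) : ℝ) := Real.sqrt_pos.2 (by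
    have : 0 < 2 * r := by omega
    exact_mod_cast this)
  have h1 : eb (2 * r) (2 * 1) (2 * 1) (2 * Real.sqrt ((2 * r : ℕ) : ℝ)) =
      2 * eb (2 * r) 1 1 (Real.sqrt ((2 * r : ℕ) : ℝ)) := by
    unfold eb
    generalize Real.sqrt ((2 * r : ℕ) : ℝ) = t at h0
    rw [show 2 * t + 2 * 1 - 2 * 1 = 2 * t by ring, show t + 1 - 1 = t by ring]
    field_simp
  rw [h1]
  calc 2 * eb (2 * r) 1 1 (Real.sqrt ((2 * r : ℕ) : ℝ))
      ≤ 2 * (3 / Real.sqrt ((2 * r : ℕ) : ℝ)) := by gcongr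
    _ = _ := by ring

theorem two_sided_sq' (hA : IsCartan A M) (hξ : IsTrace M ξ) (hE : IsTrExp M A ξ E)
    (halg : TwoSidedAlg M A ξ E)
    {ε : ℝ} (hε : 0 < ε) (hε1 : ε < 1) {x : H →L[ℂ] H} (hx : x ∈ M) (hxs : IsSelfAdjoint x)
    (hx1 : ‖x‖ ≤ 1) (hEx : E x = 0) {δ : ℝ} (hδ : 0 < δ) :
    ∃ (r : ℕ) (P : Fin r → (H →L[ℂ] H)), (r : ℝ) ≤ 21 / ε ^ 2 ∧
        IsPart A P ∧ ∃ w ∈ M, ‖w‖ ≤ ε ∧ n2 ξ (pinch P x - w) ≤ δ := by
  obtain ⟨r, hr, hr'⟩ : ∃ r : ℕ, 20 / ε ^ 2 ≤ r ∧ (r : ℝ) < 20 / ε ^ 2 + 1 :=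
    ⟨⌈20 / ε ^ 2⌉₊, Nat.le_ceil _, Nat.ceil_lt_add_one (by positivity)⟩
  have hε2 : ε ^ 2 ≤ 1 := by nlinarith only [hε, hε1]
  have hr20 : (20 : ℝ) ≤ r := by
    refine le_trans ?_ hr
    rw [le_div_iff₀ (by (clear * - hε; positivity))]
    linarith only [hε2]
  have hr2 : 20 ≤ r := by exact_mod_cast hr20
  have hs : 6.3 / ε ≤ Real.sqrt ((2 * r : ℕ) : ℝ) := by
    apply Real.le_sqrt_of_sq_le
    push_cast
    calc (6.3 / ε) ^ 2 = 39.69 / ε ^ 2 := by ring
      _ ≤ 2 * (20 / ε ^ 2) := by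
        rw [show 2 * (20 / ε ^ 2) = 40 / ε ^ 2 by ring]
        gcongr
        norm_num
      _ ≤ 2 * (r : ℝ) := by (clear * - hr; gcongr)
  have h0 : 0 < Real.sqrt ((2 * r : ℕ) : ℝ) := lt_of_lt_of_le (by (clear * - hε; positivity)) hs
  have hu : eb (2 * r) (2 * 1) (2 * 1) (2 * Real.sqrt ((2 * r : ℕ) : ℝ)) < ε := by
    refine (eb_two (by (clear * - hr2; omega))).trans_lt ?_
    rw [div_lt_iff₀ h0]
    rw [div_le_iff₀ hε] at hs
    linarith only [hs, hε1, hε]
  have ht : 2 * (1 : ℝ) < 2 * Real.sqrt ((2 * r : ℕ) : ℝ) := by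
    have : (1 : ℝ) < 6.3 / ε := by
      rw [lt_div_iff₀ hε]; linarith only [hε, hε1]
    linarith only [hs, this]
  obtain ⟨P, hP, w, hwM, hwn, hn⟩ := two_sided_of hA hξ hE halg one_pos (r := r) (by (clear * - hr2; omega)) ht hu
    hε hx hxs (le_of_norm_le hxs hx1) (neg_le_of_norm_le hxs hx1) hEx hδ
  refine ⟨r, P, ?_, hP, w, hwM, hwn, hn⟩
  have : (1 : ℝ) ≤ 1 / ε ^ 2 := by
    rw [le_div_iff₀ (by (clear * - hε; positivity))]; linarith only [hε2]
  have e : (21 : ℝ) / ε ^ 2 = 20 / ε ^ 2 + 1 / ε ^ 2 := by ring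
  linarith only [hr', this, e]

theorem sopavable_sq (hA : IsCartan A M) (hξ : IsTrace M ξ)
    (halg : ∀ E, IsTrExp M A ξ E → TwoSidedAlg M A ξ E) {ε : ℝ} (hε : 0 < ε)
    (hε1 : ε < 1) {R : ℕ} (hR : (16 * 21 : ℕ) / ε ^ 2 ≤ (R : ℝ)) {x : H →L[ℂ] H} (hx : x ∈ M)
    (hxs : IsSelfAdjoint x) : SO.SOPavable M A 1 x ε R := by
  obtain ⟨E, hE⟩ := exists_trExp hA.1 hξ
  have hR' : 21 / (ε / 4) ^ 2 ≤ (R : ℝ) := by
    refine le_trans (le_of_eq ?_) hR
    push_cast
    field_simp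
    norm_num
  intro F _ δ hδ
  have hExA := hE.mem x hx
  have hExM := hA.1.1 _ hExA
  have hExs : IsSelfAdjoint (E x) := by rw [IsSelfAdjoint, ← hE.star x hx, hxs.star_eq]
  have hExn := norm_exp_le hE hx hxs
  obtain ⟨κ, hκ, hvec⟩ := vec_small hξ F hδ
  -- the scale
  obtain ⟨N, hN, hN1, hN2⟩ : ∃ N : ℝ, 0 < N ∧ ‖x - E x‖ ≤ N ∧ (x ≠ 0 → N = 2 * ‖x‖) := by
    by_cases h0 : x = 0
    · refine ⟨1, one_pos, ?_, fun h => absurd h0 h⟩
      rw [h0, map_zero, sub_zero, norm_zero]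
      exact zero_le_one
    · refine ⟨2 * ‖x‖, by (clear * - h0; positivity), ?_, fun _ => rfl⟩
      have := norm_sub_le x (E x)
      linarith only [hExn, this]
  obtain ⟨y, hy⟩ : ∃ y, y = ((N⁻¹ : ℝ) : ℂ) • (x - E x) := ⟨_, rfl⟩
  have hyM : y ∈ M := by rw [hy]; exact M.toStarSubalgebra.smul_mem (sub_mem hx hExM) _
  have hys : IsSelfAdjoint y := by
    rw [hy, IsSelfAdjoint, star_smul, (hxs.sub hExs).star_eq]
    simp
  have hyn : ‖y‖ ≤ 1 := by
    rw [hy, norm_smul, Complex.norm_real, Real.norm_of_nonneg (by (clear * - hN; positivity)),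
      inv_mul_le_iff₀ hN]
    linarith only [hN1]
  have hEy : E y = 0 := by
    rw [hy, map_smul, map_sub, hE.idem _ hExA, sub_self, smul_zero]
  have hNy : x - E x = ((N : ℝ) : ℂ) • y := by
    rw [hy, smul_smul, ← Complex.ofReal_mul, mul_inv_cancel₀ hN.ne', Complex.ofReal_one, one_smul]
  obtain ⟨r, P, hr, hP, w, hwM, hwn, hn⟩ := two_sided_sq' hA hξ hE (halg E hE) (ε := ε / 4) (by (clear * - hε; positivity))
    (by linarith only [hε, hε1]) hyM hys hyn hEy (δ := κ * (ε / 4) ^ 2) (by (clear * - hε hκ; positivity))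
  have hrR : r ≤ R := by
    have : (r : ℝ) ≤ R := hr.trans hR'
    exact_mod_cast this
  obtain ⟨P', hP', hpin⟩ := exists_pad hrR hP
  obtain ⟨q, hqM, hqp, hzq, htr⟩ := exists_cut hξ
    (sub_mem (cm_pinch_mem hA.1 hP hyM) hwM) (c := ε / 4) (by (clear * - hε; positivity))
  have htr' : (vtr ξ (1 - q)).re ≤ κ := by
    refine htr.trans ?_
    rw [div_le_iff₀ (by (clear * - hε; positivity))]
    exact hn
  refine ⟨P', E x, q, hP'.1, hP'.2.1, hP'.2.2, hExA, one_mul _, hExs, hExn, hqM, one_mul _, hqp,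
    hvec q hqM hqp htr', ?_⟩
  have e1 : ∑ i, P' i * x * P' i - E x = ((N : ℝ) : ℂ) • pinch P y := by
    have e2 : ∑ i, P' i * x * P' i - E x = pinch P' x - pinch P' (E x) := by
      rw [pinch_of_mem hA.1 hP' hExA]
      rfl
    rw [e2, ← cm_pinch_sub, hNy, pinch_smul, hpin]
  by_cases h0 : x = 0
  · have e3 : ∑ i, P' i * x * P' i - E x = 0 := by
      rw [h0]; simp
    rw [e3, mul_zero, zero_mul, norm_zero]
    (clear * - hε; positivity)
  · rw [e1]
    have hqn : ‖q‖ ≤ 1 := hqp.norm_le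
    have e4 : q * (((N : ℝ) : ℂ) • pinch P y) * q =
        ((N : ℝ) : ℂ) • (q * ((pinch P y - w) * q) + q * w * q) := by
      rw [mul_smul_comm, smul_mul_assoc]
      congr 1
      noncomm_ring
    have e5 : ‖q * ((pinch P y - w) * q)‖ ≤ ε / 4 := by
      refine (norm_mul_le _ _).trans ?_
      calc ‖q‖ * ‖(pinch P y - w) * q‖ ≤ 1 * (ε / 4) := by (clear * - hzq hqn; gcongr)
        _ = ε / 4 := one_mul _
    have e6 : ‖q * w * q‖ ≤ ε / 4 := by
      refine (norm_mul_le _ _).trans ?_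
      calc ‖q * w‖ * ‖q‖ ≤ (‖q‖ * ‖w‖) * ‖q‖ := by gcongr; exact norm_mul_le _ _
        _ ≤ (1 * (ε / 4)) * 1 := by (clear * - hε hwn hqn; gcongr)
        _ = ε / 4 := by ring
    rw [e4, norm_smul, Complex.norm_real, Real.norm_of_nonneg hN.le, hN2 h0]
    have e7 := norm_add_le (q * ((pinch P y - w) * q)) (q * w * q)
    calc 2 * ‖x‖ * ‖q * ((pinch P y - w) * q) + q * w * q‖ ≤ 2 * ‖x‖ * (ε / 4 + ε / 4) := by
          gcongr
          linarith only [e7, e6, e5]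
      _ = ε * ‖x‖ := by ring

/-- the so-paving number of Cartan subalgebras of finite von Neumann algebras -/
theorem cartan_paving_sq_of {M A : VonNeumannAlgebra H} {ξ : ℕ → H} (hA : IsCartan A M)
    (hξ : IsTrace M ξ) (halg : ∀ E, IsTrExp M A ξ E → TwoSidedAlg M A ξ E)
    {ε : ℝ} (hε : 0 < ε) (hε1 : ε < 1) :
    SO.pavingNumber M A 1 ε ≤ (⌈((16 * 21 : ℕ) : ℝ) / ε ^ 2⌉₊ : ℕ∞) := by
  have h1 : 1 ≤ ⌈((16 * 21 : ℕ) : ℝ) / ε ^ 2⌉₊ := by
    rw [Nat.one_le_iff_ne_zero, ← Nat.pos_iff_ne_zero, Nat.ceil_pos]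
    positivity
  exact iInf₂_le (f := fun (r : ℕ) (_ : r ∈ {r : ℕ | 1 ≤ r ∧ ∀ x ∈ M, IsSelfAdjoint x →
    1 * x * 1 = x → SO.SOPavable M A 1 x ε r}) => (r : ℕ∞)) _
    ⟨h1, fun x hx hxs _ => sopavable_sq hA hξ halg hε hε1 (Nat.le_ceil _) hx hxs⟩

end Vale.Agent.P078.D
end

section

/-! Two-sided paving with the optimal exponent. -/

namespace Vale.Agent.P078.D

open Vale.Agent.P078.SO Polynomial
open Vale.Agent.P078.C
open scoped Classical

universe u

variable {H : Type u} [NormedAddCommGroup H] [InnerProductSpace ℂ H] [CompleteSpace H]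
variable {M A : VonNeumannAlgebra H} {ξ : ℕ → H} {E : (H →L[ℂ] H) →ₗ[ℂ] (H →L[ℂ] H)}

theorem twoSidedAlg (hA : SO.IsMASA A M) (hξ : IsTrace M ξ) (hE : IsTrExp M A ξ E) :
    TwoSidedAlg M A ξ E :=
  fun _ hx hsa hx0 _ ha0 ha hb _ hr _ _ ht hu hu0 _ hδ =>
    two_sided_alg hA hξ hE hx hsa hx0 ha0 ha hb hr ht hu hu0 hδ

/-- two-sided paving in the `2`-norm -/
theorem two_sided_sq (hA : IsCartan A M) (hξ : IsTrace M ξ) (hE : IsTrExp M A ξ E) :
    ∃ K : ℕ, ∀ ε : ℝ, 0 < ε → ε < 1 → ∀ x ∈ M, IsSelfAdjoint x → ‖x‖ ≤ 1 → E x = 0 →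
      ∀ δ : ℝ, 0 < δ → ∃ (r : ℕ) (P : Fin r → (H →L[ℂ] H)), (r : ℝ) ≤ K / ε ^ 2 ∧
        IsPart A P ∧ ∃ w ∈ M, ‖w‖ ≤ ε ∧ n2 ξ (pinch P x - w) ≤ δ :=
  ⟨21, fun _ hε hε1 _ hx hxs hx1 hEx _ hδ => by
    exact_mod_cast two_sided_sq' hA hξ hE (twoSidedAlg hA.1 hξ hE) hε hε1 hx hxs hx1 hEx hδ⟩

/-- the so-paving number of Cartan subalgebras of finite von Neumann algebras, with the
conjectured rate -/
theorem cartan_paving_sq : ∃ K : ℕ, ∀ {H : Type*} [NormedAddCommGroup H] [InnerProductSpace ℂ H]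
    [CompleteSpace H] (M A : VonNeumannAlgebra H) (ξ : ℕ → H), IsCartan A M → IsTrace M ξ →
    ∀ ε : ℝ, 0 < ε → ε < 1 → SO.pavingNumber M A 1 ε ≤ (⌈(K : ℝ) / ε ^ 2⌉₊ : ℕ∞) :=
  ⟨16 * 21, fun _ _ _ hA hξ _ hε hε1 =>
    cartan_paving_sq_of hA hξ (fun _ hE => twoSidedAlg hA.1 hξ hE) hε hε1⟩

end Vale.Agent.P078.D
end

section

/-! Two-sided paving of the elements of the span of the normalizer, by all colourings given by one
local equivariant rule. -/

namespace Vale.Agent.P078.D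

open Vale.Agent.P078.SO Polynomial
open Vale.Agent.P078.C (Sys Spec nrm eb IsTrace IsTrExp IsPart nspan pinch n2 vtr pev exists_sys
  moment nspan_subset pinch_mem pinch_isSelfAdjoint pinch_le
  pinch_ge algebraMap_real_eq pev_eq_cfc vtr_mono vtr_smul vtr_add vtr_one n2_eq
  FB)
open scoped Classical

universe u

variable {H : Type u} [NormedAddCommGroup H] [InnerProductSpace ℂ H] [CompleteSpace H]
variable {M A : VonNeumannAlgebra H} {ξ : ℕ → H} {E : (H →L[ℂ] H) →ₗ[ℂ] (H →L[ℂ] H)}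

/-- clamping an element whose separating polynomial has small trace -/
theorem clamp_of_small (hξ : IsTrace M ξ) {S : H →L[ℂ] H} (hSsa : IsSelfAdjoint S) (hSM : S ∈ M)
    {a u γ : ℝ} (ha0 : 0 < a) (hu0 : 0 < u) (hSa : S ≤ (a : ℂ) • (1 : H →L[ℂ] H))
    (hSb : -((a : ℂ) • (1 : H →L[ℂ] H)) ≤ S) (hγ0 : 0 ≤ γ) (p : ℝ[X])
    (hp1 : ∀ t, -γ ≤ p.eval t) (hp2 : ∀ t, u ≤ |t| → 1 ≤ p.eval t)
    (hval : (vtr ξ (pev p S)).re ≤ γ) :
    ∃ w ∈ M, IsSelfAdjoint w ∧
      -((u : ℂ) • (1 : H →L[ℂ] H)) ≤ w ∧ w ≤ (u : ℂ) • (1 : H →L[ℂ] H) ∧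
      n2 ξ (S - w) ≤ a ^ 2 * (γ + γ) := by
  have hspa : ∀ t ∈ spectrum ℝ S, t ≤ a := by
    rw [← algebraMap_real_eq, le_algebraMap_iff_spectrum_le hSsa] at hSa
    exact hSa
  have hspb : ∀ t ∈ spectrum ℝ S, -a ≤ t := by
    have h1 : algebraMap ℝ (H →L[ℂ] H) (-a) ≤ S := by
      rw [algebraMap_real_eq]
      push_cast
      rwa [neg_smul]
    rw [algebraMap_le_iff_le_spectrum hSsa] at h1
    exact h1
  have hcc : Continuous fun t : ℝ => max (-u) (min t u) :=
    continuous_const.max (continuous_id.min continuous_const)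
  have hcont : ContinuousOn (fun t : ℝ => max (-u) (min t u)) (spectrum ℝ S) := hcc.continuousOn
  set w := cfc (fun t : ℝ => max (-u) (min t u)) S with hw
  have hwsa : IsSelfAdjoint w := cfc_predicate _ _
  have hwM : w ∈ M := mem_of_forall_commute M hSM fun y hy => by
    have := hy.symm.cfc_real (fun t : ℝ => max (-u) (min t u))
    exact this.symm
  refine ⟨w, hwM, hwsa, ?_, ?_, ?_⟩
  · have h1 : algebraMap ℝ (H →L[ℂ] H) (-u) ≤ w := by
      rw [hw]
      exact algebraMap_le_cfc _ _ _ (fun t _ => le_max_left _ _) hcont hSsa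
    rw [algebraMap_real_eq] at h1
    push_cast at h1
    rwa [neg_smul] at h1
  · have h1 : w ≤ algebraMap ℝ (H →L[ℂ] H) u := by
      rw [hw]
      exact cfc_le_algebraMap _ _ _ (fun t _ => max_le (by linarith only [hu0]) (min_le_right _ _)) hcont hSsa
    rwa [algebraMap_real_eq] at h1
  · rw [n2_eq hξ]
    have hdiff : S - w = cfc (fun t : ℝ => t - max (-u) (min t u)) S := by
      rw [cfc_sub (fun t : ℝ => t) (fun t : ℝ => max (-u) (min t u)) S continuousOn_id hcont,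
        cfc_id' ℝ S]
    have hcont2 : ContinuousOn (fun t : ℝ => t - max (-u) (min t u)) (spectrum ℝ S) :=
      continuousOn_id.sub hcont
    have hstar : star (S - w) = S - w := (hSsa.sub hwsa).star_eq
    have hsq : star (S - w) * (S - w) = cfc (fun t : ℝ =>
        (t - max (-u) (min t u)) * (t - max (-u) (min t u))) S := by
      rw [hstar, hdiff, ← cfc_mul (fun t : ℝ => t - max (-u) (min t u))
        (fun t : ℝ => t - max (-u) (min t u)) S hcont2 hcont2]
    have hpcont : ContinuousOn (fun t : ℝ => p.eval t) (spectrum ℝ S) :=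
      p.continuous.continuousOn
    obtain ⟨K, hK⟩ : ∃ K : ℝ, K = a ^ 2 := ⟨_, rfl⟩
    have hbd : star (S - w) * (S - w) ≤ ((K : ℝ) : ℂ) • (pev p S + ((γ : ℝ) : ℂ) •
        (1 : H →L[ℂ] H)) := by
      have h1 : ((K : ℝ) : ℂ) • (pev p S + ((γ : ℝ) : ℂ) • (1 : H →L[ℂ] H)) =
          cfc (fun t : ℝ => K * (p.eval t + γ)) S := by
        rw [cfc_const_mul K (fun t : ℝ => p.eval t + γ) S
            (hpcont.add continuousOn_const),
          cfc_add S (fun t : ℝ => p.eval t) (fun _ : ℝ => γ) hpcont continuousOn_const,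
          cfc_const γ S hSsa, ← pev_eq_cfc p hSsa, algebraMap_real_eq]
        ext v
        simp
      rw [h1, hsq]
      refine cfc_mono ?_ (hcont2.mul hcont2)
        (continuousOn_const.mul (hpcont.add continuousOn_const))
      intro t ht
      have hta := hspa t ht
      have htb := hspb t ht
      have h2 := hp1 t
      have ha2 : 0 < a ^ 2 := by (clear * - ha0; positivity)
      rw [hK]
      by_cases htu : |t| ≤ u
      · obtain ⟨h3, h4⟩ := abs_le.1 htu
        rw [min_eq_left h4, max_eq_right h3, sub_self, mul_zero]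
        exact mul_nonneg ha2.le (by linarith only [h2])
      · push Not at htu
        have h3 := hp2 t htu.le
        have h4 : (t - max (-u) (min t u)) * (t - max (-u) (min t u)) ≤ a ^ 2 := by
          rcases le_or_gt 0 t with h0 | h0
          · rw [abs_of_nonneg h0] at htu
            rw [min_eq_right htu.le, max_eq_right (by linarith only [hu0])]
            linarith only [mul_nonneg (sub_nonneg.2 hta) (sub_nonneg.2 htb), mul_pos (sub_pos.2 hu0) (sub_pos.2 htu), mul_pos (sub_pos.2 hu0) (sub_pos.2 hu0)]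
          · rw [abs_of_neg h0] at htu
            rw [min_eq_left (by linarith only [hu0, htu]), max_eq_left (by linarith only [htu])]
            linarith only [mul_nonneg (sub_nonneg.2 hta) (sub_nonneg.2 htb), mul_pos (sub_pos.2 hu0) (sub_pos.2 htu), mul_pos (sub_pos.2 hu0) (sub_pos.2 hu0)]
        calc (t - max (-u) (min t u)) * (t - max (-u) (min t u)) ≤ a ^ 2 * 1 := by linarith only [h4]
          _ ≤ a ^ 2 * (p.eval t + γ) := by
            apply mul_le_mul_of_nonneg_left _ ha2.le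
            linarith only [hγ0, h3]
    have h2 := vtr_mono hξ hbd
    refine h2.trans ?_
    rw [vtr_smul hξ, vtr_add hξ, vtr_smul hξ, vtr_one hξ, mul_one, Complex.re_ofReal_mul,
      Complex.add_re, Complex.ofReal_re, hK]
    (clear * - ha0 hval; gcongr)

/-- A local equivariant rule on the spectrum of `A`: the colour `Φ ω τ` of `ω`, where `τ g` is the
value of the random source at `g • ω`. -/
structure IsRuleA {X : Type*} [TopologicalSpace X] [MulAction (nrm M A) X] {r : ℕ} [NeZero r]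
    (B : Finset (nrm M A)) (Φ : X → (nrm M A → Fin r) → Fin r) : Prop where
  lc : ∀ τ, IsLocallyConstant fun x => Φ x τ
  loc : ∀ x (τ τ' : nrm M A → Fin r), (∀ g ∈ B, τ g = τ' g) → Φ x τ = Φ x τ'
  equiv : ∀ x (τ : nrm M A → Fin r) (a : Fin r), Φ x (fun g => τ g + a) = Φ x τ + a

/-- two-sided paving of elements of the span of the normalizer by all colourings of a rule -/
theorem two_sided_rule (hA : SO.IsMASA A M) (hξ : IsTrace M ξ) (hE : IsTrExp M A ξ E)
    {X : Type*} [TopologicalSpace X] [CompactSpace X] [T2Space X] [TotallyDisconnectedSpace X]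
    [MulAction (nrm M A) X] (𝒮 : Spec M A X)
    {x : H →L[ℂ] H} (hx : x ∈ nspan M A) (hsa : IsSelfAdjoint x) (hx0 : E x = 0) {a : ℝ}
    (ha0 : 0 < a) (ha : x ≤ (a : ℂ) • (1 : H →L[ℂ] H))
    (hb : -((a : ℂ) • (1 : H →L[ℂ] H)) ≤ x) {r : ℕ} [NeZero r] {t₀ u : ℝ} (ht : 2 * a < t₀)
    (hu : eb (2 * r) (2 * a) (2 * a) t₀ < u) (hu0 : 0 < u) {δ : ℝ} (hδ : 0 < δ) :
    ∃ (B : Finset (nrm M A)) (Φ : X → (nrm M A → Fin r) → Fin r), IsRuleA B Φ ∧
      ∀ U : X → Fin r, IsLocallyConstant U → ∀ P : Fin r → (H →L[ℂ] H), IsPart A P →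
        (∀ i ω, 𝒮.val ω (P i) = if Φ ω (fun g => U (g • ω)) = i then 1 else 0) →
        ∃ w ∈ M, IsSelfAdjoint w ∧
          -((u : ℂ) • (1 : H →L[ℂ] H)) ≤ w ∧ w ≤ (u : ℂ) • (1 : H →L[ℂ] H) ∧
          n2 ξ (pinch P x - w) ≤ δ := by
  set e := eb (2 * r) (2 * a) (2 * a) t₀ with he
  obtain ⟨u₁, hu₁⟩ : ∃ u₁, u₁ = (max e 0 + u) / 2 := ⟨_, rfl⟩
  have hmx : max e 0 < u := max_lt hu hu0
  have hu₁0 : 0 < u₁ := by
    have := le_max_right e 0
    rw [hu₁]; linarith only [hu0, this]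
  have hu₁e : e < u₁ := by
    have := le_max_left e 0
    rw [hu₁]; linarith only [this, hu]
  have hu₁u : u₁ < u := by rw [hu₁]; linarith only [hmx]
  obtain ⟨γ, hγ⟩ : ∃ γ, γ = δ / (2 * a ^ 2) := ⟨_, rfl⟩
  have hγ0 : 0 < γ := by rw [hγ]; (clear * - ha0 hδ; positivity)
  obtain ⟨p, hp0, hp1, hp2⟩ := exists_sepPoly hu₁0 hu₁u hγ0
  obtain ⟨𝔖, h𝔖a, h𝔖b, hk, hI⟩ := exists_sys hA hξ hE 𝒮 hx hsa hx0 ha hb
  have hFB : FB a a 𝔖.y := by
    have := 𝔖.bound
    rwa [h𝔖a, h𝔖b] at this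
  obtain ⟨C, hC⟩ := (isCompact_Icc (a := -a) (b := a)).exists_bound_of_continuousOn
    (p.continuous.continuousOn (s := Set.Icc (-a) a))
  obtain ⟨R, Φ, hΦ, hrule⟩ := two_sided_rule_sys 𝔖 ha0 hFB ht hu₁e p (C := |C|) (abs_nonneg _) hp0
    (fun t ht => by
      have h1 := hC t (abs_le.1 ht)
      rw [Real.norm_eq_abs] at h1
      exact (le_abs_self _).trans (h1.trans (le_abs_self _))) hγ0
  refine ⟨𝔖.ballG R, Φ, ⟨hΦ.lc, hΦ.loc, hΦ.equiv⟩, fun U hU P hP hPc => ?_⟩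
  obtain ⟨m, hm, hmI⟩ := hrule U hU
  have hval : (vtr ξ (pev p (pinch P x))).re ≤ γ := by
    rw [← moment hA hξ hE 𝒮 hx hsa 𝔖 hk hI (IsRule.col Φ U) P hP (fun i ω => hPc i ω) p m hm]
    exact hmI
  obtain ⟨w, h1, h2, h3, h4, h5⟩ := clamp_of_small hξ (pinch_isSelfAdjoint hP hsa)
    (pinch_mem hA hP (nspan_subset hx)) ha0 hu0 (pinch_le hP ha) (pinch_ge hP hb) hγ0.le p hp1 hp2
    hval
  refine ⟨w, h1, h2, h3, h4, h5.trans (le_of_eq ?_)⟩
  rw [hγ]
  field_simp
  ring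

end Vale.Agent.P078.D
end

section

/-! General MASAs, part 0: limits along refinements of partitions, order facts for the `2`-norm. -/

namespace Vale.Agent.P078.F

open Filter Topology
open Vale.Agent.P078 Vale.Agent.P078.C

variable {H : Type*} [NormedAddCommGroup H] [InnerProductSpace ℂ H] [CompleteSpace H]
variable {M A N : VonNeumannAlgebra H} {ξ : ℕ → H} {E : (H →L[ℂ] H) →ₗ[ℂ] (H →L[ℂ] H)}

/-- a trace on `M` is a trace on every von Neumann subalgebra -/
theorem IsTrace.sub (hξ : IsTrace M ξ) (hN : ∀ x ∈ N, x ∈ M) : IsTrace N ξ :=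
  ⟨hξ.summable, hξ.norm_one, fun x hx y hy => hξ.tracial x (hN x hx) y (hN y hy),
    fun x hx => hξ.faithful x (hN x hx)⟩

/-- the `2`-norm is lower semicontinuous for weak operator limits -/
theorem n2_le_of_tendsto (hξ : IsTrace M ξ) {I : Type*} {l : Filter I} [l.NeBot]
    {T : I → (H →L[ℂ] H)} {L : H →L[ℂ] H} {c : ℝ} (hT : ∀ᶠ i in l, n2 ξ (T i) ≤ c)
    (hL : ∀ ζ η : H, Tendsto (fun i => inner ℂ ζ (T i η)) l (𝓝 (inner ℂ ζ (L η)))) :
    n2 ξ L ≤ c := by
  unfold n2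
  refine (n2_summable hξ L).tsum_le_of_sum_le fun s => ?_
  have h1 : Tendsto (fun i => ∑ n ∈ s, (inner ℂ (L (ξ n)) (T i (ξ n))).re) l
      (𝓝 (∑ n ∈ s, (inner ℂ (L (ξ n)) (L (ξ n))).re)) :=
    tendsto_finsetSum _ fun n _ => (Complex.continuous_re.tendsto _).comp (hL (L (ξ n)) (ξ n))
  have h2 : ∀ᶠ i in l, 2 * ∑ n ∈ s, (inner ℂ (L (ξ n)) (T i (ξ n))).re ≤
      ∑ n ∈ s, ‖L (ξ n)‖ ^ 2 + c := by
    filter_upwards [hT] with i hi
    have h3 : ∑ n ∈ s, ‖T i (ξ n)‖ ^ 2 ≤ c :=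
      ((n2_summable hξ (T i)).sum_le_tsum s fun n _ => by positivity).trans hi
    have h4 : 2 * ∑ n ∈ s, (inner ℂ (L (ξ n)) (T i (ξ n))).re ≤
        ∑ n ∈ s, ‖L (ξ n)‖ ^ 2 + ∑ n ∈ s, ‖T i (ξ n)‖ ^ 2 := by
      rw [Finset.mul_sum, ← Finset.sum_add_distrib]
      refine Finset.sum_le_sum fun n _ => ?_
      have h5 : (inner ℂ (L (ξ n)) (T i (ξ n))).re ≤ ‖L (ξ n)‖ * ‖T i (ξ n)‖ :=
        (Complex.re_le_norm _).trans (norm_inner_le_norm _ _)
      linarith only [h5, sq_nonneg (‖L (ξ n)‖ - ‖T i (ξ n)‖)]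
    linarith only [h3, h4]
  have h6 := le_of_tendsto (h1.const_mul 2) h2
  have h7 : ∑ n ∈ s, (inner ℂ (L (ξ n)) (L (ξ n))).re = ∑ n ∈ s, ‖L (ξ n)‖ ^ 2 :=
    Finset.sum_congr rfl fun n _ => inner_self_re _
  rw [h7] at h6
  linarith only [h6]

/-- limits of monotone families indexed by partitions -/
theorem net_lim (hξ : IsTrace M ξ) (hA : SO.IsMASA A M) (V : Part A.toStarSubalgebra → (H →L[ℂ] H))
    {C : ℝ} (hC0 : 0 ≤ C) (hV : ∀ Q, V Q ∈ M) (hC : ∀ Q, ‖V Q‖ ≤ C)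
    (hmono : ∀ Q Q' : Part A.toStarSubalgebra, Q.Finer Q' → n2 ξ (V Q - V Q') ≤ n2 ξ (V Q) - n2 ξ (V Q')) :
    ∃ v ∈ M, ‖v‖ ≤ C ∧
      (∀ ε : ℝ, 0 < ε → ∃ Q : Part A.toStarSubalgebra, ∀ Q', Q.Finer Q' → n2 ξ (V Q' - v) ≤ ε) ∧
      ∃ U : Ultrafilter (Part A.toStarSubalgebra),
        (U : Filter _) ≤ Part.filter A.toStarSubalgebra ∧
        ∀ ζ η : H, Tendsto (fun Q => inner ℂ ζ (V Q η)) U (𝓝 (inner ℂ ζ (v η))) := by
  have hAs := SO.IsMASA.toStar hA
  have := Part.filter_neBot hAs.2.1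
  obtain ⟨U, hU⟩ : ∃ U : Ultrafilter (Part A.toStarSubalgebra),
      (U : Filter _) ≤ Part.filter A.toStarSubalgebra := ⟨Ultrafilter.of _, Ultrafilter.of_le _⟩
  obtain ⟨v, hv1, hv2⟩ := exists_wot_limit U V C (Eventually.of_forall hC) hC0
  refine ⟨v, mem_of_tendsto' (Eventually.of_forall hV) hv2, hv1, ?_, U, hU, hv2⟩
  intro ε hε
  have hne : Nonempty (Part A.toStarSubalgebra) := ⟨Part.trivialPart _⟩
  have hbdd : BddBelow (Set.range fun Q => n2 ξ (V Q)) :=
    ⟨0, by rintro _ ⟨Q, rfl⟩; exact n2_nonneg _ _⟩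
  obtain ⟨Q0, hQ0⟩ := exists_lt_of_ciInf_lt
    (show ⨅ Q, n2 ξ (V Q) < (⨅ Q, n2 ξ (V Q)) + ε by linarith only [hε])
  refine ⟨Q0, fun Q' hQ' => ?_⟩
  have h1 : n2 ξ (V Q') ≤ n2 ξ (V Q0) := by
    linarith only [hmono Q0 Q' hQ', n2_nonneg ξ (V Q0 - V Q')]
  refine n2_le_of_tendsto hξ (l := (U : Filter _)) (T := fun Q'' => V Q' - V Q'') ?_ ?_
  · filter_upwards [hU (Part.eventually_finer Q')] with Q'' hQ''
    have h2 := hmono Q' Q'' hQ''
    have h3 := ciInf_le hbdd Q''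
    linarith only [hQ0, h1, h2, h3]
  · intro ζ η
    simp only [sub_apply, inner_sub_right]
    exact tendsto_const_nhds.sub (hv2 ζ η)

theorem part_E_E (hA : ∀ x ∈ A.toStarSubalgebra, ∀ y ∈ A.toStarSubalgebra, x * y = y * x)
    {Q Q' : Part A.toStarSubalgebra} (h : Q.Finer Q') (x : H →L[ℂ] H) :
    Q'.E (Q.E x) = Q'.E x := by
  classical
  rw [Part.E_apply, Part.E_apply Q' x]
  refine Finset.sum_congr rfl fun j _ => ?_
  have hc : ∀ i, Q'.e j * Q.e i = Q.e i * Q'.e j := fun i => hA _ (Q'.mem j) _ (Q.mem i)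
  by_cases h1 : ∃ i, Q.e i * Q'.e j = Q'.e j
  · obtain ⟨i, hi⟩ := h1
    have h2 : Q'.e j * Q.E x * Q'.e j = (Q'.e j * Q.e i) * Q.E x * Q'.e j := by
      rw [hc, hi]
    rw [h2, mul_assoc (Q'.e j) (Q.e i), Q.e_mul_E, ← mul_assoc, ← mul_assoc, hc, hi, mul_assoc _ (Q.e i),
      hi]
  · push Not at h1
    have h2 : Q'.e j = 0 := by
      have h3 : Q'.e j = ∑ i, Q.e i * Q'.e j := by rw [← Finset.sum_mul, Q.sum_eq, one_mul]
      rw [h3]
      exact Finset.sum_eq_zero fun i _ => (h i j).resolve_left (h1 i)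
    rw [h2, zero_mul, zero_mul, zero_mul, zero_mul]

theorem vtr_part_E (hA : SO.IsMASA A M) (hξ : IsTrace M ξ) (Q : Part A.toStarSubalgebra)
    {x : H →L[ℂ] H} (hx : x ∈ M) : vtr ξ (Q.E x) = vtr ξ x := by
  have hAs := SO.IsMASA.toStar hA
  rw [Part.E_apply, vtr_sum hξ]
  have h2 : ∀ i, vtr ξ (Q.e i * x * Q.e i) = vtr ξ (x * Q.e i) := by
    intro i
    have hei : Q.e i ∈ M := hAs.1 (Q.mem i)
    rw [mul_assoc, hξ.tracial (Q.e i) hei _ (mul_mem hx hei), mul_assoc, Q.e_mul_self]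
  rw [Finset.sum_congr rfl fun i _ => h2 i, ← vtr_sum hξ, ← Finset.mul_sum, Q.sum_eq, mul_one]

/-- the block-diagonal part is an orthogonal projection for the `2`-norm -/
theorem n2_sub_part_E (hA : SO.IsMASA A M) (hξ : IsTrace M ξ) (Q : Part A.toStarSubalgebra)
    {x : H →L[ℂ] H} (hx : x ∈ M) : n2 ξ (x - Q.E x) = n2 ξ x - n2 ξ (Q.E x) := by
  have hAs := SO.IsMASA.toStar hA
  have hEx : Q.E x ∈ M := Q.E_mem hAs.1 hx
  have hstar : star (Q.E x) = Q.E (star x) := by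
    rw [Part.E_apply, Part.E_apply, star_sum]
    refine Finset.sum_congr rfl fun i _ => ?_
    rw [star_mul, star_mul, (Q.proj i).isSelfAdjoint.star_eq, mul_assoc]
  have h1 : vtr ξ (star (Q.E x) * Q.E x) = vtr ξ (star (Q.E x) * x) := by
    rw [← vtr_part_E hA hξ Q (mul_mem (star_mem hEx) hx)]
    congr 1
    rw [Part.E_apply Q (star (Q.E x) * x), Part.E_apply Q x, Finset.mul_sum]
    refine Finset.sum_congr rfl fun i _ => ?_
    rw [← Part.E_apply Q x, hstar, ← mul_assoc, ← mul_assoc, ← mul_assoc]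
    rw [Q.e_mul_E, Q.E_mul_e]
  have h2 : vtr ξ (star x * Q.E x) = star (vtr ξ (star (Q.E x) * x)) := by
    rw [← vtr_star hξ, star_mul, star_star]
  have e : star (x - Q.E x) * (x - Q.E x) =
      star x * x - star x * Q.E x - (star (Q.E x) * x - star (Q.E x) * Q.E x) := by
    rw [star_sub, sub_mul, mul_sub, mul_sub]
  rw [n2_eq hξ, n2_eq hξ, n2_eq hξ, e, vtr_sub hξ, vtr_sub hξ, vtr_sub hξ, h2, h1, sub_self,
    sub_zero, Complex.sub_re, Complex.star_def, Complex.conj_re]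

/-- block-diagonal parts converge to the expectation -/
theorem pinch_lim (hA : SO.IsMASA A M) (hξ : IsTrace M ξ) (hE : IsTrExp M A ξ E) {x : H →L[ℂ] H}
    (hx : x ∈ M) {ε : ℝ} (hε : 0 < ε) :
    ∃ Q : Part A.toStarSubalgebra, ∀ Q', Q.Finer Q' → n2 ξ (Q'.E x - E x) ≤ ε := by
  have hAs := SO.IsMASA.toStar hA
  obtain ⟨v, hvM, hvn, hv, U, hU, hlim⟩ := net_lim hξ hA (fun Q => Q.E x) (norm_nonneg x)
    (fun Q => Q.E_mem hAs.1 hx) (fun Q => Q.norm_E_le x) (fun Q Q' h => by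
      rw [← part_E_E hAs.2.1 h x, n2_sub_part_E hA hξ Q' (Q.E_mem hAs.1 hx)])
  have hcomm : ∀ a ∈ A.toStarSubalgebra, v * a = a * v := by
    refine hAs.comm_of_proj (y := v) ?_
    intro e he hp
    refine (commute_of_tendsto (l := (U : Filter (Part A.toStarSubalgebra)))
      (T := fun Q : Part A.toStarSubalgebra => Q.E x) ?_ hlim).symm
    have h1 := hU (Part.eventually_finer (Part.two e he hp))
    filter_upwards [h1] with Q hQ
    exact Part.comm_E_of_finer hAs.2.1 hQ true x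
  have hvA : v ∈ A := hA.2.2 v hvM fun a ha => (hcomm a ha).symm
  have hvE : v = E x := by
    refine hE.uniq x hx v hvA fun a ha => ?_
    have hb : WCont M fun y => vtr ξ (y * a) := (wcont_vtr hξ).mul_right (hA.1 a ha)
    have h1 := hb ‖x‖ v (Filter.map (fun Q : Part A.toStarSubalgebra => Q.E x) (U : Filter _)) hvM
      (by
        rw [eventually_map]
        exact Eventually.of_forall fun Q => ⟨Q.E_mem hAs.1 hx, Q.norm_E_le x⟩)
      (by
        intro a b
        rw [tendsto_map'_iff]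
        exact hlim a b)
    rw [tendsto_map'_iff] at h1
    refine (tendsto_nhds_unique h1 (tendsto_const_nhds.congr fun Q => ?_)).symm
    have h2 : Part.E Q (x * a) = Q.E x * a := by
      rw [Part.E_apply, Part.E_apply, Finset.sum_mul]
      refine Finset.sum_congr rfl fun i _ => ?_
      rw [← mul_assoc, mul_assoc (Q.e i * x), hAs.2.1 _ ha _ (Q.mem i), ← mul_assoc]
    rw [Function.comp_apply, ← h2, vtr_part_E hA hξ Q (mul_mem hx (hA.1 a ha))]
  rw [← hvE]
  exact hv ε hε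

theorem sqrt_mem (N : VonNeumannAlgebra H) {p : H →L[ℂ] H} (hp : p ∈ N) : CFC.sqrt p ∈ N := by
  refine mem_of_commute fun y hy => ?_
  have h1 : Commute p y := (commutant_comm hp hy).symm
  have h2 : Commute (cfcₙ NNReal.sqrt p) y := h1.cfcₙ_nnreal _
  exact h2.eq.symm

/-- the trace of a product of positive elements is nonnegative -/
theorem vtr_mul_nonneg (hξ : IsTrace M ξ) {p q : H →L[ℂ] H} (hp : p ∈ M) (hq : q ∈ M)
    (hp0 : 0 ≤ p) (hq0 : 0 ≤ q) : 0 ≤ (vtr ξ (p * q)).re := by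
  have h1 : CFC.sqrt p * CFC.sqrt p = p := CFC.sqrt_mul_sqrt_self p hp0
  have h2 : IsSelfAdjoint (CFC.sqrt p) := IsSelfAdjoint.of_nonneg (CFC.sqrt_nonneg p)
  have h3 : CFC.sqrt p ∈ M := sqrt_mem M hp
  have h4 : vtr ξ (p * q) = vtr ξ (star (CFC.sqrt p) * q * CFC.sqrt p) := by
    nth_rewrite 1 [← h1]
    rw [h2.star_eq, mul_assoc, hξ.tracial _ h3 _ (mul_mem h3 hq)]
  rw [h4]
  exact (vtr_nonneg hξ (star_left_conjugate_nonneg hq0 _)).1

/-- monotonicity of the `2`-norm on positive elements -/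
theorem n2_mono (hξ : IsTrace M ξ) {p q : H →L[ℂ] H} (hp : p ∈ M) (hq : q ∈ M)
    (hp0 : 0 ≤ p) (hpq : p ≤ q) : n2 ξ p ≤ n2 ξ q := by
  have hq0 : 0 ≤ q := hp0.trans hpq
  have h1 := vtr_mul_nonneg hξ hp (sub_mem hq hp) hp0 (sub_nonneg.2 hpq)
  have h2 := vtr_mul_nonneg hξ (sub_mem hq hp) hq (sub_nonneg.2 hpq) hq0
  rw [n2_eq hξ, n2_eq hξ, (IsSelfAdjoint.of_nonneg hp0).star_eq,
    (IsSelfAdjoint.of_nonneg hq0).star_eq]
  rw [mul_sub, vtr_sub hξ, Complex.sub_re] at h1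
  rw [sub_mul, vtr_sub hξ, Complex.sub_re] at h2
  linarith only [h1, h2]

end Vale.Agent.P078.F
end

section

/-! General MASAs, part 2: the `4`-norm. -/

namespace Vale.Agent.P078.F

open Filter Topology
open Vale.Agent.P078 Vale.Agent.P078.C

variable {H : Type*} [NormedAddCommGroup H] [InnerProductSpace ℂ H] [CompleteSpace H]
variable {M A N : VonNeumannAlgebra H} {ξ : ℕ → H} {E : (H →L[ℂ] H) →ₗ[ℂ] (H →L[ℂ] H)}

/-- the fourth power of the `4`-norm -/
noncomputable def n4 (ξ : ℕ → H) (x : H →L[ℂ] H) : ℝ := n2 ξ (star x * x)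

theorem n4_nonneg (ξ : ℕ → H) (x : H →L[ℂ] H) : 0 ≤ n4 ξ x := n2_nonneg _ _

theorem n4_star (hξ : IsTrace M ξ) {x : H →L[ℂ] H} (hx : x ∈ M) : n4 ξ (star x) = n4 ξ x := by
  unfold n4
  rw [n2_eq hξ, n2_eq hξ, star_star]
  have e1 : star (x * star x) * (x * star x) = x * (star x * x * star x) := by
    rw [star_mul, star_star]; simp only [mul_assoc]
  have e2 : star (star x * x) * (star x * x) = (star x * x * star x) * x := by
    rw [star_mul, star_star]; simp only [mul_assoc]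
  rw [e1, e2, hξ.tracial x hx _ (mul_mem (mul_mem (star_mem hx) hx) (star_mem hx))]

theorem cfc_mem (N : VonNeumannAlgebra H) {x : H →L[ℂ] H} (hx : x ∈ N) (f : ℝ → ℝ) :
    cfc f x ∈ N := by
  refine mem_of_commute fun y hy => ?_
  have hc : Commute y x := commutant_comm hx hy
  exact (hc.symm.cfc_real f).symm

/-- truncation in the `4`-norm -/
theorem exists_trunc (hξ : IsTrace M ξ) {x : H →L[ℂ] H} (hx : x ∈ M) {κ : ℝ} (hκ : 0 < κ) :
    ∃ x' x'' : H →L[ℂ] H, x' ∈ M ∧ x'' ∈ M ∧ x = x' + x'' ∧ ‖x'‖ ≤ κ ∧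
      n2 ξ x'' ≤ n4 ξ x / κ ^ 2 := by
  set a : H →L[ℂ] H := star x * x with ha
  have ha0 : 0 ≤ a := star_mul_self_nonneg x
  have hasa : IsSelfAdjoint a := IsSelfAdjoint.of_nonneg ha0
  have haM : a ∈ M := mul_mem (star_mem hx) hx
  have hspec : ∀ t ∈ spectrum ℝ a, 0 ≤ t := fun t ht => spectrum_nonneg_of_nonneg ha0 ht
  set g : ℝ → ℝ := fun t => κ ^ 2 / (κ ^ 2 + t) with hg
  have hden : ∀ t ∈ spectrum ℝ a, κ ^ 2 + t ≠ 0 := by
    intro t ht
    have := hspec t ht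
    positivity
  have hgc : ContinuousOn g (spectrum ℝ a) :=
    ContinuousOn.div continuousOn_const (by fun_prop) hden
  set G : H →L[ℂ] H := cfc g a with hG
  have hGM : G ∈ M := cfc_mem M haM g
  have hGsa : IsSelfAdjoint G := cfc_predicate g a
  -- norm of the truncated part
  have e1 : star (x * G) * (x * G) = cfc (fun t => g t * (t * g t)) a := by
    rw [star_mul, hGsa.star_eq]
    have h1 : G * star x * (x * G) = G * (a * G) := by rw [ha]; simp only [mul_assoc]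
    rw [h1, cfc_mul g (fun t => t * g t) a hgc (continuousOn_id.mul hgc),
      cfc_mul (fun t => t) g a continuousOn_id hgc, cfc_id' ℝ a]
  have e2 : x - x * G = x * (1 - G) := by rw [mul_sub, mul_one]
  have h1G : (1 : H →L[ℂ] H) - G = cfc (fun t => 1 - g t) a := by
    rw [cfc_sub (fun _ => (1 : ℝ)) g a continuousOn_const hgc, cfc_const_one ℝ a]
  have h1gc : ContinuousOn (fun t => 1 - g t) (spectrum ℝ a) := continuousOn_const.sub hgc
  have e3 : star (x * (1 - G)) * (x * (1 - G)) =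
      cfc (fun t => (1 - g t) * (t * (1 - g t))) a := by
    have hs : IsSelfAdjoint (1 - G) := (IsSelfAdjoint.one _).sub hGsa
    rw [star_mul, hs.star_eq]
    have h1 : (1 - G) * star x * (x * (1 - G)) = (1 - G) * (a * (1 - G)) := by
      rw [ha]; simp only [mul_assoc]
    rw [h1, h1G, cfc_mul (fun t => 1 - g t) (fun t => t * (1 - g t)) a h1gc
      (continuousOn_id.mul h1gc), cfc_mul (fun t => t) (fun t => 1 - g t) a continuousOn_id h1gc,
      cfc_id' ℝ a]
  refine ⟨x * G, x - x * G, mul_mem hx hGM, sub_mem hx (mul_mem hx hGM), by abel, ?_, ?_⟩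
  · have h1 : ‖x * G‖ * ‖x * G‖ ≤ κ * κ := by
      rw [← CStarRing.norm_star_mul_self, e1]
      refine norm_cfc_le (by (clear * - hκ; positivity)) fun t ht => ?_
      have ht0 := hspec t ht
      have hp : 0 < κ ^ 2 + t := by (clear * - hκ ht0; positivity)
      rw [Real.norm_eq_abs, abs_of_nonneg (by simp only [hg]; (clear * - hκ ht0; positivity))]
      simp only [hg]
      rw [show κ ^ 2 / (κ ^ 2 + t) * (t * (κ ^ 2 / (κ ^ 2 + t))) =
        (κ ^ 2 * κ ^ 2 * t) / ((κ ^ 2 + t) * (κ ^ 2 + t)) by field_simp, div_le_iff₀ (by (clear * - hκ ht0; positivity))]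
      have h2 : κ ^ 2 * t ≤ (κ ^ 2 + t) * (κ ^ 2 + t) := by nlinarith only [sq_nonneg κ, sq_nonneg t]
      linarith only [mul_nonneg (sub_nonneg.2 h2) (sq_nonneg κ)]
    exact abs_le_of_sq_le_sq' (by linarith only [h1, h1]) hκ.le |>.2
  · rw [e2, n2_eq hξ, e3]
    unfold n4
    rw [n2_eq hξ]
    have e4 : star (star x * x) * (star x * x) = cfc (fun t : ℝ => t * t) a := by
      rw [← ha, hasa.star_eq, cfc_mul (fun t : ℝ => t) (fun t => t) a continuousOn_id
        continuousOn_id, cfc_id' ℝ a]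
    rw [e4]
    have h5 : cfc (fun t => (1 - g t) * (t * (1 - g t))) a ≤
        cfc (fun t : ℝ => (κ ^ 2)⁻¹ * (t * t)) a := by
      refine cfc_mono (fun t ht => ?_) (h1gc.mul (continuousOn_id.mul h1gc)) (by fun_prop)
      have ht0 := hspec t ht
      have hp : 0 < κ ^ 2 + t := by (clear * - hκ ht0; positivity)
      have h6 : 1 - g t = t / (κ ^ 2 + t) := by
        simp only [hg]; field_simp; ring
      rw [h6]
      rw [show t / (κ ^ 2 + t) * (t * (t / (κ ^ 2 + t))) = (t * t * t) /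
        ((κ ^ 2 + t) * (κ ^ 2 + t)) by field_simp, inv_mul_eq_div,
        div_le_div_iff₀ (by (clear * - hκ ht0; positivity)) (by (clear * - hκ; positivity))]
      have h2 : κ ^ 2 * t ≤ (κ ^ 2 + t) * (κ ^ 2 + t) := by nlinarith only [sq_nonneg κ, sq_nonneg t]
      linarith only [ht0, h2, mul_le_mul_of_nonneg_left h2 (mul_nonneg ht0 ht0)]
    have h7 := (vtr_nonneg hξ (sub_nonneg.2 h5)).1
    rw [vtr_sub hξ, Complex.sub_re, cfc_const_mul ((κ ^ 2)⁻¹) (fun t : ℝ => t * t) a] at h7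
    have h8 : ((κ ^ 2)⁻¹ • cfc (fun t : ℝ => t * t) a : H →L[ℂ] H) =
        (((κ ^ 2)⁻¹ : ℝ) : ℂ) • cfc (fun t : ℝ => t * t) a := by
      rw [Complex.coe_smul]
    rw [h8, vtr_smul hξ, Complex.re_ofReal_mul] at h7
    rw [div_eq_inv_mul]
    linarith only [h7]

end Vale.Agent.P078.F
end

section

/-! General MASAs, part 6a: Fourier side of random colourings. -/

set_option linter.unusedSectionVars false

namespace Vale.Agent.P078.F

open Filter Topology
open Vale.Agent.P078 Vale.Agent.P078.C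
open scoped Classical

variable {H : Type*} [NormedAddCommGroup H] [InnerProductSpace ℂ H] [CompleteSpace H]
variable {M A N : VonNeumannAlgebra H} {ξ : ℕ → H}

theorem n2_smul (ξ : ℕ → H) (c : ℂ) (x : H →L[ℂ] H) : n2 ξ (c • x) = ‖c‖ ^ 2 * n2 ξ x := by
  unfold n2
  rw [← tsum_mul_left]
  refine tsum_congr fun n => ?_
  rw [smul_apply, norm_smul, mul_pow]

theorem n2_zero (ξ : ℕ → H) : n2 ξ (0 : H →L[ℂ] H) = 0 := by
  simp [n2]

theorem n2_sum_orth (hξ : IsTrace M ξ) (Q : Part A.toStarSubalgebra)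
    (G : Q.ι → (H →L[ℂ] H)) :
    n2 ξ (∑ i, Q.e i * G i) = ∑ i, n2 ξ (Q.e i * G i) := by
  unfold n2
  rw [← Summable.tsum_finsetSum fun i _ => n2_summable hξ _]
  refine tsum_congr fun n => ?_
  rw [Q.norm_sq_eq]
  refine Finset.sum_congr rfl fun i _ => ?_
  have h1 : Q.e i * (∑ j, Q.e j * G j) = Q.e i * G i := by
    rw [Finset.mul_sum, Finset.sum_eq_single i]
    · rw [← mul_assoc, Q.e_mul_self]
    · intro j _ hj
      rw [← mul_assoc, Q.orth i j hj.symm, zero_mul]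
    · intro h; exact absurd (Finset.mem_univ i) h
  rw [← h1]
  rfl

theorem n2_eq_sum (hξ : IsTrace M ξ) (Q : Part A.toStarSubalgebra) (x : H →L[ℂ] H) :
    n2 ξ x = ∑ i, n2 ξ (Q.e i * x) := by
  rw [← n2_sum_orth hξ Q fun _ => x, ← Finset.sum_mul, Q.sum_eq, one_mul]

theorem n2_e_mul_le (hξ : IsTrace M ξ) (Q : Part A.toStarSubalgebra) (i : Q.ι)
    (x : H →L[ℂ] H) : n2 ξ (Q.e i * x) ≤ n2 ξ x := by
  rw [n2_eq_sum hξ Q x]
  exact Finset.single_le_sum (f := fun j => n2 ξ (Q.e j * x)) (fun j _ => n2_nonneg _ _)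
    (Finset.mem_univ i)

theorem n2_add_le (hξ : IsTrace M ξ) (x y : H →L[ℂ] H) :
    n2 ξ (x + y) ≤ 2 * n2 ξ x + 2 * n2 ξ y := by
  have h1 := sqrt_n2_add hξ x y
  have hx := n2_nonneg ξ x
  have hy := n2_nonneg ξ y
  have hxy := n2_nonneg ξ (x + y)
  have h2 : n2 ξ (x + y) ≤ (Real.sqrt (n2 ξ x) + Real.sqrt (n2 ξ y)) ^ 2 := by
    rw [← Real.sq_sqrt hxy]
    exact pow_le_pow_left₀ (Real.sqrt_nonneg _) h1 2
  linarith only [sq_nonneg (Real.sqrt (n2 ξ x) - Real.sqrt (n2 ξ y)), Real.sq_sqrt hy, Real.sq_sqrt hx, h2]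

theorem sqrt_n2_sum (hξ : IsTrace M ξ) {ι : Type*} (s : Finset ι) (x : ι → (H →L[ℂ] H)) :
    Real.sqrt (n2 ξ (∑ i ∈ s, x i)) ≤ ∑ i ∈ s, Real.sqrt (n2 ξ (x i)) := by
  induction s using Finset.induction_on with
  | empty => simp [n2_zero]
  | insert a s ha ih =>
    rw [Finset.sum_insert ha, Finset.sum_insert ha]
    exact (sqrt_n2_add hξ _ _).trans (by gcongr)

theorem n2_sum_le (hξ : IsTrace M ξ) {ι : Type*} (s : Finset ι) (x : ι → (H →L[ℂ] H)) :
    n2 ξ (∑ i ∈ s, x i) ≤ s.card * ∑ i ∈ s, n2 ξ (x i) := by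
  have h1 := sqrt_n2_sum hξ s x
  have h2 : n2 ξ (∑ i ∈ s, x i) ≤ (∑ i ∈ s, Real.sqrt (n2 ξ (x i))) ^ 2 := by
    rw [← Real.sq_sqrt (n2_nonneg ξ (∑ i ∈ s, x i))]
    exact pow_le_pow_left₀ (Real.sqrt_nonneg _) h1 2
  refine h2.trans ((sq_sum_le_card_mul_sum_sq).trans (le_of_eq ?_))
  congr 1
  exact Finset.sum_congr rfl fun i _ => Real.sq_sqrt (n2_nonneg _ _)

section fn

variable (Q : Part A.toStarSubalgebra) {r : ℕ} [NeZero r]

/-- square of the norm -/
noncomputable def NN (ξ : ℕ → H) (F : (Q.ι → ZMod r) → (H →L[ℂ] H)) : ℝ := ∑ k, n2 ξ (F k)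

/-- the norm -/
noncomputable def nr (ξ : ℕ → H) (F : (Q.ι → ZMod r) → (H →L[ℂ] H)) : ℝ :=
  Real.sqrt (NN Q ξ F)

/-- multiplication by the `m`-th power of the colouring unitary -/
noncomputable def UU (m : ZMod r) (F : (Q.ι → ZMod r) → (H →L[ℂ] H)) :
    (Q.ι → ZMod r) → (H →L[ℂ] H) := fun k => ∑ i, Q.e i * F (k - Pi.single i m)

/-- projection on the vectors of left degree `l` -/
noncomputable def PP (l : ZMod r) (F : (Q.ι → ZMod r) → (H →L[ℂ] H)) :
    (Q.ι → ZMod r) → (H →L[ℂ] H) := fun k => ∑ i, Q.e i * (if k i = l then F k else 0)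

/-- left multiplication by `y` -/
noncomputable def YY (y : H →L[ℂ] H) (F : (Q.ι → ZMod r) → (H →L[ℂ] H)) :
    (Q.ι → ZMod r) → (H →L[ℂ] H) := fun k => y * F k

/-- the pinching -/
noncomputable def TT (y : H →L[ℂ] H) (F : (Q.ι → ZMod r) → (H →L[ℂ] H)) :
    (Q.ι → ZMod r) → (H →L[ℂ] H) :=
  ((r : ℂ)⁻¹) • ∑ m, UU Q m (YY Q y (UU Q (-m) F))

/-- the error term -/
noncomputable def ZZ (y : H →L[ℂ] H) (F : (Q.ι → ZMod r) → (H →L[ℂ] H)) :
    (Q.ι → ZMod r) → (H →L[ℂ] H) :=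
  YY Q y (F - PP Q 0 F) - PP Q 0 (YY Q y (F - PP Q 0 F))

variable {Q}

theorem NN_nonneg (F : (Q.ι → ZMod r) → (H →L[ℂ] H)) : 0 ≤ NN Q ξ F :=
  Finset.sum_nonneg fun _ _ => n2_nonneg _ _

theorem nr_nonneg (F : (Q.ι → ZMod r) → (H →L[ℂ] H)) : 0 ≤ nr Q ξ F := Real.sqrt_nonneg _

theorem nr_sq (F : (Q.ι → ZMod r) → (H →L[ℂ] H)) : nr Q ξ F ^ 2 = NN Q ξ F :=
  Real.sq_sqrt (NN_nonneg F)

theorem nr_le_of_NN {F G : (Q.ι → ZMod r) → (H →L[ℂ] H)} (h : NN Q ξ F ≤ NN Q ξ G) :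
    nr Q ξ F ≤ nr Q ξ G := Real.sqrt_le_sqrt h

theorem nr_add (hξ : IsTrace M ξ) (F G : (Q.ι → ZMod r) → (H →L[ℂ] H)) :
    nr Q ξ (F + G) ≤ nr Q ξ F + nr Q ξ G := by
  have key : ∀ K : (Q.ι → ZMod r) → (H →L[ℂ] H),
      nr Q ξ K = ‖(WithLp.toLp 2 (fun k => Real.sqrt (n2 ξ (K k))) :
        EuclideanSpace ℝ (Q.ι → ZMod r))‖ := by
    intro K
    rw [EuclideanSpace.norm_eq]
    unfold nr NN
    congr 1
    refine Finset.sum_congr rfl fun k _ => ?_
    rw [Real.norm_eq_abs, sq_abs, Real.sq_sqrt (n2_nonneg _ _)]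
  rw [key F, key G]
  refine le_trans ?_ (norm_add_le _ _)
  rw [EuclideanSpace.norm_eq]
  unfold nr NN
  refine Real.sqrt_le_sqrt (Finset.sum_le_sum fun k _ => ?_)
  rw [Real.norm_eq_abs, sq_abs, ← Real.sq_sqrt (n2_nonneg ξ ((F + G) k))]
  exact pow_le_pow_left₀ (Real.sqrt_nonneg _) (sqrt_n2_add hξ _ _) 2

theorem NN_smul (c : ℂ) (F : (Q.ι → ZMod r) → (H →L[ℂ] H)) :
    NN Q ξ (c • F) = ‖c‖ ^ 2 * NN Q ξ F := by
  unfold NN
  rw [Finset.mul_sum]
  exact Finset.sum_congr rfl fun k _ => n2_smul ξ c (F k)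

theorem nr_smul (c : ℂ) (F : (Q.ι → ZMod r) → (H →L[ℂ] H)) :
    nr Q ξ (c • F) = ‖c‖ * nr Q ξ F := by
  unfold nr
  rw [NN_smul, Real.sqrt_mul (by positivity), Real.sqrt_sq (norm_nonneg c)]

theorem NN_zero : NN Q ξ (0 : (Q.ι → ZMod r) → (H →L[ℂ] H)) = 0 :=
  by
  unfold NN
  refine Finset.sum_eq_zero fun k _ => ?_
  rw [Pi.zero_apply]
  exact n2_zero ξ

theorem nr_zero : nr Q ξ (0 : (Q.ι → ZMod r) → (H →L[ℂ] H)) = 0 := by
  unfold nr
  rw [NN_zero, Real.sqrt_zero]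

theorem nr_sum (hξ : IsTrace M ξ) {ι : Type*} (s : Finset ι)
    (F : ι → (Q.ι → ZMod r) → (H →L[ℂ] H)) :
    nr Q ξ (∑ i ∈ s, F i) ≤ ∑ i ∈ s, nr Q ξ (F i) := by
  induction s using Finset.induction_on with
  | empty => simp [nr_zero]
  | insert a s ha ih =>
    rw [Finset.sum_insert ha, Finset.sum_insert ha]
    exact (nr_add hξ _ _).trans (by gcongr)

theorem NN_shift (hξ : IsTrace M ξ) (σ : Q.ι → Equiv.Perm (Q.ι → ZMod r))
    (F : (Q.ι → ZMod r) → (H →L[ℂ] H)) :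
    ∑ k, n2 ξ (∑ i, Q.e i * F (σ i k)) = ∑ k, n2 ξ (F k) := by
  have h1 : ∀ k : Q.ι → ZMod r, n2 ξ (∑ i, Q.e i * F (σ i k)) =
      ∑ i, n2 ξ (Q.e i * F (σ i k)) := fun k => n2_sum_orth hξ Q fun i => F (σ i k)
  rw [Finset.sum_congr rfl fun k _ => h1 k, Finset.sum_comm]
  have h2 : ∀ i : Q.ι, ∑ k : Q.ι → ZMod r, n2 ξ (Q.e i * F (σ i k)) =
      ∑ k : Q.ι → ZMod r, n2 ξ (Q.e i * F k) := fun i =>
    Equiv.sum_comp (σ i) fun k => n2 ξ (Q.e i * F k)
  rw [Finset.sum_congr rfl fun i _ => h2 i, Finset.sum_comm]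
  exact Finset.sum_congr rfl fun k _ => (n2_eq_sum hξ Q (F k)).symm

theorem NN_UU (hξ : IsTrace M ξ) (m : ZMod r) (F : (Q.ι → ZMod r) → (H →L[ℂ] H)) :
    NN Q ξ (UU Q m F) = NN Q ξ F :=
  NN_shift hξ (fun i => Equiv.subRight (Pi.single i m)) F

theorem nr_UU (hξ : IsTrace M ξ) (m : ZMod r) (F : (Q.ι → ZMod r) → (H →L[ℂ] H)) :
    nr Q ξ (UU Q m F) = nr Q ξ F := by
  unfold nr
  rw [NN_UU hξ]

theorem nr_YY_le (hξ : IsTrace M ξ) {y : H →L[ℂ] H} (hy1 : ‖y‖ ≤ 1)
    (F : (Q.ι → ZMod r) → (H →L[ℂ] H)) : nr Q ξ (YY Q y F) ≤ nr Q ξ F := by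
  refine nr_le_of_NN (Finset.sum_le_sum fun k _ => ?_)
  refine (n2_mul_le hξ _ _).trans ?_
  have h1 : ‖y‖ ^ 2 ≤ 1 := pow_le_one₀ (norm_nonneg _) hy1
  linarith only [mul_nonneg (sub_nonneg.2 h1) (sub_nonneg.2 (n2_nonneg ξ (F k)))]

theorem NN_sum_PP (hξ : IsTrace M ξ) (G : ZMod r → (Q.ι → ZMod r) → (H →L[ℂ] H)) :
    NN Q ξ (∑ l, PP Q l (G l)) = ∑ l, NN Q ξ (PP Q l (G l)) := by
  unfold NN PP
  rw [Finset.sum_comm]
  refine Finset.sum_congr rfl fun k _ => ?_
  have h1 : (∑ l, fun k : Q.ι → ZMod r => ∑ i, Q.e i * (if k i = l then G l k else 0)) k =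
      ∑ i, Q.e i * G (k i) k := by
    rw [Finset.sum_apply, Finset.sum_comm]
    refine Finset.sum_congr rfl fun i _ => ?_
    rw [← Finset.mul_sum, Finset.sum_ite_eq Finset.univ (k i) fun l => G l k, if_pos (Finset.mem_univ _)]
  rw [h1, n2_sum_orth hξ]
  have h2 : ∀ l, n2 ξ (∑ i, Q.e i * (if k i = l then G l k else 0)) =
      ∑ i, n2 ξ (Q.e i * (if k i = l then G l k else 0)) := fun l => n2_sum_orth hξ Q _
  rw [Finset.sum_congr rfl fun l _ => h2 l, Finset.sum_comm]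
  refine Finset.sum_congr rfl fun i _ => ?_
  rw [Finset.sum_eq_single (k i)]
  · rw [if_pos rfl]
  · intro l _ hl
    rw [if_neg fun h => hl h.symm, mul_zero, n2_zero]
  · intro h; exact absurd (Finset.mem_univ _) h

theorem sum_PP (F : (Q.ι → ZMod r) → (H →L[ℂ] H)) : ∑ l, PP Q l F = F := by
  funext k
  unfold PP
  rw [Finset.sum_apply, Finset.sum_comm]
  have h1 : ∀ i, ∑ l : ZMod r, Q.e i * (if k i = l then F k else 0) = Q.e i * F k := by
    intro i
    rw [← Finset.mul_sum, Finset.sum_ite_eq Finset.univ (k i) fun _ => F k,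
      if_pos (Finset.mem_univ _)]
  rw [Finset.sum_congr rfl fun i _ => h1 i, ← Finset.sum_mul, Q.sum_eq, one_mul]

theorem NN_PP_le (hξ : IsTrace M ξ) (l : ZMod r) (F : (Q.ι → ZMod r) → (H →L[ℂ] H)) :
    NN Q ξ (PP Q l F) ≤ NN Q ξ F := by
  have h1 := NN_sum_PP hξ (Q := Q) fun _ => F
  rw [sum_PP] at h1
  rw [h1]
  exact Finset.single_le_sum (f := fun l => NN Q ξ (PP Q l F)) (fun _ _ => NN_nonneg _)
    (Finset.mem_univ l)

theorem UU_PP (m l : ZMod r) (F : (Q.ι → ZMod r) → (H →L[ℂ] H)) :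
    UU Q m (PP Q l F) = PP Q (l + m) (UU Q m F) := by
  funext k
  unfold UU PP
  have h1 : ∀ i, Q.e i * ∑ j, Q.e j * (if (k - (Pi.single i m : Q.ι → ZMod r)) j = l then
      F (k - Pi.single i m) else 0) =
      Q.e i * (if k i = l + m then F (k - Pi.single i m) else 0) := by
    intro i
    rw [Finset.mul_sum, Finset.sum_eq_single i]
    · rw [← mul_assoc, Q.e_mul_self, Pi.sub_apply, Pi.single_eq_same]
      by_cases h : k i = l + m
      · rw [if_pos h, if_pos (sub_eq_iff_eq_add.2 h)]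
      · rw [if_neg h, if_neg fun h' => h (sub_eq_iff_eq_add.1 h')]
    · intro j _ hj
      rw [← mul_assoc, Q.orth i j hj.symm, zero_mul]
    · intro h; exact absurd (Finset.mem_univ i) h
  rw [Finset.sum_congr rfl fun i _ => h1 i]
  refine Finset.sum_congr rfl fun i _ => ?_
  split_ifs with h
  · rw [Finset.mul_sum, Finset.sum_eq_single i]
    · rw [← mul_assoc, Q.e_mul_self]
    · intro j _ hj
      rw [← mul_assoc, Q.orth i j hj.symm, zero_mul]
    · intro h; exact absurd (Finset.mem_univ i) h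
  · rw [mul_zero]

theorem UU_UU (m m' : ZMod r) (F : (Q.ι → ZMod r) → (H →L[ℂ] H)) :
    UU Q m (UU Q m' F) = UU Q (m + m') F := by
  funext k
  unfold UU
  refine Finset.sum_congr rfl fun i _ => ?_
  rw [Finset.mul_sum, Finset.sum_eq_single i]
  · rw [← mul_assoc, Q.e_mul_self, sub_sub, ← Pi.single_add]
  · intro j _ hj
    rw [← mul_assoc, Q.orth i j hj.symm, zero_mul]
  · intro h; exact absurd (Finset.mem_univ i) h

theorem UU_zero (F : (Q.ι → ZMod r) → (H →L[ℂ] H)) : UU Q 0 F = F := by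
  funext k
  unfold UU
  simp only [Pi.single_zero, sub_zero]
  rw [← Finset.sum_mul, Q.sum_eq, one_mul]

theorem UU_add (m : ZMod r) (F G : (Q.ι → ZMod r) → (H →L[ℂ] H)) :
    UU Q m (F + G) = UU Q m F + UU Q m G := by
  funext k
  simp only [UU, Pi.add_apply, mul_add, Finset.sum_add_distrib]

theorem PP_sub_le (hξ : IsTrace M ξ) (F : (Q.ι → ZMod r) → (H →L[ℂ] H)) :
    NN Q ξ (F - PP Q 0 F) ≤ NN Q ξ F := by
  refine Finset.sum_le_sum fun k _ => ?_
  have h1 : (F - PP Q 0 F) k = ∑ i, Q.e i * (if k i = 0 then 0 else F k) := by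
    rw [Pi.sub_apply]
    unfold PP
    have h2 : F k = ∑ i, Q.e i * F k := by rw [← Finset.sum_mul, Q.sum_eq, one_mul]
    have h3 : ∀ i, Q.e i * (if k i = 0 then 0 else F k) =
        Q.e i * F k - Q.e i * (if k i = 0 then F k else 0) := by
      intro i
      rw [← mul_sub]
      split_ifs <;> simp
    rw [Finset.sum_congr rfl fun i _ => h3 i, Finset.sum_sub_distrib, ← h2]
  have h4 : n2 ξ ((F - PP Q 0 F) k) ≤ n2 ξ (F k) := by
    rw [h1, n2_sum_orth hξ, n2_eq_sum hξ Q (F k)]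
    refine Finset.sum_le_sum fun i _ => ?_
    split_ifs
    · rw [mul_zero, n2_zero]; exact n2_nonneg _ _
    · exact le_rfl
  exact h4

/-- main inequality on the Fourier side -/
theorem nr_TT_le (hξ : IsTrace M ξ) {y : H →L[ℂ] H} (hy1 : ‖y‖ ≤ 1)
    (F : (Q.ι → ZMod r) → (H →L[ℂ] H)) {B : ℝ}
    (hB : ∀ m, nr Q ξ (ZZ Q y (UU Q (-m) F)) ≤ B) :
    nr Q ξ (TT Q y F) ≤ 2 / Real.sqrt r * nr Q ξ F + B := by
  have hr : (0 : ℝ) < r := by exact_mod_cast NeZero.pos r
  have hcard : (Finset.univ : Finset (ZMod r)).card = r := ZMod.card r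
  -- decomposition
  have hdec : ∀ m, UU Q m (YY Q y (UU Q (-m) F)) =
      PP Q m (UU Q m (YY Q y (UU Q (-m) F))) +
      (UU Q m (YY Q y (PP Q 0 (UU Q (-m) F)) - PP Q 0 (YY Q y (PP Q 0 (UU Q (-m) F)))) +
      UU Q m (ZZ Q y (UU Q (-m) F))) := by
    intro m
    have h1 : PP Q m (UU Q m (YY Q y (UU Q (-m) F))) =
        UU Q m (PP Q 0 (YY Q y (UU Q (-m) F))) := by rw [UU_PP, zero_add]
    rw [h1, ← UU_add, ← UU_add]
    congr 1
    funext k
    simp only [ZZ, YY, PP, Pi.add_apply, Pi.sub_apply]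
    have h2 : ∀ i : Q.ι, Q.e i * (if k i = 0 then y * (UU Q (-m) F k) else 0) =
        Q.e i * (if k i = 0 then y * (∑ j, Q.e j * if k j = 0 then UU Q (-m) F k else 0) else 0) +
        Q.e i * (if k i = 0 then y * (UU Q (-m) F k -
          ∑ j, Q.e j * if k j = 0 then UU Q (-m) F k else 0) else 0) := by
      intro i
      rw [← mul_add]
      split_ifs
      · rw [← mul_add, add_sub_cancel]
      · rw [add_zero]
    rw [Finset.sum_congr rfl fun i _ => h2 i, Finset.sum_add_distrib, mul_sub]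
    abel
  -- first sum
  have hS1 : nr Q ξ (∑ m, PP Q m (UU Q m (YY Q y (UU Q (-m) F)))) ≤
      Real.sqrt r * nr Q ξ F := by
    have h1 : NN Q ξ (∑ m, PP Q m (UU Q m (YY Q y (UU Q (-m) F)))) ≤ r * NN Q ξ F := by
      rw [NN_sum_PP hξ]
      have h2 : ∀ m : ZMod r, NN Q ξ (PP Q m (UU Q m (YY Q y (UU Q (-m) F)))) ≤ NN Q ξ F := by
        intro m
        refine (NN_PP_le hξ _ _).trans ?_
        rw [NN_UU hξ, ← nr_sq, ← nr_sq]
        refine pow_le_pow_left₀ (nr_nonneg _) ((nr_YY_le hξ hy1 _).trans ?_) 2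
        rw [nr_UU hξ]
      refine (Finset.sum_le_sum fun m _ => h2 m).trans ?_
      rw [Finset.sum_const, hcard, nsmul_eq_mul]
    unfold nr
    rw [← Real.sqrt_mul hr.le]
    exact Real.sqrt_le_sqrt h1
  -- second sum
  have hS2 : nr Q ξ (∑ m, UU Q m (YY Q y (PP Q 0 (UU Q (-m) F)) -
      PP Q 0 (YY Q y (PP Q 0 (UU Q (-m) F))))) ≤ Real.sqrt r * nr Q ξ F := by
    refine (nr_sum hξ _ _).trans ?_
    have h1 : ∀ m : ZMod r, nr Q ξ (UU Q m (YY Q y (PP Q 0 (UU Q (-m) F)) -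
        PP Q 0 (YY Q y (PP Q 0 (UU Q (-m) F))))) ≤ nr Q ξ (PP Q m F) := by
      intro m
      rw [nr_UU hξ]
      refine (nr_le_of_NN (PP_sub_le hξ _)).trans ((nr_YY_le hξ hy1 _).trans ?_)
      have h2 : PP Q 0 (UU Q (-m) F) = UU Q (-m) (PP Q m F) := by
        rw [UU_PP, add_neg_cancel]
      rw [h2, nr_UU hξ]
    refine (Finset.sum_le_sum fun m _ => h1 m).trans ?_
    have h3 : (∑ m : ZMod r, nr Q ξ (PP Q m F)) ^ 2 ≤ r * NN Q ξ F := by
      refine sq_sum_le_card_mul_sum_sq.trans ?_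
      rw [hcard]
      refine mul_le_mul_of_nonneg_left (le_of_eq ?_) hr.le
      have h4 := NN_sum_PP hξ (Q := Q) fun _ => F
      rw [sum_PP] at h4
      rw [h4]
      exact Finset.sum_congr rfl fun m _ => nr_sq _
    have h5 : 0 ≤ ∑ m : ZMod r, nr Q ξ (PP Q m F) := Finset.sum_nonneg fun _ _ => nr_nonneg _
    rw [← Real.sqrt_sq h5]
    unfold nr at h3 ⊢
    rw [← Real.sqrt_mul hr.le]
    exact Real.sqrt_le_sqrt h3
  -- third sum
  have hS3 : nr Q ξ (∑ m, UU Q m (ZZ Q y (UU Q (-m) F))) ≤ r * B := by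
    refine (nr_sum hξ _ _).trans ?_
    have h1 : ∀ m : ZMod r, nr Q ξ (UU Q m (ZZ Q y (UU Q (-m) F))) ≤ B := by
      intro m
      rw [nr_UU hξ]
      exact hB m
    refine (Finset.sum_le_sum fun m _ => h1 m).trans ?_
    rw [Finset.sum_const, hcard, nsmul_eq_mul]
  have hT : nr Q ξ (TT Q y F) ≤ (r : ℝ)⁻¹ * (2 * (Real.sqrt r * nr Q ξ F) + r * B) := by
    unfold TT
    rw [nr_smul, Finset.sum_congr rfl fun m _ => hdec m, Finset.sum_add_distrib,
      Finset.sum_add_distrib, norm_inv, Complex.norm_natCast]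
    refine mul_le_mul_of_nonneg_left ?_ (by positivity)
    have h1 := nr_add hξ (∑ m, PP Q m (UU Q m (YY Q y (UU Q (-m) F))))
      (∑ m, UU Q m (YY Q y (PP Q 0 (UU Q (-m) F)) - PP Q 0 (YY Q y (PP Q 0 (UU Q (-m) F)))) +
        ∑ m, UU Q m (ZZ Q y (UU Q (-m) F)))
    have h2 := nr_add hξ
      (∑ m, UU Q m (YY Q y (PP Q 0 (UU Q (-m) F)) - PP Q 0 (YY Q y (PP Q 0 (UU Q (-m) F)))))
      (∑ m, UU Q m (ZZ Q y (UU Q (-m) F)))
    linarith only [h2, h1, hS3, hS2, hS1]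
  refine hT.trans (le_of_eq ?_)
  have h6 : (r : ℝ)⁻¹ * Real.sqrt r = 1 / Real.sqrt r := by
    rw [inv_mul_eq_div]
    exact Real.sqrt_div_self'
  have h7 : (r : ℝ)⁻¹ * (r * B) = B := by field_simp
  calc (r : ℝ)⁻¹ * (2 * (Real.sqrt r * nr Q ξ F) + r * B)
      = 2 * ((r : ℝ)⁻¹ * Real.sqrt r) * nr Q ξ F + (r : ℝ)⁻¹ * (r * B) := by ring
    _ = 2 / Real.sqrt r * nr Q ξ F + B := by rw [h6, h7]; ring

end fn

end Vale.Agent.P078.F
end

end
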