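import Vale.Agent.P078.Bdl.B13
import Vale.Agent.P078.Bdl.Fast

set_option linter.all false
attribute [local instance] Vale.Agent.P078.Fast.a01 Vale.Agent.P078.Fast.a02
  Vale.Agent.P078.Fast.a03 Vale.Agent.P078.Fast.a04 Vale.Agent.P078.Fast.a05
  Vale.Agent.P078.Fast.a06 Vale.Agent.P078.Fast.a07 Vale.Agent.P078.Fast.a08
  Vale.Agent.P078.Fast.a09 Vale.Agent.P078.Fast.a10 Vale.Agent.P078.Fast.a11
  Vale.Agent.P078.Fast.a12 Vale.Agent.P078.Fast.a13 Vale.Agent.P078.Fast.a14
  Vale.Agent.P078.Fast.a15 Vale.Agent.P078.Fast.a16 Vale.Agent.P078.Fast.a17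
  Vale.Agent.P078.Fast.a18 Vale.Agent.P078.Fast.a19 Vale.Agent.P078.Fast.a20
  Vale.Agent.P078.Fast.a21 Vale.Agent.P078.Fast.a22 Vale.Agent.P078.Fast.a23
  Vale.Agent.P078.Fast.a24 Vale.Agent.P078.Fast.a25 Vale.Agent.P078.Fast.a26
  Vale.Agent.P078.Fast.a27 Vale.Agent.P078.Fast.a28 Vale.Agent.P078.Fast.a29
  Vale.Agent.P078.Fast.a30 Vale.Agent.P078.Fast.a31 Vale.Agent.P078.Fast.a32
  Vale.Agent.P078.Fast.a33 Vale.Agent.P078.Fast.a34 Vale.Agent.P078.Fast.a35
  Vale.Agent.P078.Fast.a36 Vale.Agent.P078.Fast.a37 Vale.Agent.P078.Fast.a38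
  Vale.Agent.P078.Fast.a39 Vale.Agent.P078.Fast.a40 Vale.Agent.P078.Fast.a41
  Vale.Agent.P078.Fast.a42 Vale.Agent.P078.Fast.a43 Vale.Agent.P078.Fast.a44
  Vale.Agent.P078.Fast.a45 Vale.Agent.P078.Fast.a46 Vale.Agent.P078.Fast.a47
  Vale.Agent.P078.Fast.a48 Vale.Agent.P078.Fast.a49 Vale.Agent.P078.Fast.a50
  Vale.Agent.P078.Fast.a51 Vale.Agent.P078.Fast.a52 Vale.Agent.P078.Fast.a53
  Vale.Agent.P078.Fast.a54
attribute [local instance] Vale.Agent.P078.Fast.b01 Vale.Agent.P078.Fast.b02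
  Vale.Agent.P078.Fast.b03 Vale.Agent.P078.Fast.b04 Vale.Agent.P078.Fast.b05
  Vale.Agent.P078.Fast.b06 Vale.Agent.P078.Fast.b07 Vale.Agent.P078.Fast.b08
  Vale.Agent.P078.Fast.b09 Vale.Agent.P078.Fast.b10 Vale.Agent.P078.Fast.b11

section
section

/-! General MASAs, part 6b: characters and evaluation at a colouring. -/

set_option linter.unusedSectionVars false

namespace Vale.Agent.P078.F

open Filter Topology
open Vale.Agent.P078 Vale.Agent.P078.C
open scoped Classical ComplexConjugate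

variable {H : Type*} [NormedAddCommGroup H] [InnerProductSpace ℂ H] [CompleteSpace H]
variable {M A N : VonNeumannAlgebra H} {ξ : ℕ → H}

section chars

variable {J : Type*} [Fintype J] {r : ℕ} [NeZero r]

/-- the characters -/
noncomputable def ch (k c : J → ZMod r) : ℂ := ZMod.stdAddChar (∑ i, k i * c i)

theorem ch_add (k k' c : J → ZMod r) : ch (k + k') c = ch k c * ch k' c := by
  unfold ch
  rw [← AddChar.map_add_eq_mul, ← Finset.sum_add_distrib]
  congr 1
  exact Finset.sum_congr rfl fun i _ => by rw [Pi.add_apply, add_mul]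

theorem ch_zero (c : J → ZMod r) : ch 0 c = 1 := by
  unfold ch
  have h1 : ∑ i, (0 : J → ZMod r) i * c i = 0 :=
    Finset.sum_eq_zero fun i _ => by rw [Pi.zero_apply, zero_mul]
  rw [h1, AddChar.map_zero_eq_one]

theorem norm_stdChar (a : ZMod r) : ‖(ZMod.stdAddChar a : ℂ)‖ = 1 := by
  rw [ZMod.stdAddChar_apply]
  exact Circle.norm_coe _

theorem norm_ch (k c : J → ZMod r) : ‖ch k c‖ = 1 := norm_stdChar _

theorem conj_ch (k c : J → ZMod r) : conj (ch k c) = ch (-k) c := by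
  have h1 : ch k c * ch (-k) c = 1 := by rw [← ch_add, add_neg_cancel, ch_zero]
  have h2 : ch k c * conj (ch k c) = 1 := by
    rw [Complex.mul_conj, Complex.normSq_eq_norm_sq, norm_ch]
    norm_num
  have h3 : ch k c ≠ 0 := fun h => by
    rw [h, zero_mul] at h1
    exact zero_ne_one h1
  exact mul_left_cancel₀ h3 (h2.trans h1.symm)

theorem ch_single (i : J) (m : ZMod r) (c : J → ZMod r) :
    ch (Pi.single i m) c = ZMod.stdAddChar (m * c i) := by
  unfold ch
  congr 1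
  rw [Finset.sum_eq_single i]
  · rw [Pi.single_eq_same]
  · intro j _ hj
    rw [Pi.single_eq_of_ne hj, zero_mul]
  · intro h; exact absurd (Finset.mem_univ i) h

theorem sum_stdChar (b : ZMod r) :
    ∑ a : ZMod r, (ZMod.stdAddChar (b * a) : ℂ) = if b = 0 then (r : ℂ) else 0 := by
  have h1 := AddChar.sum_mulShift b (ZMod.isPrimitive_stdAddChar r)
  rw [ZMod.card] at h1
  rw [Finset.sum_congr rfl fun a _ => by rw [mul_comm b a], h1]
  split_ifs <;> simp

theorem sum_ch (k : J → ZMod r) :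
    ∑ c : J → ZMod r, ch k c = if k = 0 then (r : ℂ) ^ Fintype.card J else 0 := by
  have h1 : ∀ c : J → ZMod r, ch k c = ∏ i, (ZMod.stdAddChar (k i * c i) : ℂ) := by
    intro c
    unfold ch
    have h5 := map_prod (ZMod.stdAddChar (N := r)).toMonoidHom
      (fun i => Multiplicative.ofAdd (k i * c i)) (Finset.univ : Finset J)
    rw [← ofAdd_sum] at h5
    exact h5
  rw [Finset.sum_congr rfl fun c _ => h1 c]
  have h2 := (Finset.prod_univ_sum (fun _ : J => (Finset.univ : Finset (ZMod r)))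
    fun i a => (ZMod.stdAddChar (k i * a) : ℂ))
  rw [Fintype.piFinset_univ] at h2
  rw [← h2, Finset.prod_congr rfl fun i _ => sum_stdChar (k i)]
  split_ifs with h
  · rw [h, Finset.prod_congr rfl fun i _ => by rw [Pi.zero_apply, if_pos rfl],
      Finset.prod_const, Finset.card_univ]
  · obtain ⟨i, hi⟩ : ∃ i, k i ≠ 0 := by
      by_contra hc
      push Not at hc
      exact h (funext hc)
    exact Finset.prod_eq_zero (Finset.mem_univ i) (if_neg hi)

theorem parseval (v : (J → ZMod r) → H) :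
    ∑ c : J → ZMod r, ‖∑ k, ch k c • v k‖ ^ 2 = (r : ℝ) ^ Fintype.card J * ∑ k, ‖v k‖ ^ 2 := by
  have h1 : ∀ c : J → ZMod r, ((‖∑ k, ch k c • v k‖ ^ 2 : ℝ) : ℂ) =
      ∑ k, ∑ k', ch (k' - k) c * inner ℂ (v k) (v k') := by
    intro c
    have h2 := inner_self_eq_norm_sq_to_K (𝕜 := ℂ) (∑ k, ch k c • v k)
    rw [Complex.ofReal_pow]
    refine h2.symm.trans ?_
    rw [sum_inner]
    refine Finset.sum_congr rfl fun k _ => ?_
    rw [inner_sum]
    refine Finset.sum_congr rfl fun k' _ => ?_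
    rw [inner_smul_left, inner_smul_right, conj_ch, ← mul_assoc, ← ch_add, sub_eq_add_neg,
      add_comm k' (-k)]
  have h3 : ((∑ c : J → ZMod r, ‖∑ k, ch k c • v k‖ ^ 2 : ℝ) : ℂ) =
      (((r : ℝ) ^ Fintype.card J * ∑ k, ‖v k‖ ^ 2 : ℝ) : ℂ) := by
    rw [Complex.ofReal_sum, Finset.sum_congr rfl fun c _ => h1 c, Finset.sum_comm]
    have h4 : ∀ k : J → ZMod r, ∑ c : J → ZMod r, ∑ k', ch (k' - k) c * inner ℂ (v k) (v k') =
        (r : ℂ) ^ Fintype.card J * ((‖v k‖ ^ 2 : ℝ) : ℂ) := by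
      intro k
      rw [Finset.sum_comm, Finset.sum_eq_single k]
      · rw [← Finset.sum_mul, sum_ch, sub_self, if_pos rfl, inner_self_eq_norm_sq_to_K,
          Complex.ofReal_pow]
        rfl
      · intro k' _ hk'
        rw [← Finset.sum_mul, sum_ch, if_neg (sub_ne_zero.2 hk'), zero_mul]
      · intro h; exact absurd (Finset.mem_univ k) h
    rw [Finset.sum_congr rfl fun k _ => h4 k, ← Finset.mul_sum]
    push_cast
    rfl
  exact_mod_cast h3

end chars

section ev

variable (Q : Part A.toStarSubalgebra) {r : ℕ} [NeZero r]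

/-- evaluation at a colouring -/
noncomputable def ev (c : Q.ι → ZMod r) (F : (Q.ι → ZMod r) → (H →L[ℂ] H)) : H →L[ℂ] H :=
  ∑ k, ch k c • F k

/-- powers of the colouring unitary -/
noncomputable def uu (c : Q.ι → ZMod r) (m : ZMod r) : H →L[ℂ] H :=
  ∑ i, (ZMod.stdAddChar (m * c i) : ℂ) • Q.e i

/-- the pinching by the colour classes -/
noncomputable def pc (c : Q.ι → ZMod r) (y : H →L[ℂ] H) : H →L[ℂ] H :=
  ∑ i, ∑ j, if c i = c j then Q.e i * y * Q.e j else 0

/-- the unit -/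
noncomputable def d0 : (Q.ι → ZMod r) → (H →L[ℂ] H) := fun k => if k = 0 then 1 else 0

variable {Q}

theorem n2_parseval (hξ : IsTrace M ξ) (F : (Q.ι → ZMod r) → (H →L[ℂ] H)) :
    ∑ c, n2 ξ (ev Q c F) = (r : ℝ) ^ Fintype.card Q.ι * NN Q ξ F := by
  unfold NN n2
  rw [← Summable.tsum_finsetSum fun c _ => n2_summable hξ _,
    ← Summable.tsum_finsetSum fun k _ => n2_summable hξ _, ← tsum_mul_left]
  refine tsum_congr fun n => ?_
  rw [← parseval fun k => F k (ξ n)]
  refine Finset.sum_congr rfl fun c _ => ?_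
  unfold ev
  rw [sum_apply]
  rfl

theorem ev_d0 (c : Q.ι → ZMod r) : ev Q c (d0 Q) = 1 := by
  unfold ev d0
  rw [Finset.sum_eq_single 0]
  · rw [if_pos rfl, ch_zero, one_smul]
  · intro k _ hk
    rw [if_neg hk, smul_zero]
  · intro h; exact absurd (Finset.mem_univ _) h

theorem ev_YY (c : Q.ι → ZMod r) (y : H →L[ℂ] H) (F : (Q.ι → ZMod r) → (H →L[ℂ] H)) :
    ev Q c (YY Q y F) = y * ev Q c F := by
  unfold ev YY
  rw [Finset.mul_sum]
  exact Finset.sum_congr rfl fun k _ => by rw [mul_smul_comm]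

theorem ev_shift (c : Q.ι → ZMod r) (s : Q.ι → ZMod r) (F : (Q.ι → ZMod r) → (H →L[ℂ] H)) :
    ∑ k, ch k c • F (k - s) = ch s c • ∑ k, ch k c • F k := by
  rw [Finset.smul_sum, ← Equiv.sum_comp (Equiv.addRight s)]
  refine Finset.sum_congr rfl fun k _ => ?_
  rw [Equiv.coe_addRight, smul_smul, ← ch_add, add_sub_cancel_right, add_comm]

theorem ev_UU (c : Q.ι → ZMod r) (m : ZMod r) (F : (Q.ι → ZMod r) → (H →L[ℂ] H)) :
    ev Q c (UU Q m F) = uu Q c m * ev Q c F := by
  unfold ev UU uu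
  rw [Finset.sum_mul]
  have h1 : ∀ k : Q.ι → ZMod r, ch k c • ∑ i, Q.e i * F (k - Pi.single i m) =
      ∑ i, Q.e i * (ch k c • F (k - Pi.single i m)) := by
    intro k
    rw [Finset.smul_sum]
    exact Finset.sum_congr rfl fun i _ => by rw [mul_smul_comm]
  rw [Finset.sum_congr rfl fun k _ => h1 k, Finset.sum_comm]
  refine Finset.sum_congr rfl fun i _ => ?_
  rw [← Finset.mul_sum, ev_shift (Q := Q) c (Pi.single i m) F, ch_single, mul_smul_comm,
    smul_mul_assoc]

theorem ev_smul (c : Q.ι → ZMod r) (a : ℂ) (F : (Q.ι → ZMod r) → (H →L[ℂ] H)) :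
    ev Q c (a • F) = a • ev Q c F := by
  unfold ev
  rw [Finset.smul_sum]
  exact Finset.sum_congr rfl fun k _ => by rw [Pi.smul_apply, smul_comm]

theorem ev_sum (c : Q.ι → ZMod r) {ι : Type*} (s : Finset ι)
    (F : ι → (Q.ι → ZMod r) → (H →L[ℂ] H)) : ev Q c (∑ i ∈ s, F i) = ∑ i ∈ s, ev Q c (F i) := by
  unfold ev
  rw [Finset.sum_comm]
  exact Finset.sum_congr rfl fun k _ => by rw [Finset.sum_apply, Finset.smul_sum]

theorem sum_uu (c : Q.ι → ZMod r) (y : H →L[ℂ] H) :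
    ((r : ℂ)⁻¹) • ∑ m, uu Q c m * (y * uu Q c (-m)) = pc Q c y := by
  unfold uu pc
  have h1 : ∀ m : ZMod r, (∑ i, (ZMod.stdAddChar (m * c i) : ℂ) • Q.e i) *
      (y * ∑ j, (ZMod.stdAddChar (-m * c j) : ℂ) • Q.e j) =
      ∑ i, ∑ j, (ZMod.stdAddChar ((c i - c j) * m) : ℂ) • (Q.e i * y * Q.e j) := by
    intro m
    rw [Finset.sum_mul]
    refine Finset.sum_congr rfl fun i _ => ?_
    rw [Finset.mul_sum, Finset.mul_sum]
    refine Finset.sum_congr rfl fun j _ => ?_
    rw [smul_mul_assoc, mul_smul_comm, mul_smul_comm, smul_smul, ← AddChar.map_add_eq_mul,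
      mul_assoc]
    congr 2
    ring
  rw [Finset.sum_congr rfl fun m _ => h1 m, Finset.sum_comm, Finset.smul_sum]
  refine Finset.sum_congr rfl fun i _ => ?_
  rw [Finset.sum_comm, Finset.smul_sum]
  refine Finset.sum_congr rfl fun j _ => ?_
  rw [← Finset.sum_smul, sum_stdChar, smul_smul]
  have hr : (r : ℂ) ≠ 0 := Nat.cast_ne_zero.2 (NeZero.ne r)
  by_cases h : c i = c j
  · rw [if_pos (sub_eq_zero.2 h), if_pos h, inv_mul_cancel₀ hr, one_smul]
  · rw [if_neg (sub_ne_zero.2 h), if_neg h, mul_zero, zero_smul]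

theorem ev_TT (c : Q.ι → ZMod r) (y : H →L[ℂ] H) (F : (Q.ι → ZMod r) → (H →L[ℂ] H)) :
    ev Q c (TT Q y F) = pc Q c y * ev Q c F := by
  unfold TT
  rw [ev_smul, ev_sum, ← sum_uu, smul_mul_assoc, Finset.sum_mul]
  congr 1
  refine Finset.sum_congr rfl fun m _ => ?_
  rw [ev_UU, ev_YY, ev_UU]
  simp only [mul_assoc]

theorem ev_iter (c : Q.ι → ZMod r) (y : H →L[ℂ] H) (n : ℕ) :
    ev Q c ((TT Q y)^[n] (d0 Q)) = pc Q c y ^ n := by
  induction n with
  | zero => rw [Function.iterate_zero, id_eq, ev_d0, pow_zero]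
  | succ n ih => rw [Function.iterate_succ_apply', ev_TT, ih, pow_succ']

end ev

end Vale.Agent.P078.F
end

section

/-! General MASAs, part 6c: degrees and the error term. -/

set_option linter.unusedSectionVars false

namespace Vale.Agent.P078.F

open Filter Topology
open Vale.Agent.P078 Vale.Agent.P078.C
open scoped Classical

variable {H : Type*} [NormedAddCommGroup H] [InnerProductSpace ℂ H] [CompleteSpace H]
variable {M A N : VonNeumannAlgebra H} {ξ : ℕ → H}

section deg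

variable {Q : Part A.toStarSubalgebra} {r : ℕ} [NeZero r]

/-- the support -/
noncomputable def sp (k : Q.ι → ZMod r) : Finset Q.ι := Finset.univ.filter fun i => k i ≠ 0

theorem mem_sp {k : Q.ι → ZMod r} {i : Q.ι} : i ∈ sp k ↔ k i ≠ 0 := by simp [sp]

/-- degree at most `d` -/
def Deg (d : ℕ) (F : (Q.ι → ZMod r) → (H →L[ℂ] H)) : Prop := ∀ k, d < (sp k).card → F k = 0

theorem deg_d0 : Deg 0 (d0 Q : (Q.ι → ZMod r) → (H →L[ℂ] H)) := by
  intro k hk
  unfold d0
  rw [if_neg]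
  rintro rfl
  obtain ⟨i, hi⟩ := Finset.card_pos.1 hk
  exact mem_sp.1 hi rfl

theorem deg_mono {d d' : ℕ} (h : d ≤ d') {F : (Q.ι → ZMod r) → (H →L[ℂ] H)} (hF : Deg d F) :
    Deg d' F := fun k hk => hF k (lt_of_le_of_lt h hk)

theorem deg_YY {d : ℕ} {F : (Q.ι → ZMod r) → (H →L[ℂ] H)} (hF : Deg d F) (y : H →L[ℂ] H) :
    Deg d (YY Q y F) := by
  intro k hk
  unfold YY
  rw [hF k hk, mul_zero]

theorem sp_sub (k : Q.ι → ZMod r) (i : Q.ι) (m : ZMod r) :
    (sp k).card ≤ (sp (k - Pi.single i m)).card + 1 := by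
  have h1 : sp k ⊆ insert i (sp (k - Pi.single i m)) := by
    intro j hj
    rw [Finset.mem_insert]
    by_cases h : j = i
    · exact Or.inl h
    · right
      rw [mem_sp, Pi.sub_apply, Pi.single_eq_of_ne h, sub_zero]
      exact mem_sp.1 hj
  exact (Finset.card_le_card h1).trans (Finset.card_insert_le _ _)

theorem deg_UU {d : ℕ} {F : (Q.ι → ZMod r) → (H →L[ℂ] H)} (hF : Deg d F) (m : ZMod r) :
    Deg (d + 1) (UU Q m F) := by
  intro k hk
  unfold UU
  refine Finset.sum_eq_zero fun i _ => ?_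
  have h1 := sp_sub k i m
  rw [hF _ (by omega), mul_zero]

theorem deg_TT {d : ℕ} {F : (Q.ι → ZMod r) → (H →L[ℂ] H)} (hF : Deg d F) (y : H →L[ℂ] H) :
    Deg (d + 2) (TT Q y F) := by
  intro k hk
  unfold TT
  rw [Pi.smul_apply, Finset.sum_apply]
  have h1 : ∀ m : ZMod r, UU Q m (YY Q y (UU Q (-m) F)) k = 0 := fun m =>
    deg_UU (deg_YY (deg_UU hF (-m)) y) m k hk
  rw [Finset.sum_eq_zero fun m _ => h1 m, smul_zero]

theorem deg_iter (y : H →L[ℂ] H) (n : ℕ) : Deg (2 * n) ((TT Q y)^[n] (d0 Q) :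
    (Q.ι → ZMod r) → (H →L[ℂ] H)) := by
  induction n with
  | zero => exact deg_d0
  | succ n ih =>
    rw [Function.iterate_succ_apply']
    exact deg_TT ih y

theorem n2_ZZ (hξ : IsTrace M ξ) (y : H →L[ℂ] H) {d : ℕ} {G : (Q.ι → ZMod r) → (H →L[ℂ] H)}
    (hG : Deg d G) (k : Q.ι → ZMod r) :
    n2 ξ (ZZ Q y G k) ≤ d * ∑ i ∈ sp k, ∑ j ∈ sp k, n2 ξ (Q.e i * y * Q.e j * G k) := by
  have h1 : ∀ F : (Q.ι → ZMod r) → (H →L[ℂ] H), (F - PP Q 0 F) k = ∑ i ∈ sp k, Q.e i * F k := by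
    intro F
    have h2 : F k = ∑ i, Q.e i * F k := by rw [← Finset.sum_mul, Q.sum_eq, one_mul]
    have h3 : ∀ i, Q.e i * F k - Q.e i * (if k i = 0 then F k else 0) =
        if k i ≠ 0 then Q.e i * F k else 0 := by
      intro i
      by_cases h : k i = 0
      · rw [if_pos h, if_neg (not_not.2 h), sub_self]
      · rw [if_neg h, if_pos h, mul_zero, sub_zero]
    rw [Pi.sub_apply]
    unfold PP sp
    rw [Finset.sum_filter, ← Finset.sum_congr rfl fun i _ => h3 i, Finset.sum_sub_distrib, ← h2]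
  have h4 : ZZ Q y G k = ∑ i ∈ sp k, Q.e i * (∑ j ∈ sp k, y * Q.e j * G k) := by
    change (YY Q y (G - PP Q 0 G) - PP Q 0 (YY Q y (G - PP Q 0 G))) k = _
    rw [h1]
    refine Finset.sum_congr rfl fun i _ => ?_
    unfold YY
    rw [h1, Finset.mul_sum]
    simp only [mul_assoc]
  have h5 : ∑ i ∈ sp k, Q.e i * (∑ j ∈ sp k, y * Q.e j * G k) =
      ∑ i, Q.e i * (if i ∈ sp k then (∑ j ∈ sp k, y * Q.e j * G k) else 0) := by
    rw [← Finset.sum_filter_add_sum_filter_not Finset.univ (fun i => i ∈ sp k)]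
    rw [Finset.filter_mem_eq_inter, Finset.univ_inter]
    rw [Finset.sum_congr rfl fun i (hi : i ∈ Finset.univ.filter fun i => i ∉ sp k) => by
      rw [if_neg (Finset.mem_filter.1 hi).2, mul_zero], Finset.sum_const_zero, add_zero]
    exact Finset.sum_congr rfl fun i hi => by rw [if_pos hi]
  by_cases hd : d < (sp k).card
  · have h6 : ZZ Q y G k = 0 := by
      rw [h4]
      refine Finset.sum_eq_zero fun i _ => ?_
      rw [Finset.sum_eq_zero fun j _ => by rw [hG k hd, mul_zero], mul_zero]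
    rw [h6, n2_zero]
    exact mul_nonneg (Nat.cast_nonneg _)
      (Finset.sum_nonneg fun i _ => Finset.sum_nonneg fun j _ => n2_nonneg _ _)
  · push Not at hd
    rw [h4, h5, n2_sum_orth hξ Q fun i => if i ∈ sp k then (∑ j ∈ sp k, y * Q.e j * G k) else 0]
    have h7 : ∀ i, n2 ξ (Q.e i * (if i ∈ sp k then (∑ j ∈ sp k, y * Q.e j * G k) else 0)) =
        if i ∈ sp k then n2 ξ (∑ j ∈ sp k, Q.e i * y * Q.e j * G k) else 0 := by
      intro i
      split_ifs
      · rw [Finset.mul_sum]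
        simp only [mul_assoc]
      · rw [mul_zero, n2_zero]
    rw [Finset.sum_congr rfl fun i _ => h7 i, Finset.sum_ite_mem, Finset.univ_inter,
      Finset.mul_sum]
    refine Finset.sum_le_sum fun i _ => ?_
    refine (n2_sum_le hξ _ _).trans ?_
    refine mul_le_mul_of_nonneg_right ?_ (Finset.sum_nonneg fun j _ => n2_nonneg _ _)
    exact_mod_cast hd

theorem NN_YY_le (hξ : IsTrace M ξ) {z : H →L[ℂ] H} (hz : z ∈ M)
    {G : (Q.ι → ZMod r) → (H →L[ℂ] H)} (hev : ∀ c, ev Q c G ∈ M ∧ ‖ev Q c G‖ ≤ 1) :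
    NN Q ξ (YY Q z G) ≤ n2 ξ z := by
  have hr : (0 : ℝ) < (r : ℝ) ^ Fintype.card Q.ι := by
    have : (0 : ℝ) < r := by exact_mod_cast NeZero.pos r
    positivity
  have h1 := n2_parseval hξ (YY Q z G)
  have h2 : ∑ c : Q.ι → ZMod r, n2 ξ (ev Q c (YY Q z G)) ≤
      (r : ℝ) ^ Fintype.card Q.ι * n2 ξ z := by
    have h3 : ∀ c : Q.ι → ZMod r, n2 ξ (ev Q c (YY Q z G)) ≤ n2 ξ z := by
      intro c
      rw [ev_YY]
      refine (n2_mul_le' hξ hz (hev c).1).trans ?_
      have h4 : ‖ev Q c G‖ ^ 2 ≤ 1 := pow_le_one₀ (norm_nonneg _) (hev c).2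
      linarith only [mul_nonneg (sub_nonneg.2 h4) (sub_nonneg.2 (n2_nonneg ξ z))]
    refine (Finset.sum_le_sum fun c _ => h3 c).trans (le_of_eq ?_)
    rw [Finset.sum_const, nsmul_eq_mul, Finset.card_univ, Fintype.card_fun, ZMod.card]
    push_cast
    rfl
  rw [h1] at h2
  exact le_of_mul_le_mul_left h2 hr

theorem NN_le_one (hξ : IsTrace M ξ) {G : (Q.ι → ZMod r) → (H →L[ℂ] H)}
    (hev : ∀ c, ev Q c G ∈ M ∧ ‖ev Q c G‖ ≤ 1) : NN Q ξ G ≤ 1 := by
  have h1 := NN_YY_le hξ (one_mem M) hev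
  have h2 : YY Q 1 G = G := by
    funext k
    unfold YY
    rw [one_mul]
  rw [h2] at h1
  refine h1.trans ((n2_le hξ 1).trans ?_)
  have h3 : ‖(1 : H →L[ℂ] H)‖ ≤ 1 := ContinuousLinearMap.norm_id_le
  exact pow_le_one₀ (norm_nonneg _) h3

theorem norm_e_le (Q : Part A.toStarSubalgebra) (i : Q.ι) : ‖Q.e i‖ ≤ 1 := by
  refine ContinuousLinearMap.opNorm_le_bound _ zero_le_one fun v => ?_
  rw [one_mul]
  exact proj_norm_le (Q.proj i) v

/-- the error term is small -/
theorem NN_ZZ_le (hξ : IsTrace M ξ) (hAM : ∀ a ∈ A, a ∈ M) {y : H →L[ℂ] H} (hy : y ∈ M)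
    {d : ℕ} {G : (Q.ι → ZMod r) → (H →L[ℂ] H)} (hG : Deg d G)
    (hev : ∀ c, ev Q c G ∈ M ∧ ‖ev Q c G‖ ≤ 1) {κ : ℝ} (hκ : 0 < κ) :
    NN Q ξ (ZZ Q y G) ≤ d * (2 * (κ ^ 2 * d) +
      2 * ((∑ i, ∑ j, n4 ξ (Q.e i * y * Q.e j)) / κ ^ 2)) := by
  have heM : ∀ i, Q.e i ∈ M := fun i => hAM _ (Q.mem i)
  have hyM : ∀ i j, Q.e i * y * Q.e j ∈ M := fun i j => mul_mem (mul_mem (heM i) hy) (heM j)
  choose y' y'' hy' hy'' hsum hnorm hn4 using fun i j => exists_trunc hξ (hyM i j) hκ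
  have hd0 : (0 : ℝ) ≤ d := Nat.cast_nonneg _
  -- pointwise estimate
  have h1 : ∀ k, n2 ξ (ZZ Q y G k) ≤ d * (2 * (κ ^ 2 * d * n2 ξ (G k)) +
      2 * ∑ i, ∑ j, n2 ξ (y'' i j * Q.e j * G k)) := by
    intro k
    by_cases hd : d < (sp k).card
    · have h2 := n2_ZZ hξ y hG k
      have h3 : ∑ i ∈ sp k, ∑ j ∈ sp k, n2 ξ (Q.e i * y * Q.e j * G k) = 0 :=
        Finset.sum_eq_zero fun i _ => Finset.sum_eq_zero fun j _ => by
          rw [hG k hd, mul_zero, n2_zero]
      rw [h3, mul_zero] at h2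
      refine h2.trans (mul_nonneg hd0 ?_)
      have h4 := n2_nonneg ξ (G k)
      have h5 : 0 ≤ ∑ i, ∑ j, n2 ξ (y'' i j * Q.e j * G k) :=
        Finset.sum_nonneg fun i _ => Finset.sum_nonneg fun j _ => n2_nonneg _ _
      (clear * - hκ h4 h5; positivity)
    · push Not at hd
      refine (n2_ZZ hξ y hG k).trans (mul_le_mul_of_nonneg_left ?_ hd0)
      have h2 : ∀ i j, n2 ξ (Q.e i * y * Q.e j * G k) ≤
          2 * (κ ^ 2 * n2 ξ (Q.e j * G k)) + 2 * n2 ξ (y'' i j * Q.e j * G k) := by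
        intro i j
        have e1 : Q.e i * y * Q.e j * G k = y' i j * (Q.e j * G k) + y'' i j * Q.e j * G k := by
          have e2 : Q.e i * y * Q.e j = (Q.e i * y * Q.e j) * Q.e j := by
            rw [mul_assoc (Q.e i * y), Q.e_mul_self]
          rw [e2]
          conv_lhs => rw [hsum i j]
          rw [add_mul, add_mul, mul_assoc (y' i j)]
        rw [e1]
        refine (n2_add_le hξ _ _).trans ?_
        have h3 : n2 ξ (y' i j * (Q.e j * G k)) ≤ κ ^ 2 * n2 ξ (Q.e j * G k) := by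
          refine (n2_mul_le hξ _ _).trans ?_
          exact mul_le_mul_of_nonneg_right (pow_le_pow_left₀ (norm_nonneg _) (hnorm i j) 2)
            (n2_nonneg _ _)
        linarith only [h3]
      have h4 : ∑ i ∈ sp k, ∑ j ∈ sp k, n2 ξ (Q.e i * y * Q.e j * G k) ≤
          ∑ i ∈ sp k, ∑ j ∈ sp k, (2 * (κ ^ 2 * n2 ξ (Q.e j * G k)) +
            2 * n2 ξ (y'' i j * Q.e j * G k)) :=
        Finset.sum_le_sum fun i _ => Finset.sum_le_sum fun j _ => h2 i j
      refine h4.trans ?_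
      have h5 : ∑ i ∈ sp k, ∑ j ∈ sp k, (2 * (κ ^ 2 * n2 ξ (Q.e j * G k)) +
            2 * n2 ξ (y'' i j * Q.e j * G k)) =
          2 * (κ ^ 2 * ((sp k).card * ∑ j ∈ sp k, n2 ξ (Q.e j * G k))) +
            2 * ∑ i ∈ sp k, ∑ j ∈ sp k, n2 ξ (y'' i j * Q.e j * G k) := by
        simp only [Finset.sum_add_distrib, ← Finset.mul_sum, Finset.sum_const, nsmul_eq_mul]
      rw [h5]
      have h6 : ∑ j ∈ sp k, n2 ξ (Q.e j * G k) ≤ n2 ξ (G k) := by
        rw [n2_eq_sum hξ Q (G k)]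
        exact Finset.sum_le_sum_of_subset_of_nonneg (Finset.subset_univ _)
          fun j _ _ => n2_nonneg _ _
      have h7 : ∑ i ∈ sp k, ∑ j ∈ sp k, n2 ξ (y'' i j * Q.e j * G k) ≤
          ∑ i, ∑ j, n2 ξ (y'' i j * Q.e j * G k) := by
        refine (Finset.sum_le_sum fun i _ => Finset.sum_le_sum_of_subset_of_nonneg
          (Finset.subset_univ _) fun j _ _ => n2_nonneg _ _).trans ?_
        exact Finset.sum_le_sum_of_subset_of_nonneg (Finset.subset_univ _)
          fun i _ _ => Finset.sum_nonneg fun j _ => n2_nonneg _ _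
      have h8 : κ ^ 2 * ((sp k).card * ∑ j ∈ sp k, n2 ξ (Q.e j * G k)) ≤
          κ ^ 2 * d * n2 ξ (G k) := by
        rw [mul_assoc]
        refine mul_le_mul_of_nonneg_left ?_ (by (clear * - hκ; positivity))
        have h9 : ((sp k).card : ℝ) ≤ d := by exact_mod_cast hd
        exact mul_le_mul h9 h6 (Finset.sum_nonneg fun j _ => n2_nonneg _ _) hd0
      linarith only [h7, h8]
  -- sum over `k`
  have h2 : NN Q ξ (ZZ Q y G) ≤ d * (2 * (κ ^ 2 * d * NN Q ξ G) +
      2 * ∑ i, ∑ j, NN Q ξ (YY Q (y'' i j * Q.e j) G)) := by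
    refine (Finset.sum_le_sum fun k _ => h1 k).trans (le_of_eq ?_)
    unfold NN YY
    rw [← Finset.mul_sum, Finset.sum_add_distrib, ← Finset.mul_sum, ← Finset.mul_sum,
      ← Finset.mul_sum, Finset.sum_comm]
    congr 3
    refine Finset.sum_congr rfl fun i _ => Finset.sum_comm
  refine h2.trans (mul_le_mul_of_nonneg_left ?_ hd0)
  have h3 : κ ^ 2 * d * NN Q ξ G ≤ κ ^ 2 * d := by
    have := NN_le_one hξ hev
    have h4 : 0 ≤ κ ^ 2 * d := by (clear * - hκ; positivity)
    linarith only [mul_nonneg (sub_nonneg.2 this) (sub_nonneg.2 h4)]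
  have h4 : ∑ i, ∑ j, NN Q ξ (YY Q (y'' i j * Q.e j) G) ≤
      (∑ i, ∑ j, n4 ξ (Q.e i * y * Q.e j)) / κ ^ 2 := by
    rw [Finset.sum_div]
    refine Finset.sum_le_sum fun i _ => ?_
    rw [Finset.sum_div]
    refine Finset.sum_le_sum fun j _ => ?_
    refine (NN_YY_le hξ (mul_mem (hy'' i j) (heM j)) hev).trans (le_trans ?_ (hn4 i j))
    refine (n2_mul_le' hξ (hy'' i j) (heM j)).trans ?_
    have h5 : ‖Q.e j‖ ^ 2 ≤ 1 := pow_le_one₀ (norm_nonneg _) (norm_e_le Q j)
    nlinarith only [h5, n2_nonneg ξ (y'' i j)]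
  linarith only [h3, h4]

end deg

end Vale.Agent.P078.F
end

section

/-! General MASAs, part 6: random colourings of fine partitions. -/

set_option linter.unusedSectionVars false

namespace Vale.Agent.P078.F

open Filter Topology
open Vale.Agent.P078 Vale.Agent.P078.C
open scoped Classical ComplexConjugate

variable {H : Type*} [NormedAddCommGroup H] [InnerProductSpace ℂ H] [CompleteSpace H]
variable {M A N : VonNeumannAlgebra H} {ξ : ℕ → H} {E : (H →L[ℂ] H) →ₗ[ℂ] (H →L[ℂ] H)}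

section iter

variable {r : ℕ} [NeZero r]

/-- the partition into colour classes -/
noncomputable def cpart (Q : Part A.toStarSubalgebra) (c : Q.ι → ZMod r) :
    Part A.toStarSubalgebra where
  ι := ZMod r
  e a := ∑ i, if c i = a then Q.e i else 0
  mem a := sum_mem fun i _ => by
    split_ifs
    · exact Q.mem i
    · exact zero_mem _
  proj a := by
    refine ⟨?_, ?_⟩
    · change (∑ i, if c i = a then Q.e i else 0) * (∑ i, if c i = a then Q.e i else 0) = _
      rw [Finset.sum_mul]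
      refine Finset.sum_congr rfl fun i _ => ?_
      rw [Finset.mul_sum, Finset.sum_eq_single i]
      · split_ifs
        · exact Q.e_mul_self i
        · rw [mul_zero]
      · intro j _ hj
        split_ifs
        · exact Q.orth i j hj.symm
        · rw [mul_zero]
        · rw [zero_mul]
        · rw [zero_mul]
      · intro h; exact absurd (Finset.mem_univ i) h
    · rw [isSelfAdjoint_iff, star_sum]
      refine Finset.sum_congr rfl fun i _ => ?_
      split_ifs
      · exact (Q.proj i).isSelfAdjoint.star_eq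
      · exact star_zero _
  orth a b hab := by
    rw [Finset.sum_mul]
    refine Finset.sum_eq_zero fun i _ => ?_
    rw [Finset.mul_sum]
    refine Finset.sum_eq_zero fun j _ => ?_
    split_ifs with h1 h2
    · by_cases hij : i = j
      · subst hij
        exact absurd (h1.symm.trans h2) hab
      · exact Q.orth i j hij
    · rw [mul_zero]
    · rw [zero_mul]
    · rw [zero_mul]
  sum_eq := by
    rw [Finset.sum_comm]
    have h1 : ∀ i, ∑ a : ZMod r, (if c i = a then Q.e i else 0) = Q.e i := fun i => by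
      rw [Finset.sum_ite_eq Finset.univ (c i) fun _ => Q.e i, if_pos (Finset.mem_univ _)]
    rw [Finset.sum_congr rfl fun i _ => h1 i, Q.sum_eq]

theorem pc_eq (Q : Part A.toStarSubalgebra) (c : Q.ι → ZMod r) (y : H →L[ℂ] H) :
    pc Q c y = (cpart Q c).E y := by
  rw [Part.E_apply]
  change pc Q c y = ∑ a : ZMod r, (∑ i, if c i = a then Q.e i else 0) * y *
    (∑ j, if c j = a then Q.e j else 0)
  have h1 : ∀ a : ZMod r, (∑ i, if c i = a then Q.e i else 0) * y *
      (∑ j, if c j = a then Q.e j else 0) =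
      ∑ i, ∑ j, if c i = a then (if c i = c j then Q.e i * y * Q.e j else 0) else 0 := by
    intro a
    rw [Finset.sum_mul, Finset.sum_mul]
    refine Finset.sum_congr rfl fun i _ => ?_
    rw [Finset.mul_sum]
    refine Finset.sum_congr rfl fun j _ => ?_
    by_cases h1 : c i = a
    · rw [if_pos h1, if_pos h1]
      by_cases h2 : c j = a
      · rw [if_pos h2, if_pos (h1.trans h2.symm)]
      · rw [if_neg h2, if_neg fun h => h2 (h.symm.trans h1), mul_zero]
    · rw [if_neg h1, if_neg h1, zero_mul, zero_mul]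
  rw [Finset.sum_congr rfl fun a _ => h1 a, Finset.sum_comm]
  unfold pc
  refine Finset.sum_congr rfl fun i _ => ?_
  rw [Finset.sum_comm]
  refine Finset.sum_congr rfl fun j _ => ?_
  rw [Finset.sum_ite_eq Finset.univ (c i) fun _ => if c i = c j then Q.e i * y * Q.e j else 0,
    if_pos (Finset.mem_univ _)]

theorem pc_mem (hAM : ∀ a ∈ A, a ∈ M) (Q : Part A.toStarSubalgebra) (c : Q.ι → ZMod r)
    {y : H →L[ℂ] H} (hy : y ∈ M) : pc Q c y ∈ M := by
  unfold pc
  refine sum_mem fun i _ => sum_mem fun j _ => ?_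
  split_ifs
  · exact mul_mem (mul_mem (hAM _ (Q.mem i)) hy) (hAM _ (Q.mem j))
  · exact zero_mem _

theorem norm_pc (Q : Part A.toStarSubalgebra) (c : Q.ι → ZMod r) (y : H →L[ℂ] H) :
    ‖pc Q c y‖ ≤ ‖y‖ := by
  rw [pc_eq]
  exact (cpart Q c).norm_E_le y

theorem uu_mem (hAM : ∀ a ∈ A, a ∈ M) (Q : Part A.toStarSubalgebra) (c : Q.ι → ZMod r)
    (m : ZMod r) : uu Q c m ∈ M := by
  unfold uu
  exact sum_mem fun i _ => M.toStarSubalgebra.smul_mem (hAM _ (Q.mem i)) _

theorem norm_uu (Q : Part A.toStarSubalgebra) (c : Q.ι → ZMod r) (m : ZMod r) :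
    ‖uu Q c m‖ ≤ 1 := by
  refine ContinuousLinearMap.opNorm_le_bound _ zero_le_one fun v => ?_
  rw [one_mul, ← sq_le_sq₀ (norm_nonneg _) (norm_nonneg _), Q.norm_sq_eq, Q.norm_sq_eq v]
  refine Finset.sum_le_sum fun i _ => le_of_eq ?_
  have h1 : Q.e i * uu Q c m = (ZMod.stdAddChar (m * c i) : ℂ) • Q.e i := by
    unfold uu
    rw [Finset.mul_sum, Finset.sum_eq_single i]
    · rw [mul_smul_comm, Q.e_mul_self]
    · intro j _ hj
      rw [mul_smul_comm, Q.orth i j hj.symm, smul_zero]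
    · intro h; exact absurd (Finset.mem_univ i) h
  have h2 : Q.e i (uu Q c m v) = (ZMod.stdAddChar (m * c i) : ℂ) • Q.e i v := by
    have h3 := DFunLike.congr_fun h1 v
    exact h3
  rw [h2, norm_smul, norm_stdChar, one_mul]

theorem ev_good (hAM : ∀ a ∈ A, a ∈ M) (Q : Part A.toStarSubalgebra) {y : H →L[ℂ] H}
    (hy : y ∈ M) (hy1 : ‖y‖ ≤ 1) (m : ZMod r) (n : ℕ) (c : Q.ι → ZMod r) :
    ev Q c (UU Q m ((TT Q y)^[n] (d0 Q))) ∈ M ∧
      ‖ev Q c (UU Q m ((TT Q y)^[n] (d0 Q)))‖ ≤ 1 := by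
  rw [ev_UU, ev_iter]
  refine ⟨mul_mem (uu_mem hAM Q c m) (pow_mem (pc_mem hAM Q c hy) n), ?_⟩
  have h0 : ‖pc Q c y ^ n‖ ≤ 1 := by
    induction n with
    | zero => rw [pow_zero]; exact ContinuousLinearMap.norm_id_le
    | succ n ih =>
      rw [pow_succ]
      refine (norm_mul_le _ _).trans ?_
      have h2 := (norm_pc Q c y).trans hy1
      exact mul_le_one₀ ih (norm_nonneg _) h2
  refine (norm_mul_le _ _).trans ?_
  exact mul_le_one₀ (norm_uu Q c m) (norm_nonneg _) h0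

theorem iter_bound (hAM : ∀ a ∈ A, a ∈ M) (hξ : IsTrace M ξ) {y : H →L[ℂ] H} (hy : y ∈ M)
    (hy1 : ‖y‖ ≤ 1) (n : ℕ) : ∀ η : ℝ, 0 < η → ∃ ε : ℝ, 0 < ε ∧ ∀ Q : Part A.toStarSubalgebra,
      ∑ i, ∑ j, n4 ξ (Q.e i * y * Q.e j) ≤ ε →
      nr Q ξ ((TT Q y)^[n] (d0 Q) : (Q.ι → ZMod r) → (H →L[ℂ] H)) ≤
        (2 / Real.sqrt r) ^ n + η := by
  induction n with
  | zero =>
    intro η hη
    refine ⟨1, one_pos, fun Q _ => ?_⟩
    rw [Function.iterate_zero, id_eq, pow_zero]
    have h1 : NN Q ξ (d0 Q : (Q.ι → ZMod r) → (H →L[ℂ] H)) ≤ 1 := by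
      refine NN_le_one hξ fun c => ?_
      rw [ev_d0]
      exact ⟨one_mem M, ContinuousLinearMap.norm_id_le⟩
    have h2 : nr Q ξ (d0 Q : (Q.ι → ZMod r) → (H →L[ℂ] H)) ≤ 1 := by
      unfold nr
      rw [← Real.sqrt_one]
      exact Real.sqrt_le_sqrt h1
    linarith only [hη, h2]
  | succ n ih =>
    intro η hη
    set q : ℝ := 2 / Real.sqrt r with hq
    have hq0 : 0 ≤ q := by positivity
    obtain ⟨ε1, hε1, h1⟩ := ih (η / (2 * (q + 1))) (by positivity)
    set d : ℕ := 2 * n + 1 with hd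
    have hd0 : (0 : ℝ) < d := by rw [hd]; positivity
    set κ : ℝ := η / (4 * d) with hκdef
    have hκ : 0 < κ := by (clear * - hη; positivity)
    refine ⟨min ε1 (η ^ 2 * κ ^ 2 / (16 * d)), by (clear * - hη hε1; positivity), fun Q hQ => ?_⟩
    rw [Function.iterate_succ_apply', pow_succ']
    have h2 := h1 Q (hQ.trans (min_le_left _ _))
    have h3 : ∀ m : ZMod r, nr Q ξ (ZZ Q y (UU Q (-m) ((TT Q y)^[n] (d0 Q)))) ≤ η / 2 := by
      intro m
      have h4 := NN_ZZ_le hξ hAM hy (deg_UU (deg_iter (Q := Q) (r := r) y n) (-m))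
        (ev_good hAM Q hy hy1 (-m) n) hκ
      unfold nr
      rw [← Real.sqrt_sq (by (clear * - hη; positivity) : (0 : ℝ) ≤ η / 2)]
      refine Real.sqrt_le_sqrt (h4.trans ?_)
      have h5 : (∑ i, ∑ j, n4 ξ (Q.e i * y * Q.e j)) / κ ^ 2 ≤ η ^ 2 / (16 * d) := by
        rw [div_le_iff₀ (by (clear * - hη; positivity))]
        refine (hQ.trans (min_le_right _ _)).trans (le_of_eq ?_)
        ring
      have h6 : ((2 * n + 1 : ℕ) : ℝ) = (d : ℝ) := by rw [hd]
      rw [h6]
      have h7 : (d : ℝ) * (2 * (κ ^ 2 * d) + 2 * ((∑ i, ∑ j, n4 ξ (Q.e i * y * Q.e j)) / κ ^ 2)) ≤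
          d * (2 * (κ ^ 2 * d) + 2 * (η ^ 2 / (16 * d))) := by
        (clear * - h5; gcongr)
      refine h7.trans (le_of_eq ?_)
      rw [hκdef]
      field_simp
      ring
    have h4 := nr_TT_le hξ hy1 ((TT Q y)^[n] (d0 Q)) h3
    refine h4.trans ?_
    have h5 : q * nr Q ξ ((TT Q y)^[n] (d0 Q) : (Q.ι → ZMod r) → (H →L[ℂ] H)) ≤
        q * (q ^ n + η / (2 * (q + 1))) := mul_le_mul_of_nonneg_left h2 hq0
    have h6 : q * (η / (2 * (q + 1))) ≤ η / 2 := by
      rw [← mul_div_assoc, div_le_div_iff₀ (by (clear * -; positivity)) (by (clear * -; positivity))]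
      linarith only [hη]
    linarith only [h5, h6]

end iter

/-- moments of the pinching by a random colouring -/
theorem color_moment (hA : SO.IsMASA A M) (hξ : IsTrace M ξ) {y : H →L[ℂ] H} (hy : y ∈ M)
    (hy1 : ‖y‖ ≤ 1)
    (hD : ∀ ε : ℝ, 0 < ε → ∃ Q : Part A.toStarSubalgebra,
      ∑ i, ∑ j, n4 ξ (Q.e i * y * Q.e j) ≤ ε)
    {r : ℕ} (hr : 1 ≤ r) (n : ℕ) {κ : ℝ} (hκ : 0 < κ) :
    ∃ P : Fin r → (H →L[ℂ] H), IsPart A P ∧ n2 ξ (pinch P y ^ n) ≤ (4 / r) ^ n + κ := by
  have : NeZero r := ⟨by omega⟩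
  have hr0 : (0 : ℝ) < r := by exact_mod_cast hr
  have hAM : ∀ a ∈ A, a ∈ M := fun a ha => hA.1 a ha
  set q : ℝ := 2 / Real.sqrt r with hq
  have hq0 : 0 ≤ q := by positivity
  set η : ℝ := min 1 (κ / (2 * q ^ n + 1)) with hη
  have hη0 : 0 < η := by
    have : 0 < κ / (2 * q ^ n + 1) := by (clear * - hr hκ; positivity)
    (clear * - hr hκ; positivity)
  obtain ⟨ε, hε, h1⟩ := iter_bound (r := r) hAM hξ hy hy1 n η hη0
  obtain ⟨Q, hQ⟩ := hD ε hε
  have h2 := h1 Q hQ
  have h3 : NN Q ξ ((TT Q y)^[n] (d0 Q) : (Q.ι → ZMod r) → (H →L[ℂ] H)) ≤ (4 / r) ^ n + κ := by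
    rw [← nr_sq]
    refine (pow_le_pow_left₀ (nr_nonneg _) h2 2).trans ?_
    have e1 : q ^ 2 = 4 / r := by
      rw [hq, div_pow, Real.sq_sqrt hr0.le]
      norm_num
    have e2 : (q ^ n) ^ 2 = (4 / r) ^ n := by rw [← pow_mul, mul_comm n 2, pow_mul, e1]
    have e3 : (q ^ n + η) ^ 2 = (4 / r) ^ n + (2 * q ^ n + η) * η := by rw [← e2]; ring
    rw [e3]
    have h4 : η ≤ 1 := min_le_left _ _
    have h5 : η ≤ κ / (2 * q ^ n + 1) := min_le_right _ _
    have h6 : (2 * q ^ n + η) * η ≤ (2 * q ^ n + 1) * (κ / (2 * q ^ n + 1)) := by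
      have : 0 ≤ q ^ n := by (clear * - hr; positivity)
      exact mul_le_mul (by linarith only [h4]) h5 hη0.le (by (clear * - hr; positivity))
    have h7 : (2 * q ^ n + 1) * (κ / (2 * q ^ n + 1)) = κ := by
      have : 0 ≤ q ^ n := by (clear * - hr; positivity)
      field_simp
    linarith only [h6, h7]
  -- choose a colouring
  have h4 := n2_parseval hξ ((TT Q y)^[n] (d0 Q) : (Q.ι → ZMod r) → (H →L[ℂ] H))
  have hcard : (0 : ℝ) < (r : ℝ) ^ Fintype.card Q.ι := by (clear * - hr; positivity)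
  obtain ⟨c, hc⟩ : ∃ c : Q.ι → ZMod r, n2 ξ (ev Q c ((TT Q y)^[n] (d0 Q))) ≤ (4 / r) ^ n + κ := by
    by_contra hcon
    push Not at hcon
    have h5 : ∑ c : Q.ι → ZMod r, ((4 / (r : ℝ)) ^ n + κ) <
        ∑ c : Q.ι → ZMod r, n2 ξ (ev Q c ((TT Q y)^[n] (d0 Q))) :=
      Finset.sum_lt_sum_of_nonempty ⟨0, Finset.mem_univ _⟩ fun c _ => hcon c
    rw [h4, Finset.sum_const, nsmul_eq_mul, Finset.card_univ, Fintype.card_fun, ZMod.card] at h5
    push_cast at h5
    have h6 := lt_of_mul_lt_mul_left h5 hcard.le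
    linarith only [h3, h6]
  rw [ev_iter] at hc
  refine ⟨fun a => (cpart Q c).e (ZMod.finEquiv r a), ⟨fun a => ⟨(cpart Q c).mem _,
    (cpart Q c).proj _⟩, fun a b hab => (cpart Q c).orth _ _ fun h => hab
      ((ZMod.finEquiv r).injective h), ?_⟩, ?_⟩
  · rw [← (cpart Q c).sum_eq]
    exact Equiv.sum_comp (ZMod.finEquiv r).toEquiv (cpart Q c).e
  · have e1 : pinch (fun a => (cpart Q c).e (ZMod.finEquiv r a)) y = pc Q c y := by
      rw [pc_eq, Part.E_apply]
      unfold pinch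
      exact Equiv.sum_comp (ZMod.finEquiv r).toEquiv
        fun a => (cpart Q c).e a * y * (cpart Q c).e a
    rw [e1]
    exact hc

theorem diffuse_paving (hA : SO.IsMASA A M) (hξ : IsTrace M ξ) {y : H →L[ℂ] H} (hy : y ∈ M)
    (hsa : IsSelfAdjoint y) (hy1 : ‖y‖ ≤ 1)
    (hD : ∀ ε : ℝ, 0 < ε → ∃ Q : Part A.toStarSubalgebra,
      ∑ i, ∑ j, n4 ξ (Q.e i * y * Q.e j) ≤ ε)
    {r : ℕ} (hr : 1 ≤ r) {s δ : ℝ} (hs : 2 / Real.sqrt r < s) (hδ : 0 < δ) :
    ∃ P : Fin r → (H →L[ℂ] H), IsPart A P ∧ ∃ w ∈ M, IsSelfAdjoint w ∧ ‖w‖ ≤ s ∧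
      n2 ξ (pinch P y - w) ≤ δ := by
  have hr0 : (0 : ℝ) < r := by exact_mod_cast hr
  have hq0 : 0 ≤ 2 / Real.sqrt r := by positivity
  have hs0 : 0 < s := lt_of_le_of_lt hq0 hs
  have hq : 4 / (r : ℝ) < s ^ 2 := by
    have e1 : (2 / Real.sqrt r) ^ 2 = 4 / r := by
      rw [div_pow, Real.sq_sqrt hr0.le]
      norm_num
    rw [← e1]
    exact pow_lt_pow_left₀ hs hq0 two_ne_zero
  set ρ : ℝ := 4 / (r : ℝ) / s ^ 2 with hρ
  have hρ0 : 0 ≤ ρ := by (clear * - hr hs0; positivity)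
  have hρ1 : ρ < 1 := by rw [hρ, div_lt_one (by (clear * - hs0; positivity))]; exact hq
  obtain ⟨n, hn⟩ := exists_pow_lt_of_lt_one (show 0 < δ / (2 * s ^ 2) by (clear * - hδ hs0; positivity)) hρ1
  obtain ⟨P, hP, hPn⟩ := color_moment hA hξ hy hy1 hD hr (n + 1)
    (κ := s ^ (2 * n) * δ / 2) (by (clear * - hδ hs0; positivity))
  set T : H →L[ℂ] H := pinch P y with hT
  have hTM : T ∈ M := pinch_mem hA hP hy
  have hTsa : IsSelfAdjoint T := pinch_sa hP hsa
  set f : ℝ → ℝ := fun t => max (-s) (min t s) with hf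
  have hfc : Continuous f := by fun_prop
  refine ⟨P, hP, cfc f T, cfc_mem M hTM f, cfc_predicate f T, ?_, ?_⟩
  · refine norm_cfc_le hs0.le fun t _ => ?_
    rw [Real.norm_eq_abs, abs_le]
    exact ⟨le_max_left _ _, max_le (by linarith only [hs, hq0]) (min_le_right _ _)⟩
  · -- `T - f(T)`
    have e1 : T - cfc f T = cfc (fun t => t - f t) T := by
      rw [cfc_sub (fun t => t) f T (by fun_prop) (by fun_prop), cfc_id' ℝ T]
    have hdsa : IsSelfAdjoint (T - cfc f T) := hTsa.sub (cfc_predicate f T)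
    have e2 : star (T - cfc f T) * (T - cfc f T) = cfc (fun t => (t - f t) ^ 2) T := by
      rw [hdsa.star_eq, e1, ← cfc_mul (fun t => t - f t) (fun t => t - f t) T (by fun_prop)
        (by fun_prop)]
      congr 1
      funext t
      ring
    have e3 : star (T ^ (n + 1)) * T ^ (n + 1) = cfc (fun t : ℝ => t ^ (2 * (n + 1))) T := by
      rw [(hTsa.pow (n + 1)).star_eq, ← pow_add, cfc_pow_id T (2 * (n + 1)), two_mul]
    have hpt : ∀ t : ℝ, (t - f t) ^ 2 ≤ (s ^ (2 * n))⁻¹ * t ^ (2 * (n + 1)) := by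
      intro t
      have h1 : |t - f t| ≤ (s ^ n)⁻¹ * |t| ^ (n + 1) := by
        by_cases ht : |t| ≤ s
        · have h2 := abs_le.1 ht
          have h3 : f t = t := by
            rw [hf]
            change max (-s) (min t s) = t
            rw [min_eq_left h2.2, max_eq_right h2.1]
          rw [h3, sub_self, abs_zero]
          (clear * - hs0; positivity)
        · push Not at ht
          have h2 : |t - f t| ≤ |t| := by
            rw [hf]
            change |t - max (-s) (min t s)| ≤ |t|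
            rcases le_total 0 t with h0 | h0
            · rw [abs_of_nonneg h0] at ht ⊢
              rw [min_eq_right ht.le, max_eq_right (by linarith only [hs, hq0]), abs_le]
              constructor <;> linarith only [hs, hq0, ht]
            · rw [abs_of_nonpos h0] at ht ⊢
              rw [min_eq_left (by linarith only [hs, hq0, ht]), max_eq_left (by linarith only [ht]), abs_le]
              constructor <;> linarith only [hs, hq0, ht]
          refine h2.trans ?_
          rw [pow_succ, ← mul_assoc]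
          have h3 : 1 ≤ (s ^ n)⁻¹ * |t| ^ n := by
            rw [inv_mul_eq_div, one_le_div (by (clear * - hs0; positivity))]
            exact pow_le_pow_left₀ hs0.le ht.le n
          linarith only [mul_nonneg (sub_nonneg.2 h3) (sub_nonneg.2 (abs_nonneg t))]
      have h4 := pow_le_pow_left₀ (abs_nonneg _) h1 2
      rw [sq_abs] at h4
      refine h4.trans (le_of_eq ?_)
      rw [mul_pow, ← pow_mul, inv_pow, ← pow_mul, mul_comm n 2, mul_comm (n + 1) 2,
        Even.pow_abs (even_two_mul (n + 1)) t]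
    have hle : star (T - cfc f T) * (T - cfc f T) ≤
        ((s ^ (2 * n))⁻¹ : ℝ) • (star (T ^ (n + 1)) * T ^ (n + 1)) := by
      rw [e2, e3, ← cfc_smul ((s ^ (2 * n))⁻¹ : ℝ) (fun t : ℝ => t ^ (2 * (n + 1))) T]
      exact cfc_mono fun t _ => hpt t
    have h5 : n2 ξ (T - cfc f T) ≤ (s ^ (2 * n))⁻¹ * n2 ξ (T ^ (n + 1)) := by
      rw [n2_eq hξ, n2_eq hξ]
      have h6 := (vtr_nonneg hξ (sub_nonneg.2 hle)).1
      rw [vtr_sub hξ, Complex.sub_re] at h6
      have h7 : vtr ξ (((s ^ (2 * n))⁻¹ : ℝ) • (star (T ^ (n + 1)) * T ^ (n + 1))) =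
          (((s ^ (2 * n))⁻¹ : ℝ) : ℂ) * vtr ξ (star (T ^ (n + 1)) * T ^ (n + 1)) := by
        rw [← vtr_smul hξ]
        rfl
      rw [h7, Complex.re_ofReal_mul] at h6
      linarith only [h6]
    refine h5.trans ?_
    have h8 : (s ^ (2 * n))⁻¹ * n2 ξ (T ^ (n + 1)) ≤
        (s ^ (2 * n))⁻¹ * ((4 / r) ^ (n + 1) + s ^ (2 * n) * δ / 2) :=
      mul_le_mul_of_nonneg_left hPn (by (clear * - hs0; positivity))
    refine h8.trans ?_
    have e4 : (4 / (r : ℝ)) = ρ * s ^ 2 := by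
      rw [hρ]
      field_simp
    rw [e4]
    have e5 : (s ^ (2 * n))⁻¹ * ((ρ * s ^ 2) ^ (n + 1) + s ^ (2 * n) * δ / 2) =
        s ^ 2 * ρ ^ (n + 1) + δ / 2 := by
      rw [mul_pow, ← pow_mul, show 2 * (n + 1) = 2 * n + 2 by ring, pow_add]
      field_simp
      ring
    rw [e5]
    have h9 : ρ ^ (n + 1) ≤ ρ ^ n := pow_le_pow_of_le_one hρ0 hρ1.le (Nat.le_succ n)
    have h10 : s ^ 2 * ρ ^ (n + 1) ≤ s ^ 2 * (δ / (2 * s ^ 2)) :=
      mul_le_mul_of_nonneg_left (h9.trans hn.le) (by (clear * - hs0; positivity))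
    have h11 : s ^ 2 * (δ / (2 * s ^ 2)) = δ / 2 := by field_simp
    linarith only [h10, h11]

end Vale.Agent.P078.F
end

section

/-! T5 (Y): averaging over the labels of a neighbourhood. -/

set_option linter.unusedSectionVars false

namespace Vale.Agent.P078.Y

open Filter Topology
open Vale.Agent.P078 Vale.Agent.P078.C Vale.Agent.P078.F
open scoped Classical

variable {H : Type*} [NormedAddCommGroup H] [InnerProductSpace ℂ H] [CompleteSpace H]
variable {M A N : VonNeumannAlgebra H} {ξ : ℕ → H}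

section es

variable {I : Type*} [Fintype I] {r : ℕ} [NeZero r]

/-- exchange of the coordinates in `S` -/
noncomputable def swS (S : Finset I) : ((I → ZMod r) × (I → ZMod r)) ≃
    ((I → ZMod r) × (I → ZMod r)) where
  toFun p := (S.piecewise p.2 p.1, S.piecewise p.1 p.2)
  invFun p := (S.piecewise p.2 p.1, S.piecewise p.1 p.2)
  left_inv p := by
    refine Prod.ext ?_ ?_ <;> funext i <;> by_cases h : i ∈ S <;> simp [Finset.piecewise, h]
  right_inv p := by
    refine Prod.ext ?_ ?_ <;> funext i <;> by_cases h : i ∈ S <;> simp [Finset.piecewise, h]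

theorem sum_pw {E : Type*} [AddCommMonoid E] (S : Finset I) (G : (I → ZMod r) → E) :
    ∑ U, ∑ V, G (S.piecewise V U) = Fintype.card (I → ZMod r) • ∑ U, G U := by
  have h1 : ∑ U : I → ZMod r, ∑ V : I → ZMod r, G (S.piecewise V U) =
      ∑ p : (I → ZMod r) × (I → ZMod r), G (swS S p).1 := by
    rw [Fintype.sum_prod_type]
    rfl
  rw [h1, Equiv.sum_comp (swS S) fun p => G p.1, Fintype.sum_prod_type]
  simp only [Finset.sum_const, Finset.card_univ]
  rw [Finset.smul_sum]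

/-- average over the labels in `S` -/
noncomputable def ES {E : Type*} [AddCommGroup E] [Module ℂ E] (S : Finset I)
    (g : (I → ZMod r) → E) (U : I → ZMod r) : E :=
  (Fintype.card (I → ZMod r) : ℂ)⁻¹ • ∑ V, g (S.piecewise V U)

theorem cardΩ_pos : (0 : ℝ) < Fintype.card (I → ZMod r) := by
  exact_mod_cast Fintype.card_pos

theorem pw_pw (S : Finset I) (V W U : I → ZMod r) :
    S.piecewise V (S.piecewise W U) = S.piecewise V U := by
  funext i
  by_cases h : i ∈ S <;> simp [Finset.piecewise, h]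

theorem ES_inv {E : Type*} [AddCommGroup E] [Module ℂ E] (S : Finset I)
    (g : (I → ZMod r) → E) (U W : I → ZMod r) : ES S g (S.piecewise W U) = ES S g U := by
  unfold ES
  simp only [pw_pw]

theorem sum_ES {E : Type*} [AddCommGroup E] [Module ℂ E] (S : Finset I)
    (g : (I → ZMod r) → E) : ∑ U, ES S g U = ∑ U, g U := by
  unfold ES
  rw [← Finset.smul_sum, sum_pw, ← Nat.cast_smul_eq_nsmul ℂ, smul_smul, inv_mul_cancel₀, one_smul]
  exact_mod_cast (Fintype.card_ne_zero (α := I → ZMod r))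

/-- squared norm of an average with a weight -/
theorem norm_sq_ES_le (S : Finset I) (g : (I → ZMod r) → H) (U : I → ZMod r)
    (B : Finset (I → ZMod r)) (hB : ∀ V, S.piecewise V U ∉ B → g (S.piecewise V U) = 0) {c : ℝ}
    (hc : ((Finset.univ.filter fun V => S.piecewise V U ∈ B).card : ℝ) ≤
      c * Fintype.card (I → ZMod r)) :
    ‖ES S g U‖ ^ 2 ≤ c * ((Fintype.card (I → ZMod r) : ℝ)⁻¹ *
      ∑ V, ‖g (S.piecewise V U)‖ ^ 2) := by
  have hN := cardΩ_pos (I := I) (r := r)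
  obtain ⟨n, hn⟩ : ∃ n : ℝ, n = (Fintype.card (I → ZMod r) : ℝ) := ⟨_, rfl⟩
  rw [← hn] at hN hc ⊢
  set T := Finset.univ.filter fun V => S.piecewise V U ∈ B with hT
  have h1 : ∑ V, g (S.piecewise V U) = ∑ V ∈ T, g (S.piecewise V U) := by
    rw [hT, Finset.sum_filter]
    refine Finset.sum_congr rfl fun V _ => ?_
    split_ifs with h
    · rfl
    · exact hB V h
  have h2 : ‖∑ V ∈ T, g (S.piecewise V U)‖ ^ 2 ≤ T.card * ∑ V ∈ T, ‖g (S.piecewise V U)‖ ^ 2 := by
    refine (pow_le_pow_left₀ (norm_nonneg _) (norm_sum_le _ _) 2).trans ?_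
    exact sq_sum_le_card_mul_sum_sq
  have h3 : ∑ V ∈ T, ‖g (S.piecewise V U)‖ ^ 2 ≤ ∑ V, ‖g (S.piecewise V U)‖ ^ 2 :=
    Finset.sum_le_sum_of_subset_of_nonneg (Finset.subset_univ _) fun V _ _ => by positivity
  have h4 : 0 ≤ ∑ V : I → ZMod r, ‖g (S.piecewise V U)‖ ^ 2 :=
    Finset.sum_nonneg fun V _ => by positivity
  unfold ES
  rw [norm_smul, mul_pow, h1, norm_inv, Complex.norm_natCast, ← hn]
  calc (n⁻¹) ^ 2 * ‖∑ V ∈ T, g (S.piecewise V U)‖ ^ 2
      ≤ (n⁻¹) ^ 2 * ((c * n) * ∑ V, ‖g (S.piecewise V U)‖ ^ 2) := by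
        refine mul_le_mul_of_nonneg_left (h2.trans ?_) (by positivity)
        exact mul_le_mul hc h3 (Finset.sum_nonneg fun V _ => by positivity)
          (le_trans (Nat.cast_nonneg _) hc)
    _ = c * (n⁻¹ * ∑ V, ‖g (S.piecewise V U)‖ ^ 2) := by
        field_simp

/-- the average is a contraction -/
theorem norm_sq_ES (S : Finset I) (g : (I → ZMod r) → H) :
    ∑ U, ‖ES S g U‖ ^ 2 ≤ ∑ U, ‖g U‖ ^ 2 := by
  have hN := cardΩ_pos (I := I) (r := r)
  have h1 : ∀ U : I → ZMod r, ‖ES S g U‖ ^ 2 ≤ (Fintype.card (I → ZMod r) : ℝ)⁻¹ *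
      ∑ V, ‖g (S.piecewise V U)‖ ^ 2 := by
    intro U
    have h2 := norm_sq_ES_le S g U Finset.univ (fun V h => absurd (Finset.mem_univ _) h)
      (c := 1) (by
        rw [one_mul, Finset.filter_true_of_mem fun V _ => Finset.mem_univ _, Finset.card_univ])
    rwa [one_mul] at h2
  refine (Finset.sum_le_sum fun U _ => h1 U).trans (le_of_eq ?_)
  rw [← Finset.mul_sum, sum_pw S fun U => ‖g U‖ ^ 2, nsmul_eq_mul, ← mul_assoc,
    inv_mul_cancel₀ hN.ne', one_mul]

/-- the complementary projection is a contraction -/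
theorem norm_sq_sub_ES (S : Finset I) (g : (I → ZMod r) → H) :
    ∑ U, ‖g U - ES S g U‖ ^ 2 ≤ ∑ U, ‖g U‖ ^ 2 := by
  have hN := cardΩ_pos (I := I) (r := r)
  have h1 : ∑ U, (inner ℂ (ES S g U) (g U)).re = ∑ U, ‖ES S g U‖ ^ 2 := by
    have h2 := sum_pw S fun U => (inner ℂ (ES S g U) (g U)).re
    rw [nsmul_eq_mul] at h2
    have h3 : ∀ U : I → ZMod r, ∑ V, (inner ℂ (ES S g (S.piecewise V U))
        (g (S.piecewise V U))).re = (Fintype.card (I → ZMod r) : ℝ) * ‖ES S g U‖ ^ 2 := by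
      intro U
      simp only [ES_inv]
      rw [← Complex.re_sum, ← inner_sum]
      have h4 : ∑ V, g (S.piecewise V U) = (Fintype.card (I → ZMod r) : ℂ) • ES S g U := by
        unfold ES
        rw [smul_smul, mul_inv_cancel₀, one_smul]
        exact_mod_cast (Fintype.card_ne_zero (α := I → ZMod r))
      rw [h4, inner_smul_right, ← Complex.ofReal_natCast, Complex.re_ofReal_mul,
        inner_self_re]
    rw [Finset.sum_congr rfl fun U _ => h3 U, ← Finset.mul_sum] at h2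
    exact (mul_left_cancel₀ hN.ne' h2).symm
  have h5 : ∀ U, ‖g U - ES S g U‖ ^ 2 = ‖g U‖ ^ 2 - 2 * (inner ℂ (ES S g U) (g U)).re +
      ‖ES S g U‖ ^ 2 := by
    intro U
    rw [norm_sub_sq (𝕜 := ℂ), inner_re_symm]
    rfl
  rw [Finset.sum_congr rfl fun U _ => h5 U, Finset.sum_add_distrib, Finset.sum_sub_distrib,
    ← Finset.mul_sum, h1]
  have h6 : 0 ≤ ∑ U : I → ZMod r, ‖ES S g U‖ ^ 2 := Finset.sum_nonneg fun U _ => by positivity
  linarith only [h6]

end es

end Vale.Agent.P078.Y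
end

section

/-! T5 (Y): the projection `W` and the main inequality. -/

set_option linter.unusedSectionVars false

namespace Vale.Agent.P078.Y

open Filter Topology
open Vale.Agent.P078 Vale.Agent.P078.C Vale.Agent.P078.F
open scoped Classical

variable {H : Type*} [NormedAddCommGroup H] [InnerProductSpace ℂ H] [CompleteSpace H]
variable {M A N : VonNeumannAlgebra H} {ξ : ℕ → H}

theorem e_sum_e (Q : Part A.toStarSubalgebra) (v : Q.ι → H) (l : Q.ι) :
    Q.e l (∑ l', Q.e l' (v l')) = Q.e l (v l) := by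
  rw [map_sum, Finset.sum_eq_single l]
  · have h := DFunLike.congr_fun (Q.e_mul_self l) (v l)
    exact h
  · intro l' _ hl'
    have h := DFunLike.congr_fun (Q.orth l l' hl'.symm) (v l')
    exact h
  · intro h; exact absurd (Finset.mem_univ l) h

theorem norm_sq_sum (Q : Part A.toStarSubalgebra) (v : Q.ι → H) :
    ‖∑ l, Q.e l (v l)‖ ^ 2 = ∑ l, ‖Q.e l (v l)‖ ^ 2 := by
  rw [Q.norm_sq_eq]
  exact Finset.sum_congr rfl fun l _ => by rw [e_sum_e]

section wop

variable (Q : Part A.toStarSubalgebra) {I : Type*} [Fintype I] {r : ℕ} [NeZero r]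
variable (near : Q.ι → Finset I) (col : Q.ι → (I → ZMod r) → ZMod r)

/-- a colouring rule: local and equivariant -/
structure Rule : Prop where
  dep : ∀ l U V, (∀ i ∈ near l, U i = V i) → col l U = col l V
  eqv : ∀ l U, col l (fun i => U i + 1) = col l U + 1

/-- average over the labels of the neighbourhood -/
noncomputable def Wop (ζ : (I → ZMod r) → H) (U : I → ZMod r) : H :=
  ∑ l, Q.e l (ES (near l) ζ U)

/-- the colour classes -/
noncomputable def Pop (a : ZMod r) (U : I → ZMod r) : H →L[ℂ] H :=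
  (cpart Q fun l => col l U).e a

/-- the pinching by the colour classes -/
noncomputable def Sop (y : H →L[ℂ] H) (U : I → ZMod r) : H →L[ℂ] H :=
  (cpart Q fun l => col l U).E y

/-- the error term -/
noncomputable def Zop (y : H →L[ℂ] H) (ζ : (I → ZMod r) → H) (U : I → ZMod r) : H :=
  y (ζ U - Wop Q near ζ U) - Wop Q near (fun V => y (ζ V - Wop Q near ζ V)) U

variable {Q near col}

theorem Pop_eq (a : ZMod r) (U : I → ZMod r) :
    Pop Q col a U = ∑ l, if col l U = a then Q.e l else 0 := rfl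

theorem Pop_apply (a : ZMod r) (U : I → ZMod r) (v : H) :
    Pop Q col a U v = ∑ l, Q.e l (if col l U = a then v else 0) := by
  rw [Pop_eq, sum_apply]
  refine Finset.sum_congr rfl fun l _ => ?_
  split_ifs
  · rfl
  · rw [map_zero]; rfl

theorem ES_map (T : H →L[ℂ] H) (S : Finset I) (g : (I → ZMod r) → H) (U : I → ZMod r) :
    T (ES S g U) = ES S (fun V => T (g V)) U := by
  unfold ES
  rw [map_smul, map_sum]

theorem card_col (hR : Rule Q near col) (l : Q.ι) (a : ZMod r) :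
    ((Finset.univ.filter fun V : I → ZMod r => col l V = a).card : ℝ) =
      (r : ℝ)⁻¹ * Fintype.card (I → ZMod r) := by
  have h1 : ∀ a : ZMod r, (Finset.univ.filter fun V : I → ZMod r => col l V = a).card =
      (Finset.univ.filter fun V : I → ZMod r => col l V = a + 1).card := by
    intro a
    refine Finset.card_bij (fun V _ => fun i => V i + 1) ?_ ?_ ?_
    · intro V hV
      rw [Finset.mem_filter] at hV ⊢
      exact ⟨Finset.mem_univ _, by rw [hR.eqv, hV.2]⟩
    · intro V _ V' _ h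
      funext i
      exact add_right_cancel (congrFun h i)
    · intro V hV
      rw [Finset.mem_filter] at hV
      refine ⟨fun i => V i - 1, ?_, ?_⟩
      · rw [Finset.mem_filter]
        refine ⟨Finset.mem_univ _, ?_⟩
        have h2 := hR.eqv l fun i => V i - 1
        have h3 : (fun i => V i - 1 + 1) = V := funext fun i => sub_add_cancel _ _
        rw [h3, hV.2] at h2
        exact (add_right_cancel h2).symm
      · funext i
        exact sub_add_cancel _ _
  have h2 : ∀ n : ℕ, (Finset.univ.filter fun V : I → ZMod r => col l V = (n : ZMod r)).card =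
      (Finset.univ.filter fun V : I → ZMod r => col l V = (0 : ZMod r)).card := by
    intro n
    induction n with
    | zero => rw [Nat.cast_zero]
    | succ n ih => rw [Nat.cast_succ, ← h1, ih]
  have h3 : ∀ a : ZMod r, (Finset.univ.filter fun V : I → ZMod r => col l V = a).card =
      (Finset.univ.filter fun V : I → ZMod r => col l V = (0 : ZMod r)).card := by
    intro a
    have := h2 a.val
    rwa [ZMod.natCast_zmod_val] at this
  have h4 : ∑ a : ZMod r, (Finset.univ.filter fun V : I → ZMod r => col l V = a).card =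
      Fintype.card (I → ZMod r) := by
    rw [← Finset.card_univ]
    exact (Finset.card_eq_sum_card_fiberwise fun V _ => Finset.mem_univ (col l V)).symm
  have h5 : r * (Finset.univ.filter fun V : I → ZMod r => col l V = a).card =
      Fintype.card (I → ZMod r) := by
    rw [← h4, Finset.sum_congr rfl fun b _ => h3 b, Finset.sum_const, Finset.card_univ,
      ZMod.card, smul_eq_mul, h3 a]
  have hr : (r : ℝ) ≠ 0 := Nat.cast_ne_zero.2 (NeZero.ne r)
  rw [← h5]
  push_cast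
  rw [← mul_assoc, inv_mul_cancel₀ hr, one_mul]

theorem col_pw (hR : Rule Q near col) (l : Q.ι) (U V : I → ZMod r) :
    col l ((near l).piecewise V U) = col l V :=
  hR.dep l _ _ fun i hi => Finset.piecewise_eq_of_mem _ _ _ hi

theorem indep (S : Finset I) (h G : (I → ZMod r) → ℝ) (hh : ∀ U V, h (S.piecewise V U) = h V)
    (hG : ∀ U V, G (S.piecewise V U) = G U) :
    (Fintype.card (I → ZMod r) : ℝ) * ∑ U, h U * G U = (∑ U, h U) * ∑ U, G U := by
  have h1 := sum_pw S fun U => h U * G U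
  rw [nsmul_eq_mul] at h1
  rw [← h1]
  simp only [hh, hG]
  rw [Finset.sum_mul, Finset.sum_comm]
  exact Finset.sum_congr rfl fun V _ => by rw [Finset.mul_sum]

/-- squared norm of a colour class -/
theorem norm_sq_Pop (a : ZMod r) (U : I → ZMod r) (v : H) :
    ‖Pop Q col a U v‖ ^ 2 = ∑ l, if col l U = a then ‖Q.e l v‖ ^ 2 else 0 := by
  rw [Pop_apply, norm_sq_sum Q fun l => if col l U = a then v else 0]
  refine Finset.sum_congr rfl fun l _ => ?_
  split_ifs
  · rfl
  · rw [map_zero, norm_zero]; norm_num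

theorem norm_sq_W (ζ : (I → ZMod r) → H) (U : I → ZMod r) :
    ‖Wop Q near ζ U‖ ^ 2 = ∑ l, ‖ES (near l) (fun V => Q.e l (ζ V)) U‖ ^ 2 := by
  unfold Wop
  rw [norm_sq_sum Q fun l => ES (near l) ζ U]
  exact Finset.sum_congr rfl fun l _ => by rw [ES_map]

/-- (c) -/
theorem W_P_le (hR : Rule Q near col) (a : ZMod r) (ζ : (I → ZMod r) → H) :
    ∑ U, ‖Wop Q near (fun V => Pop Q col a V (ζ V)) U‖ ^ 2 ≤
      (r : ℝ)⁻¹ * ∑ U, ‖Pop Q col a U (ζ U)‖ ^ 2 := by
  have hN := cardΩ_pos (I := I) (r := r)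
  have h1 : ∀ (l : Q.ι) (V : I → ZMod r), Q.e l (Pop Q col a V (ζ V)) =
      if col l V = a then Q.e l (ζ V) else 0 := by
    intro l V
    rw [Pop_apply, e_sum_e]
    split_ifs
    · rfl
    · exact map_zero _
  have h2 : ∀ U, ‖Wop Q near (fun V => Pop Q col a V (ζ V)) U‖ ^ 2 ≤
      ∑ l, (r : ℝ)⁻¹ * ((Fintype.card (I → ZMod r) : ℝ)⁻¹ *
        ∑ V, ‖Q.e l (Pop Q col a ((near l).piecewise V U)
          (ζ ((near l).piecewise V U)))‖ ^ 2) := by
    intro U
    rw [norm_sq_W]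
    refine Finset.sum_le_sum fun l _ => ?_
    refine norm_sq_ES_le (near l) (fun V => Q.e l (Pop Q col a V (ζ V))) U
      (Finset.univ.filter fun V => col l V = a) (fun V hV => ?_) (le_of_eq ?_)
    · change Q.e l (Pop Q col a ((near l).piecewise V U) (ζ ((near l).piecewise V U))) = 0
      rw [h1, if_neg]
      intro h
      exact hV (Finset.mem_filter.2 ⟨Finset.mem_univ _, h⟩)
    · rw [← card_col hR l a]
      congr 2
      ext V
      simp only [Finset.mem_filter, Finset.mem_univ, true_and]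
      rw [col_pw hR]
  refine (Finset.sum_le_sum fun U _ => h2 U).trans (le_of_eq ?_)
  rw [Finset.sum_comm]
  have h3 : ∀ l, ∑ U : I → ZMod r, (r : ℝ)⁻¹ * ((Fintype.card (I → ZMod r) : ℝ)⁻¹ *
        ∑ V, ‖Q.e l (Pop Q col a ((near l).piecewise V U)
          (ζ ((near l).piecewise V U)))‖ ^ 2) =
      (r : ℝ)⁻¹ * ∑ U, ‖Q.e l (Pop Q col a U (ζ U))‖ ^ 2 := by
    intro l
    rw [← Finset.mul_sum, ← Finset.mul_sum,
      sum_pw (near l) fun U => ‖Q.e l (Pop Q col a U (ζ U))‖ ^ 2, nsmul_eq_mul,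
      ← mul_assoc (Fintype.card (I → ZMod r) : ℝ)⁻¹, inv_mul_cancel₀ hN.ne', one_mul]
  rw [Finset.sum_congr rfl fun l _ => h3 l, ← Finset.mul_sum, Finset.sum_comm]
  congr 1
  exact Finset.sum_congr rfl fun U _ => (Q.norm_sq_eq _).symm

/-- (b) -/
theorem P_W_le (hR : Rule Q near col) (a : ZMod r) (ζ : (I → ZMod r) → H) :
    ∑ U, ‖Pop Q col a U (Wop Q near ζ U)‖ ^ 2 ≤ (r : ℝ)⁻¹ * ∑ U, ‖ζ U‖ ^ 2 := by
  have hN := cardΩ_pos (I := I) (r := r)
  have h1 : ∀ U, ‖Pop Q col a U (Wop Q near ζ U)‖ ^ 2 =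
      ∑ l, (if col l U = a then 1 else 0) * ‖ES (near l) (fun V => Q.e l (ζ V)) U‖ ^ 2 := by
    intro U
    rw [norm_sq_Pop]
    refine Finset.sum_congr rfl fun l _ => ?_
    split_ifs
    · rw [one_mul]
      unfold Wop
      rw [e_sum_e, ES_map]
    · rw [zero_mul]
  rw [Finset.sum_congr rfl fun U _ => h1 U, Finset.sum_comm]
  have h2 : ∀ l, ∑ U : I → ZMod r, (if col l U = a then (1 : ℝ) else 0) *
      ‖ES (near l) (fun V => Q.e l (ζ V)) U‖ ^ 2 =
      (r : ℝ)⁻¹ * ∑ U : I → ZMod r, ‖ES (near l) (fun V => Q.e l (ζ V)) U‖ ^ 2 := by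
    intro l
    have h3 := indep (near l) (fun U : I → ZMod r => if col l U = a then (1 : ℝ) else 0)
      (fun U => ‖ES (near l) (fun V => Q.e l (ζ V)) U‖ ^ 2)
      (fun U V => by simp only [col_pw hR]) (fun U V => by simp only [ES_inv])
    have h4 : ∑ U : I → ZMod r, (if col l U = a then (1 : ℝ) else 0) =
        (r : ℝ)⁻¹ * Fintype.card (I → ZMod r) := by
      rw [← card_col hR l a, Finset.sum_boole]
    rw [h4] at h3
    have h5 : (Fintype.card (I → ZMod r) : ℝ) * (∑ U : I → ZMod r,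
        (if col l U = a then (1 : ℝ) else 0) *
        ‖ES (near l) (fun V => Q.e l (ζ V)) U‖ ^ 2) = (Fintype.card (I → ZMod r) : ℝ) *
        ((r : ℝ)⁻¹ * ∑ U : I → ZMod r, ‖ES (near l) (fun V => Q.e l (ζ V)) U‖ ^ 2) := by
      rw [h3]
      ring
    exact mul_left_cancel₀ hN.ne' h5
  rw [Finset.sum_congr rfl fun l _ => h2 l, ← Finset.mul_sum]
  refine mul_le_mul_of_nonneg_left ?_ (by positivity)
  refine (Finset.sum_le_sum fun l _ => norm_sq_ES (near l) fun V => Q.e l (ζ V)).trans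
    (le_of_eq ?_)
  rw [Finset.sum_comm]
  exact Finset.sum_congr rfl fun U _ => (Q.norm_sq_eq _).symm

/-- the complement of `W` is a contraction -/
theorem sub_W_le (ζ : (I → ZMod r) → H) :
    ∑ U, ‖ζ U - Wop Q near ζ U‖ ^ 2 ≤ ∑ U, ‖ζ U‖ ^ 2 := by
  have h1 : ∀ U, ‖ζ U - Wop Q near ζ U‖ ^ 2 =
      ∑ l, ‖Q.e l (ζ U) - ES (near l) (fun V => Q.e l (ζ V)) U‖ ^ 2 := by
    intro U
    rw [Q.norm_sq_eq]
    refine Finset.sum_congr rfl fun l _ => ?_
    unfold Wop
    rw [map_sub, e_sum_e, ES_map]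
  rw [Finset.sum_congr rfl fun U _ => h1 U, Finset.sum_comm]
  refine (Finset.sum_le_sum fun l _ => norm_sq_sub_ES (near l) fun V => Q.e l (ζ V)).trans
    (le_of_eq ?_)
  rw [Finset.sum_comm]
  exact Finset.sum_congr rfl fun U _ => (Q.norm_sq_eq _).symm

theorem sq_add_le (a b : H) : ‖a + b‖ ^ 2 ≤ 2 * ‖a‖ ^ 2 + 2 * ‖b‖ ^ 2 := by
  have h1 := pow_le_pow_left₀ (norm_nonneg _) (norm_add_le a b) 2
  linarith only [h1, sq_nonneg (‖a‖ - ‖b‖)]

theorem sq_add_le' {θ : ℝ} (hθ : 0 < θ) (a b : H) :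
    ‖a + b‖ ^ 2 ≤ (1 + θ) * ‖a‖ ^ 2 + (1 + θ⁻¹) * ‖b‖ ^ 2 := by
  have h1 := pow_le_pow_left₀ (norm_nonneg _) (norm_add_le a b) 2
  have h2 : 2 * ‖a‖ * ‖b‖ ≤ θ * ‖a‖ ^ 2 + θ⁻¹ * ‖b‖ ^ 2 := by
    have h3 : θ * ‖a‖ ^ 2 + θ⁻¹ * ‖b‖ ^ 2 - 2 * ‖a‖ * ‖b‖ = θ⁻¹ * (θ * ‖a‖ - ‖b‖) ^ 2 := by
      field_simp
      ring
    have h4 : 0 ≤ θ⁻¹ * (θ * ‖a‖ - ‖b‖) ^ 2 := by positivity
    linarith only [h3, h4]
  linarith only [h2, h1]

/-- main inequality -/
theorem main_ineq (hR : Rule Q near col) {y : H →L[ℂ] H} (hy1 : ‖y‖ ≤ 1) {θ : ℝ} (hθ : 0 < θ)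
    (ζ : (I → ZMod r) → H) :
    ∑ U, ‖Sop Q col y U (ζ U)‖ ^ 2 ≤ (1 + θ) * (4 / r) * ∑ U, ‖ζ U‖ ^ 2 +
      (1 + θ⁻¹) * ∑ a, ∑ U, ‖Zop Q near y (fun V => Pop Q col a V (ζ V)) U‖ ^ 2 := by
  have hyv : ∀ v : H, ‖y v‖ ^ 2 ≤ ‖v‖ ^ 2 := fun v => by
    refine pow_le_pow_left₀ (norm_nonneg _) ((y.le_opNorm v).trans ?_) 2
    linarith only [mul_nonneg (sub_nonneg.2 hy1) (sub_nonneg.2 (norm_nonneg v))]
  have hr : (0 : ℝ) < r := by exact_mod_cast NeZero.pos r
  have hPv : ∀ a (U : I → ZMod r) (v : H), ‖Pop Q col a U v‖ ≤ ‖v‖ := fun a U v =>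
    proj_norm_le ((cpart Q fun l => col l U).proj a) v
  have h1 : ∀ U, ‖Sop Q col y U (ζ U)‖ ^ 2 =
      ∑ a, ‖Pop Q col a U (y (Pop Q col a U (ζ U)))‖ ^ 2 := by
    intro U
    rw [(cpart Q fun l => col l U).norm_sq_eq]
    refine Finset.sum_congr rfl fun a _ => ?_
    have h2 := DFunLike.congr_fun ((cpart Q fun l => col l U).e_mul_E a y) (ζ U)
    change (cpart Q fun l => col l U).e a (Sop Q col y U (ζ U)) = _ at h2
    rw [h2]
    rfl
  have h2 : ∀ U, ∑ a, ‖Pop Q col a U (ζ U)‖ ^ 2 = ‖ζ U‖ ^ 2 := fun U =>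
    ((cpart Q fun l => col l U).norm_sq_eq (ζ U)).symm
  have h3 : ∀ a, ∑ U, ‖Pop Q col a U (y (Pop Q col a U (ζ U)))‖ ^ 2 ≤
      (1 + θ) * (4 / r) * ∑ U, ‖Pop Q col a U (ζ U)‖ ^ 2 +
      (1 + θ⁻¹) * ∑ U, ‖Zop Q near y (fun V => Pop Q col a V (ζ V)) U‖ ^ 2 := by
    intro a
    set u : (I → ZMod r) → H := fun V => Pop Q col a V (ζ V) with hu
    set v : (I → ZMod r) → H := fun V => y (u V - Wop Q near u V) with hv
    have h4 : ∀ U, ‖Pop Q col a U (y (u U))‖ ^ 2 ≤
        (1 + θ) * (2 * ‖Wop Q near u U‖ ^ 2 + 2 * ‖Pop Q col a U (Wop Q near v U)‖ ^ 2) +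
          (1 + θ⁻¹) * ‖Zop Q near y u U‖ ^ 2 := by
      intro U
      have e1 : Pop Q col a U (y (u U)) = (Pop Q col a U (y (Wop Q near u U)) +
          Pop Q col a U (Wop Q near v U)) + Pop Q col a U (Zop Q near y u U) := by
        rw [← map_add, ← map_add]
        congr 1
        unfold Zop
        rw [map_sub]
        simp only [hv, map_sub]
        abel
      rw [e1]
      refine (sq_add_le' hθ _ _).trans ?_
      have e2 := sq_add_le (Pop Q col a U (y (Wop Q near u U))) (Pop Q col a U (Wop Q near v U))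
      have e3 : ‖Pop Q col a U (y (Wop Q near u U))‖ ^ 2 ≤ ‖Wop Q near u U‖ ^ 2 :=
        (pow_le_pow_left₀ (norm_nonneg _) (hPv _ _ _) 2).trans (hyv _)
      have e4 : ‖Pop Q col a U (Zop Q near y u U)‖ ^ 2 ≤ ‖Zop Q near y u U‖ ^ 2 :=
        pow_le_pow_left₀ (norm_nonneg _) (hPv _ _ _) 2
      have e5 : 0 ≤ θ⁻¹ := by (clear * - hθ; positivity)
      refine add_le_add (mul_le_mul_of_nonneg_left ?_ (by (clear * - hθ; positivity)))
        (mul_le_mul_of_nonneg_left e4 (by (clear * - hθ; positivity)))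
      linarith only [e2, e3]
    have h5 : ∑ U, ‖Wop Q near u U‖ ^ 2 ≤ (r : ℝ)⁻¹ * ∑ U, ‖u U‖ ^ 2 := W_P_le hR a ζ
    have h6 : ∑ U, ‖Pop Q col a U (Wop Q near v U)‖ ^ 2 ≤ (r : ℝ)⁻¹ * ∑ U, ‖u U‖ ^ 2 := by
      refine (P_W_le hR a v).trans (mul_le_mul_of_nonneg_left ?_ (by (clear * - hr; positivity)))
      exact (Finset.sum_le_sum fun U _ => hyv _).trans (sub_W_le u)
    refine (Finset.sum_le_sum fun U _ => h4 U).trans ?_
    rw [Finset.sum_add_distrib, ← Finset.mul_sum, ← Finset.mul_sum, Finset.sum_add_distrib,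
      ← Finset.mul_sum, ← Finset.mul_sum]
    have h7 : (1 + θ) * (2 * ∑ U, ‖Wop Q near u U‖ ^ 2 +
        2 * ∑ U, ‖Pop Q col a U (Wop Q near v U)‖ ^ 2) ≤
        (1 + θ) * (4 / r) * ∑ U, ‖u U‖ ^ 2 := by
      rw [mul_assoc]
      refine mul_le_mul_of_nonneg_left ?_ (by (clear * - hθ; positivity))
      have e : 4 / (r : ℝ) * ∑ U, ‖u U‖ ^ 2 = 2 * ((r : ℝ)⁻¹ * ∑ U, ‖u U‖ ^ 2) +
          2 * ((r : ℝ)⁻¹ * ∑ U, ‖u U‖ ^ 2) := by
        rw [div_eq_mul_inv]
        ring
      rw [e]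
      linarith only [h5, h6]
    linarith only [h7]
  rw [Finset.sum_congr rfl fun U _ => h1 U, Finset.sum_comm]
  refine (Finset.sum_le_sum fun a _ => h3 a).trans (le_of_eq ?_)
  rw [Finset.sum_add_distrib, ← Finset.mul_sum, ← Finset.mul_sum, Finset.sum_comm,
    Finset.sum_congr rfl fun U _ => h2 U]

end wop

end Vale.Agent.P078.Y
end

section

/-! T5 (Y): the error term on the Fourier side. -/

set_option linter.unusedSectionVars false

namespace Vale.Agent.P078.Y

open Filter Topology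
open Vale.Agent.P078 Vale.Agent.P078.C Vale.Agent.P078.F
open scoped Classical ComplexConjugate

variable {H : Type*} [NormedAddCommGroup H] [InnerProductSpace ℂ H] [CompleteSpace H]
variable {M A N : VonNeumannAlgebra H} {ξ : ℕ → H}

/-- sum of the atoms with a property -/
noncomputable def se (f : Part A.toStarSubalgebra) (p : f.ι → Prop) : H →L[ℂ] H :=
  ∑ l, if p l then f.e l else 0

/-- the neighbourhood of the label atom `i` -/
noncomputable def nbh (f : Part A.toStarSubalgebra) {I : Type*} (near : f.ι → Finset I) (i : I) :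
    H →L[ℂ] H := se f fun l => i ∈ near l

theorem n2_se_mul (hξ : IsTrace M ξ) (f : Part A.toStarSubalgebra) (p : f.ι → Prop)
    (x : H →L[ℂ] H) : n2 ξ (se f p * x) = ∑ l, if p l then n2 ξ (f.e l * x) else 0 := by
  have h1 : se f p * x = ∑ l, f.e l * (if p l then x else 0) := by
    unfold se
    rw [Finset.sum_mul]
    refine Finset.sum_congr rfl fun l _ => ?_
    split_ifs
    · rfl
    · rw [zero_mul, mul_zero]
  rw [h1, n2_sum_orth hξ f fun l => if p l then x else 0]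
  refine Finset.sum_congr rfl fun l _ => ?_
  split_ifs
  · rfl
  · rw [mul_zero, n2_zero]

theorem se_mem (hAM : ∀ a ∈ A, a ∈ M) (f : Part A.toStarSubalgebra) (p : f.ι → Prop) :
    se f p ∈ M := by
  unfold se
  refine sum_mem fun l _ => ?_
  split_ifs
  · exact hAM _ (f.mem l)
  · exact zero_mem _

theorem se_star (f : Part A.toStarSubalgebra) (p : f.ι → Prop) : star (se f p) = se f p := by
  unfold se
  rw [star_sum]
  refine Finset.sum_congr rfl fun l _ => ?_
  split_ifs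
  · exact (f.proj l).isSelfAdjoint.star_eq
  · exact star_zero _

theorem se_mul_se (f : Part A.toStarSubalgebra) (p q : f.ι → Prop) :
    se f p * se f q = se f fun l => p l ∧ q l := by
  unfold se
  rw [Finset.sum_mul]
  refine Finset.sum_congr rfl fun l _ => ?_
  rw [Finset.mul_sum, Finset.sum_eq_single l]
  · by_cases h1 : p l
    · by_cases h2 : q l
      · rw [if_pos h1, if_pos h2, if_pos ⟨h1, h2⟩, f.e_mul_self]
      · rw [if_neg h2, mul_zero, if_neg fun h => h2 h.2]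
    · rw [if_neg h1, zero_mul, if_neg fun h => h1 h.1]
  · intro l' _ hl'
    split_ifs
    · exact f.orth l l' hl'.symm
    · rw [mul_zero]
    · rw [zero_mul]
    · rw [zero_mul]
  · intro h; exact absurd (Finset.mem_univ l) h

theorem n2_se_mul_le (hξ : IsTrace M ξ) (f : Part A.toStarSubalgebra) (p : f.ι → Prop)
    (x : H →L[ℂ] H) : n2 ξ (se f p * x) ≤ n2 ξ x := by
  rw [n2_se_mul hξ, n2_eq_sum hξ f x]
  refine Finset.sum_le_sum fun l _ => ?_
  split_ifs
  · exact le_rfl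
  · exact n2_nonneg _ _

section fourier

variable {I : Type*} [Fintype I] {r : ℕ} [NeZero r]

/-- the support -/
noncomputable def sup (k : I → ZMod r) : Finset I := Finset.univ.filter fun i => k i ≠ 0

theorem mem_sup {k : I → ZMod r} {i : I} : i ∈ sup k ↔ k i ≠ 0 := by simp [sup]

/-- evaluation -/
noncomputable def evj (U : I → ZMod r) (F : (I → ZMod r) → (H →L[ℂ] H)) : H →L[ℂ] H :=
  ∑ k, ch k U • F k

theorem parseval_j (hξ : IsTrace M ξ) (F : (I → ZMod r) → (H →L[ℂ] H)) :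
    ∑ U, n2 ξ (evj U F) = (Fintype.card (I → ZMod r) : ℝ) * ∑ k, n2 ξ (F k) := by
  unfold n2
  rw [← Summable.tsum_finsetSum fun c _ => n2_summable hξ _,
    ← Summable.tsum_finsetSum fun k _ => n2_summable hξ _, ← tsum_mul_left]
  refine tsum_congr fun n => ?_
  have h1 := parseval fun k => F k (ξ n)
  rw [Fintype.card_fun, ZMod.card]
  push_cast
  rw [← h1]
  refine Finset.sum_congr rfl fun c _ => ?_
  unfold evj
  rw [sum_apply]
  rfl

/-- degree at most `d` -/
def Dg (d : ℕ) (F : (I → ZMod r) → (H →L[ℂ] H)) : Prop := ∀ k, d < (sup k).card → F k = 0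

variable {f : Part A.toStarSubalgebra} {near : f.ι → Finset I}

/-- the error term -/
noncomputable def ZZn (near : f.ι → Finset I) (y : H →L[ℂ] H)
    (F : (I → ZMod r) → (H →L[ℂ] H)) (k : I → ZMod r) : H →L[ℂ] H :=
  se f (fun l => ¬ Disjoint (near l) (sup k)) *
    (y * (se f (fun l => ¬ Disjoint (near l) (sup k)) * F k))

theorem sum_mul_le (hξ : IsTrace M ξ) {z : H →L[ℂ] H} (hz : z ∈ M)
    {F : (I → ZMod r) → (H →L[ℂ] H)} (hev : ∀ U, evj U F ∈ M ∧ ‖evj U F‖ ≤ 1) :
    ∑ k, n2 ξ (z * F k) ≤ n2 ξ z := by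
  have hN := cardΩ_pos (I := I) (r := r)
  have h1 := parseval_j hξ fun k => z * F k
  have h2 : ∑ U : I → ZMod r, n2 ξ (evj U fun k => z * F k) ≤
      (Fintype.card (I → ZMod r) : ℝ) * n2 ξ z := by
    have h3 : ∀ U : I → ZMod r, n2 ξ (evj U fun k => z * F k) ≤ n2 ξ z := by
      intro U
      have e1 : (evj U fun k => z * F k) = z * evj U F := by
        unfold evj
        rw [Finset.mul_sum]
        exact Finset.sum_congr rfl fun k _ => by rw [mul_smul_comm]
      rw [e1]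
      refine (n2_mul_le' hξ hz (hev U).1).trans ?_
      have h4 : ‖evj U F‖ ^ 2 ≤ 1 := pow_le_one₀ (norm_nonneg _) (hev U).2
      linarith only [mul_nonneg (sub_nonneg.2 h4) (sub_nonneg.2 (n2_nonneg ξ z))]
    refine (Finset.sum_le_sum fun c _ => h3 c).trans (le_of_eq ?_)
    rw [Finset.sum_const, nsmul_eq_mul, Finset.card_univ]
  rw [h1] at h2
  exact le_of_mul_le_mul_left h2 hN

theorem sum_F_le (hξ : IsTrace M ξ) {F : (I → ZMod r) → (H →L[ℂ] H)}
    (hev : ∀ U, evj U F ∈ M ∧ ‖evj U F‖ ≤ 1) : ∑ k, n2 ξ (F k) ≤ 1 := by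
  have h1 := sum_mul_le hξ (one_mem M) hev
  simp only [one_mul] at h1
  refine h1.trans ((n2_le hξ 1).trans ?_)
  have h3 : ‖(1 : H →L[ℂ] H)‖ ≤ 1 := ContinuousLinearMap.norm_id_le
  exact pow_le_one₀ (norm_nonneg _) h3

/-- inclusion and exclusion -/
theorem se_incl (near : f.ι → Finset I) (S : Finset I) :
    se f (fun l => ¬ Disjoint (near l) S) =
      ∑ R ∈ S.powerset.erase ∅, (-(-1 : ℂ) ^ R.card) • se f (fun l => R ⊆ near l) := by
  have h1 : ∀ l, (if ¬ Disjoint (near l) S then (1 : ℂ) else 0) =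
      ∑ R ∈ S.powerset.erase ∅, (-(-1 : ℂ) ^ R.card) * (if R ⊆ near l then 1 else 0) := by
    intro l
    have h2 : ∑ R ∈ S.powerset, ((-1 : ℂ) ^ R.card) * (if R ⊆ near l then 1 else 0) =
        if Disjoint (near l) S then 1 else 0 := by
      have h3 : ∑ R ∈ S.powerset, ((-1 : ℂ) ^ R.card) * (if R ⊆ near l then 1 else 0) =
          ∑ R ∈ (near l ∩ S).powerset, (-1 : ℂ) ^ R.card := by
        simp only [mul_ite, mul_one, mul_zero]
        rw [← Finset.sum_filter]
        refine Finset.sum_congr ?_ fun _ _ => rfl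
        ext R
        simp only [Finset.mem_filter, Finset.mem_powerset, Finset.subset_inter_iff]
        tauto
      rw [h3]
      have h4 := Finset.sum_powerset_neg_one_pow_card (x := near l ∩ S)
      have h5 : ((∑ m ∈ (near l ∩ S).powerset, (-1 : ℤ) ^ m.card : ℤ) : ℂ) =
          ∑ m ∈ (near l ∩ S).powerset, (-1 : ℂ) ^ m.card := by push_cast; rfl
      rw [← h5, h4]
      simp only [Finset.disjoint_iff_inter_eq_empty]
      split_ifs <;> simp
    have h6 := Finset.add_sum_erase S.powerset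
      (fun R => ((-1 : ℂ) ^ R.card) * (if R ⊆ near l then 1 else 0)) (Finset.empty_mem_powerset S)
    simp only [Finset.card_empty, pow_zero, Finset.empty_subset, if_true, mul_one] at h6
    rw [h2] at h6
    have h7 : ∑ R ∈ S.powerset.erase ∅, (-(-1 : ℂ) ^ R.card) * (if R ⊆ near l then 1 else 0) =
        -∑ R ∈ S.powerset.erase ∅, ((-1 : ℂ) ^ R.card) * (if R ⊆ near l then 1 else 0) := by
      rw [← Finset.sum_neg_distrib]
      exact Finset.sum_congr rfl fun R _ => by ring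
    rw [h7]
    by_cases h : Disjoint (near l) S
    · rw [if_pos h] at h6
      rw [if_neg (not_not.2 h)]
      linear_combination h6
    · rw [if_neg h] at h6
      rw [if_pos h]
      linear_combination h6
  unfold se
  have h2 : ∀ (c : ℂ) (p : f.ι → Prop), c • ∑ l, (if p l then f.e l else 0) =
      ∑ l, (c * (if p l then 1 else 0)) • f.e l := by
    intro c p
    rw [Finset.smul_sum]
    refine Finset.sum_congr rfl fun l _ => ?_
    split_ifs
    · rw [mul_one]
    · rw [mul_zero, smul_zero, zero_smul]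
  rw [Finset.sum_congr rfl fun R _ => h2 _ _, Finset.sum_comm]
  refine Finset.sum_congr rfl fun l _ => ?_
  rw [← Finset.sum_smul]
  have h3 := h1 l
  by_cases h : Disjoint (near l) S
  · rw [if_neg (not_not.2 h)] at h3
    rw [if_neg (not_not.2 h)]
    refine (zero_smul ℂ (f.e l)).symm.trans (congrArg (fun c : ℂ => c • f.e l) (h3.trans ?_))
    exact Finset.sum_congr rfl fun R _ => by congr 2
  · rw [if_pos h] at h3
    rw [if_pos h]
    refine (one_smul ℂ (f.e l)).symm.trans (congrArg (fun c : ℂ => c • f.e l) (h3.trans ?_))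
    exact Finset.sum_congr rfl fun R _ => by congr 2

/-- bound of the union by the sum -/
theorem n2_union_le (hξ : IsTrace M ξ) (near : f.ι → Finset I) (S : Finset I)
    (x : H →L[ℂ] H) : n2 ξ (se f (fun l => ¬ Disjoint (near l) S) * x) ≤
      ∑ i ∈ S, n2 ξ (nbh f near i * x) := by
  have h1 : ∀ i, n2 ξ (nbh f near i * x) = ∑ l, if i ∈ near l then n2 ξ (f.e l * x) else 0 := by
    intro i
    unfold nbh
    rw [n2_se_mul hξ f (fun l => i ∈ near l) x]
    exact Finset.sum_congr rfl fun l _ => by congr 1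
  rw [n2_se_mul hξ, Finset.sum_congr rfl fun i _ => h1 i, Finset.sum_comm]
  refine Finset.sum_le_sum fun l _ => ?_
  have h2 : 0 ≤ n2 ξ (f.e l * x) := n2_nonneg _ _
  have h3 : ∀ i ∈ S, 0 ≤ (if i ∈ near l then n2 ξ (f.e l * x) else 0) := fun i _ => by
    split_ifs
    · exact h2
    · exact le_rfl
  by_cases h : Disjoint (near l) S
  · rw [if_neg (not_not.2 h)]
    exact Finset.sum_nonneg h3
  · rw [if_pos h]
    obtain ⟨i, hi, hi'⟩ := Finset.not_disjoint_iff.1 h
    have h4 := Finset.single_le_sum h3 hi'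
    rwa [if_pos hi] at h4

/-- sum over all sets of neighbours -/
theorem sum_sub_le (hξ : IsTrace M ξ) (hAM : ∀ a ∈ A, a ∈ M) (near : f.ι → Finset I) {b : ℕ}
    (hb : ∀ l, (near l).card ≤ b) {z : H →L[ℂ] H} (hz : z ∈ M) :
    ∑ R : Finset I, n2 ξ (z * se f (fun l => R ⊆ near l)) ≤ 2 ^ b * n2 ξ z := by
  have h1 : ∀ R : Finset I, n2 ξ (z * se f (fun l => R ⊆ near l)) =
      ∑ l, if R ⊆ near l then n2 ξ (f.e l * star z) else 0 := by
    intro R
    rw [← n2_star hξ (mul_mem hz (se_mem hAM f _)), star_mul, se_star, n2_se_mul hξ]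
    exact Finset.sum_congr rfl fun l _ => by congr 1
  rw [Finset.sum_congr rfl fun R _ => h1 R, Finset.sum_comm]
  have h2 : ∀ l, ∑ R : Finset I, (if R ⊆ near l then n2 ξ (f.e l * star z) else 0) ≤
      2 ^ b * n2 ξ (f.e l * star z) := by
    intro l
    rw [← Finset.sum_filter, Finset.sum_const, nsmul_eq_mul]
    have h3 : (Finset.univ.filter fun R : Finset I => R ⊆ near l) = (near l).powerset := by
      ext R
      simp
    rw [h3, Finset.card_powerset]
    push_cast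
    refine mul_le_mul_of_nonneg_right ?_ (n2_nonneg _ _)
    exact pow_le_pow_right₀ (by norm_num) (hb l)
  refine (Finset.sum_le_sum fun l _ => h2 l).trans (le_of_eq ?_)
  rw [← Finset.mul_sum, ← n2_eq_sum hξ f (star z), n2_star hξ hz]

/-- the error term is small -/
theorem sum_ZZn_le (hξ : IsTrace M ξ) (hAM : ∀ a ∈ A, a ∈ M) (near : f.ι → Finset I) {b : ℕ}
    (hb : ∀ l, (near l).card ≤ b) {y : H →L[ℂ] H} (hy : y ∈ M)
    {d : ℕ} {F : (I → ZMod r) → (H →L[ℂ] H)} (hF : Dg d F)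
    (hev : ∀ U, evj U F ∈ M ∧ ‖evj U F‖ ≤ 1) {κ : ℝ} (hκ : 0 < κ) :
    ∑ k, n2 ξ (ZZn near y F k) ≤ 2 ^ d * (2 * (κ ^ 2 * (d * 2 ^ d)) +
      2 * (2 ^ b * ((∑ i, ∑ j, n4 ξ (nbh f near i * y * nbh f near j)) / κ ^ 2))) := by
  have hnb : ∀ i, nbh f near i ∈ M := fun i => se_mem hAM f _
  have hyM : ∀ i j, nbh f near i * y * nbh f near j ∈ M := fun i j =>
    mul_mem (mul_mem (hnb i) hy) (hnb j)
  choose y' y'' hy' hy'' hsum hnorm hn4 using fun i j => exists_trunc hξ (hyM i j) hκ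
  -- the truncated pieces
  set z : I → Finset I → (H →L[ℂ] H) := fun i R =>
    if h : R.Nonempty then y'' i h.choose * se f (fun l => R ⊆ near l) else 0 with hz
  have hzM : ∀ i R, z i R ∈ M := by
    intro i R
    rw [hz]
    by_cases h : R.Nonempty
    · simp only [h, dif_pos]
      exact mul_mem (hy'' _ _) (se_mem hAM f _)
    · simp only [h, dif_neg, not_false_iff]
      exact zero_mem _
  have hzle : ∀ i R, n2 ξ (z i R) ≤ ∑ j, n2 ξ (y'' i j * se f (fun l => R ⊆ near l)) := by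
    intro i R
    rw [hz]
    by_cases h : R.Nonempty
    · simp only [h, dif_pos]
      exact Finset.single_le_sum (f := fun j => n2 ξ (y'' i j * se f (fun l => R ⊆ near l)))
        (fun j _ => n2_nonneg _ _) (Finset.mem_univ _)
    · simp only [h, dif_neg, not_false_iff]
      rw [n2_zero]
      exact Finset.sum_nonneg fun j _ => n2_nonneg _ _
  -- pointwise estimate
  have h1 : ∀ k, n2 ξ (ZZn near y F k) ≤ 2 ^ d * (2 * (κ ^ 2 * (d * 2 ^ d) * n2 ξ (F k)) +
      2 * ∑ i, ∑ R : Finset I, n2 ξ (z i R * F k)) := by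
    intro k
    have hpos : 0 ≤ ∑ i, ∑ R : Finset I, n2 ξ (z i R * F k) :=
      Finset.sum_nonneg fun i _ => Finset.sum_nonneg fun R _ => n2_nonneg _ _
    have hpos' := n2_nonneg ξ (F k)
    by_cases hd : d < (sup k).card
    · have h2 : ZZn near y F k = 0 := by
        unfold ZZn
        rw [hF k hd, mul_zero, mul_zero, mul_zero]
      rw [h2, n2_zero]
      (clear * - hκ hpos hpos'; positivity)
    · push Not at hd
      set S := sup k with hS
      have h2 : n2 ξ (ZZn near y F k) ≤ ∑ i ∈ S, n2 ξ (nbh f near i *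
          (y * (se f (fun l => ¬ Disjoint (near l) S) * F k))) :=
        n2_union_le hξ near S _
      refine h2.trans ?_
      have hcard : (((S.powerset.erase ∅).card : ℕ) : ℝ) ≤ 2 ^ d := by
        have h3 : (S.powerset.erase ∅).card ≤ 2 ^ d := by
          refine (Finset.card_le_card (Finset.erase_subset _ _)).trans ?_
          rw [Finset.card_powerset]
          exact Nat.pow_le_pow_right (by norm_num) hd
        exact_mod_cast h3
      have h3 : ∀ i, n2 ξ (nbh f near i * (y * (se f (fun l => ¬ Disjoint (near l) S) * F k))) ≤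
          2 ^ d * ∑ R ∈ S.powerset.erase ∅, (2 * (κ ^ 2 * n2 ξ (F k)) +
            2 * n2 ξ (z i R * F k)) := by
        intro i
        have e1 : nbh f near i * (y * (se f (fun l => ¬ Disjoint (near l) S) * F k)) =
            ∑ R ∈ S.powerset.erase ∅, (-(-1 : ℂ) ^ R.card) •
              (nbh f near i * (y * (se f (fun l => R ⊆ near l) * F k))) := by
          rw [se_incl, Finset.sum_mul, Finset.mul_sum, Finset.mul_sum]
          refine Finset.sum_congr rfl fun R _ => ?_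
          rw [smul_mul_assoc, mul_smul_comm, mul_smul_comm]
        rw [e1]
        refine (n2_sum_le hξ _ _).trans ?_
        refine mul_le_mul hcard (Finset.sum_le_sum fun R hR => ?_)
          (Finset.sum_nonneg fun R _ => n2_nonneg _ _) (by (clear * -; positivity))
        have hRne : R.Nonempty := Finset.nonempty_iff_ne_empty.2 (Finset.mem_erase.1 hR).1
        rw [n2_smul, norm_neg, norm_pow, norm_neg, norm_one, one_pow, one_pow, one_mul]
        have e2 : nbh f near hRne.choose * se f (fun l => R ⊆ near l) =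
            se f (fun l => R ⊆ near l) := by
          have e3 := se_mul_se f (fun l => hRne.choose ∈ near l) (fun l => R ⊆ near l)
          have e4 : (fun l => hRne.choose ∈ near l ∧ R ⊆ near l) = fun l => R ⊆ near l := by
            funext l
            refine propext ⟨fun h => h.2, fun h => ⟨h hRne.choose_spec, h⟩⟩
          rw [e4] at e3
          exact e3
        have e3 : nbh f near i * (y * (se f (fun l => R ⊆ near l) * F k)) =
            y' i hRne.choose * (se f (fun l => R ⊆ near l) * F k) + z i R * F k := by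
          have e4 : z i R = y'' i hRne.choose * se f (fun l => R ⊆ near l) := by
            rw [hz]
            simp only [hRne, dif_pos]
          rw [e4, mul_assoc (y'' i hRne.choose), ← add_mul, ← hsum]
          conv_lhs => rw [← e2]
          simp only [mul_assoc]
        rw [e3]
        refine (n2_add_le hξ _ _).trans ?_
        have e5 : n2 ξ (y' i hRne.choose * (se f (fun l => R ⊆ near l) * F k)) ≤
            κ ^ 2 * n2 ξ (F k) := by
          refine (n2_mul_le hξ _ _).trans ?_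
          exact mul_le_mul (pow_le_pow_left₀ (norm_nonneg _) (hnorm _ _) 2)
            (n2_se_mul_le hξ f _ _) (n2_nonneg _ _) (by (clear * - hκ; positivity))
        linarith only [e5]
      refine (Finset.sum_le_sum fun i _ => h3 i).trans ?_
      rw [← Finset.mul_sum]
      refine mul_le_mul_of_nonneg_left ?_ (by (clear * -; positivity))
      simp only [Finset.sum_add_distrib, ← Finset.mul_sum, Finset.sum_const, nsmul_eq_mul]
      have h4 : ∑ i ∈ S, ∑ R ∈ S.powerset.erase ∅, n2 ξ (z i R * F k) ≤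
          ∑ i, ∑ R : Finset I, n2 ξ (z i R * F k) := by
        refine (Finset.sum_le_sum fun i _ => Finset.sum_le_sum_of_subset_of_nonneg
          (Finset.subset_univ _) fun R _ _ => n2_nonneg _ _).trans ?_
        exact Finset.sum_le_sum_of_subset_of_nonneg (Finset.subset_univ _)
          fun i _ _ => Finset.sum_nonneg fun R _ => n2_nonneg _ _
      have h5 : (S.card : ℝ) * (((S.powerset.erase ∅).card : ℝ) * (2 * (κ ^ 2 * n2 ξ (F k)))) ≤
          2 * (κ ^ 2 * (d * 2 ^ d) * n2 ξ (F k)) := by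
        have h6 : (S.card : ℝ) ≤ d := by exact_mod_cast hd
        have h7 : (S.card : ℝ) * ((S.powerset.erase ∅).card : ℝ) ≤ d * 2 ^ d :=
          mul_le_mul h6 hcard (Nat.cast_nonneg _) (Nat.cast_nonneg _)
        have h8 : 0 ≤ 2 * (κ ^ 2 * n2 ξ (F k)) := by (clear * - hκ hpos'; positivity)
        calc (S.card : ℝ) * (((S.powerset.erase ∅).card : ℝ) * (2 * (κ ^ 2 * n2 ξ (F k))))
            = ((S.card : ℝ) * ((S.powerset.erase ∅).card : ℝ)) *
              (2 * (κ ^ 2 * n2 ξ (F k))) := by ring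
          _ ≤ (d * 2 ^ d) * (2 * (κ ^ 2 * n2 ξ (F k))) := mul_le_mul_of_nonneg_right h7 h8
          _ = 2 * (κ ^ 2 * (d * 2 ^ d) * n2 ξ (F k)) := by ring
      linarith only [h4, h5]
  -- sum over `k`
  have h2 : ∑ k, n2 ξ (ZZn near y F k) ≤ 2 ^ d * (2 * (κ ^ 2 * (d * 2 ^ d) * ∑ k, n2 ξ (F k)) +
      2 * ∑ i, ∑ R : Finset I, ∑ k, n2 ξ (z i R * F k)) := by
    refine (Finset.sum_le_sum fun k _ => h1 k).trans (le_of_eq ?_)
    rw [← Finset.mul_sum, Finset.sum_add_distrib, ← Finset.mul_sum, ← Finset.mul_sum,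
      ← Finset.mul_sum, Finset.sum_comm]
    congr 3
    exact Finset.sum_congr rfl fun i _ => Finset.sum_comm
  refine h2.trans (mul_le_mul_of_nonneg_left ?_ (by (clear * -; positivity)))
  have h3 : κ ^ 2 * (d * 2 ^ d) * ∑ k, n2 ξ (F k) ≤ κ ^ 2 * (d * 2 ^ d) := by
    have h4 := sum_F_le hξ hev
    have h5 : 0 ≤ κ ^ 2 * ((d : ℝ) * 2 ^ d) := by (clear * - hκ; positivity)
    linarith only [mul_nonneg (sub_nonneg.2 h4) (sub_nonneg.2 h5)]
  have h4 : ∑ i, ∑ R : Finset I, ∑ k, n2 ξ (z i R * F k) ≤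
      2 ^ b * ((∑ i, ∑ j, n4 ξ (nbh f near i * y * nbh f near j)) / κ ^ 2) := by
    have h5 : ∀ i, ∑ R : Finset I, ∑ k, n2 ξ (z i R * F k) ≤
        ∑ j, 2 ^ b * (n4 ξ (nbh f near i * y * nbh f near j) / κ ^ 2) := by
      intro i
      have h6 : ∑ R : Finset I, ∑ k, n2 ξ (z i R * F k) ≤
          ∑ R : Finset I, ∑ j, n2 ξ (y'' i j * se f (fun l => R ⊆ near l)) :=
        Finset.sum_le_sum fun R _ => (sum_mul_le hξ (hzM i R) hev).trans (hzle i R)
      refine h6.trans ?_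
      rw [Finset.sum_comm]
      refine Finset.sum_le_sum fun j _ => ?_
      refine (sum_sub_le hξ hAM near hb (hy'' i j)).trans ?_
      exact mul_le_mul_of_nonneg_left (hn4 i j) (by (clear * -; positivity))
    refine (Finset.sum_le_sum fun i _ => h5 i).trans (le_of_eq ?_)
    rw [Finset.sum_div, Finset.mul_sum]
    refine Finset.sum_congr rfl fun i _ => ?_
    rw [Finset.sum_div, Finset.mul_sum]
  linarith only [h3, h4]

end fourier

end Vale.Agent.P078.Y
end

section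

/-! T5 (Y): degree bookkeeping. -/

set_option linter.unusedSectionVars false

namespace Vale.Agent.P078.Y

open Filter Topology
open Vale.Agent.P078 Vale.Agent.P078.C Vale.Agent.P078.F
open scoped Classical ComplexConjugate

variable {H : Type*} [NormedAddCommGroup H] [InnerProductSpace ℂ H] [CompleteSpace H]
variable {M A N : VonNeumannAlgebra H} {ξ : ℕ → H}

section rep

variable {I : Type*} [Fintype I] {r : ℕ} [NeZero r]

/-- functions of bounded degree -/
def Rep (d : ℕ) (v : (I → ZMod r) → (H →L[ℂ] H)) : Prop :=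
  ∃ F : (I → ZMod r) → (H →L[ℂ] H), (∀ U, evj U F = v U) ∧ Dg d F

theorem rep_const (x : H →L[ℂ] H) : Rep 0 (fun _ : I → ZMod r => x) := by
  refine ⟨fun k => if k = 0 then x else 0, fun U => ?_, fun k hk => ?_⟩
  · unfold evj
    beta_reduce
    rw [Finset.sum_eq_single 0]
    · rw [if_pos rfl, ch_zero, one_smul]
    · intro k _ hk
      rw [if_neg hk, smul_zero]
    · intro h; exact absurd (Finset.mem_univ _) h
  · beta_reduce
    rw [if_neg]
    rintro rfl
    obtain ⟨i, hi⟩ := Finset.card_pos.1 hk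
    exact mem_sup.1 hi rfl

theorem rep_mono {d d' : ℕ} (h : d ≤ d') {v : (I → ZMod r) → (H →L[ℂ] H)} (hv : Rep d v) :
    Rep d' v := by
  obtain ⟨F, h1, h2⟩ := hv
  exact ⟨F, h1, fun k hk => h2 k (lt_of_le_of_lt h hk)⟩

theorem rep_sum {ι : Type*} (s : Finset ι) {d : ℕ} {v : ι → (I → ZMod r) → (H →L[ℂ] H)}
    (hv : ∀ i ∈ s, Rep d (v i)) : Rep d (fun U => ∑ i ∈ s, v i U) := by
  induction s using Finset.induction_on with
  | empty =>
    have := rep_mono (Nat.zero_le d) (rep_const (I := I) (r := r) (0 : H →L[ℂ] H))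
    simpa using this
  | insert a s ha ih =>
    obtain ⟨F, hF1, hF2⟩ := hv a (Finset.mem_insert_self a s)
    obtain ⟨G, hG1, hG2⟩ := ih fun i hi => hv i (Finset.mem_insert_of_mem hi)
    refine ⟨fun k => F k + G k, fun U => ?_, fun k hk => ?_⟩
    · beta_reduce at hG1 ⊢
      rw [Finset.sum_insert ha, ← hF1, ← hG1]
      unfold evj
      rw [← Finset.sum_add_distrib]
      exact Finset.sum_congr rfl fun k _ => smul_add _ _ _
    · beta_reduce
      rw [hF2 k hk, hG2 k hk, add_zero]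

theorem rep_mul {d d' : ℕ} {v w : (I → ZMod r) → (H →L[ℂ] H)} (hv : Rep d v) (hw : Rep d' w) :
    Rep (d + d') (fun U => v U * w U) := by
  obtain ⟨F, hF1, hF2⟩ := hv
  obtain ⟨G, hG1, hG2⟩ := hw
  refine ⟨fun k => ∑ k', F k' * G (k - k'), fun U => ?_, fun k hk => ?_⟩
  · beta_reduce
    rw [← hF1, ← hG1]
    unfold evj
    rw [Finset.sum_mul]
    have h1 : ∀ k : I → ZMod r, ch k U • ∑ k', F k' * G (k - k') =
        ∑ k', ch k U • (F k' * G (k - k')) := fun k => Finset.smul_sum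
    rw [Finset.sum_congr rfl fun k _ => h1 k, Finset.sum_comm]
    refine Finset.sum_congr rfl fun k' _ => ?_
    rw [Finset.mul_sum, ← Equiv.sum_comp (Equiv.addRight k')]
    refine Finset.sum_congr rfl fun k _ => ?_
    rw [Equiv.coe_addRight]
    beta_reduce
    rw [add_sub_cancel_right, add_comm k k', Vale.Agent.P078.F.ch_add, smul_mul_smul_comm]
  · refine Finset.sum_eq_zero fun k' _ => ?_
    have h1 : sup k ⊆ sup k' ∪ sup (k - k') := by
      intro i hi
      rw [Finset.mem_union, mem_sup, mem_sup, Pi.sub_apply]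
      by_contra hc
      push Not at hc
      refine mem_sup.1 hi ?_
      rw [hc.1, sub_zero] at hc
      exact hc.2
    have h2 := (Finset.card_le_card h1).trans (Finset.card_union_le _ _)
    by_cases h3 : d < (sup k').card
    · rw [hF2 k' h3, zero_mul]
    · rw [hG2 _ (by omega), mul_zero]

theorem rep_pow {d : ℕ} {v : (I → ZMod r) → (H →L[ℂ] H)} (hv : Rep d v) (n : ℕ) :
    Rep (n * d) (fun U => v U ^ n) := by
  induction n with
  | zero =>
    rw [Nat.zero_mul]
    simpa using rep_const (I := I) (r := r) (1 : H →L[ℂ] H)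
  | succ n ih =>
    have h1 := rep_mul ih hv
    simp only [← pow_succ] at h1
    rwa [Nat.succ_mul]

theorem ch_comm (k c : I → ZMod r) : ch k c = ch c k := by
  unfold ch
  congr 1
  exact Finset.sum_congr rfl fun i _ => mul_comm _ _

theorem ch_single_ne {k : I → ZMod r} {i : I} (hi : k i ≠ 0) :
    ch k (Pi.single i 1) ≠ 1 := by
  rw [ch_comm, ch_single, one_mul]
  intro h
  have h1 : (ZMod.stdAddChar (k i) : ℂ) = ZMod.stdAddChar (0 : ZMod r) := by
    rw [h, AddChar.map_zero_eq_one]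
  exact hi (ZMod.injective_stdAddChar h1)

/-- coefficients of a local function -/
theorem coef_zero {S : Finset I} {h : (I → ZMod r) → ℂ}
    (hh : ∀ U V, (∀ i ∈ S, U i = V i) → h U = h V) {k : I → ZMod r} {i : I} (hi : k i ≠ 0)
    (hiS : i ∉ S) : ∑ V, conj (ch k V) * h V = 0 := by
  have h1 : ∑ V, conj (ch k V) * h V = conj (ch k (Pi.single i 1)) *
      ∑ V, conj (ch k V) * h V := by
    conv_lhs => rw [← Equiv.sum_comp (Equiv.addRight (Pi.single i (1 : ZMod r)))]
    rw [Finset.mul_sum]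
    refine Finset.sum_congr rfl fun V _ => ?_
    rw [Equiv.coe_addRight, ch_comm k (V + Pi.single i 1), Vale.Agent.P078.F.ch_add, ch_comm V k,
      ch_comm (Pi.single i 1) k, map_mul]
    have h2 : h (V + Pi.single i 1) = h V := by
      refine hh _ _ fun j hj => ?_
      have hji : j ≠ i := fun e => hiS (e ▸ hj)
      rw [Pi.add_apply, Pi.single_eq_of_ne hji, add_zero]
    rw [h2]
    ring
  have h2 : (1 - conj (ch k (Pi.single i 1))) * ∑ V, conj (ch k V) * h V = 0 := by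
    rw [sub_mul, one_mul, ← h1, sub_self]
  rcases mul_eq_zero.1 h2 with h3 | h3
  · exfalso
    have h4 : conj (ch k (Pi.single i (1 : ZMod r))) = 1 := (sub_eq_zero.1 h3).symm
    have h5 := congrArg conj h4
    rw [Complex.conj_conj, map_one] at h5
    exact ch_single_ne hi h5
  · exact h3

theorem inversion (h : (I → ZMod r) → ℂ) (U : I → ZMod r) :
    ∑ k, ch k U * ((Fintype.card (I → ZMod r) : ℂ)⁻¹ * ∑ V, conj (ch k V) * h V) = h U := by
  have h1 : ∀ k : I → ZMod r, ch k U * ((Fintype.card (I → ZMod r) : ℂ)⁻¹ *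
      ∑ V, conj (ch k V) * h V) = ∑ V, (Fintype.card (I → ZMod r) : ℂ)⁻¹ *
        (ch (U - V) k * h V) := by
    intro k
    rw [Finset.mul_sum, Finset.mul_sum]
    refine Finset.sum_congr rfl fun V _ => ?_
    rw [sub_eq_add_neg, Vale.Agent.P078.F.ch_add, ch_comm k U, conj_ch, ch_comm (-V) k]
    have h2 : ch (-k) V = ch k (-V) := by
      unfold ch
      congr 1
      exact Finset.sum_congr rfl fun i _ => by rw [Pi.neg_apply, Pi.neg_apply]; ring
    rw [h2]
    ring
  rw [Finset.sum_congr rfl fun k _ => h1 k, Finset.sum_comm]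
  have h3 : ∀ V : I → ZMod r, ∑ k, (Fintype.card (I → ZMod r) : ℂ)⁻¹ * (ch (U - V) k * h V) =
      if V = U then h U else 0 := by
    intro V
    rw [← Finset.mul_sum, ← Finset.sum_mul, sum_ch]
    split_ifs with h4 h5 h5
    · rw [h5, Fintype.card_fun, ZMod.card]
      push_cast
      have hr : (r : ℂ) ^ Fintype.card I ≠ 0 := pow_ne_zero _ (Nat.cast_ne_zero.2 (NeZero.ne r))
      rw [← mul_assoc, inv_mul_cancel₀ hr, one_mul]
    · exact absurd (sub_eq_zero.1 h4).symm h5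
    · exact absurd (sub_eq_zero.2 h5.symm) h4
    · rw [zero_mul, mul_zero]
  rw [Finset.sum_congr rfl fun V _ => h3 V, Finset.sum_ite_eq' Finset.univ U fun _ => h U,
    if_pos (Finset.mem_univ _)]

variable {f : Part A.toStarSubalgebra} {near : f.ι → Finset I} {col : f.ι → (I → ZMod r) → ZMod r}

theorem rep_Pop (hR : Rule f near col) {b : ℕ} (hb : ∀ l, (near l).card ≤ b) (a : ZMod r) :
    Rep b (fun U => Pop f col a U) := by
  refine ⟨fun k => ∑ l, ((Fintype.card (I → ZMod r) : ℂ)⁻¹ * ∑ V, conj (ch k V) *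
    (if col l V = a then 1 else 0)) • f.e l, fun U => ?_, fun k hk => ?_⟩
  · unfold evj
    have h1 : ∀ k : I → ZMod r, ch k U • ∑ l, ((Fintype.card (I → ZMod r) : ℂ)⁻¹ *
        ∑ V, conj (ch k V) * (if col l V = a then 1 else 0)) • f.e l =
        ∑ l, (ch k U * ((Fintype.card (I → ZMod r) : ℂ)⁻¹ *
        ∑ V, conj (ch k V) * (if col l V = a then 1 else 0))) • f.e l := by
      intro k
      rw [Finset.smul_sum]
      exact Finset.sum_congr rfl fun l _ => smul_smul _ _ _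
    beta_reduce
    rw [Finset.sum_congr rfl fun k _ => h1 k, Finset.sum_comm, Pop_eq]
    refine Finset.sum_congr rfl fun l _ => ?_
    rw [← Finset.sum_smul, inversion fun V => if col l V = a then (1 : ℂ) else 0]
    split_ifs
    · rw [one_smul]
    · rw [zero_smul]
  · refine Finset.sum_eq_zero fun l _ => ?_
    obtain ⟨i, hi, hi'⟩ : ∃ i ∈ sup k, i ∉ near l := by
      by_contra hc
      push Not at hc
      have h1 := Finset.card_le_card (show sup k ⊆ near l from fun i hi => hc i hi)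
      have h2 := hb l
      omega
    rw [coef_zero (S := near l) (h := fun V => if col l V = a then (1 : ℂ) else 0)
      (fun U V hUV => by simp only [hR.dep l U V hUV]) (mem_sup.1 hi) hi', mul_zero, zero_smul]

theorem Sop_eq (y : H →L[ℂ] H) (U : I → ZMod r) :
    Sop f col y U = ∑ a, Pop f col a U * y * Pop f col a U := rfl

theorem rep_Sop (hR : Rule f near col) {b : ℕ} (hb : ∀ l, (near l).card ≤ b)
    (y : H →L[ℂ] H) : Rep (b + 0 + b) (fun U => Sop f col y U) := by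
  have h1 := rep_sum (I := I) (r := r) (Finset.univ : Finset (ZMod r)) (d := b + 0 + b)
    (v := fun a U => Pop f col a U * y * Pop f col a U)
    fun a _ => rep_mul (rep_mul (rep_Pop hR hb a) (rep_const y)) (rep_Pop hR hb a)
  exact h1

/-- averages of characters -/
theorem ES_ch (S : Finset I) (k U : I → ZMod r) :
    ∑ V, ch k (S.piecewise V U) =
      if Disjoint S (sup k) then (Fintype.card (I → ZMod r) : ℂ) * ch k U else 0 := by
  split_ifs with h
  · have h1 : ∀ V : I → ZMod r, ch k (S.piecewise V U) = ch k U := by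
      intro V
      unfold ch
      congr 1
      refine Finset.sum_congr rfl fun i _ => ?_
      by_cases hi : i ∈ S
      · have h2 : k i = 0 := by
          by_contra h3
          exact Finset.disjoint_left.1 h hi (mem_sup.2 h3)
        rw [h2, zero_mul, zero_mul]
      · rw [Finset.piecewise_eq_of_notMem _ _ _ hi]
    rw [Finset.sum_congr rfl fun V _ => h1 V, Finset.sum_const, Finset.card_univ, nsmul_eq_mul]
  · obtain ⟨i, hi, hi'⟩ := Finset.not_disjoint_iff.1 h
    have h1 : ∑ V : I → ZMod r, ch k (S.piecewise V U) = ch k (Pi.single i 1) *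
        ∑ V : I → ZMod r, ch k (S.piecewise V U) := by
      conv_lhs => rw [← Equiv.sum_comp (Equiv.addRight (Pi.single i (1 : ZMod r)))]
      rw [Finset.mul_sum]
      refine Finset.sum_congr rfl fun V _ => ?_
      have h2 : S.piecewise (V + Pi.single i 1) U = S.piecewise V U + Pi.single i (1 : ZMod r) := by
        funext j
        rw [Pi.add_apply]
        by_cases hj : j ∈ S
        · rw [Finset.piecewise_eq_of_mem _ _ _ hj, Finset.piecewise_eq_of_mem _ _ _ hj,
            Pi.add_apply]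
        · have hji : j ≠ i := fun e => hj (e ▸ hi)
          rw [Finset.piecewise_eq_of_notMem _ _ _ hj, Finset.piecewise_eq_of_notMem _ _ _ hj,
            Pi.single_eq_of_ne hji, add_zero]
      rw [Equiv.coe_addRight, h2, ch_comm k (S.piecewise V U + Pi.single i 1), Vale.Agent.P078.F.ch_add,
        ch_comm (S.piecewise V U) k, ch_comm (Pi.single i 1) k, mul_comm]
    have h2 : (1 - ch k (Pi.single i 1)) * ∑ V : I → ZMod r, ch k (S.piecewise V U) = 0 := by
      rw [sub_mul, one_mul, ← h1, sub_self]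
    rcases mul_eq_zero.1 h2 with h3 | h3
    · exact absurd (sub_eq_zero.1 h3).symm (ch_single_ne (mem_sup.1 hi'))
    · exact h3

theorem W_ev (F : (I → ZMod r) → (H →L[ℂ] H)) (v : H) (U : I → ZMod r) :
    Wop f near (fun V => evj V F v) U =
      evj U (fun k => se f (fun l => Disjoint (near l) (sup k)) * F k) v := by
  have hN : (Fintype.card (I → ZMod r) : ℂ) ≠ 0 := by
    exact_mod_cast (Fintype.card_ne_zero (α := I → ZMod r))
  have h1 : ∀ (F : (I → ZMod r) → (H →L[ℂ] H)) (V : I → ZMod r) (v : H),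
      evj V F v = ∑ k, ch k V • F k v := by
    intro F V v
    unfold evj
    rw [sum_apply]
    rfl
  have h2 : ∀ l, ES (near l) (fun V => evj V F v) U =
      ∑ k, (if Disjoint (near l) (sup k) then ch k U else 0) • F k v := by
    intro l
    unfold ES
    simp only [h1]
    rw [Finset.sum_comm, Finset.smul_sum]
    refine Finset.sum_congr rfl fun k _ => ?_
    rw [← Finset.sum_smul, ES_ch, smul_smul]
    congr 1
    split_ifs
    · rw [← mul_assoc, inv_mul_cancel₀ hN, one_mul]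
    · rw [mul_zero]
  unfold Wop
  rw [h1, Finset.sum_congr rfl fun l _ => by rw [h2 l, map_sum], Finset.sum_comm]
  refine Finset.sum_congr rfl fun k _ => ?_
  have h3 : (se f (fun l => Disjoint (near l) (sup k)) * F k) v =
      ∑ l, (if Disjoint (near l) (sup k) then f.e l (F k v) else 0) := by
    change se f (fun l => Disjoint (near l) (sup k)) (F k v) = _
    unfold se
    rw [sum_apply]
    refine Finset.sum_congr rfl fun l _ => ?_
    split_ifs
    · rfl
    · rfl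
  rw [h3, Finset.smul_sum]
  refine Finset.sum_congr rfl fun l _ => ?_
  rw [map_smul]
  split_ifs
  · rfl
  · rw [zero_smul, smul_zero]

theorem sub_W_ev (F : (I → ZMod r) → (H →L[ℂ] H)) (v : H) (U : I → ZMod r) :
    evj U F v - Wop f near (fun V => evj V F v) U =
      evj U (fun k => se f (fun l => ¬ Disjoint (near l) (sup k)) * F k) v := by
  rw [W_ev]
  have h1 : ∀ k : I → ZMod r, F k = se f (fun l => Disjoint (near l) (sup k)) * F k +
      se f (fun l => ¬ Disjoint (near l) (sup k)) * F k := by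
    intro k
    rw [← add_mul]
    have h2 : se f (fun l => Disjoint (near l) (sup k)) +
        se f (fun l => ¬ Disjoint (near l) (sup k)) = 1 := by
      unfold se
      rw [← f.sum_eq, ← Finset.sum_add_distrib]
      refine Finset.sum_congr rfl fun l _ => ?_
      by_cases h : Disjoint (near l) (sup k)
      · rw [if_pos h, if_neg (not_not.2 h), add_zero]
      · rw [if_neg h, if_pos h, zero_add]
    rw [h2, one_mul]
  have h3 : evj U F = evj U (fun k => se f (fun l => Disjoint (near l) (sup k)) * F k) +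
      evj U (fun k => se f (fun l => ¬ Disjoint (near l) (sup k)) * F k) := by
    unfold evj
    rw [← Finset.sum_add_distrib]
    refine Finset.sum_congr rfl fun k _ => ?_
    rw [← smul_add, ← h1 k]
  rw [h3]
  exact add_sub_cancel_left _ _

theorem Z_ev (y : H →L[ℂ] H) (F : (I → ZMod r) → (H →L[ℂ] H)) (v : H) (U : I → ZMod r) :
    Zop f near y (fun V => evj V F v) U = evj U (ZZn near y F) v := by
  unfold Zop
  have h1 : ∀ V, y (evj V F v - Wop f near (fun V => evj V F v) V) =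
      evj V (fun k => y * (se f (fun l => ¬ Disjoint (near l) (sup k)) * F k)) v := by
    intro V
    rw [sub_W_ev]
    unfold evj
    rw [sum_apply, sum_apply, map_sum]
    refine Finset.sum_congr rfl fun k _ => ?_
    change y (ch k V • _) = ch k V • _
    rw [map_smul]
    rfl
  rw [h1 U]
  simp only [h1]
  rw [sub_W_ev]
  rfl

end rep

end Vale.Agent.P078.Y
end

end

section
section

/-! T5 (Y): moments and paving of the mixing part by an equivariant local random colouring. -/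

set_option linter.unusedSectionVars false

namespace Vale.Agent.P078.Y

open Filter Topology
open Vale.Agent.P078 Vale.Agent.P078.C Vale.Agent.P078.F
open scoped Classical ComplexConjugate

variable {H : Type*} [NormedAddCommGroup H] [InnerProductSpace ℂ H] [CompleteSpace H]
variable {M A N : VonNeumannAlgebra H} {ξ : ℕ → H}

/-- the clamp -/
noncomputable def clp (s : ℝ) (t : ℝ) : ℝ := max (-s) (min t s)

theorem clp_cont (s : ℝ) : Continuous (clp s) := by
  unfold clp
  fun_prop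

/-- clamping changes little if high moments are small -/
theorem n2_clp_le (hξ : IsTrace M ξ) {T : H →L[ℂ] H} (hTsa : IsSelfAdjoint T) {s : ℝ}
    (hs0 : 0 < s) (n : ℕ) :
    n2 ξ (T - cfc (clp s) T) ≤ (s ^ (2 * n))⁻¹ * n2 ξ (T ^ (n + 1)) := by
  obtain ⟨f, hf⟩ : ∃ f : ℝ → ℝ, f = clp s := ⟨_, rfl⟩
  have hfc : Continuous f := hf ▸ clp_cont s
  rw [← hf]
  have e1 : T - cfc f T = cfc (fun t => t - f t) T := by
    rw [cfc_sub (fun t => t) f T (by fun_prop) (by fun_prop), cfc_id' ℝ T]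
  have hdsa : IsSelfAdjoint (T - cfc f T) := hTsa.sub (cfc_predicate f T)
  have e2 : star (T - cfc f T) * (T - cfc f T) = cfc (fun t => (t - f t) ^ 2) T := by
    rw [hdsa.star_eq, e1, ← cfc_mul (fun t => t - f t) (fun t => t - f t) T (by fun_prop)
      (by fun_prop)]
    congr 1
    funext t
    ring
  have e3 : star (T ^ (n + 1)) * T ^ (n + 1) = cfc (fun t : ℝ => t ^ (2 * (n + 1))) T := by
    rw [(hTsa.pow (n + 1)).star_eq, ← pow_add, cfc_pow_id T (2 * (n + 1)), two_mul]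
  have hpt : ∀ t : ℝ, (t - f t) ^ 2 ≤ (s ^ (2 * n))⁻¹ * t ^ (2 * (n + 1)) := by
    intro t
    have h1 : |t - f t| ≤ (s ^ n)⁻¹ * |t| ^ (n + 1) := by
      by_cases ht : |t| ≤ s
      · have h2 := abs_le.1 ht
        have h3 : f t = t := by
          rw [hf]
          change max (-s) (min t s) = t
          rw [min_eq_left h2.2, max_eq_right h2.1]
        rw [h3, sub_self, abs_zero]
        (clear * - hs0; positivity)
      · push Not at ht
        have h2 : |t - f t| ≤ |t| := by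
          rw [hf]
          change |t - max (-s) (min t s)| ≤ |t|
          rcases le_total 0 t with h0 | h0
          · rw [abs_of_nonneg h0] at ht ⊢
            rw [min_eq_right ht.le, max_eq_right (by linarith only [hs0]), abs_le]
            constructor <;> linarith only [hs0, ht]
          · rw [abs_of_nonpos h0] at ht ⊢
            rw [min_eq_left (by linarith only [hs0, ht]), max_eq_left (by linarith only [ht]), abs_le]
            constructor <;> linarith only [hs0, ht]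
        refine h2.trans ?_
        rw [pow_succ, ← mul_assoc]
        have h3 : 1 ≤ (s ^ n)⁻¹ * |t| ^ n := by
          rw [inv_mul_eq_div, one_le_div (by positivity)]
          exact pow_le_pow_left₀ hs0.le ht.le n
        linarith only [mul_nonneg (sub_nonneg.2 h3) (sub_nonneg.2 (abs_nonneg t))]
    have h4 := pow_le_pow_left₀ (abs_nonneg _) h1 2
    rw [sq_abs] at h4
    refine h4.trans (le_of_eq ?_)
    rw [mul_pow, ← pow_mul, inv_pow, ← pow_mul, mul_comm n 2, mul_comm (n + 1) 2,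
      Even.pow_abs (even_two_mul (n + 1)) t]
  have hle : star (T - cfc f T) * (T - cfc f T) ≤
      ((s ^ (2 * n))⁻¹ : ℝ) • (star (T ^ (n + 1)) * T ^ (n + 1)) := by
    rw [e2, e3, ← cfc_smul ((s ^ (2 * n))⁻¹ : ℝ) (fun t : ℝ => t ^ (2 * (n + 1))) T]
    exact cfc_mono fun t _ => hpt t
  rw [n2_eq hξ, n2_eq hξ]
  have h6 := (vtr_nonneg hξ (sub_nonneg.2 hle)).1
  rw [vtr_sub hξ, Complex.sub_re] at h6
  have h7 : vtr ξ (((s ^ (2 * n))⁻¹ : ℝ) • (star (T ^ (n + 1)) * T ^ (n + 1))) =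
      (((s ^ (2 * n))⁻¹ : ℝ) : ℂ) * vtr ξ (star (T ^ (n + 1)) * T ^ (n + 1)) := by
    rw [← vtr_smul hξ]
    rfl
  rw [h7, Complex.re_ofReal_mul] at h6
  linarith only [h6]

section main

variable {I : Type*} [Fintype I] {r : ℕ} [NeZero r]
variable {f : Part A.toStarSubalgebra} {near : f.ι → Finset I} {col : f.ι → (I → ZMod r) → ZMod r}

theorem Pop_mem (hAM : ∀ a ∈ A, a ∈ M) (a : ZMod r) (U : I → ZMod r) : Pop f col a U ∈ M :=
  hAM _ ((cpart f fun l => col l U).mem a)

theorem Sop_mem (hAM : ∀ a ∈ A, a ∈ M) {y : H →L[ℂ] H} (hy : y ∈ M) (U : I → ZMod r) :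
    Sop f col y U ∈ M := by
  rw [Sop_eq]
  exact sum_mem fun a _ => mul_mem (mul_mem (Pop_mem hAM a U) hy) (Pop_mem hAM a U)

theorem Sop_sa {y : H →L[ℂ] H} (hsa : IsSelfAdjoint y) (U : I → ZMod r) :
    IsSelfAdjoint (Sop f col y U) := by
  rw [Sop_eq, isSelfAdjoint_iff, star_sum]
  refine Finset.sum_congr rfl fun a _ => ?_
  have h1 : star (Pop f col a U) = Pop f col a U :=
    ((cpart f fun l => col l U).proj a).isSelfAdjoint.star_eq
  rw [star_mul, star_mul, h1, hsa.star_eq, mul_assoc]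

theorem norm_Sop {y : H →L[ℂ] H} (hy1 : ‖y‖ ≤ 1) (U : I → ZMod r) :
    ‖Sop f col y U‖ ≤ 1 := ((cpart f fun l => col l U).norm_E_le y).trans hy1

theorem norm_PS {y : H →L[ℂ] H} (hy1 : ‖y‖ ≤ 1) (a : ZMod r) (U : I → ZMod r) (n : ℕ) :
    ‖Pop f col a U * Sop f col y U ^ n‖ ≤ 1 := by
  have h0 : ‖Sop f col y U ^ n‖ ≤ 1 := by
    induction n with
    | zero => rw [pow_zero]; exact ContinuousLinearMap.norm_id_le
    | succ n ih =>
      rw [pow_succ]
      refine (norm_mul_le _ _).trans ?_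
      exact mul_le_one₀ ih (norm_nonneg _) (norm_Sop hy1 U)
  refine (norm_mul_le _ _).trans ?_
  exact mul_le_one₀ (norm_e_le (cpart f fun l => col l U) a) (norm_nonneg _) h0

/-- one step of the recursion -/
theorem step (hξ : IsTrace M ξ) (hAM : ∀ a ∈ A, a ∈ M) (hR : Rule f near col) {b : ℕ}
    (hb : ∀ l, (near l).card ≤ b) {y : H →L[ℂ] H} (hy : y ∈ M) (hy1 : ‖y‖ ≤ 1) (n : ℕ)
    {θ κ : ℝ} (hθ : 0 < θ) (hκ : 0 < κ) :
    ∑ U, n2 ξ (Sop f col y U ^ (n + 1)) ≤ (1 + θ) * (4 / r) * ∑ U, n2 ξ (Sop f col y U ^ n) +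
      (1 + θ⁻¹) * (r * (Fintype.card (I → ZMod r) *
        (2 ^ (b + n * (b + 0 + b)) * (2 * (κ ^ 2 * ((b + n * (b + 0 + b) : ℕ) *
          2 ^ (b + n * (b + 0 + b)))) +
        2 * (2 ^ b * ((∑ i, ∑ j, n4 ξ (nbh f near i * y * nbh f near j)) / κ ^ 2)))))) := by
  -- Fourier representation
  have hrep : ∀ a : ZMod r, ∃ F : (I → ZMod r) → (H →L[ℂ] H),
      (∀ U, evj U F = Pop f col a U * Sop f col y U ^ n) ∧ Dg (b + n * (b + 0 + b)) F :=
    fun a => rep_mul (rep_Pop hR hb a) (rep_pow (rep_Sop hR hb y) n)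
  choose F hF1 hF2 using hrep
  have hev : ∀ a U, evj U (F a) ∈ M ∧ ‖evj U (F a)‖ ≤ 1 := by
    intro a U
    rw [hF1]
    exact ⟨mul_mem (Pop_mem hAM a U) (pow_mem (Sop_mem hAM hy U) n), norm_PS hy1 a U n⟩
  -- vector inequality
  have key : ∀ m, ∑ U : I → ZMod r, ‖(Sop f col y U ^ (n + 1)) (ξ m)‖ ^ 2 ≤
      (1 + θ) * (4 / r) * ∑ U : I → ZMod r, ‖(Sop f col y U ^ n) (ξ m)‖ ^ 2 +
      (1 + θ⁻¹) * ∑ a, ∑ U : I → ZMod r, ‖(evj U (ZZn near y (F a))) (ξ m)‖ ^ 2 := by
    intro m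
    have h1 := main_ineq hR hy1 hθ fun U => (Sop f col y U ^ n) (ξ m)
    have e1 : ∀ U, Sop f col y U ((Sop f col y U ^ n) (ξ m)) =
        (Sop f col y U ^ (n + 1)) (ξ m) := by
      intro U
      rw [pow_succ']
      rfl
    have e2 : ∀ a (U : I → ZMod r), Zop f near y
        (fun V => Pop f col a V ((Sop f col y V ^ n) (ξ m))) U =
        (evj U (ZZn near y (F a))) (ξ m) := by
      intro a U
      rw [← Z_ev]
      congr 1
      funext V
      rw [hF1]
      rfl
    simp only [e1, e2] at h1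
    exact h1
  -- sum over the vectors
  have s1 : Summable fun m => ∑ U : I → ZMod r, ‖(Sop f col y U ^ (n + 1)) (ξ m)‖ ^ 2 :=
    summable_sum fun U _ => n2_summable hξ _
  have s2 : Summable fun m => ∑ U : I → ZMod r, ‖(Sop f col y U ^ n) (ξ m)‖ ^ 2 :=
    summable_sum fun U _ => n2_summable hξ _
  have s3' : ∀ a, Summable fun m => ∑ U : I → ZMod r,
      ‖(evj U (ZZn near y (F a))) (ξ m)‖ ^ 2 := fun a =>
    summable_sum fun U _ => n2_summable hξ _
  have s3 : Summable fun m => ∑ a, ∑ U : I → ZMod r,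
      ‖(evj U (ZZn near y (F a))) (ξ m)‖ ^ 2 := summable_sum fun a _ => s3' a
  have h1 := Summable.tsum_le_tsum key s1 ((s2.mul_left _).add (s3.mul_left _))
  rw [(s2.mul_left _).tsum_add (s3.mul_left _), tsum_mul_left, tsum_mul_left,
    Summable.tsum_finsetSum fun U _ => n2_summable hξ _,
    Summable.tsum_finsetSum fun U _ => n2_summable hξ _,
    Summable.tsum_finsetSum fun a _ => s3' a] at h1
  refine h1.trans (add_le_add le_rfl (mul_le_mul_of_nonneg_left ?_ (by (clear * - hθ; positivity))))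
  have h2 : ∀ a, ∑' m, ∑ U : I → ZMod r, ‖(evj U (ZZn near y (F a))) (ξ m)‖ ^ 2 ≤
      Fintype.card (I → ZMod r) *
        (2 ^ (b + n * (b + 0 + b)) * (2 * (κ ^ 2 * ((b + n * (b + 0 + b) : ℕ) *
          2 ^ (b + n * (b + 0 + b)))) +
        2 * (2 ^ b * ((∑ i, ∑ j, n4 ξ (nbh f near i * y * nbh f near j)) / κ ^ 2)))) := by
    intro a
    rw [Summable.tsum_finsetSum fun U _ => n2_summable hξ _]
    have h3 := parseval_j hξ (ZZn near y (F a))
    unfold n2 at h3
    rw [h3]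
    exact mul_le_mul_of_nonneg_left (sum_ZZn_le hξ hAM near hb hy (hF2 a) (hev a) hκ)
      (Nat.cast_nonneg _)
  refine (Finset.sum_le_sum fun a _ => h2 a).trans (le_of_eq ?_)
  rw [Finset.sum_const, Finset.card_univ, ZMod.card, nsmul_eq_mul]

end main

/-- moments -/
theorem mix_moment (hξ : IsTrace M ξ) (hAM : ∀ a ∈ A, a ∈ M) {y : H →L[ℂ] H} (hy : y ∈ M)
    (hy1 : ‖y‖ ≤ 1) (r : ℕ) [NeZero r] (b n : ℕ) : ∀ η : ℝ, 0 < η → ∃ ε : ℝ, 0 < ε ∧
      ∀ (f : Part A.toStarSubalgebra) (I : Type) [Fintype I] (near : f.ι → Finset I)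
        (col : f.ι → (I → ZMod r) → ZMod r), Rule f near col → (∀ l, (near l).card ≤ b) →
        ∑ i, ∑ j, n4 ξ (nbh f near i * y * nbh f near j) ≤ ε →
        ∑ U, n2 ξ (Sop f col y U ^ n) ≤ Fintype.card (I → ZMod r) * ((4 / r) ^ n + η) := by
  have hr : (0 : ℝ) < r := by exact_mod_cast NeZero.pos r
  induction n with
  | zero =>
    intro η hη
    refine ⟨1, one_pos, fun f I _ near col _ _ _ => ?_⟩
    have h1 : ∀ U : I → ZMod r, n2 ξ (Sop f col y U ^ 0) ≤ 1 := by
      intro U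
      rw [pow_zero]
      refine (n2_le hξ 1).trans ?_
      exact pow_le_one₀ (norm_nonneg _) ContinuousLinearMap.norm_id_le
    refine (Finset.sum_le_sum fun U _ => h1 U).trans ?_
    rw [Finset.sum_const, Finset.card_univ, nsmul_eq_mul, pow_zero]
    exact mul_le_mul_of_nonneg_left (by linarith only [hη]) (Nat.cast_nonneg _)
  | succ n ih =>
    intro η hη
    obtain ⟨q, hq⟩ : ∃ q : ℝ, q = 4 / (r : ℝ) := ⟨_, rfl⟩
    have hq0 : 0 ≤ q := by rw [hq]; positivity
    obtain ⟨ε1, hε1, h1⟩ := ih (η / (8 * (q + 1))) (by positivity)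
    rw [← hq] at h1 ⊢
    obtain ⟨θ, hθ⟩ : ∃ θ : ℝ, θ = min 1 (η / (4 * (q ^ (n + 1) + 1))) := ⟨_, rfl⟩
    have hθ0 : 0 < θ := by
      rw [hθ]
      have : 0 < η / (4 * (q ^ (n + 1) + 1)) := by (clear * - hη hq0; positivity)
      (clear * - hη hq0; positivity)
    obtain ⟨D, hD⟩ : ∃ D : ℕ, D = b + n * (b + 0 + b) := ⟨_, rfl⟩
    obtain ⟨K1, hK1⟩ : ∃ K1 : ℝ, K1 = (1 + θ⁻¹) * (r * (2 ^ D * (2 * ((D : ℝ) * 2 ^ D)))) + 1 :=
      ⟨_, rfl⟩
    have hK10 : 0 < K1 := by rw [hK1]; (clear * - hr hθ0; positivity)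
    obtain ⟨κ, hκ⟩ : ∃ κ : ℝ, κ = Real.sqrt (η / (4 * K1)) := ⟨_, rfl⟩
    have hκ0 : 0 < κ := by rw [hκ]; exact Real.sqrt_pos.2 (by (clear * - hη hK10; positivity))
    have hκ2 : κ ^ 2 = η / (4 * K1) := by rw [hκ]; exact Real.sq_sqrt (by (clear * - hη hK10; positivity))
    obtain ⟨K2, hK2⟩ : ∃ K2 : ℝ, K2 = (1 + θ⁻¹) * (r * (2 ^ D * (2 * 2 ^ b))) := ⟨_, rfl⟩
    have hK20 : 0 < K2 := by rw [hK2]; (clear * - hr hθ0; positivity)
    refine ⟨min ε1 (η * κ ^ 2 / (4 * K2)), by (clear * - hη hε1 hκ0 hK20; positivity), fun f I _ near col hR hb hDp => ?_⟩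
    have h2 := h1 f I near col hR hb (hDp.trans (min_le_left _ _))
    have hDp2 := hDp.trans (min_le_right _ _)
    refine (step hξ hAM hR hb hy hy1 n hθ0 hκ0).trans ?_
    rw [← hD, ← hq]
    obtain ⟨Nc, hNc⟩ : ∃ Nc : ℝ, Nc = (Fintype.card (I → ZMod r) : ℝ) := ⟨_, rfl⟩
    have hNc0 : 0 ≤ Nc := by rw [hNc]; (clear * -; positivity)
    rw [← hNc] at h2 ⊢
    obtain ⟨X, hX⟩ : ∃ X : ℝ, X = ∑ i, ∑ j, n4 ξ (nbh f near i * y * nbh f near j) := ⟨_, rfl⟩
    rw [← hX] at hDp2 ⊢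
    have a1 : (1 + θ) * q * ∑ U : I → ZMod r, n2 ξ (Sop f col y U ^ n) ≤
        Nc * (q ^ (n + 1) + η / 2) := by
      have b1 : (1 + θ) * q * ∑ U : I → ZMod r, n2 ξ (Sop f col y U ^ n) ≤
          (1 + θ) * q * (Nc * (q ^ n + η / (8 * (q + 1)))) :=
        mul_le_mul_of_nonneg_left h2 (by (clear * - hq0 hθ0; positivity))
      have b2 : (1 + θ) * q * (q ^ n + η / (8 * (q + 1))) ≤ q ^ (n + 1) + η / 2 := by
        have c1 : θ * q ^ (n + 1) ≤ η / 4 := by
          have d1 : θ ≤ η / (4 * (q ^ (n + 1) + 1)) := by rw [hθ]; exact min_le_right _ _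
          have d2 : θ * q ^ (n + 1) ≤ η / (4 * (q ^ (n + 1) + 1)) * q ^ (n + 1) :=
            mul_le_mul_of_nonneg_right d1 (by (clear * - hq0; positivity))
          have d3 : η / (4 * (q ^ (n + 1) + 1)) * q ^ (n + 1) ≤ η / 4 := by
            rw [div_mul_eq_mul_div, div_le_div_iff₀ (by (clear * - hq0; positivity)) (by norm_num)]
            linarith only [hη, pow_nonneg hq0 (n + 1)]
          linarith only [d2, d3]
        have c2 : (1 + θ) * q * (η / (8 * (q + 1))) ≤ η / 4 := by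
          have d1 : θ ≤ 1 := by rw [hθ]; exact min_le_left _ _
          have d2 : (1 + θ) * q * (η / (8 * (q + 1))) ≤ 2 * q * (η / (8 * (q + 1))) := by
            refine mul_le_mul_of_nonneg_right ?_ (by (clear * - hη hq0; positivity))
            exact mul_le_mul_of_nonneg_right (by linarith only [d1]) hq0
          have d3 : 2 * q * (η / (8 * (q + 1))) ≤ η / 4 := by
            rw [← mul_div_assoc, div_le_div_iff₀ (by (clear * - hq0; positivity)) (by norm_num)]
            linarith only [hη]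
          linarith only [d2, d3]
        calc (1 + θ) * q * (q ^ n + η / (8 * (q + 1)))
            = q ^ (n + 1) + θ * q ^ (n + 1) + (1 + θ) * q * (η / (8 * (q + 1))) := by ring
          _ ≤ q ^ (n + 1) + η / 2 := by linarith only [c1, c2]
      calc (1 + θ) * q * ∑ U : I → ZMod r, n2 ξ (Sop f col y U ^ n)
          ≤ (1 + θ) * q * (Nc * (q ^ n + η / (8 * (q + 1)))) := b1
        _ = Nc * ((1 + θ) * q * (q ^ n + η / (8 * (q + 1)))) := by ring
        _ ≤ Nc * (q ^ (n + 1) + η / 2) := mul_le_mul_of_nonneg_left b2 hNc0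
    have a2 : (1 + θ⁻¹) * (r * (2 ^ D * (2 * (κ ^ 2 * ((D : ℝ) * 2 ^ D)) +
        2 * (2 ^ b * (X / κ ^ 2))))) ≤ η / 2 := by
      have b1 : (1 + θ⁻¹) * (r * (2 ^ D * (2 * (κ ^ 2 * ((D : ℝ) * 2 ^ D)) +
          2 * (2 ^ b * (X / κ ^ 2))))) =
          ((1 + θ⁻¹) * (r * (2 ^ D * (2 * ((D : ℝ) * 2 ^ D))))) * κ ^ 2 +
          K2 * (X / κ ^ 2) := by rw [hK2]; ring
      rw [b1]
      have b2 : ((1 + θ⁻¹) * (r * (2 ^ D * (2 * ((D : ℝ) * 2 ^ D))))) * κ ^ 2 ≤ η / 4 := by
        have c1 : ((1 + θ⁻¹) * (r * (2 ^ D * (2 * ((D : ℝ) * 2 ^ D))))) * κ ^ 2 ≤ K1 * κ ^ 2 :=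
          mul_le_mul_of_nonneg_right (by rw [hK1]; linarith only) (by (clear * - hκ0; positivity))
        have c2 : K1 * κ ^ 2 = η / 4 := by rw [hκ2]; field_simp
        linarith only [c1, c2]
      have b3 : K2 * (X / κ ^ 2) ≤ η / 4 := by
        have c1 : X / κ ^ 2 ≤ η / (4 * K2) := by
          rw [div_le_iff₀ (by (clear * - hκ0; positivity))]
          refine hDp2.trans (le_of_eq ?_)
          ring
        have c2 : K2 * (X / κ ^ 2) ≤ K2 * (η / (4 * K2)) := mul_le_mul_of_nonneg_left c1 hK20.le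
        have c3 : K2 * (η / (4 * K2)) = η / 4 := by field_simp
        linarith only [c2, c3]
      linarith only [b2, b3]
    calc (1 + θ) * q * ∑ U : I → ZMod r, n2 ξ (Sop f col y U ^ n) +
        (1 + θ⁻¹) * (r * (Nc * (2 ^ D * (2 * (κ ^ 2 * ((D : ℝ) * 2 ^ D)) +
          2 * (2 ^ b * (X / κ ^ 2))))))
        = (1 + θ) * q * ∑ U : I → ZMod r, n2 ξ (Sop f col y U ^ n) +
          Nc * ((1 + θ⁻¹) * (r * (2 ^ D * (2 * (κ ^ 2 * ((D : ℝ) * 2 ^ D)) +
          2 * (2 ^ b * (X / κ ^ 2)))))) := by ring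
      _ ≤ Nc * (q ^ (n + 1) + η / 2) + Nc * (η / 2) :=
          add_le_add a1 (mul_le_mul_of_nonneg_left a2 hNc0)
      _ = Nc * (q ^ (n + 1) + η) := by ring

/-- the mixing part is paved by most samples of every equivariant local random colouring -/
theorem mix_paving (hξ : IsTrace M ξ) (hAM : ∀ a ∈ A, a ∈ M) {y : H →L[ℂ] H} (hy : y ∈ M)
    (hsa : IsSelfAdjoint y) (hy1 : ‖y‖ ≤ 1) (r : ℕ) [NeZero r] (b : ℕ) {s δ : ℝ}
    (hs : 2 / Real.sqrt r < s) (hδ : 0 < δ) : ∃ ε : ℝ, 0 < ε ∧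
      ∀ (f : Part A.toStarSubalgebra) (I : Type) [Fintype I] (near : f.ι → Finset I)
        (col : f.ι → (I → ZMod r) → ZMod r), Rule f near col → (∀ l, (near l).card ≤ b) →
        ∑ i, ∑ j, n4 ξ (nbh f near i * y * nbh f near j) ≤ ε →
        ∃ U : I → ZMod r, ∃ w ∈ M, IsSelfAdjoint w ∧ ‖w‖ ≤ s ∧
          n2 ξ ((∑ a : ZMod r, (∑ l, if col l U = a then f.e l else 0) * y *
            (∑ l, if col l U = a then f.e l else 0)) - w) ≤ δ := by
  have hr0 : (0 : ℝ) < r := by exact_mod_cast NeZero.pos r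
  have hq0 : 0 ≤ 2 / Real.sqrt r := by positivity
  have hs0 : 0 < s := lt_of_le_of_lt hq0 hs
  have hq : 4 / (r : ℝ) < s ^ 2 := by
    have e1 : (2 / Real.sqrt r) ^ 2 = 4 / r := by
      rw [div_pow, Real.sq_sqrt hr0.le]
      norm_num
    rw [← e1]
    exact pow_lt_pow_left₀ hs hq0 two_ne_zero
  obtain ⟨ρ, hρ⟩ : ∃ ρ : ℝ, ρ = 4 / (r : ℝ) / s ^ 2 := ⟨_, rfl⟩
  have hρ0 : 0 ≤ ρ := by rw [hρ]; (clear * - hr0 hs0; positivity)
  have hρ1 : ρ < 1 := by rw [hρ, div_lt_one (by (clear * - hs0; positivity))]; exact hq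
  obtain ⟨n, hn⟩ := exists_pow_lt_of_lt_one (show 0 < δ / (2 * s ^ 2) by (clear * - hδ hs0; positivity)) hρ1
  obtain ⟨ε, hε, h1⟩ := mix_moment hξ hAM hy hy1 r b (n + 1) (s ^ (2 * n) * δ / 2)
    (by (clear * - hδ hs0; positivity))
  refine ⟨ε, hε, fun f I _ near col hR hb hDp => ?_⟩
  have h2 := h1 f I near col hR hb hDp
  have hN := cardΩ_pos (I := I) (r := r)
  obtain ⟨U, hU⟩ : ∃ U : I → ZMod r,
      n2 ξ (Sop f col y U ^ (n + 1)) ≤ (4 / r) ^ (n + 1) + s ^ (2 * n) * δ / 2 := by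
    by_contra hcon
    push Not at hcon
    have h5 : ∑ U : I → ZMod r, ((4 / (r : ℝ)) ^ (n + 1) + s ^ (2 * n) * δ / 2) <
        ∑ U : I → ZMod r, n2 ξ (Sop f col y U ^ (n + 1)) :=
      Finset.sum_lt_sum_of_nonempty ⟨0, Finset.mem_univ _⟩ fun c _ => hcon c
    rw [Finset.sum_const, nsmul_eq_mul, Finset.card_univ] at h5
    linarith only [h2, h5]
  have hTM := Sop_mem (f := f) (col := col) hAM hy U
  have hTsa := Sop_sa (f := f) (col := col) hsa U
  refine ⟨U, cfc (clp s) (Sop f col y U), cfc_mem M hTM _, cfc_predicate _ _, ?_, ?_⟩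
  · refine norm_cfc_le hs0.le fun t _ => ?_
    rw [Real.norm_eq_abs, abs_le]
    unfold clp
    exact ⟨le_max_left _ _, max_le (by linarith only [hs, hq0]) (min_le_right _ _)⟩
  · have h5 := n2_clp_le hξ hTsa hs0 n
    have h6 : n2 ξ (Sop f col y U - cfc (clp s) (Sop f col y U)) ≤ δ := by
      refine h5.trans ?_
      have h8 : (s ^ (2 * n))⁻¹ * n2 ξ (Sop f col y U ^ (n + 1)) ≤
          (s ^ (2 * n))⁻¹ * ((4 / r) ^ (n + 1) + s ^ (2 * n) * δ / 2) :=
        mul_le_mul_of_nonneg_left hU (by (clear * - hs0; positivity))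
      refine h8.trans ?_
      have e4 : (4 / (r : ℝ)) = ρ * s ^ 2 := by
        rw [hρ]
        field_simp
      rw [e4]
      have e5 : (s ^ (2 * n))⁻¹ * ((ρ * s ^ 2) ^ (n + 1) + s ^ (2 * n) * δ / 2) =
          s ^ 2 * ρ ^ (n + 1) + δ / 2 := by
        rw [mul_pow, ← pow_mul, show 2 * (n + 1) = 2 * n + 2 by ring, pow_add]
        field_simp
        ring
      rw [e5]
      have h9 : ρ ^ (n + 1) ≤ ρ ^ n := pow_le_pow_of_le_one hρ0 hρ1.le (Nat.le_succ n)
      have h10 : s ^ 2 * ρ ^ (n + 1) ≤ s ^ 2 * (δ / (2 * s ^ 2)) :=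
        mul_le_mul_of_nonneg_left (h9.trans hn.le) (by (clear * - hs0; positivity))
      have h11 : s ^ 2 * (δ / (2 * s ^ 2)) = δ / 2 := by field_simp
      linarith only [h10, h11]
    exact h6

end Vale.Agent.P078.Y
end

section

/-! General MASAs, part 4: majority vote. -/

set_option linter.unusedSectionVars false

namespace Vale.Agent.P078.F

open Filter Topology
open Vale.Agent.P078 Vale.Agent.P078.C

universe u

variable {H : Type u} [NormedAddCommGroup H] [InnerProductSpace ℂ H] [CompleteSpace H]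
variable {M A N : VonNeumannAlgebra H} {ξ : ℕ → H} {E : (H →L[ℂ] H) →ₗ[ℂ] (H →L[ℂ] H)}

namespace Mj

section spec

variable {X : Type*} [TopologicalSpace X] [MulAction (nrm M A) X] (S : Spec M A X)

theorem val_zero (w : X) : S.val w 0 = 0 := by
  have h := S.smul w 0 1 (one_mem A)
  rwa [zero_smul, zero_mul] at h

theorem val_sum {ι : Type*} (s : Finset ι) (a : ι → (H →L[ℂ] H)) (ha : ∀ i, a i ∈ A) (w : X) :
    S.val w (∑ i ∈ s, a i) = ∑ i ∈ s, S.val w (a i) := by
  classical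
  induction s using Finset.induction_on with
  | empty => simp [val_zero]
  | insert i s hi ih =>
    rw [Finset.sum_insert hi, Finset.sum_insert hi, S.add w _ (ha i) _ (sum_mem fun j _ => ha j), ih]

theorem smul_mem' (c : ℂ) {a : H →L[ℂ] H} (ha : a ∈ A) : c • a ∈ A :=
  A.toStarSubalgebra.smul_mem ha c

theorem val_sub {a b : H →L[ℂ] H} (ha : a ∈ A) (hb : b ∈ A) (w : X) :
    S.val w (a - b) = S.val w a - S.val w b := by
  have h1 : a - b = a + (-1 : ℂ) • b := by rw [neg_one_smul, sub_eq_add_neg]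
  rw [h1, S.add w a ha _ (smul_mem' _ hb), S.smul w _ b hb]
  ring

theorem val_ext {a b : H →L[ℂ] H} (ha : a ∈ A) (hb : b ∈ A)
    (h : ∀ w, S.val w a = S.val w b) : a = b := by
  refine sub_eq_zero.1 (S.inj _ (sub_mem ha hb) fun w => ?_)
  rw [val_sub S ha hb, h w, sub_self]

theorem val_proj {p : H →L[ℂ] H} (hp : p ∈ A) (hpp : IsStarProjection p) (w : X) :
    S.val w p = 0 ∨ S.val w p = 1 := by
  have h := S.mul w p hp p hp
  rw [hpp.isIdempotentElem.eq] at h
  have h2 : S.val w p * (S.val w p - 1) = 0 := by linear_combination -h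
  rcases mul_eq_zero.1 h2 with h3 | h3
  · exact Or.inl h3
  · exact Or.inr (sub_eq_zero.1 h3)

theorem val_im {a : H →L[ℂ] H} (ha : a ∈ A) (hs : IsSelfAdjoint a) (w : X) :
    (S.val w a).im = 0 := by
  have h := S.star w a ha
  rw [hs.star_eq] at h
  have h2 := congrArg Complex.im h
  rw [Complex.star_def, Complex.conj_im] at h2
  linarith only [h2]

theorem le_of_val {a b : H →L[ℂ] H} (ha : a ∈ A) (hb : b ∈ A) (hsa : IsSelfAdjoint a)
    (hsb : IsSelfAdjoint b) (h : ∀ w, (S.val w a).re ≤ (S.val w b).re) : a ≤ b := by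
  rw [← sub_nonneg]
  refine S.nonneg' _ (sub_mem hb ha) fun w => ⟨?_, ?_⟩
  · rw [val_sub S hb ha, Complex.sub_re]
    linarith only [h w]
  · rw [val_sub S hb ha, Complex.sub_im, val_im S ha hsa, val_im S hb hsb, sub_zero]

theorem val_le {a b : H →L[ℂ] H} (ha : a ∈ A) (hb : b ∈ A) (h : a ≤ b) (w : X) :
    (S.val w a).re ≤ (S.val w b).re := by
  have h1 := (S.nonneg _ (sub_mem hb ha) (sub_nonneg.2 h) w).1
  rw [val_sub S hb ha, Complex.sub_re] at h1
  linarith only [h1]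

theorem exists_ind {K : Set X} (hK : IsClopen K) :
    ∃ e ∈ A, IsStarProjection e ∧ (∀ w ∈ K, S.val w e = 1) ∧ ∀ w, w ∉ K → S.val w e = 0 := by
  classical
  obtain ⟨e, he, hv⟩ := S.surj ⟨Set.indicator K (fun _ => (1 : ℂ)), by
    exact (IsClopen.continuous_indicator hK continuous_const)⟩
  have hv1 : ∀ w ∈ K, S.val w e = 1 := fun w hw => by
    rw [hv w]
    change Set.indicator K (fun _ => (1 : ℂ)) w = 1
    exact Set.indicator_of_mem hw _
  have hv0 : ∀ w, w ∉ K → S.val w e = 0 := fun w hw => by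
    rw [hv w]
    change Set.indicator K (fun _ => (1 : ℂ)) w = 0
    exact Set.indicator_of_notMem hw _
  refine ⟨e, he, ⟨?_, ?_⟩, hv1, hv0⟩
  · refine val_ext S (mul_mem he he) he fun w => ?_
    rw [S.mul w e he e he]
    by_cases hw : w ∈ K
    · rw [hv1 w hw, mul_one]
    · rw [hv0 w hw, mul_zero]
  · refine val_ext S (star_mem he) he fun w => ?_
    rw [S.star w e he]
    by_cases hw : w ∈ K
    · rw [hv1 w hw, star_one]
    · rw [hv0 w hw, star_zero]

end spec

/-! ### projections -/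

theorem proj_nonneg {p : H →L[ℂ] H} (hp : IsStarProjection p) : 0 ≤ p := hp.nonneg

theorem proj_mul (hA : SO.IsMASA A M) {p q : H →L[ℂ] H} (hpA : p ∈ A) (hqA : q ∈ A)
    (hp : IsStarProjection p) (hq : IsStarProjection q) : IsStarProjection (p * q) :=
  hp.mul hq (hA.2.1 p hpA q hqA)

/-! ### the function `h_p` -/

section hh

variable {X : Type*} [TopologicalSpace X] [MulAction (nrm M A) X] (S : Spec M A X)

/-- the value of `E (b p b*)` -/
noncomputable def hh (E : (H →L[ℂ] H) →ₗ[ℂ] (H →L[ℂ] H)) (b p : H →L[ℂ] H) (w : X) : ℝ :=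
  (S.val w (E (b * p * star b))).re

theorem conj_nonneg (b : H →L[ℂ] H) {p : H →L[ℂ] H} (hp : 0 ≤ p) : 0 ≤ b * p * star b :=
  star_right_conjugate_nonneg hp b

theorem conj_mem (hA : SO.IsMASA A M) {b p : H →L[ℂ] H} (hb : b ∈ M) (hp : p ∈ A) :
    b * p * star b ∈ M := mul_mem (mul_mem hb (hA.1 p hp)) (star_mem hb)

theorem EMem (hA : SO.IsMASA A M) (hE : IsTrExp M A ξ E) {b p : H →L[ℂ] H} (hb : b ∈ M)
    (hp : p ∈ A) : E (b * p * star b) ∈ A := hE.mem _ (conj_mem hA hb hp)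

theorem ENonneg (hA : SO.IsMASA A M) (hE : IsTrExp M A ξ E) {b p : H →L[ℂ] H} (hb : b ∈ M)
    (hp : p ∈ A) (h0 : 0 ≤ p) : 0 ≤ E (b * p * star b) :=
  hE.nonneg _ (conj_mem hA hb hp) (conj_nonneg b h0)

theorem hh_nonneg (hA : SO.IsMASA A M) (hE : IsTrExp M A ξ E) {b p : H →L[ℂ] H} (hb : b ∈ M)
    (hp : p ∈ A) (h0 : 0 ≤ p) (w : X) : 0 ≤ hh S E b p w :=
  (S.nonneg _ (EMem hA hE hb hp) (ENonneg hA hE hb hp h0) w).1

theorem val_hh (hA : SO.IsMASA A M) (hE : IsTrExp M A ξ E) {b p : H →L[ℂ] H} (hb : b ∈ M)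
    (hp : p ∈ A) (h0 : 0 ≤ p) (w : X) : S.val w (E (b * p * star b)) = (hh S E b p w : ℂ) := by
  apply Complex.ext
  · rw [Complex.ofReal_re]; rfl
  · rw [Complex.ofReal_im]
    exact (S.nonneg _ (EMem hA hE hb hp) (ENonneg hA hE hb hp h0) w).2

theorem hh_sum (hA : SO.IsMASA A M) (hE : IsTrExp M A ξ E) {b : H →L[ℂ] H} (hb : b ∈ M)
    {ι : Type*} (s : Finset ι) (p : ι → (H →L[ℂ] H)) (hp : ∀ i, p i ∈ A) (w : X) :
    hh S E b (∑ i ∈ s, p i) w = ∑ i ∈ s, hh S E b (p i) w := by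
  unfold hh
  have h1 : b * (∑ i ∈ s, p i) * star b = ∑ i ∈ s, b * p i * star b := by
    rw [Finset.mul_sum, Finset.sum_mul]
  rw [h1, map_sum, val_sum S s _ (fun i => EMem hA hE hb (hp i)), Complex.re_sum]

theorem hh_one_le (hA : SO.IsMASA A M) (hE : IsTrExp M A ξ E) {b : H →L[ℂ] H} (hb : b ∈ M)
    (hb1 : ‖b‖ ≤ 1) (w : X) : hh S E b 1 w ≤ 1 := by
  have h1 : b * 1 * star b ≤ 1 := by
    rw [mul_one]
    have h2 : ‖b * star b‖ ≤ 1 := by
      refine (norm_mul_le _ _).trans ?_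
      rw [norm_star]
      linarith only [mul_nonneg (sub_nonneg.2 hb1) (sub_nonneg.2 (norm_nonneg b)), mul_nonneg (sub_nonneg.2 hb1) (sub_nonneg.2 hb1)]
    refine (CStarAlgebra.norm_le_one_iff_of_nonneg (b * star b) (mul_star_self_nonneg b)).1 h2
  have h3 : 0 ≤ E (1 - b * 1 * star b) :=
    hE.nonneg _ (sub_mem (one_mem M) (conj_mem hA hb (one_mem A))) (sub_nonneg.2 h1)
  rw [map_sub, hE.idem 1 (one_mem A)] at h3
  have h4 := val_le S (EMem hA hE hb (one_mem A)) (one_mem A) (sub_nonneg.1 h3) w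
  rw [S.one] at h4
  exact h4

theorem hh_cont (hA : SO.IsMASA A M) (hE : IsTrExp M A ξ E) {b p : H →L[ℂ] H} (hb : b ∈ M)
    (hp : p ∈ A) : Continuous (hh S E b p) :=
  Complex.continuous_re.comp (S.cont _ (EMem hA hE hb hp))

theorem hh_zero (b : H →L[ℂ] H) (w : X) : hh S E b 0 w = 0 := by
  unfold hh
  rw [mul_zero, zero_mul, map_zero, val_zero, Complex.zero_re]

theorem hh_add (hA : SO.IsMASA A M) (hE : IsTrExp M A ξ E) {b : H →L[ℂ] H} (hb : b ∈ M)
    {p q : H →L[ℂ] H} (hp : p ∈ A) (hq : q ∈ A) (w : X) :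
    hh S E b (p + q) w = hh S E b p w + hh S E b q w := by
  unfold hh
  rw [mul_add, add_mul, map_add, S.add w _ (EMem hA hE hb hp) _ (EMem hA hE hb hq),
    Complex.add_re]

/-- `h` is monotone on projections -/
theorem hh_mono (hA : SO.IsMASA A M) (hE : IsTrExp M A ξ E) {b : H →L[ℂ] H} (hb : b ∈ M)
    {p q : H →L[ℂ] H} (hp : p ∈ A) (hq : q ∈ A) (h : p ≤ q) (w : X) :
    hh S E b p w ≤ hh S E b q w := by
  have h1 : q = p + (q - p) := by abel
  rw [h1, hh_add S hA hE hb hp (sub_mem hq hp)]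
  linarith only [h, hh_nonneg S hA hE hb (sub_mem hq hp) (sub_nonneg.2 h) w]

end hh

/-! ### the sum of squares -/

section ssq

/-- sum of the squares of the block masses -/
noncomputable def sQ (E : (H →L[ℂ] H) →ₗ[ℂ] (H →L[ℂ] H)) (b : H →L[ℂ] H)
    (Q : Part A.toStarSubalgebra) : H →L[ℂ] H :=
  ∑ j, E (b * Q.e j * star b) * E (b * Q.e j * star b)

theorem sQ_mem (hA : SO.IsMASA A M) (hE : IsTrExp M A ξ E) {b : H →L[ℂ] H} (hb : b ∈ M)
    (Q : Part A.toStarSubalgebra) : sQ E b Q ∈ A :=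
  sum_mem fun j _ => mul_mem (EMem hA hE hb (Q.mem j)) (EMem hA hE hb (Q.mem j))

theorem sa_E (hA : SO.IsMASA A M) (hE : IsTrExp M A ξ E) {b p : H →L[ℂ] H} (hb : b ∈ M)
    (hp : p ∈ A) (h0 : 0 ≤ p) : IsSelfAdjoint (E (b * p * star b)) :=
  IsSelfAdjoint.of_nonneg (ENonneg hA hE hb hp h0)

theorem sQ_sa (hA : SO.IsMASA A M) (hE : IsTrExp M A ξ E) {b : H →L[ℂ] H} (hb : b ∈ M)
    (Q : Part A.toStarSubalgebra) : IsSelfAdjoint (sQ E b Q) := by
  unfold sQ
  rw [IsSelfAdjoint, star_sum]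
  refine Finset.sum_congr rfl fun j _ => ?_
  rw [star_mul, (sa_E hA hE hb (Q.mem j) (proj_nonneg (Q.proj j))).star_eq]

variable {X : Type*} [TopologicalSpace X] [MulAction (nrm M A) X] (S : Spec M A X)

theorem val_sQ (hA : SO.IsMASA A M) (hE : IsTrExp M A ξ E) {b : H →L[ℂ] H} (hb : b ∈ M)
    (Q : Part A.toStarSubalgebra) (w : X) :
    (S.val w (sQ E b Q)).re = ∑ j, hh S E b (Q.e j) w ^ 2 := by
  unfold sQ
  rw [val_sum S _ _ (fun j => mul_mem (EMem hA hE hb (Q.mem j)) (EMem hA hE hb (Q.mem j))),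
    Complex.re_sum]
  refine Finset.sum_congr rfl fun j _ => ?_
  rw [S.mul w _ (EMem hA hE hb (Q.mem j)) _ (EMem hA hE hb (Q.mem j)),
    val_hh S hA hE hb (Q.mem j) (proj_nonneg (Q.proj j)), ← Complex.ofReal_mul, Complex.ofReal_re,
    sq]

/-- the masses of the blocks of a partition inside a projection `f` -/
theorem sum_hh_mul (hA : SO.IsMASA A M) (hE : IsTrExp M A ξ E) {b : H →L[ℂ] H} (hb : b ∈ M)
    {f : H →L[ℂ] H} (hf : f ∈ A) (Q : Part A.toStarSubalgebra) (w : X) :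
    ∑ j, hh S E b (f * Q.e j) w = hh S E b f w := by
  rw [← hh_sum S hA hE hb _ _ (fun j => mul_mem hf (Q.mem j)), ← Finset.mul_sum, Q.sum_eq, mul_one]

theorem sum_hh (hA : SO.IsMASA A M) (hE : IsTrExp M A ξ E) {b : H →L[ℂ] H} (hb : b ∈ M)
    (Q : Part A.toStarSubalgebra) (w : X) :
    ∑ j, hh S E b (Q.e j) w = hh S E b 1 w := by
  rw [← hh_sum S hA hE hb _ _ Q.mem, Q.sum_eq]

theorem hh_mul_nonneg (hA : SO.IsMASA A M) (hE : IsTrExp M A ξ E) {b : H →L[ℂ] H} (hb : b ∈ M)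
    {p q : H →L[ℂ] H} (hpA : p ∈ A) (hqA : q ∈ A)
    (hp : IsStarProjection p) (hq : IsStarProjection q) (w : X) :
    0 ≤ hh S E b (p * q) w :=
  hh_nonneg S hA hE hb (mul_mem hpA hqA) (proj_nonneg (proj_mul hA hpA hqA hp hq)) w

theorem hh_proj_nonneg (hA : SO.IsMASA A M) (hE : IsTrExp M A ξ E) {b : H →L[ℂ] H} (hb : b ∈ M)
    {p : H →L[ℂ] H} (hpA : p ∈ A) (hp : IsStarProjection p) (w : X) :
    0 ≤ hh S E b p w := hh_nonneg S hA hE hb hpA (proj_nonneg hp) w

theorem sum_sq_le_sq_sum {ι : Type*} (s : Finset ι) (f : ι → ℝ) (hf : ∀ i, 0 ≤ f i) :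
    ∑ i ∈ s, f i ^ 2 ≤ (∑ i ∈ s, f i) ^ 2 := by
  rw [sq (∑ i ∈ s, f i), Finset.sum_mul]
  refine Finset.sum_le_sum fun i hi => ?_
  rw [sq]
  exact mul_le_mul_of_nonneg_left (Finset.single_le_sum (fun j _ => hf j) hi) (hf i)

/-- the sum of squares decreases -/
theorem val_sQ_anti (hA : SO.IsMASA A M) (hE : IsTrExp M A ξ E) {b : H →L[ℂ] H} (hb : b ∈ M)
    {Q Q' : Part A.toStarSubalgebra} (h : Q.Finer Q') (w : X) :
    (S.val w (sQ E b Q')).re ≤ (S.val w (sQ E b Q)).re := by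
  rw [val_sQ S hA hE hb, val_sQ S hA hE hb]
  have h1 : ∀ k, hh S E b (Q'.e k) w ^ 2 = ∑ j, hh S E b (Q.e j * Q'.e k) w ^ 2 := by
    intro k
    have h2 : ∀ j, hh S E b (Q.e j * Q'.e k) w ^ 2 =
        hh S E b (Q.e j * Q'.e k) w * hh S E b (Q'.e k) w := by
      intro j
      rcases h j k with h3 | h3
      · rw [h3, sq]
      · rw [h3, hh_zero]; ring
    rw [Finset.sum_congr rfl fun j _ => h2 j, ← Finset.sum_mul,
      ← hh_sum S hA hE hb _ _ (fun j => mul_mem (Q.mem j) (Q'.mem k)), ← Finset.sum_mul, Q.sum_eq,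
      one_mul, sq]
  rw [Finset.sum_congr rfl fun k _ => h1 k, Finset.sum_comm]
  refine Finset.sum_le_sum fun j _ => ?_
  rw [← sum_hh_mul S hA hE hb (Q.mem j) Q' w]
  exact sum_sq_le_sq_sum _ _ fun k => hh_mul_nonneg S hA hE hb (Q.mem j) (Q'.mem k) (Q.proj j)
    (Q'.proj k) w

include S in
theorem sQ_anti (hA : SO.IsMASA A M) (hE : IsTrExp M A ξ E) {b : H →L[ℂ] H} (hb : b ∈ M)
    {Q Q' : Part A.toStarSubalgebra} (h : Q.Finer Q') : sQ E b Q' ≤ sQ E b Q :=
  le_of_val S (sQ_mem hA hE hb Q') (sQ_mem hA hE hb Q) (sQ_sa hA hE hb Q') (sQ_sa hA hE hb Q)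
    fun w => val_sQ_anti S hA hE hb h w

include S in
theorem sQ_nonneg (hA : SO.IsMASA A M) (hE : IsTrExp M A ξ E) {b : H →L[ℂ] H} (hb : b ∈ M)
    (Q : Part A.toStarSubalgebra) : 0 ≤ sQ E b Q := by
  refine S.nonneg' _ (sQ_mem hA hE hb Q) fun w => ⟨?_, val_im S (sQ_mem hA hE hb Q)
    (sQ_sa hA hE hb Q) w⟩
  rw [val_sQ S hA hE hb]
  exact Finset.sum_nonneg fun j _ => sq_nonneg _

theorem val_sQ_le_one (hA : SO.IsMASA A M) (hE : IsTrExp M A ξ E) {b : H →L[ℂ] H} (hb : b ∈ M)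
    (hb1 : ‖b‖ ≤ 1) (Q : Part A.toStarSubalgebra) (w : X) : (S.val w (sQ E b Q)).re ≤ 1 := by
  rw [val_sQ S hA hE hb]
  refine (sum_sq_le_sq_sum _ _ fun j => hh_proj_nonneg S hA hE hb (Q.mem j) (Q.proj j) w).trans ?_
  rw [sum_hh S hA hE hb]
  have h1 := hh_one_le S hA hE hb hb1 w
  have h2 := hh_nonneg S hA hE hb (one_mem A) zero_le_one w
  linarith [mul_nonneg (sub_nonneg.2 h1) (sub_nonneg.2 h2), mul_nonneg (sub_nonneg.2 h1) (sub_nonneg.2 h1)]

include S in
theorem sQ_le_one (hA : SO.IsMASA A M) (hE : IsTrExp M A ξ E) {b : H →L[ℂ] H} (hb : b ∈ M)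
    (hb1 : ‖b‖ ≤ 1) (Q : Part A.toStarSubalgebra) : sQ E b Q ≤ 1 := by
  refine le_of_val S (sQ_mem hA hE hb Q) (one_mem A) (sQ_sa hA hE hb Q) (IsSelfAdjoint.one _)
    fun w => ?_
  rw [S.one]
  exact val_sQ_le_one S hA hE hb hb1 Q w

/-- the trace of the sum of squares -/
theorem vtr_sQ (hA : SO.IsMASA A M) (hξ : IsTrace M ξ) (hE : IsTrExp M A ξ E) {b : H →L[ℂ] H}
    (hb : b ∈ M) (Q : Part A.toStarSubalgebra) :
    (vtr ξ (sQ E b Q)).re = ∑ j, n2 ξ (E (b * Q.e j * star b)) := by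
  unfold sQ
  rw [vtr_sum hξ, Complex.re_sum]
  refine Finset.sum_congr rfl fun j _ => ?_
  rw [n2_eq hξ, (sa_E hA hE hb (Q.mem j) (proj_nonneg (Q.proj j))).star_eq]

/-- expansion of the square of a difference -/
theorem n2_sub (hξ : IsTrace M ξ) (x y : H →L[ℂ] H) :
    n2 ξ (x - y) = n2 ξ x - 2 * (vtr ξ (star y * x)).re + n2 ξ y := by
  rw [n2_eq hξ, n2_eq hξ x, n2_eq hξ y]
  have h1 : star (x - y) * (x - y) = star x * x - star y * x - star x * y + star y * y := by
    rw [star_sub]; noncomm_ring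
  have h2 : vtr ξ (star x * y) = star (vtr ξ (star y * x)) := by
    rw [← vtr_star hξ, star_mul, star_star]
  rw [h1, vtr_add hξ, vtr_sub hξ, vtr_sub hξ, h2, Complex.add_re, Complex.sub_re, Complex.sub_re,
    Complex.star_def, Complex.conj_re]
  ring

/-- the trace is bounded by the `2`-norm -/
theorem sq_vtr_le (hξ : IsTrace M ξ) (x : H →L[ℂ] H) : (vtr ξ x).re ^ 2 ≤ n2 ξ x := by
  have h1 := n2_sub hξ x (((vtr ξ x).re : ℂ) • (1 : H →L[ℂ] H))
  have h2 := n2_nonneg ξ (x - ((vtr ξ x).re : ℂ) • (1 : H →L[ℂ] H))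
  have h3 : star (((vtr ξ x).re : ℂ) • (1 : H →L[ℂ] H)) = ((vtr ξ x).re : ℂ) • 1 := by
    rw [star_smul, star_one, Complex.star_def, Complex.conj_ofReal]
  have h4 : n2 ξ (((vtr ξ x).re : ℂ) • (1 : H →L[ℂ] H)) = (vtr ξ x).re ^ 2 := by
    rw [n2_eq hξ, h3, smul_mul_smul_comm, one_mul, vtr_smul hξ, vtr_one hξ, mul_one,
      ← Complex.ofReal_mul, Complex.ofReal_re, sq]
  rw [h3, h4, smul_mul_assoc, one_mul, vtr_smul hξ, Complex.re_ofReal_mul] at h1
  linarith only [h1, h2]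

/-- existence and properties of the limit of the sums of squares -/
theorem exists_sinf (hA : SO.IsMASA A M) (hξ : IsTrace M ξ) (hE : IsTrExp M A ξ E)
    {b : H →L[ℂ] H} (hb : b ∈ M) (hb1 : ‖b‖ ≤ 1) {c : ℝ}
    (hbc : ∀ Q : Part A.toStarSubalgebra, c ≤ ∑ j, n2 ξ (E (b * Q.e j * star b)))
    {X : Type*} [TopologicalSpace X] [MulAction (nrm M A) X] (S : Spec M A X) :
    ∃ s ∈ A, 0 ≤ s ∧ (∀ Q : Part A.toStarSubalgebra, s ≤ sQ E b Q) ∧ c ≤ (vtr ξ s).re ∧
      ∀ ε : ℝ, 0 < ε → ∃ Q : Part A.toStarSubalgebra, (vtr ξ (sQ E b Q - s)).re ≤ ε := by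
  have hAA : SO.IsMASA A A := ⟨fun x hx => hx, hA.2.1, fun x hx _ => hx⟩
  have hξA : IsTrace A ξ := IsTrace.sub hξ hA.1
  have hnorm : ∀ Q : Part A.toStarSubalgebra, ‖sQ E b Q‖ ≤ ‖(1 : H →L[ℂ] H)‖ := fun Q =>
    CStarAlgebra.norm_le_norm_of_nonneg_of_le (sQ_nonneg S hA hE hb Q) (sQ_le_one S hA hE hb hb1 Q)
  obtain ⟨s, hs, -, hlim, U, hU, hwot⟩ := net_lim hξA hAA (fun Q => sQ E b Q) (norm_nonneg _)
    (fun Q => sQ_mem hA hE hb Q) hnorm (by
      intro Q Q' hQ
      have h1 := n2_sub hξ (sQ E b Q) (sQ E b Q')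
      have h2 := vtr_mul_nonneg hξ (hA.1 _ (sQ_mem hA hE hb Q'))
        (hA.1 _ (sub_mem (sQ_mem hA hE hb Q) (sQ_mem hA hE hb Q'))) (sQ_nonneg S hA hE hb Q')
        (sub_nonneg.2 (sQ_anti S hA hE hb hQ))
      rw [mul_sub, vtr_sub hξ, Complex.sub_re] at h2
      rw [(sQ_sa hA hE hb Q').star_eq] at h1
      have h3 : n2 ξ (sQ E b Q') = (vtr ξ (sQ E b Q' * sQ E b Q')).re := by
        rw [n2_eq hξ, (sQ_sa hA hE hb Q').star_eq]
      rw [← h3] at h2
      linarith only [h1, h2])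
  have hle : ∀ Q : Part A.toStarSubalgebra, s ≤ sQ E b Q := by
    intro Q
    rw [← sub_nonneg]
    refine nonneg_of_tendsto (l := (U : Filter (Part A.toStarSubalgebra)))
      (T := fun Q' => sQ E b Q - sQ E b Q') ?_ ?_
    · filter_upwards [hU (Part.eventually_finer Q)] with Q' hQ'
      exact sub_nonneg.2 (sQ_anti S hA hE hb hQ')
    · intro ζ η
      simp only [sub_apply, inner_sub_right]
      exact tendsto_const_nhds.sub (hwot ζ η)
  have h0 : 0 ≤ s := nonneg_of_tendsto (Eventually.of_forall fun Q => sQ_nonneg S hA hE hb Q) hwot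
  have hsmall : ∀ ε : ℝ, 0 < ε → ∃ Q : Part A.toStarSubalgebra,
      (vtr ξ (sQ E b Q - s)).re ≤ ε := by
    intro ε hε
    obtain ⟨Q, hQ⟩ := hlim (ε ^ 2) (by (clear * - hε; positivity))
    refine ⟨Q, ?_⟩
    have h1 := (sq_vtr_le hξ _).trans (hQ Q (Part.Finer.refl Q))
    exact abs_le_of_sq_le_sq' h1 hε.le |>.2
  refine ⟨s, hs, h0, hle, ?_, hsmall⟩
  refine le_of_forall_pos_le_add fun ε hε => ?_
  obtain ⟨Q, hQ⟩ := hsmall ε hε
  rw [vtr_sub hξ, Complex.sub_re, vtr_sQ hA hξ hE hb] at hQ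
  linarith only [hQ, hbc Q]

end ssq

/-! ### the votes -/

section vote

variable {X : Type*} [TopologicalSpace X] [MulAction (nrm M A) X]

/-- on `K`, the mass of `f` is concentrated on one block of every partition -/
structure Vote (S : Spec M A X) (E : (H →L[ℂ] H) →ₗ[ℂ] (H →L[ℂ] H)) (b f : H →L[ℂ] H)
    (K : Set X) (c : ℝ) : Prop where
  cpos : 0 < c
  f_mem : f ∈ A
  f_proj : IsStarProjection f
  clopen : IsClopen K
  lower : ∀ w ∈ K, c ≤ hh S E b f w
  vote : ∀ w ∈ K, ∀ R : Part A.toStarSubalgebra,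
    24 / 25 * hh S E b f w ^ 2 ≤ ∑ j, hh S E b (f * R.e j) w ^ 2

theorem exists_vote [CompactSpace X] [T2Space X] [TotallyDisconnectedSpace X]
    (hA : SO.IsMASA A M) (hξ : IsTrace M ξ) (hE : IsTrExp M A ξ E)
    {b : H →L[ℂ] H} (hb : b ∈ M) (hb1 : ‖b‖ ≤ 1) {c : ℝ} (hc : 0 < c)
    (hbc : ∀ Q : Part A.toStarSubalgebra, c ≤ ∑ j, n2 ξ (E (b * Q.e j * star b)))
    (S : Spec M A X) : ∃ (f : H →L[ℂ] H) (K : Set X), Vote S E b f K (c / 2) ∧ K.Nonempty := by
  obtain ⟨s, hs, hs0, hsle, hsc, hsmall⟩ := exists_sinf hA hξ hE hb hb1 hbc S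
  obtain ⟨k1, hk1⟩ : ∃ k1 : ℝ, k1 = c ^ 2 / 100 := ⟨_, rfl⟩
  have hk1pos : 0 < k1 := by rw [hk1]; (clear * - hc; positivity)
  obtain ⟨Q0, hQ0⟩ := hsmall (k1 * c / 4) (by (clear * - hc hk1pos; positivity))
  have hmemD : sQ E b Q0 - s ∈ A := sub_mem (sQ_mem hA hE hb Q0) hs
  have hssa : IsSelfAdjoint s := IsSelfAdjoint.of_nonneg hs0
  have hDsa : IsSelfAdjoint (sQ E b Q0 - s) := (sQ_sa hA hE hb Q0).sub hssa
  have hD0 : ∀ w, 0 ≤ (S.val w (sQ E b Q0 - s)).re := fun w =>
    (S.nonneg _ hmemD (sub_nonneg.2 (hsle Q0)) w).1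
  -- the good point
  obtain ⟨w0, hw1, hw2⟩ : ∃ w0, c / 2 < (S.val w0 s).re ∧
      (S.val w0 (sQ E b Q0 - s)).re < k1 := by
    by_contra hcon
    push Not at hcon
    have hA1 : ((c / 2 : ℝ) : ℂ) • (1 : H →L[ℂ] H) ∈ A := smul_mem' _ (one_mem A)
    have hA2 : ((1 / k1 : ℝ) : ℂ) • (sQ E b Q0 - s) ∈ A := smul_mem' _ hmemD
    have hsm : ∀ (r : ℝ) (x : H →L[ℂ] H), IsSelfAdjoint x → IsSelfAdjoint ((r : ℂ) • x) := by
      intro r x hx
      rw [IsSelfAdjoint, star_smul, Complex.star_def, Complex.conj_ofReal, hx.star_eq]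
    have hle : s ≤ ((c / 2 : ℝ) : ℂ) • (1 : H →L[ℂ] H) + ((1 / k1 : ℝ) : ℂ) • (sQ E b Q0 - s) := by
      refine le_of_val S hs (add_mem hA1 hA2) hssa
        ((hsm _ _ (IsSelfAdjoint.one _)).add (hsm _ _ hDsa)) fun w => ?_
      rw [S.add w _ hA1 _ hA2, S.smul w _ _ (one_mem A), S.smul w _ _ hmemD, S.one, mul_one,
        Complex.add_re, Complex.ofReal_re, Complex.re_ofReal_mul]
      by_cases hw : c / 2 < (S.val w s).re
      · have h1 := hcon w hw
        have h2 : (S.val w s).re ≤ 1 :=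
          (val_le S hs (sQ_mem hA hE hb Q0) (hsle Q0) w).trans
            (val_sQ_le_one S hA hE hb hb1 Q0 w)
        have h3 : 1 ≤ 1 / k1 * (S.val w (sQ E b Q0 - s)).re := by
          rw [one_div, ← div_eq_inv_mul, le_div_iff₀ hk1pos, one_mul]
          exact h1
        linarith only [h3, h2, hc]
      · have h3 : 0 ≤ 1 / k1 * (S.val w (sQ E b Q0 - s)).re := mul_nonneg (by (clear * - hk1pos; positivity)) (hD0 w)
        linarith only [hw, h3]
    have h4 := (vtr_nonneg hξ (sub_nonneg.2 hle)).1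
    rw [vtr_sub hξ, vtr_add hξ, vtr_smul hξ, vtr_smul hξ, vtr_one hξ, mul_one, Complex.sub_re,
      Complex.add_re, Complex.ofReal_re, Complex.re_ofReal_mul] at h4
    have h5 : 1 / k1 * (vtr ξ (sQ E b Q0 - s)).re ≤ c / 4 := by
      rw [one_div, ← div_eq_inv_mul, div_le_iff₀ hk1pos]
      linarith only [hQ0]
    linarith only [hc, hsc, h4, h5]
  -- a heavy block
  obtain ⟨l, hl⟩ : ∃ l, c / 2 < hh S E b (Q0.e l) w0 := by
    by_contra hcon
    push Not at hcon
    have h1 : (S.val w0 s).re ≤ (S.val w0 (sQ E b Q0)).re :=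
      val_le S hs (sQ_mem hA hE hb Q0) (hsle Q0) w0
    rw [val_sQ S hA hE hb] at h1
    have h2 : ∑ j, hh S E b (Q0.e j) w0 ^ 2 ≤ ∑ j, c / 2 * hh S E b (Q0.e j) w0 := by
      refine Finset.sum_le_sum fun j _ => ?_
      rw [sq]
      exact mul_le_mul_of_nonneg_right (hcon j) (hh_proj_nonneg S hA hE hb (Q0.mem j) (Q0.proj j) w0)
    rw [← Finset.mul_sum, sum_hh S hA hE hb] at h2
    have h3 := hh_one_le S hA hE hb hb1 w0
    have h4 : c / 2 * hh S E b 1 w0 ≤ c / 2 * 1 := mul_le_mul_of_nonneg_left h3 (by (clear * - hc; positivity))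
    linarith only [hw1, h1, h2, h4]
  -- the neighbourhood
  have hopen : IsOpen ({w | c / 2 < hh S E b (Q0.e l) w} ∩
      {w | (S.val w (sQ E b Q0 - s)).re < k1}) :=
    (isOpen_lt continuous_const (hh_cont S hA hE hb (Q0.mem l))).inter
      (isOpen_lt (Complex.continuous_re.comp (S.cont _ hmemD)) continuous_const)
  obtain ⟨K, hK, hw0K, hKsub⟩ := compact_exists_isClopen_in_isOpen hopen ⟨hl, hw2⟩
  refine ⟨Q0.e l, K, ⟨by (clear * - hc; positivity), Q0.mem l, Q0.proj l, hK, fun w hw => (hKsub hw).1.le, ?_⟩,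
    ⟨w0, hw0K⟩⟩
  intro w hw R
  obtain ⟨hw3, hw4⟩ := hKsub hw
  rw [Set.mem_ofPred_eq] at hw3 hw4
  have hAc : ∀ x ∈ A.toStarSubalgebra, ∀ y ∈ A.toStarSubalgebra, x * y = y * x := hA.2.1
  have h1 : (S.val w s).re ≤ (S.val w (sQ E b (Q0.inf hAc R))).re :=
    val_le S hs (sQ_mem hA hE hb _) (hsle _) w
  rw [val_sQ S hA hE hb] at h1
  have h2 : ∑ j, hh S E b ((Q0.inf hAc R).e j) w ^ 2 =
      ∑ i, ∑ j, hh S E b (Q0.e i * R.e j) w ^ 2 := Fintype.sum_prod_type _
  rw [h2] at h1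
  rw [val_sub S (sQ_mem hA hE hb Q0) hs, Complex.sub_re, val_sQ S hA hE hb] at hw4
  have h3 : ∀ i, ∑ j, hh S E b (Q0.e i * R.e j) w ^ 2 ≤ hh S E b (Q0.e i) w ^ 2 := by
    intro i
    rw [← sum_hh_mul S hA hE hb (Q0.mem i) R w]
    exact sum_sq_le_sq_sum _ _ fun k => hh_mul_nonneg S hA hE hb (Q0.mem i) (R.mem k) (Q0.proj i)
      (R.proj k) w
  have h4 : hh S E b (Q0.e l) w ^ 2 - ∑ j, hh S E b (Q0.e l * R.e j) w ^ 2 ≤
      ∑ i, (hh S E b (Q0.e i) w ^ 2 - ∑ j, hh S E b (Q0.e i * R.e j) w ^ 2) :=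
    Finset.single_le_sum (f := fun i => hh S E b (Q0.e i) w ^ 2 -
      ∑ j, hh S E b (Q0.e i * R.e j) w ^ 2) (fun i _ => sub_nonneg.2 (h3 i)) (Finset.mem_univ l)
  rw [Finset.sum_sub_distrib] at h4
  have h5 : c ^ 2 / 4 ≤ hh S E b (Q0.e l) w ^ 2 := by linarith only [mul_pos (sub_pos.2 hw3) (sub_pos.2 hw3), mul_pos (sub_pos.2 hc) (sub_pos.2 hw3)]
  linarith only [hk1, hw4, h1, h4, h5]

/-- the points of `K` where `p` has the majority of the mass of `f` -/
def maj (S : Spec M A X) (E : (H →L[ℂ] H) →ₗ[ℂ] (H →L[ℂ] H)) (b f : H →L[ℂ] H)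
    (K : Set X) (p : H →L[ℂ] H) : Set X :=
  {w | w ∈ K ∧ hh S E b f w < 2 * hh S E b (f * p) w}

variable {S : Spec M A X} {b f : H →L[ℂ] H} {K : Set X} {c : ℝ}

theorem hh_compl (hA : SO.IsMASA A M) (hE : IsTrExp M A ξ E) (hb : b ∈ M) (hf : f ∈ A)
    {p : H →L[ℂ] H} (hp : p ∈ A) (w : X) :
    hh S E b (f * p) w + hh S E b (f * (1 - p)) w = hh S E b f w := by
  rw [← hh_add S hA hE hb (mul_mem hf hp) (mul_mem hf (sub_mem (one_mem A) hp)), ← mul_add,
    add_sub_cancel, mul_one]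

/-- no ties -/
theorem Vote.gap (V : Vote S E b f K c) (hA : SO.IsMASA A M) (hE : IsTrExp M A ξ E) (hb : b ∈ M)
    {p : H →L[ℂ] H} (hp : p ∈ A) (hpp : IsStarProjection p) {w : X} (hw : w ∈ K) :
    hh S E b f w ≠ 2 * hh S E b (f * p) w := by
  intro heq
  have h1 := V.vote w hw (Part.two p hp hpp)
  have h2 : ∑ j, hh S E b (f * (Part.two (A := A.toStarSubalgebra) p hp hpp).e j) w ^ 2 =
      hh S E b (f * p) w ^ 2 + hh S E b (f * (1 - p)) w ^ 2 := by
    change ∑ j : Bool, hh S E b (f * (bif j then p else 1 - p)) w ^ 2 = _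
    rw [Fintype.sum_bool]
    rfl
  have h3 := hh_compl (S := S) hA hE hb V.f_mem hp w
  have h4 := V.lower w hw
  have h5 := V.cpos
  rw [h2] at h1
  have h6 : hh S E b (f * (1 - p)) w = hh S E b (f * p) w := by linarith only [heq, h3]
  rw [h6, heq] at h1
  have h7 : 0 < hh S E b (f * p) w := by linarith only [heq, h4, h5]
  linarith only [mul_pos (sub_pos.2 h5) (sub_pos.2 h5), mul_nonneg (sub_nonneg.2 h4) (le_of_lt (sub_pos.2 h5)), mul_nonneg (sub_nonneg.2 h4) (sub_nonneg.2 h4), mul_eq_zero_of_left (sub_eq_zero.2 heq) (c - (0)), mul_eq_zero_of_left (sub_eq_zero.2 heq) (hh S E b f w - (c)), mul_eq_zero_of_left (sub_eq_zero.2 heq) (hh S E b f w - (2 * hh S E b (f * p) w)), h1]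

theorem Vote.maj_clopen (V : Vote S E b f K c) (hA : SO.IsMASA A M) (hE : IsTrExp M A ξ E)
    (hb : b ∈ M) {p : H →L[ℂ] H} (hp : p ∈ A) (hpp : IsStarProjection p) :
    IsClopen (maj S E b f K p) := by
  have hc1 := hh_cont S hA hE hb V.f_mem
  have hc2 := hh_cont S hA hE hb (mul_mem V.f_mem hp)
  constructor
  · have h1 : maj S E b f K p = K ∩ {w | hh S E b f w ≤ 2 * hh S E b (f * p) w} := by
      ext w
      constructor
      · rintro ⟨h1, h2⟩
        exact ⟨h1, h2.le⟩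
      · rintro ⟨h1, h2⟩
        exact ⟨h1, lt_of_le_of_ne h2 (V.gap hA hE hb hp hpp h1)⟩
    rw [h1]
    exact V.clopen.1.inter (isClosed_le hc1 (continuous_const.mul hc2))
  · exact V.clopen.2.inter (isOpen_lt hc1 (continuous_const.mul hc2))

theorem Vote.maj_mono (V : Vote S E b f K c) (hA : SO.IsMASA A M) (hE : IsTrExp M A ξ E)
    (hb : b ∈ M) {p q : H →L[ℂ] H} (hp : p ∈ A) (hpp : IsStarProjection p) (hq : q ∈ A)
    (hqq : IsStarProjection q) (h : p * q = p) : maj S E b f K p ⊆ maj S E b f K q := by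
  rintro w ⟨hw, h1⟩
  refine ⟨hw, h1.trans_le ?_⟩
  have h2 : f * q = f * p + f * ((1 - p) * q) := by
    rw [← mul_add, sub_mul, one_mul, h]; congr 1; abel
  have h3 : (1 - p) * q ∈ A := mul_mem (sub_mem (one_mem A) hp) hq
  have h4 : IsStarProjection ((1 - p) * q) :=
    proj_mul hA (sub_mem (one_mem A) hp) hq hpp.one_sub hqq
  rw [h2, hh_add S hA hE hb (mul_mem V.f_mem hp) (mul_mem V.f_mem h3)]
  have h5 := hh_mul_nonneg S hA hE hb V.f_mem h3 V.f_proj h4 w
  linarith only [h5]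

theorem Vote.maj_disj (V : Vote S E b f K c) (hA : SO.IsMASA A M) (hE : IsTrExp M A ξ E)
    (hb : b ∈ M) {p q : H →L[ℂ] H} (hp : p ∈ A) (hpp : IsStarProjection p) (hq : q ∈ A)
    (hqq : IsStarProjection q) (h : p * q = 0) {w : X} (h1 : w ∈ maj S E b f K p)
    (h2 : w ∈ maj S E b f K q) : False := by
  have h3 : f * (1 - p) = f * q + f * ((1 - p) * (1 - q)) := by
    rw [← mul_add]
    congr 1
    have : (1 - p) * (1 - q) = 1 - p - q + p * q := by noncomm_ring
    rw [this, h]; abel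
  have hp' : 1 - p ∈ A := sub_mem (one_mem A) hp
  have hq' : 1 - q ∈ A := sub_mem (one_mem A) hq
  have h4 := hh_compl (S := S) hA hE hb V.f_mem hp w
  rw [h3, hh_add S hA hE hb (mul_mem V.f_mem hq) (mul_mem V.f_mem (mul_mem hp' hq'))] at h4
  have h5 := hh_mul_nonneg S hA hE hb V.f_mem (mul_mem hp' hq') V.f_proj
    (proj_mul hA hp' hq' hpp.one_sub hqq.one_sub) w
  have h6 := h1.2
  have h7 := h2.2
  linarith only [h4, h5, h6, h7]

theorem Vote.maj_exists (V : Vote S E b f K c) (hA : SO.IsMASA A M) (hE : IsTrExp M A ξ E)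
    (hb : b ∈ M) (R : Part A.toStarSubalgebra) {w : X} (hw : w ∈ K) :
    ∃ j, w ∈ maj S E b f K (R.e j) := by
  by_contra hcon
  push Not at hcon
  have h1 : ∀ j, 2 * hh S E b (f * R.e j) w ≤ hh S E b f w := by
    intro j
    by_contra h
    exact hcon j ⟨hw, not_le.1 h⟩
  have h2 := V.vote w hw R
  have h3 : ∑ j, hh S E b (f * R.e j) w ^ 2 ≤
      ∑ j, hh S E b f w / 2 * hh S E b (f * R.e j) w := by
    refine Finset.sum_le_sum fun j _ => ?_
    rw [sq]
    refine mul_le_mul_of_nonneg_right (by linarith only [h1 j]) ?_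
    exact hh_mul_nonneg S hA hE hb V.f_mem (R.mem j) V.f_proj (R.proj j) w
  rw [← Finset.mul_sum, sum_hh_mul S hA hE hb V.f_mem] at h3
  have h4 := V.lower w hw
  have h5 := V.cpos
  linarith only [mul_pos (sub_pos.2 h5) (sub_pos.2 h5), mul_nonneg (sub_nonneg.2 h4) (le_of_lt (sub_pos.2 h5)), mul_nonneg (sub_nonneg.2 h4) (sub_nonneg.2 h4), h3, h2]

/-- the projections of the majority sets -/
theorem Vote.exists_th (V : Vote S E b f K c) (hA : SO.IsMASA A M) (hE : IsTrExp M A ξ E)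
    (hb : b ∈ M) : ∃ th : (H →L[ℂ] H) → (H →L[ℂ] H), ∀ p ∈ A, IsStarProjection p →
      th p ∈ A ∧ IsStarProjection (th p) ∧ (∀ w ∈ maj S E b f K p, S.val w (th p) = 1) ∧
        ∀ w, w ∉ maj S E b f K p → S.val w (th p) = 0 := by
  classical
  have h : ∀ p : H →L[ℂ] H, ∃ t : H →L[ℂ] H, p ∈ A → IsStarProjection p →
      t ∈ A ∧ IsStarProjection t ∧ (∀ w ∈ maj S E b f K p, S.val w t = 1) ∧
        ∀ w, w ∉ maj S E b f K p → S.val w t = 0 := by
    intro p
    by_cases hp : p ∈ A ∧ IsStarProjection p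
    · obtain ⟨e, h1, h2, h3, h4⟩ := exists_ind S (V.maj_clopen hA hE hb hp.1 hp.2)
      exact ⟨e, fun _ _ => ⟨h1, h2, h3, h4⟩⟩
    · exact ⟨0, fun h1 h2 => absurd ⟨h1, h2⟩ hp⟩
  choose th hth using h
  exact ⟨th, hth⟩

/-- properties of the projections -/
structure Th (A : VonNeumannAlgebra H) (th : (H →L[ℂ] H) → (H →L[ℂ] H)) : Prop where
  mem : ∀ p ∈ A, IsStarProjection p → th p ∈ A
  proj : ∀ p ∈ A, IsStarProjection p → IsStarProjection (th p)
  mono : ∀ p ∈ A, IsStarProjection p → ∀ q ∈ A, IsStarProjection q → p * q = p →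
    th p * th q = th p
  disj : ∀ p ∈ A, IsStarProjection p → ∀ q ∈ A, IsStarProjection q → p * q = 0 →
    th p * th q = 0

theorem Vote.exists_Th (V : Vote S E b f K c) (hA : SO.IsMASA A M) (hE : IsTrExp M A ξ E)
    (hb : b ∈ M) : ∃ th, Th A th ∧ ∀ p ∈ A, IsStarProjection p →
      (∀ w ∈ maj S E b f K p, S.val w (th p) = 1) ∧
        ∀ w, w ∉ maj S E b f K p → S.val w (th p) = 0 := by
  obtain ⟨th, hth⟩ := V.exists_th hA hE hb
  refine ⟨th, ⟨fun p hp hpp => (hth p hp hpp).1, fun p hp hpp => (hth p hp hpp).2.1, ?_, ?_⟩,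
    fun p hp hpp => (hth p hp hpp).2.2⟩
  · intro p hp hpp q hq hqq hpq
    obtain ⟨h1, -, h3, h4⟩ := hth p hp hpp
    obtain ⟨k1, -, k3, k4⟩ := hth q hq hqq
    refine val_ext S (mul_mem h1 k1) h1 fun w => ?_
    rw [S.mul w _ h1 _ k1]
    by_cases hw : w ∈ maj S E b f K p
    · rw [h3 w hw, k3 w (V.maj_mono hA hE hb hp hpp hq hqq hpq hw), mul_one]
    · rw [h4 w hw, zero_mul]
  · intro p hp hpp q hq hqq hpq
    obtain ⟨h1, -, h3, h4⟩ := hth p hp hpp
    obtain ⟨k1, -, k3, k4⟩ := hth q hq hqq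
    refine val_ext S (mul_mem h1 k1) (zero_mem A) fun w => ?_
    rw [S.mul w _ h1 _ k1, val_zero]
    by_cases hw : w ∈ maj S E b f K p
    · by_cases hw' : w ∈ maj S E b f K q
      · exact (V.maj_disj hA hE hb hp hpp hq hqq hpq hw hw').elim
      · rw [k4 w hw', mul_zero]
    · rw [h4 w hw, zero_mul]

end vote

/-! ### block maps -/

section block

variable {ι : Type*} [Fintype ι]

/-- pairwise orthogonal projections of `M` -/
structure OP (M : VonNeumannAlgebra H) (g : ι → (H →L[ℂ] H)) : Prop where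
  mem : ∀ j, g j ∈ M
  proj : ∀ j, IsStarProjection (g j)
  orth : ∀ i j, i ≠ j → g i * g j = 0

/-- the block map -/
noncomputable def TT (g h : ι → (H →L[ℂ] H)) (y : H →L[ℂ] H) : H →L[ℂ] H := ∑ j, g j * y * h j

theorem norm_sq_orth {g : ι → (H →L[ℂ] H)} (hg : OP M g) (v : ι → H) :
    ‖∑ j, g j (v j)‖ ^ 2 = ∑ j, ‖g j (v j)‖ ^ 2 := by
  rw [← inner_self_re, sum_inner, Complex.re_sum]
  refine Finset.sum_congr rfl fun i _ => ?_
  rw [inner_sum, Finset.sum_eq_single i]
  · rw [inner_self_re]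
  · intro j _ hj
    rw [proj_inner (hg.proj i)]
    have h1 : g i (g j (v j)) = 0 := DFunLike.congr_fun (hg.orth i j hj.symm) (v j)
    rw [h1, inner_zero_right]
  · intro h
    exact absurd (Finset.mem_univ i) h

theorem bessel {h : ι → (H →L[ℂ] H)} (hh : OP M h) (ζ : H) :
    ∑ j, ‖h j ζ‖ ^ 2 ≤ ‖ζ‖ ^ 2 := by
  have h1 := norm_sq_orth hh (fun _ => ζ)
  have h2 : ∑ j, ‖h j ζ‖ ^ 2 = (inner ℂ ζ (∑ j, h j ζ)).re := by
    rw [inner_sum, Complex.re_sum]
    exact Finset.sum_congr rfl fun i _ => (proj_inner_self (hh.proj i) ζ).symm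
  have h3 : (inner ℂ ζ (∑ j, h j ζ)).re ≤ ‖ζ‖ * ‖∑ j, h j ζ‖ :=
    (Complex.re_le_norm _).trans (norm_inner_le_norm _ _)
  rw [← h2, ← h1] at h3
  rw [← h1]
  by_cases h0 : ‖∑ j, h j ζ‖ = 0
  · rw [h0, zero_pow two_ne_zero]; positivity
  · have h4 : ‖∑ j, h j ζ‖ ≤ ‖ζ‖ := by
      have h5 : 0 < ‖∑ j, h j ζ‖ := lt_of_le_of_ne (norm_nonneg _) (Ne.symm h0)
      rw [sq] at h3
      exact le_of_mul_le_mul_right h3 h5
    exact pow_le_pow_left₀ (norm_nonneg _) h4 2

theorem TT_apply (g h : ι → (H →L[ℂ] H)) (y : H →L[ℂ] H) (ζ : H) :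
    TT g h y ζ = ∑ j, g j (y (h j ζ)) := by
  unfold TT
  rw [sum_apply]
  rfl

theorem norm_TT_le {g h : ι → (H →L[ℂ] H)} (hg : OP M g) (hh : OP M h) (y : H →L[ℂ] H) :
    ‖TT g h y‖ ≤ ‖y‖ := by
  refine ContinuousLinearMap.opNorm_le_bound _ (norm_nonneg _) fun ζ => ?_
  rw [← sq_le_sq₀ (norm_nonneg _) (by positivity), mul_pow, TT_apply, norm_sq_orth hg]
  have h1 : ∀ j, ‖g j (y (h j ζ))‖ ^ 2 ≤ ‖y‖ ^ 2 * ‖h j ζ‖ ^ 2 := by
    intro j
    rw [← mul_pow]
    exact pow_le_pow_left₀ (norm_nonneg _)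
      ((norm_proj_le (hg.proj j) _).trans (y.le_opNorm _)) 2
  refine (Finset.sum_le_sum fun j _ => h1 j).trans ?_
  rw [← Finset.mul_sum]
  exact mul_le_mul_of_nonneg_left (bessel hh ζ) (by positivity)

theorem TT_mem {g h : ι → (H →L[ℂ] H)} (hg : OP M g) (hh : OP M h) {y : H →L[ℂ] H}
    (hy : y ∈ M) : TT g h y ∈ M :=
  sum_mem fun j _ => mul_mem (mul_mem (hg.mem j) hy) (hh.mem j)

theorem n2_TT (hξ : IsTrace M ξ) {g h : ι → (H →L[ℂ] H)} (hg : OP M g) (y : H →L[ℂ] H) :
    n2 ξ (TT g h y) = ∑ j, n2 ξ (g j * y * h j) := by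
  unfold n2
  rw [← Summable.tsum_finsetSum fun i _ => n2_summable hξ _]
  refine tsum_congr fun n => ?_
  rw [TT_apply, norm_sq_orth hg]
  rfl

/-- one block -/
theorem n2_block (hξ : IsTrace M ξ) {p q y : H →L[ℂ] H} (hp : p ∈ M) (hq : q ∈ M) (hy : y ∈ M)
    (hpp : IsStarProjection p) (hqq : IsStarProjection q) :
    n2 ξ (p * y * q) = (vtr ξ (star (p * y * q) * y)).re ∧
      n2 ξ (p * y * q) = (vtr ξ (p * (y * q * star y))).re := by
  have e1 : star (p * y * q) = q * star y * p := by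
    rw [star_mul, star_mul, hpp.isSelfAdjoint.star_eq, hqq.isSelfAdjoint.star_eq, mul_assoc]
  have h1 : vtr ξ (star (p * y * q) * (p * y * q)) = vtr ξ (star (p * y * q) * y) := by
    rw [e1]
    have h2 : q * star y * p * (p * y * q) = q * star y * p * y * q := by
      have := hpp.isIdempotentElem.eq
      calc q * star y * p * (p * y * q) = q * star y * (p * p) * y * q := by noncomm_ring
        _ = _ := by rw [this]
    rw [h2, hξ.tracial _ (mul_mem (mul_mem (mul_mem hq (star_mem hy)) hp) hy) _ hq]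
    have h3 := hqq.isIdempotentElem.eq
    congr 1
    calc q * (q * star y * p * y) = (q * q) * star y * p * y := by noncomm_ring
      _ = _ := by rw [h3]
  constructor
  · rw [n2_eq hξ, h1]
  · rw [n2_eq hξ, h1, e1]
    have h4 : q * star y * p * y = (q * star y) * (p * y) := by noncomm_ring
    rw [h4, hξ.tracial _ (mul_mem hq (star_mem hy)) _ (mul_mem hp hy)]
    congr 2

theorem n2_TT_sub (hξ : IsTrace M ξ) {g h : ι → (H →L[ℂ] H)} (hg : OP M g) (hh : OP M h)
    {y : H →L[ℂ] H} (hy : y ∈ M) :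
    n2 ξ (y - TT g h y) = n2 ξ y - n2 ξ (TT g h y) := by
  have h1 : (vtr ξ (star (TT g h y) * y)).re = n2 ξ (TT g h y) := by
    rw [n2_TT hξ hg]
    unfold TT
    rw [star_sum, Finset.sum_mul, vtr_sum hξ, Complex.re_sum]
    refine Finset.sum_congr rfl fun j _ => ?_
    exact (n2_block hξ (hg.mem j) (hh.mem j) hy (hg.proj j) (hh.proj j)).1.symm
  rw [n2_sub hξ, h1]
  ring

end block

/-! ### the block operators of the vote -/

section final

variable {f b : H →L[ℂ] H} {th : (H →L[ℂ] H) → (H →L[ℂ] H)}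

theorem op_f (hA : SO.IsMASA A M) (hf : f ∈ A) (hfp : IsStarProjection f)
    (R : Part A.toStarSubalgebra) : OP M fun j => f * R.e j := by
  refine ⟨fun j => hA.1 _ (mul_mem hf (R.mem j)), fun j => proj_mul hA hf (R.mem j) hfp (R.proj j),
    fun i j hij => ?_⟩
  have h1 := hA.2.1 _ (R.mem i) f hf
  calc f * R.e i * (f * R.e j) = f * (R.e i * f) * R.e j := by noncomm_ring
    _ = f * (f * R.e i) * R.e j := by rw [h1]
    _ = f * f * (R.e i * R.e j) := by noncomm_ring
    _ = 0 := by rw [R.orth i j hij, mul_zero]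

theorem op_th (hA : SO.IsMASA A M) (T : Th A th) (R : Part A.toStarSubalgebra) :
    OP M fun j => th (R.e j) :=
  ⟨fun j => hA.1 _ (T.mem _ (R.mem j) (R.proj j)), fun j => T.proj _ (R.mem j) (R.proj j),
    fun i j hij => T.disj _ (R.mem i) (R.proj i) _ (R.mem j) (R.proj j) (R.orth i j hij)⟩

/-- the block operator -/
noncomputable def VV (th : (H →L[ℂ] H) → (H →L[ℂ] H)) (f b : H →L[ℂ] H)
    (R : Part A.toStarSubalgebra) : H →L[ℂ] H :=
  TT (fun j => th (R.e j)) (fun j => f * R.e j) b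

theorem VV_mem (hA : SO.IsMASA A M) (hf : f ∈ A) (hfp : IsStarProjection f) (T : Th A th)
    (hb : b ∈ M) (R : Part A.toStarSubalgebra) : VV th f b R ∈ M :=
  TT_mem (op_th hA T R) (op_f hA hf hfp R) hb

theorem norm_VV (hA : SO.IsMASA A M) (hf : f ∈ A) (hfp : IsStarProjection f) (T : Th A th)
    (hb1 : ‖b‖ ≤ 1) (R : Part A.toStarSubalgebra) : ‖VV th f b R‖ ≤ 1 :=
  (norm_TT_le (op_th hA T R) (op_f hA hf hfp R) b).trans hb1

theorem VV_finer (hA : SO.IsMASA A M) (hf : f ∈ A) (hfp : IsStarProjection f) (T : Th A th)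
    {R R' : Part A.toStarSubalgebra} (h : R.Finer R') :
    TT (fun j => th (R'.e j)) (fun j => f * R'.e j) (VV th f b R) = VV th f b R' := by
  unfold VV TT
  refine Finset.sum_congr rfl fun k _ => ?_
  rw [Finset.mul_sum, Finset.sum_mul]
  have h1 : ∀ j, th (R'.e k) * (th (R.e j) * b * (f * R.e j)) * (f * R'.e k) =
      th (R'.e k) * b * f * (R.e j * R'.e k) := by
    intro j
    have hc1 := hA.2.1 _ (R.mem j) f hf
    have e1 : th (R'.e k) * (th (R.e j) * b * (f * R.e j)) * (f * R'.e k) =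
        (th (R'.e k) * th (R.e j)) * b * (f * (R.e j * f) * R'.e k) := by noncomm_ring
    have e2 : f * (R.e j * f) * R'.e k = f * (R.e j * R'.e k) := by
      rw [hc1]
      calc f * (f * R.e j) * R'.e k = (f * f) * (R.e j * R'.e k) := by noncomm_ring
        _ = _ := by rw [hfp.isIdempotentElem.eq]
    rw [e1, e2]
    rcases h j k with h2 | h2
    · have h3 : R'.e k * R.e j = R'.e k := by
        rw [hA.2.1 _ (R'.mem k) _ (R.mem j)]; exact h2
      rw [T.mono _ (R'.mem k) (R'.proj k) _ (R.mem j) (R.proj j) h3, h2]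
      noncomm_ring
    · rw [h2]
      simp
  rw [Finset.sum_congr rfl fun j _ => h1 j, ← Finset.mul_sum, ← Finset.sum_mul, R.sum_eq, one_mul]
  noncomm_ring

/-- right multiplication by a projection of `A` -/
theorem VV_right (hA : SO.IsMASA A M) (T : Th A th) {p : H →L[ℂ] H} (hp : p ∈ A)
    (hpp : IsStarProjection p) {R : Part A.toStarSubalgebra}
    (h : (Part.two (A := A.toStarSubalgebra) p hp hpp).Finer R) :
    VV th f b R * p = th p * VV th f b R := by
  unfold VV TT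
  rw [Finset.mul_sum, Finset.sum_mul]
  refine Finset.sum_congr rfl fun j _ => ?_
  have hc := hA.2.1 _ (R.mem j) p hp
  rcases h true j with h2 | h2
  · have h2' : p * R.e j = R.e j := h2
    have h3 : R.e j * p = R.e j := by rw [hc, h2']
    have h4 := T.mono _ (R.mem j) (R.proj j) _ hp hpp h3
    have h5 := hA.2.1 _ (T.mem _ (R.mem j) (R.proj j)) _ (T.mem _ hp hpp)
    rw [h5] at h4
    calc th (R.e j) * b * (f * R.e j) * p = th (R.e j) * b * (f * (R.e j * p)) := by noncomm_ring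
      _ = th (R.e j) * b * (f * R.e j) := by rw [h3]
      _ = (th p * th (R.e j)) * b * (f * R.e j) := by rw [h4]
      _ = _ := by noncomm_ring
  · have h2' : p * R.e j = 0 := h2
    have h3 : R.e j * p = 0 := by rw [hc, h2']
    have h4 := T.disj _ hp hpp _ (R.mem j) (R.proj j) h2'
    calc th (R.e j) * b * (f * R.e j) * p = th (R.e j) * b * (f * (R.e j * p)) := by noncomm_ring
      _ = 0 := by rw [h3]; simp
      _ = (th p * th (R.e j)) * b * (f * R.e j) := by rw [h4]; simp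
      _ = _ := by noncomm_ring

theorem VV_left (hA : SO.IsMASA A M) (hf : f ∈ A) (T : Th A th) {p p' : H →L[ℂ] H} (hp : p ∈ A)
    (hp' : p' ∈ A) (h : p * b = b * p') (R : Part A.toStarSubalgebra) :
    p * VV th f b R = VV th f b R * p' := by
  unfold VV TT
  rw [Finset.mul_sum, Finset.sum_mul]
  refine Finset.sum_congr rfl fun j _ => ?_
  have h1 := hA.2.1 _ hp _ (T.mem _ (R.mem j) (R.proj j))
  have h2 := hA.2.1 _ hp' _ (mul_mem hf (R.mem j))
  calc p * (th (R.e j) * b * (f * R.e j)) = (p * th (R.e j)) * b * (f * R.e j) := by noncomm_ring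
    _ = th (R.e j) * (p * b) * (f * R.e j) := by rw [h1]; noncomm_ring
    _ = th (R.e j) * b * (p' * (f * R.e j)) := by rw [h]; noncomm_ring
    _ = _ := by rw [h2]; noncomm_ring

/-- the mass of the block operator -/
theorem n2_VV (hA : SO.IsMASA A M) (hξ : IsTrace M ξ) (hE : IsTrExp M A ξ E) (hf : f ∈ A)
    (hfp : IsStarProjection f) (T : Th A th) (hb : b ∈ M) (R : Part A.toStarSubalgebra) :
    n2 ξ (VV th f b R) =
      (vtr ξ (∑ j, th (R.e j) * E (b * (f * R.e j) * star b))).re := by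
  have hg := op_th hA T R
  have hh := op_f hA hf hfp R
  unfold VV
  rw [n2_TT hξ hg, vtr_sum hξ, Complex.re_sum]
  refine Finset.sum_congr rfl fun j _ => ?_
  rw [(n2_block hξ (hg.mem j) (hh.mem j) hb (hg.proj j) (hh.proj j)).2]
  have hm : b * (f * R.e j) * star b ∈ M := mul_mem (mul_mem hb (hh.mem j)) (star_mem hb)
  rw [← hE.tr _ (mul_mem (hg.mem j) hm)]
  have h1 := hE.bimod _ (T.mem _ (R.mem j) (R.proj j)) 1 (one_mem A) _ hm
  rw [mul_one, mul_one] at h1
  rw [h1]

end final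

/-- uniform lower bound for the mass of the block operators -/
theorem exists_lower {X : Type*} [TopologicalSpace X] [MulAction (nrm M A) X] {S : Spec M A X}
    {K : Set X} {c : ℝ} {b f : H →L[ℂ] H}
    (V : Vote S E b f K c) (hA : SO.IsMASA A M) (hξ : IsTrace M ξ)
    (hE : IsTrExp M A ξ E) (hb : b ∈ M) (hK : K.Nonempty) {th : (H →L[ℂ] H) → (H →L[ℂ] H)}
    (T : Th A th) (hth : ∀ p ∈ A, IsStarProjection p →
      (∀ w ∈ maj S E b f K p, S.val w (th p) = 1) ∧
        ∀ w, w ∉ maj S E b f K p → S.val w (th p) = 0) :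
    ∃ δ : ℝ, 0 < δ ∧ ∀ R : Part A.toStarSubalgebra, δ ≤ n2 ξ (VV th f b R) := by
  obtain ⟨e, he, hep, he1, he0⟩ := exists_ind S V.clopen
  obtain ⟨w0, hw0⟩ := hK
  have hcp := V.cpos
  have hpos : 0 < (vtr ξ e).re := by
    rcases (vtr_nonneg hξ (proj_nonneg hep)).1.lt_or_eq with h | h
    · exact h
    · exfalso
      have h1 : n2 ξ e = 0 := by
        rw [n2_eq hξ, hep.isSelfAdjoint.star_eq, hep.isIdempotentElem.eq, ← h]
      have h2 := eq_zero_of_n2 hξ (hA.1 e he) h1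
      have h3 := he1 w0 hw0
      rw [h2, val_zero] at h3
      exact zero_ne_one h3
  refine ⟨c / 2 * (vtr ξ e).re, by (clear * - hcp hpos; positivity), fun R => ?_⟩
  rw [n2_VV hA hξ hE V.f_mem V.f_proj T hb R]
  have hmem : ∀ j, th (R.e j) * E (b * (f * R.e j) * star b) ∈ A := fun j =>
    mul_mem (T.mem _ (R.mem j) (R.proj j)) (EMem hA hE hb (mul_mem V.f_mem (R.mem j)))
  have hfj : ∀ j, 0 ≤ f * R.e j := fun j =>
    proj_nonneg (proj_mul hA V.f_mem (R.mem j) V.f_proj (R.proj j))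
  have hsa : IsSelfAdjoint (∑ j, th (R.e j) * E (b * (f * R.e j) * star b)) := by
    rw [IsSelfAdjoint, star_sum]
    refine Finset.sum_congr rfl fun j _ => ?_
    rw [star_mul, (sa_E hA hE hb (mul_mem V.f_mem (R.mem j)) (hfj j)).star_eq,
      (T.proj _ (R.mem j) (R.proj j)).isSelfAdjoint.star_eq]
    exact hA.2.1 _ (EMem hA hE hb (mul_mem V.f_mem (R.mem j))) _ (T.mem _ (R.mem j) (R.proj j))
  have hle : ((c / 2 : ℝ) : ℂ) • e ≤ ∑ j, th (R.e j) * E (b * (f * R.e j) * star b) := by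
    refine le_of_val S (smul_mem' _ he) (sum_mem fun j _ => hmem j) ?_ hsa fun w => ?_
    · rw [IsSelfAdjoint, star_smul, Complex.star_def, Complex.conj_ofReal,
        hep.isSelfAdjoint.star_eq]
    · rw [S.smul w _ e he, val_sum S _ _ hmem, Complex.re_sum]
      have hterm : ∀ j, (S.val w (th (R.e j) * E (b * (f * R.e j) * star b))).re =
          (S.val w (th (R.e j))).re * hh S E b (f * R.e j) w := by
        intro j
        rw [S.mul w _ (T.mem _ (R.mem j) (R.proj j)) _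
          (EMem hA hE hb (mul_mem V.f_mem (R.mem j))),
          val_hh S hA hE hb (mul_mem V.f_mem (R.mem j)) (hfj j), Complex.re_mul_ofReal]
      have hnn : ∀ j, 0 ≤ (S.val w (th (R.e j) * E (b * (f * R.e j) * star b))).re := by
        intro j
        rw [hterm]
        refine mul_nonneg ?_ (hh_nonneg S hA hE hb (mul_mem V.f_mem (R.mem j)) (hfj j) w)
        exact (S.nonneg _ (T.mem _ (R.mem j) (R.proj j))
          (proj_nonneg (T.proj _ (R.mem j) (R.proj j))) w).1
      by_cases hw : w ∈ K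
      · obtain ⟨j, hj⟩ := V.maj_exists hA hE hb R hw
        rw [he1 w hw, mul_one, Complex.ofReal_re]
        refine le_trans ?_ (Finset.single_le_sum (fun j _ => hnn j) (Finset.mem_univ j))
        rw [hterm, (hth _ (R.mem j) (R.proj j)).1 w hj, Complex.one_re, one_mul]
        have h1 := hj.2
        have h2 := V.lower w hw
        linarith only [h1, h2]
      · rw [he0 w hw, mul_zero, Complex.zero_re]
        exact Finset.sum_nonneg fun j _ => hnn j
  have h := (vtr_nonneg hξ (sub_nonneg.2 hle)).1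
  rw [vtr_sub hξ, vtr_smul hξ, Complex.sub_re, Complex.re_ofReal_mul] at h
  linarith only [h]

/-- intertwining relations pass to weak operator limits -/
theorem intertwine {I : Type*} {l : Filter I} [l.NeBot] {T : I → (H →L[ℂ] H)}
    {L y z : H →L[ℂ] H} (hT : ∀ᶠ i in l, T i * z = y * T i)
    (hL : ∀ ζ η : H, Tendsto (fun i => inner ℂ ζ (T i η)) l (𝓝 (inner ℂ ζ (L η)))) :
    L * z = y * L := by
  refine inner_ext fun ζ η => ?_
  have h1 := hL (star y ζ) η
  simp only [star_apply_inner] at h1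
  refine tendsto_nhds_unique ((hL ζ (z η)).congr' ?_) h1
  filter_upwards [hT] with i hi
  change inner ℂ ζ ((T i * z) η) = inner ℂ ζ ((y * T i) η)
  rw [hi]

/-- the trace passes to weak operator limits of bounded families -/
theorem vtr_lim_zero (hξ : IsTrace M ξ) {I : Type*} {l : Filter I} [l.NeBot]
    {T : I → (H →L[ℂ] H)} {L n : H →L[ℂ] H} (hn : n ∈ M) (hLM : L ∈ M) {C : ℝ}
    (hTM : ∀ i, T i ∈ M) (hTC : ∀ i, ‖T i‖ ≤ C)
    (hL : ∀ ζ η : H, Tendsto (fun i => inner ℂ ζ (T i η)) l (𝓝 (inner ℂ ζ (L η))))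
    (h0 : ∀ i, vtr ξ (n * T i) = 0) : vtr ξ (n * L) = 0 := by
  have h1 := wcont_vtr hξ (‖n‖ * C) (n * L) (Filter.map (fun i => n * T i) l)
    (mul_mem hn hLM) ?_ ?_
  · refine tendsto_nhds_unique h1 ?_
    rw [tendsto_map'_iff]
    refine tendsto_const_nhds.congr fun i => ?_
    exact (h0 i).symm
  · rw [eventually_map]
    refine Eventually.of_forall fun i => ⟨mul_mem hn (hTM i), ?_⟩
    exact (norm_mul_le _ _).trans (mul_le_mul_of_nonneg_left (hTC i) (norm_nonneg _))
  · intro a b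
    rw [tendsto_map'_iff]
    have h2 := hL (star n a) b
    simp only [star_apply_inner] at h2
    exact h2

end Mj

/-- one-sided majority vote -/
theorem majority (hA : SO.IsMASA A M) (hξ : IsTrace M ξ) (hE : IsTrExp M A ξ E) {b : H →L[ℂ] H}
    (hb : b ∈ M) (hb1 : ‖b‖ ≤ 1) {c : ℝ} (hc : 0 < c)
    (hbc : ∀ Q : Part A.toStarSubalgebra, c ≤ ∑ j, n2 ξ (E (b * Q.e j * star b))) :
    ∃ x ∈ M, x ≠ 0 ∧ ‖x‖ ≤ 1 ∧
      (∀ n ∈ M, (∀ a ∈ A, ∀ a' ∈ A, vtr ξ (star n * (a * b * a')) = 0) → vtr ξ (star n * x) = 0) ∧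
      (∀ p ∈ A, IsStarProjection p → ∃ p' ∈ A, IsStarProjection p' ∧ x * p = p' * x) ∧
      ((∀ p ∈ A, IsStarProjection p → ∃ p' ∈ A, IsStarProjection p' ∧ p * b = b * p') →
        ∀ p ∈ A, IsStarProjection p → ∃ p' ∈ A, IsStarProjection p' ∧ p * x = x * p') := by
  have hne : Nontrivial H := by
    by_contra h
    rw [not_nontrivial_iff_subsingleton] at h
    have h1 := hξ.norm_one
    have h2 : ∀ n, ‖ξ n‖ ^ 2 = 0 := by
      intro n
      rw [Subsingleton.elim (ξ n) 0, norm_zero, zero_pow two_ne_zero]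
    rw [tsum_congr h2, tsum_zero] at h1
    exact zero_ne_one h1
  obtain ⟨X, _, _, _, _, _, ⟨S⟩⟩ := exists_spec hA hne
  obtain ⟨f, K, V, hK⟩ := Mj.exists_vote hA hξ hE hb hb1 hc hbc S
  obtain ⟨th, T, hth⟩ := V.exists_Th hA hE hb
  obtain ⟨δ, hδ, hδ'⟩ := Mj.exists_lower V hA hξ hE hb hK T hth
  obtain ⟨x, hx, hx1, hlim, U, hU, hwot⟩ := net_lim hξ hA (fun R => Mj.VV th f b R)
    zero_le_one (fun R => Mj.VV_mem hA V.f_mem V.f_proj T hb R)
    (fun R => Mj.norm_VV hA V.f_mem V.f_proj T hb1 R) (by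
      intro R R' hR
      have h1 := Mj.n2_TT_sub hξ (Mj.op_th hA T R') (Mj.op_f hA V.f_mem V.f_proj R')
        (Mj.VV_mem hA V.f_mem V.f_proj T hb R)
      rw [Mj.VV_finer hA V.f_mem V.f_proj T hR] at h1
      exact h1.le)
  refine ⟨x, hx, ?_, hx1, ?_, ?_, ?_⟩
  · rintro rfl
    obtain ⟨Q, hQ⟩ := hlim (δ / 2) (by (clear * - hδ; positivity))
    have h1 := hQ Q (Part.Finer.refl Q)
    rw [sub_zero] at h1
    have h2 := hδ' Q
    linarith only [hδ, h1, h2]
  · intro n hn h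
    refine Mj.vtr_lim_zero hξ (star_mem hn) hx (fun R => Mj.VV_mem hA V.f_mem V.f_proj T hb R)
      (fun R => Mj.norm_VV hA V.f_mem V.f_proj T hb1 R) hwot fun R => ?_
    unfold Mj.VV Mj.TT
    rw [Finset.mul_sum, vtr_sum hξ]
    refine Finset.sum_eq_zero fun j _ => ?_
    exact h _ (T.mem _ (R.mem j) (R.proj j)) _ (mul_mem V.f_mem (R.mem j))
  · intro p hp hpp
    refine ⟨th p, T.mem p hp hpp, T.proj p hp hpp, Mj.intertwine ?_ hwot⟩
    filter_upwards [hU (Part.eventually_finer (Part.two p hp hpp))] with R hR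
    exact Mj.VV_right hA T hp hpp hR
  · intro h p hp hpp
    obtain ⟨p', hp', hpp', h1⟩ := h p hp hpp
    refine ⟨p', hp', hpp', (Mj.intertwine ?_ hwot).symm⟩
    exact Eventually.of_forall fun R => (Mj.VV_left hA V.f_mem T hp hp' h1 R).symm

end Vale.Agent.P078.F
end

section

/-! General MASAs, part 3: elements normalizing `A` lie in every von Neumann algebra which contains
the unitary normalizer. -/

namespace Vale.Agent.P078.F

open Filter Topology
open Vale.Agent.P078 Vale.Agent.P078.C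

universe u

variable {H : Type u} [NormedAddCommGroup H] [InnerProductSpace ℂ H] [CompleteSpace H]
variable {M A N : VonNeumannAlgebra H} {ξ : ℕ → H} {E : (H →L[ℂ] H) →ₗ[ℂ] (H →L[ℂ] H)}

/-- a von Neumann algebra containing the normalizer of `A` contains `A` -/
theorem masa_le_of_nrm (hA : SO.IsMASA A M) (hN : ∀ u : nrm M A, op u ∈ N) :
    ∀ a ∈ A, a ∈ N := by
  have hc := hA.2.1
  intro a ha
  have h1 : (Alg.mk hc a ha) ∈ Submodule.span ℂ (unitary (Alg A hc) : Set (Alg A hc)) := by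
    rw [CStarAlgebra.span_unitary]; trivial
  have h2 : ∀ y ∈ Submodule.span ℂ (unitary (Alg A hc) : Set (Alg A hc)), y.val ∈ N := by
    intro y hy
    induction hy using Submodule.span_induction with
    | mem w hw =>
      have hu1 : star w.val * w.val = 1 := congrArg Alg.val (Unitary.star_mul_self_of_mem hw)
      have hu2 : w.val * star w.val = 1 := congrArg Alg.val (Unitary.mul_star_self_of_mem hw)
      have hs : star w.val ∈ A := star_mem w.val_mem
      have hw2 : (⟨w.val, hu1, hu2⟩ : unitary (H →L[ℂ] H)) ∈ nrm M A :=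
        ⟨hA.1 _ w.val_mem, fun b hb => mul_mem (mul_mem w.val_mem hb) hs,
          fun b hb => mul_mem (mul_mem hs hb) w.val_mem⟩
      exact hN ⟨_, hw2⟩
    | zero => exact zero_mem N
    | add x y _ _ hx hy => exact add_mem hx hy
    | smul c x _ hx => exact N.toStarSubalgebra.smul_mem hx c
  exact h2 _ h1

/-- an element commuting with the projections of `A` is in `A` -/
theorem mem_masa_of_proj (hA : SO.IsMASA A M) {y : H →L[ℂ] H} (hy : y ∈ M)
    (h : ∀ e ∈ A, IsStarProjection e → y * e = e * y) : y ∈ A :=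
  hA.2.2 y hy fun b hb => ((SO.IsMASA.toStar hA).comm_of_proj h b hb).symm

/-- the reflection built from a nilpotent partial isometry normalizing `A` -/
theorem gn_swap (hA : SO.IsMASA A M) {w s t : H →L[ℂ] H} (hw : w ∈ M) (hs : s ∈ A) (ht : t ∈ A)
    (hsp : IsStarProjection s) (htp : IsStarProjection t) (h1 : star w * w = s)
    (h2 : w * star w = t) (hst : s * t = 0) (hws : w * s = w) (htw : t * w = w)
    (n1 : ∀ a ∈ A, w * a * star w ∈ A) (n2 : ∀ a ∈ A, star w * a * w ∈ A) :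
    ∃ u : nrm M A, op u * s = w := by
  have hts : t * s = 0 := by rw [hA.2.1 t ht s hs, hst]
  have hss : s * s = s := hsp.isIdempotentElem
  have htt : t * t = t := htp.isIdempotentElem
  have hsw : s * w = 0 := by rw [← htw, ← mul_assoc, hst, zero_mul]
  have hwt : w * t = 0 := by rw [← hws, mul_assoc, hst, mul_zero]
  have hww : w * w = 0 := by
    calc w * w = (w * s) * (t * w) := by rw [hws, htw]
      _ = w * (s * t) * w := by simp only [mul_assoc]
      _ = 0 := by rw [hst, mul_zero, zero_mul]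
  have hsws : s * star w = star w := by
    have := congrArg star hws
    rwa [star_mul, hsp.isSelfAdjoint.star_eq] at this
  have hwst : star w * t = star w := by
    have := congrArg star htw
    rwa [star_mul, htp.isSelfAdjoint.star_eq] at this
  have hsww : star w * star w = 0 := by rw [← star_mul, hww, star_zero]
  have hws' : star w * s = 0 := by
    have := congrArg star hsw
    rwa [star_mul, hsp.isSelfAdjoint.star_eq, star_zero] at this
  have hts' : t * star w = 0 := by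
    have := congrArg star hwt
    rwa [star_mul, htp.isSelfAdjoint.star_eq, star_zero] at this
  obtain ⟨q, hq⟩ : ∃ q : H →L[ℂ] H, q = 1 - s - t := ⟨_, rfl⟩
  have hqA : q ∈ A := by rw [hq]; exact sub_mem (sub_mem (one_mem A) hs) ht
  have hqsa : star q = q := by
    rw [hq, star_sub, star_sub, star_one, hsp.isSelfAdjoint.star_eq, htp.isSelfAdjoint.star_eq]
  have hwq : w * q = 0 := by rw [hq, mul_sub, mul_sub, mul_one, hws, hwt]; simp
  have hqw : q * w = 0 := by rw [hq, sub_mul, sub_mul, one_mul, hsw, htw]; simp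
  have hwsq : star w * q = 0 := by
    have := congrArg star hqw
    rwa [star_mul, hqsa, star_zero] at this
  have hqws : q * star w = 0 := by
    have := congrArg star hwq
    rwa [star_mul, hqsa, star_zero] at this
  have hqq : q * q = q := by
    rw [hq]
    simp only [mul_sub, sub_mul, mul_one, one_mul, hss, htt, hst, hts]
    abel
  have hqs : q * s = 0 := by rw [hq, sub_mul, sub_mul, one_mul, hss, hts]; simp
  obtain ⟨g, hg⟩ : ∃ g : H →L[ℂ] H, g = w + star w + q := ⟨_, rfl⟩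
  have hgsa : star g = g := by
    rw [hg, star_add, star_add, star_star, hqsa]
    abel
  have hgg : g * g = 1 := by
    rw [hg]
    simp only [add_mul, mul_add, hww, h1, h2, hwq, hqw, hwsq, hqws, hqq, hsww]
    rw [hq]
    abel
  have hgM : g ∈ M := by
    rw [hg]
    exact add_mem (add_mem hw (star_mem hw)) (hA.1 q hqA)
  have hgA : ∀ a ∈ A, g * a * g ∈ A := by
    intro a ha
    have cs : s * a = a * s := hA.2.1 s hs a ha
    have ct : t * a = a * t := hA.2.1 t ht a ha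
    have cq : q * a = a * q := hA.2.1 q hqA a ha
    have e1 : w * a * w = 0 := by
      calc w * a * w = (w * s) * a * (t * w) := by rw [hws, htw]
        _ = w * (s * a) * t * w := by simp only [mul_assoc]
        _ = w * a * (s * t) * w := by rw [cs]; simp only [mul_assoc]
        _ = 0 := by rw [hst, mul_zero, zero_mul]
    have e2 : w * a * q = 0 := by
      rw [mul_assoc, ← cq, ← mul_assoc, hwq, zero_mul]
    have e3 : star w * a * star w = 0 := by
      calc star w * a * star w = (star w * t) * a * (s * star w) := by rw [hwst, hsws]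
        _ = star w * (t * a) * s * star w := by simp only [mul_assoc]
        _ = star w * a * (t * s) * star w := by rw [ct]; simp only [mul_assoc]
        _ = 0 := by rw [hts, mul_zero, zero_mul]
    have e4 : star w * a * q = 0 := by
      rw [mul_assoc, ← cq, ← mul_assoc, hwsq, zero_mul]
    have e5 : q * a * w = 0 := by rw [cq, mul_assoc, hqw, mul_zero]
    have e6 : q * a * star w = 0 := by rw [cq, mul_assoc, hqws, mul_zero]
    have e7 : g * a * g = w * a * star w + star w * a * w + q * a * q := by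
      rw [hg]
      simp only [add_mul, mul_add, e1, e2, e3, e4, e5, e6]
      abel
    rw [e7]
    exact add_mem (add_mem (n1 a ha) (n2 a ha)) (mul_mem (mul_mem hqA ha) hqA)
  have hgu : g ∈ unitary (H →L[ℂ] H) := ⟨by rw [hgsa, hgg], by rw [hgsa, hgg]⟩
  have hgn : (⟨g, hgu⟩ : unitary (H →L[ℂ] H)) ∈ nrm M A := by
    refine ⟨hgM, fun a ha => ?_, fun a ha => ?_⟩
    · change g * a * star g ∈ A
      rw [hgsa]
      exact hgA a ha
    · change star g * a * g ∈ A
      rw [hgsa]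
      exact hgA a ha
  refine ⟨⟨_, hgn⟩, ?_⟩
  change g * s = w
  rw [hg, add_mul, add_mul, hws, hws', hqs, add_zero, add_zero]

/-- a nonzero partial isometry normalizing `A` has a nonzero restriction in `N` -/
theorem gn_restrict (hA : SO.IsMASA A M) (hξ : IsTrace M ξ) (hN : ∀ u : nrm M A, op u ∈ N)
    {v : H →L[ℂ] H} (hv : v ∈ M) (hv0 : v ≠ 0) (hd : star v * v ∈ A) (he : v * star v ∈ A)
    (hdp : IsStarProjection (star v * v))
    (h1 : ∀ a ∈ A, v * a * star v ∈ A) (h2 : ∀ a ∈ A, star v * a * v ∈ A) :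
    ∃ p ∈ A, IsStarProjection p ∧ v * p ≠ 0 ∧ v * p ∈ N := by
  have hAN := masa_le_of_nrm hA hN
  obtain ⟨d, hdd⟩ : ∃ d : H →L[ℂ] H, d = star v * v := ⟨_, rfl⟩
  rw [← hdd] at hd hdp
  have hdi : d * d = d := hdp.isIdempotentElem
  -- `v d = v`
  have hvd : v * d = v := by
    have h3 : star (v * d - v) * (v * d - v) = 0 := by
      rw [star_sub, star_mul, hdp.isSelfAdjoint.star_eq, sub_mul, mul_sub, mul_sub]
      have e1 : d * star v * (v * d) = d := by
        rw [mul_assoc, ← mul_assoc (star v), ← hdd, hdi, hdi]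
      have e2 : d * star v * v = d := by rw [mul_assoc, ← hdd, hdi]
      have e3 : star v * (v * d) = d := by rw [← mul_assoc, ← hdd, hdi]
      rw [e1, e2, e3, ← hdd]
      abel
    have h4 := (CStarRing.star_mul_self_eq_zero_iff (v * d - v)).1 h3
    exact sub_eq_zero.1 h4
  -- properties of `th`
  have hthp : ∀ p ∈ A, IsStarProjection p → p * d = p → IsStarProjection (v * p * star v) := by
    intro p hp hpp hpd
    refine ⟨?_, ?_⟩
    · change v * p * star v * (v * p * star v) = v * p * star v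
      calc v * p * star v * (v * p * star v) = v * (p * (star v * v)) * p * star v := by
            simp only [mul_assoc]
        _ = v * (p * p) * star v := by rw [← hdd, hpd]; simp only [mul_assoc]
        _ = v * p * star v := by rw [hpp.isIdempotentElem]
    · rw [IsSelfAdjoint, star_mul, star_mul, star_star, hpp.isSelfAdjoint.star_eq, mul_assoc]
  by_cases hcase : ∀ p ∈ A, IsStarProjection p → p * d = p → p * (v * p * star v) = p
  · -- Case 1
    have hth : ∀ p ∈ A, IsStarProjection p → p * d = p → v * p * star v = p := by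
      intro p hp hpp hpd
      have hq := hthp p hp hpp hpd
      have hqA : v * p * star v ∈ A := h1 p hp
      obtain ⟨q, hqq⟩ : ∃ q : H →L[ℂ] H, q = v * p * star v := ⟨_, rfl⟩
      rw [← hqq] at hq hqA ⊢
      have e1 : p * q = p := by rw [hqq]; exact hcase p hp hpp hpd
      have e2 : q * p = p := by rw [hA.2.1 q hqA p hp, e1]
      have hpM := hA.1 p hp
      have hqM := hA.1 q hqA
      have e3 : star (q - p) * (q - p) = q - p := by
        rw [star_sub, hq.isSelfAdjoint.star_eq, hpp.isSelfAdjoint.star_eq, sub_mul, mul_sub,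
          mul_sub, hq.isIdempotentElem, hpp.isIdempotentElem, e1, e2]
        abel
      have e4 : vtr ξ q = vtr ξ p := by
        have : vtr ξ (v * p * star v) = vtr ξ (star v * (v * p)) :=
          hξ.tracial _ (mul_mem hv hpM) _ (star_mem hv)
        rw [hqq, this, ← mul_assoc, ← hdd, hA.2.1 d hd p hp, hpd]
      have e5 : n2 ξ (q - p) = 0 := by
        rw [n2_eq hξ, e3, vtr_sub hξ, e4, sub_self, Complex.zero_re]
      exact sub_eq_zero.1 (eq_zero_of_n2 hξ (sub_mem hqM hpM) e5)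
    have hvp : ∀ p ∈ A, IsStarProjection p → p * d = p → v * p = p * v := by
      intro p hp hpp hpd
      have e1 := hth p hp hpp hpd
      calc v * p = v * (p * d) := by rw [hpd]
        _ = v * p * star v * v := by rw [hdd]; simp only [mul_assoc]
        _ = p * v := by rw [e1]
    have hdv : d * v = v := by rw [← hvp d hd hdp hdi, hvd]
    have hcom : ∀ p ∈ A, IsStarProjection p → v * p = p * v := by
      intro p hp hpp
      have hcd : d * p = p * d := hA.2.1 d hd p hp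
      have hpd : IsStarProjection (p * d) := by
        refine ⟨?_, ?_⟩
        · change p * d * (p * d) = p * d
          calc p * d * (p * d) = p * (d * p) * d := by simp only [mul_assoc]
            _ = (p * p) * (d * d) := by rw [hcd]; simp only [mul_assoc]
            _ = p * d := by rw [hpp.isIdempotentElem, hdi]
        · rw [IsSelfAdjoint, star_mul, hpp.isSelfAdjoint.star_eq, hdp.isSelfAdjoint.star_eq, hcd]
      have e1 := hvp (p * d) (mul_mem hp hd) hpd (by rw [mul_assoc, hdi])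
      calc v * p = v * d * p := by rw [hvd]
        _ = v * (p * d) := by rw [mul_assoc, hcd]
        _ = p * (d * v) := by rw [e1, mul_assoc]
        _ = p * v := by rw [hdv]
    have hvA : v ∈ A := mem_masa_of_proj hA hv hcom
    refine ⟨1, one_mem A, IsStarProjection.one _, ?_, ?_⟩
    · rwa [mul_one]
    · rw [mul_one]; exact hAN v hvA
  · -- Case 2
    push Not at hcase
    obtain ⟨p, hp, hpp, hpd, hne⟩ := hcase
    have hq := hthp p hp hpp hpd
    have hqA : v * p * star v ∈ A := h1 p hp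
    obtain ⟨q, hqq⟩ : ∃ q : H →L[ℂ] H, q = v * p * star v := ⟨_, rfl⟩
    rw [← hqq] at hq hqA hne
    have hpq : p * q = q * p := hA.2.1 p hp q hqA
    have hpi : p * p = p := hpp.isIdempotentElem
    have hqi : q * q = q := hq.isIdempotentElem
    obtain ⟨s, hs⟩ : ∃ s : H →L[ℂ] H, s = p - p * q := ⟨_, rfl⟩
    have hsA : s ∈ A := by rw [hs]; exact sub_mem hp (mul_mem hp hqA)
    have hs0 : s ≠ 0 := by
      rw [hs]
      intro h
      exact hne (sub_eq_zero.1 h).symm
    have hsp : IsStarProjection s := by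
      refine ⟨?_, ?_⟩
      · change s * s = s
        rw [hs, sub_mul, mul_sub, mul_sub, hpi]
        have e1 : p * q * p = p * q := by rw [mul_assoc, ← hpq, ← mul_assoc, hpi]
        have e2 : p * (p * q) = p * q := by rw [← mul_assoc, hpi]
        have e3 : p * q * (p * q) = p * q := by rw [← mul_assoc, e1, mul_assoc, hqi]
        rw [e1, e2, e3]
        abel
      · rw [IsSelfAdjoint, hs, star_sub, star_mul, hpp.isSelfAdjoint.star_eq,
          hq.isSelfAdjoint.star_eq, hpq]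
    have hsd : s * d = s := by
      have : p * q * d = p * q := by
        rw [mul_assoc, hA.2.1 q hqA d hd, ← mul_assoc, hpd]
      rw [hs, sub_mul, hpd, this]
    have hps : p * s = s := by rw [hs, mul_sub, hpi, ← mul_assoc, hpi]
    have hsq : s * q = 0 := by rw [hs, sub_mul, mul_assoc, hqi, sub_self]
    have htp := hthp s hsA hsp hsd
    have htA : v * s * star v ∈ A := h1 s hsA
    obtain ⟨t, htt⟩ : ∃ t : H →L[ℂ] H, t = v * s * star v := ⟨_, rfl⟩
    have hqt : q * t = t := by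
      calc q * t = v * (p * (star v * v)) * s * star v := by
            rw [hqq, htt]; simp only [mul_assoc]
        _ = v * (p * s) * star v := by rw [← hdd, hpd]; simp only [mul_assoc]
        _ = t := by rw [hps, htt]
    rw [← htt] at htp htA
    have hst : s * t = 0 := by rw [← hqt, ← mul_assoc, hsq, zero_mul]
    have hds : d * s = s := by rw [hA.2.1 d hd s hsA, hsd]
    have hss : s * s = s := hsp.isIdempotentElem
    have hsm := hA.1 s hsA
    have hwst : star (v * s) = s * star v := by rw [star_mul, hsp.isSelfAdjoint.star_eq]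
    have k1 : star (v * s) * (v * s) = s := by
      rw [hwst, mul_assoc, ← mul_assoc (star v), ← hdd, hds, hss]
    have k2 : v * s * star (v * s) = t := by
      rw [hwst, ← mul_assoc, mul_assoc v, hss, htt]
    have k3 : v * s * s = v * s := by rw [mul_assoc, hss]
    have k4 : t * (v * s) = v * s := by
      rw [← k2, mul_assoc, k1, k3]
    obtain ⟨u, hu⟩ := gn_swap hA (mul_mem hv hsm) hsA htA hsp htp k1 k2 hst k3 k4 (by
        intro a ha
        have : v * s * a * star (v * s) = v * (s * a * s) * star v := by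
          rw [hwst]; simp only [mul_assoc]
        rw [this]
        exact h1 _ (mul_mem (mul_mem hsA ha) hsA)) (by
        intro a ha
        have : star (v * s) * a * (v * s) = s * (star v * a * v) * s := by
          rw [hwst]; simp only [mul_assoc]
        rw [this]
        exact mul_mem (mul_mem hsA (h2 a ha)) hsA)
    refine ⟨s, hsA, hsp, ?_, ?_⟩
    · intro h
      rw [h, mul_zero] at k1
      exact hs0 k1.symm
    · rw [← hu]
      exact mul_mem (hN u) (hAN s hsA)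

/-- a nonzero positive element of `A` is invertible under a nonzero projection -/
theorem exists_inv_proj (hA : SO.IsMASA A M) (hne : Nontrivial H) {k : H →L[ℂ] H} (hk : k ∈ A)
    (hk0 : 0 ≤ k) (hk1 : k ≠ 0) :
    ∃ p ∈ A, ∃ a ∈ A, IsStarProjection p ∧ p ≠ 0 ∧ star a = a ∧ a * k * a = p := by
  obtain ⟨X, _, _, _, _, _, ⟨S⟩⟩ := exists_spec hA hne
  have hcont := S.cont k hk
  have hreal : ∀ ω, 0 ≤ (S.val ω k).re ∧ (S.val ω k).im = 0 := S.nonneg k hk hk0
  obtain ⟨ω₀, hω₀⟩ : ∃ ω, S.val ω k ≠ 0 := by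
    by_contra hcon
    push Not at hcon
    exact hk1 (S.inj k hk hcon)
  have hpos : 0 < (S.val ω₀ k).re := by
    refine lt_of_le_of_ne (hreal ω₀).1 fun h => hω₀ ?_
    exact Complex.ext h.symm (hreal ω₀).2
  have hf : Continuous fun ω => (S.val ω k).re := Complex.continuous_re.comp hcont
  obtain ⟨K, hK, hωK, hKs⟩ := compact_exists_isClopen_in_isOpen
    (isOpen_lt (continuous_const (y := (S.val ω₀ k).re / 2)) hf)
    (show ω₀ ∈ {ω | (S.val ω₀ k).re / 2 < (S.val ω k).re} by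
      change (S.val ω₀ k).re / 2 < (S.val ω₀ k).re
      linarith only [hpos])
  classical
  obtain ⟨p, hpA, hp⟩ := S.surj ⟨K.indicator fun _ => (1 : ℂ),
    (hK.continuous_indicator continuous_const)⟩
  have hgc : Continuous fun ω => ((((max ((S.val ω₀ k).re / 2) (S.val ω k).re).sqrt)⁻¹ : ℝ) : ℂ) := by
    refine Complex.continuous_ofReal.comp (Continuous.inv₀ (Real.continuous_sqrt.comp
      (continuous_const.max hf)) fun ω => ?_)
    exact (Real.sqrt_pos.2 (lt_max_of_lt_left (by linarith only [hpos]))).ne'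
  obtain ⟨a, haA, ha⟩ := S.surj ⟨K.indicator fun ω =>
    ((((max ((S.val ω₀ k).re / 2) (S.val ω k).re).sqrt)⁻¹ : ℝ) : ℂ),
    hK.continuous_indicator hgc⟩
  have hsub : ∀ x ∈ A, ∀ y ∈ A, (∀ ω, S.val ω x = S.val ω y) → x = y := by
    intro x hx y hy h
    have hny : (-1 : ℂ) • y ∈ A := A.toStarSubalgebra.smul_mem hy _
    have h3 : x + (-1 : ℂ) • y = 0 := S.inj _ (add_mem hx hny) fun ω => by
      rw [S.add ω x hx _ hny, S.smul ω _ y hy, h ω]
      ring
    rw [neg_one_smul, ← sub_eq_add_neg] at h3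
    exact sub_eq_zero.1 h3
  have hp' : ∀ ω, S.val ω p = K.indicator (fun _ => (1 : ℂ)) ω := hp
  have ha' : ∀ ω, S.val ω a = K.indicator (fun ω =>
    ((((max ((S.val ω₀ k).re / 2) (S.val ω k).re).sqrt)⁻¹ : ℝ) : ℂ)) ω := ha
  refine ⟨p, hpA, a, haA, ⟨?_, ?_⟩, ?_, ?_, ?_⟩
  · change p * p = p
    refine hsub _ (mul_mem hpA hpA) _ hpA fun ω => ?_
    rw [S.mul ω p hpA p hpA, hp']
    by_cases hω : ω ∈ K
    · rw [Set.indicator_of_mem hω, mul_one]
    · rw [Set.indicator_of_notMem hω, mul_zero]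
  · change star p = p
    refine hsub _ (star_mem hpA) _ hpA fun ω => ?_
    rw [S.star ω p hpA, hp']
    by_cases hω : ω ∈ K
    · rw [Set.indicator_of_mem hω, star_one]
    · rw [Set.indicator_of_notMem hω, star_zero]
  · intro h
    have h3 := hp' ω₀
    have h4 := S.smul ω₀ 0 p hpA
    rw [zero_smul, zero_mul] at h4
    rw [Set.indicator_of_mem hωK, h, h4] at h3
    exact zero_ne_one h3
  · refine hsub _ (star_mem haA) _ haA fun ω => ?_
    rw [S.star ω a haA, ha']
    by_cases hω : ω ∈ K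
    · rw [Set.indicator_of_mem hω, Complex.star_def, Complex.conj_ofReal]
    · rw [Set.indicator_of_notMem hω, star_zero]
  · refine hsub _ (mul_mem (mul_mem haA hk) haA) _ hpA fun ω => ?_
    rw [S.mul ω _ (mul_mem haA hk) a haA, S.mul ω a haA k hk, ha', hp']
    by_cases hω : ω ∈ K
    · have h5 : (S.val ω₀ k).re / 2 < (S.val ω k).re := hKs hω
      have h6 : 0 < (S.val ω k).re := by linarith only [hpos, h5]
      rw [Set.indicator_of_mem hω, Set.indicator_of_mem hω, max_eq_right h5.le]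
      have h7 : S.val ω k = (((S.val ω k).re : ℝ) : ℂ) := Complex.ext (by simp) (by
        rw [(hreal ω).2, Complex.ofReal_im])
      rw [h7, ← Complex.ofReal_mul, ← Complex.ofReal_mul, Complex.ofReal_re]
      rw [← Complex.ofReal_one]
      congr 1
      have h8 := Real.sqrt_ne_zero'.2 h6
      field_simp
      rw [Real.sq_sqrt h6.le]
    · rw [Set.indicator_of_notMem hω, Set.indicator_of_notMem hω, mul_zero]

/-- a nonzero element normalizing `A` on both sides is not orthogonal to `N` -/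
theorem not_orth_of_normalizing (hA : SO.IsMASA A M) (hξ : IsTrace M ξ)
    (hN : ∀ u : nrm M A, op u ∈ N) {x : H →L[ℂ] H} (hx : x ∈ M) (hx0 : x ≠ 0)
    (h1 : ∀ p ∈ A, IsStarProjection p → ∃ p' ∈ A, IsStarProjection p' ∧ x * p = p' * x)
    (h2 : ∀ p ∈ A, IsStarProjection p → ∃ p' ∈ A, IsStarProjection p' ∧ p * x = x * p') :
    ∃ n ∈ N, vtr ξ (star n * x) ≠ 0 := by
  have hAN := masa_le_of_nrm hA hN
  have hne : Nontrivial H := by
    by_contra hcon
    rw [not_nontrivial_iff_subsingleton] at hcon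
    exact hx0 (ContinuousLinearMap.ext fun ζ => Subsingleton.elim _ _)
  have hsx : star x ∈ M := star_mem hx
  have hin1 : ∀ b ∈ A, star x * b * x ∈ A := by
    intro b hb
    refine mem_masa_of_proj hA (mul_mem (mul_mem hsx (hA.1 b hb)) hx) fun p hp hpp => ?_
    obtain ⟨p', hp', hpp', h⟩ := h1 p hp hpp
    have h3 : p * star x = star x * p' := by
      have := congrArg star h
      rwa [star_mul, star_mul, hpp.isSelfAdjoint.star_eq, hpp'.isSelfAdjoint.star_eq] at this
    calc star x * b * x * p = star x * (b * p') * x := by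
          rw [mul_assoc _ x p, h]; simp only [mul_assoc]
      _ = star x * p' * b * x := by rw [hA.2.1 b hb p' hp']; simp only [mul_assoc]
      _ = p * (star x * b * x) := by rw [← h3]; simp only [mul_assoc]
  have hin2 : ∀ b ∈ A, x * b * star x ∈ A := by
    intro b hb
    refine mem_masa_of_proj hA (mul_mem (mul_mem hx (hA.1 b hb)) hsx) fun p hp hpp => ?_
    obtain ⟨p', hp', hpp', h⟩ := h2 p hp hpp
    have h3 : star x * p = p' * star x := by
      have := congrArg star h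
      rwa [star_mul, star_mul, hpp.isSelfAdjoint.star_eq, hpp'.isSelfAdjoint.star_eq] at this
    calc x * b * star x * p = x * (b * p') * star x := by
          rw [mul_assoc _ (star x) p, h3]; simp only [mul_assoc]
      _ = x * p' * b * star x := by rw [hA.2.1 b hb p' hp']; simp only [mul_assoc]
      _ = p * (x * b * star x) := by rw [← h]; simp only [mul_assoc]
  obtain ⟨k, hk⟩ : ∃ k : H →L[ℂ] H, k = star x * x := ⟨_, rfl⟩
  have hkA : k ∈ A := by
    have := hin1 1 (one_mem A)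
    rwa [mul_one, ← hk] at this
  have hk0 : 0 ≤ k := by rw [hk]; exact star_mul_self_nonneg x
  have hk1 : k ≠ 0 := by
    intro h
    rw [hk] at h
    exact hx0 ((CStarRing.star_mul_self_eq_zero_iff x).1 h)
  obtain ⟨p, hpA, a, haA, hpp, hp0, hsa, hak⟩ := exists_inv_proj hA hne hkA hk0 hk1
  have haM := hA.1 a haA
  have hvs : star (x * a) = a * star x := by rw [star_mul, hsa]
  have hvv : star (x * a) * (x * a) = p := by
    rw [hvs, ← hak, hk]; simp only [mul_assoc]
  obtain ⟨q, hqA, hqp, hvq, hvqN⟩ := gn_restrict hA hξ hN (v := x * a) (mul_mem hx haM)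
    (by
      intro h
      rw [h, mul_zero] at hvv
      exact hp0 hvv.symm)
    (by rw [hvv]; exact hpA)
    (by
      have : x * a * star (x * a) = x * (a * a) * star x := by rw [hvs]; simp only [mul_assoc]
      rw [this]
      exact hin2 _ (mul_mem haA haA))
    (by rw [hvv]; exact hpp)
    (by
      intro b hb
      have : x * a * b * star (x * a) = x * (a * b * a) * star x := by
        rw [hvs]; simp only [mul_assoc]
      rw [this]
      exact hin2 _ (mul_mem (mul_mem haA hb) haA))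
    (by
      intro b hb
      have : star (x * a) * b * (x * a) = a * (star x * b * x) * a := by
        rw [hvs]; simp only [mul_assoc]
      rw [this]
      exact mul_mem (mul_mem haA (hin1 b hb)) haA)
  refine ⟨x * a * q * a, mul_mem hvqN (hAN a haA), ?_⟩
  have hqM := hA.1 q hqA
  have e1 : star (x * a * q * a) * x = star (x * a * q) * (x * a * q) := by
    have c1 : k * a = a * k := hA.2.1 k hkA a haA
    have c2 : q * a = a * q := hA.2.1 q hqA a haA
    have c3 : k * q = q * k := hA.2.1 k hkA q hqA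
    calc star (x * a * q * a) * x = a * q * a * k := by
          rw [hk, star_mul, star_mul, hvs, hqp.isSelfAdjoint.star_eq, hsa]
          simp only [mul_assoc]
      _ = q * a * a * k := by rw [← c2]
      _ = q * (a * (k * a)) := by rw [c1]; simp only [mul_assoc]
      _ = q * (a * k) * a := by simp only [mul_assoc]
      _ = q * a * k * a * q := by
          have c4 : a * k * a * q = q * (a * k * a) := by
            rw [mul_assoc, ← c2, ← mul_assoc, mul_assoc a k q, c3, ← mul_assoc, ← c2]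
            simp only [mul_assoc]
          have c5 : q * a * k * a * q = q * (a * k * a * q) := by simp only [mul_assoc]
          rw [c5, c4, ← mul_assoc q q, hqp.isIdempotentElem]
          simp only [mul_assoc]
      _ = star (x * a * q) * (x * a * q) := by
          rw [star_mul, hvs, hqp.isSelfAdjoint.star_eq, hk]
          simp only [mul_assoc]
  rw [e1]
  intro h
  have h3 : n2 ξ (x * a * q) = 0 := by rw [n2_eq hξ, h, Complex.zero_re]
  exact hvq (eq_zero_of_n2 hξ (mul_mem (mul_mem hx haM) hqM) h3)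

end Vale.Agent.P078.F
end

section

/-! General MASAs, part 5: elements orthogonal to the normalizer have small blocks. -/

namespace Vale.Agent.P078.F

open Filter Topology
open Vale.Agent.P078 Vale.Agent.P078.C

universe u

variable {H : Type u} [NormedAddCommGroup H] [InnerProductSpace ℂ H] [CompleteSpace H]
variable {M A N : VonNeumannAlgebra H} {ξ : ℕ → H} {E : (H →L[ℂ] H) →ₗ[ℂ] (H →L[ℂ] H)}

namespace DL

theorem op_part (hA : SO.IsMASA A M) (Q : Part A.toStarSubalgebra) : Mj.OP M Q.e :=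
  ⟨fun j => hA.1 _ (Q.mem j), Q.proj, Q.orth⟩

theorem n2_part_E (hA : SO.IsMASA A M) (hξ : IsTrace M ξ) (Q : Part A.toStarSubalgebra)
    (x : H →L[ℂ] H) : n2 ξ (Q.E x) = ∑ i, n2 ξ (Q.e i * x * Q.e i) :=
  Mj.n2_TT hξ (op_part hA Q) x

theorem n2_part_E_le (hA : SO.IsMASA A M) (hξ : IsTrace M ξ) (Q : Part A.toStarSubalgebra)
    {x : H →L[ℂ] H} (hx : x ∈ M) : n2 ξ (Q.E x) ≤ n2 ξ x := by
  have h1 := n2_sub_part_E hA hξ Q hx
  have h2 := n2_nonneg ξ (x - Q.E x)
  linarith only [h1, h2]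

/-- the `4`-norm of `x` is the `2`-norm of `x x*` -/
theorem n4_eq (hξ : IsTrace M ξ) {x : H →L[ℂ] H} (hx : x ∈ M) :
    n4 ξ x = n2 ξ (x * star x) := by
  rw [← n4_star hξ hx]
  unfold n4
  rw [star_star]

theorem n4_left (hξ : IsTrace M ξ) {p x : H →L[ℂ] H} (hp : p ∈ M) (hpp : IsStarProjection p)
    (hx : x ∈ M) : n4 ξ (p * x) = n2 ξ (p * (x * star x) * p) := by
  rw [n4_eq hξ (mul_mem hp hx), star_mul, hpp.isSelfAdjoint.star_eq]
  simp only [mul_assoc]

theorem sum_n4_left (hA : SO.IsMASA A M) (hξ : IsTrace M ξ) (Q : Part A.toStarSubalgebra)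
    {x : H →L[ℂ] H} (hx : x ∈ M) : ∑ i, n4 ξ (Q.e i * x) = n2 ξ (Q.E (x * star x)) := by
  rw [n2_part_E hA hξ]
  exact Finset.sum_congr rfl fun i _ => n4_left hξ (hA.1 _ (Q.mem i)) (Q.proj i) hx

theorem sum_n4_left_le (hA : SO.IsMASA A M) (hξ : IsTrace M ξ) (Q : Part A.toStarSubalgebra)
    {x : H →L[ℂ] H} (hx : x ∈ M) : ∑ i, n4 ξ (Q.e i * x) ≤ n4 ξ x := by
  rw [sum_n4_left hA hξ Q hx, n4_eq hξ hx]
  exact n2_part_E_le hA hξ Q (mul_mem hx (star_mem hx))

theorem n4_right (hA : SO.IsMASA A M) (hξ : IsTrace M ξ) (Q : Part A.toStarSubalgebra)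
    {x : H →L[ℂ] H} (hx : x ∈ M) (i : Q.ι) : n4 ξ (x * Q.e i) = n4 ξ (Q.e i * star x) := by
  rw [← n4_star hξ (mul_mem hx (hA.1 _ (Q.mem i))), star_mul, (Q.proj i).isSelfAdjoint.star_eq]

theorem sum_n4_right_le (hA : SO.IsMASA A M) (hξ : IsTrace M ξ) (Q : Part A.toStarSubalgebra)
    {x : H →L[ℂ] H} (hx : x ∈ M) : ∑ i, n4 ξ (x * Q.e i) ≤ n4 ξ x := by
  rw [Finset.sum_congr rfl fun i _ => n4_right hA hξ Q hx i, ← n4_star hξ hx]
  exact sum_n4_left_le hA hξ Q (star_mem hx)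

/-- block sums decrease under refinement -/
theorem D_mono (hA : SO.IsMASA A M) (hξ : IsTrace M ξ) (J L : Part A.toStarSubalgebra)
    {b : H →L[ℂ] H} (hb : b ∈ M) (hc : ∀ x ∈ A.toStarSubalgebra, ∀ y ∈ A.toStarSubalgebra,
      x * y = y * x) :
    ∑ i, ∑ j, n4 ξ ((J.inf hc L).e i * b * (J.inf hc L).e j) ≤
      ∑ i, ∑ j, n4 ξ (J.e i * b * L.e j) := by
  have hJ : ∀ i, J.e i ∈ M := fun i => hA.1 _ (J.mem i)
  have hL : ∀ i, L.e i ∈ M := fun i => hA.1 _ (L.mem i)
  have e0 : ∑ i, ∑ j, n4 ξ ((J.inf hc L).e i * b * (J.inf hc L).e j) =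
      ∑ p : J.ι × L.ι, ∑ q : J.ι × L.ι, n4 ξ (J.e p.1 * L.e p.2 * b * (J.e q.1 * L.e q.2)) := rfl
  rw [e0, Fintype.sum_prod_type]
  refine Finset.sum_le_sum fun i _ => ?_
  rw [Finset.sum_comm, Fintype.sum_prod_type, Finset.sum_comm]
  refine Finset.sum_le_sum fun j _ => ?_
  refine le_trans ?_ (sum_n4_right_le hA hξ J (mul_mem (mul_mem (hJ i) hb) (hL j)))
  refine Finset.sum_le_sum fun i' _ => ?_
  refine le_trans (le_of_eq ?_) (sum_n4_left_le hA hξ L
    (mul_mem (mul_mem (mul_mem (hJ i) hb) (hL j)) (hJ i')))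
  refine Finset.sum_congr rfl fun j' _ => ?_
  congr 1
  simp only
  rw [hc _ (J.mem i) _ (L.mem j'), hc _ (J.mem i') _ (L.mem j)]
  simp only [mul_assoc]

theorem n2_sub_E (hA : SO.IsMASA A M) (hξ : IsTrace M ξ) (hE : IsTrExp M A ξ E)
    (Q : Part A.toStarSubalgebra) {z : H →L[ℂ] H} (hz : z ∈ M) :
    n2 ξ (Q.E z - E z) = n2 ξ (Q.E z) - n2 ξ (E z) := by
  have hAs := SO.IsMASA.toStar hA
  have hQz : Q.E z ∈ M := Q.E_mem hAs.1 hz
  have hEz : E z ∈ A := hE.mem z hz
  have hEzM : E z ∈ M := hA.1 _ hEz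
  have h1 : E (Q.E z) = E z := by
    rw [Part.E_apply, map_sum]
    have h2 : ∀ i, E (Q.e i * z * Q.e i) = E z * Q.e i := by
      intro i
      rw [hE.bimod _ (Q.mem i) _ (Q.mem i) z hz, hA.2.1 _ (Q.mem i) _ hEz, mul_assoc,
        Q.e_mul_self]
    rw [Finset.sum_congr rfl fun i _ => h2 i, ← Finset.mul_sum, Q.sum_eq, mul_one]
  have h3 : vtr ξ (star (E z) * Q.E z) = vtr ξ (star (E z) * E z) := by
    rw [← hE.tr _ (mul_mem (star_mem hEzM) hQz)]
    have h4 := hE.bimod (star (E z)) (star_mem hEz) 1 (one_mem A) (Q.E z) hQz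
    rw [mul_one, mul_one, h1] at h4
    rw [h4]
  rw [Mj.n2_sub hξ, h3, n2_eq hξ (E z)]
  ring

/-- lower bound for the limits -/
theorem lower (hA : SO.IsMASA A M) (hξ : IsTrace M ξ) (hE : IsTrExp M A ξ E) {b : H →L[ℂ] H}
    (hb : b ∈ M) {c : ℝ}
    (hD : ∀ Q : Part A.toStarSubalgebra, c ≤ ∑ i, ∑ j, n4 ξ (Q.e i * b * Q.e j))
    (L : Part A.toStarSubalgebra) : c ≤ ∑ j, n2 ξ (E (b * L.e j * star b)) := by
  have hAs := SO.IsMASA.toStar hA
  have := Part.filter_neBot hAs.2.1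
  have hL : ∀ i, L.e i ∈ M := fun i => hA.1 _ (L.mem i)
  have hz : ∀ j, b * L.e j * star b ∈ M := fun j => mul_mem (mul_mem hb (hL j)) (star_mem hb)
  refine le_of_forall_pos_le_add fun ε hε => ?_
  obtain ⟨δ, hδ, hδ'⟩ : ∃ δ : ℝ, 0 < δ ∧ (Fintype.card L.ι : ℝ) * δ ≤ ε := by
    refine ⟨ε / (Fintype.card L.ι + 1), by positivity, ?_⟩
    rw [mul_div_assoc', div_le_iff₀ (by (clear * -; positivity))]
    linarith only [hε]
  have h1 : ∀ j : L.ι, ∀ᶠ J in Part.filter A.toStarSubalgebra,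
      n2 ξ (J.E (b * L.e j * star b) - E (b * L.e j * star b)) ≤ δ := by
    intro j
    obtain ⟨Q, hQ⟩ := pinch_lim hA hξ hE (hz j) hδ
    filter_upwards [Part.eventually_finer Q] with J hJ
    exact hQ J hJ
  obtain ⟨J, hJ⟩ := (eventually_all.2 h1).exists
  have h2 : c ≤ ∑ i, ∑ j, n4 ξ (J.e i * b * L.e j) :=
    (hD _).trans (D_mono hA hξ J L hb hAs.2.1)
  refine h2.trans ?_
  rw [Finset.sum_comm]
  have h3 : ∀ j, ∑ i, n4 ξ (J.e i * b * L.e j) ≤ n2 ξ (E (b * L.e j * star b)) + δ := by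
    intro j
    have h4 := sum_n4_left hA hξ J (mul_mem hb (hL j))
    have h5 : b * L.e j * star (b * L.e j) = b * L.e j * star b := by
      rw [star_mul, (L.proj j).isSelfAdjoint.star_eq, mul_assoc, ← mul_assoc (L.e j),
        L.e_mul_self, mul_assoc]
    rw [h5] at h4
    simp only [mul_assoc] at h4 ⊢
    rw [h4]
    have h6 := hJ j
    have h7 := n2_sub_E hA hξ hE J (hz j)
    simp only [mul_assoc] at h6 h7
    linarith only [h6, h7]
  refine (Finset.sum_le_sum fun j _ => h3 j).trans ?_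
  rw [Finset.sum_add_distrib, Finset.sum_const, Finset.card_univ, nsmul_eq_mul]
  linarith only [hδ']

theorem n4_smul (hξ : IsTrace M ξ) (t : ℝ) (x : H →L[ℂ] H) :
    n4 ξ ((t : ℂ) • x) = t ^ 4 * n4 ξ x := by
  have h1 : ∀ (s : ℝ) (y : H →L[ℂ] H), n2 ξ ((s : ℂ) • y) = s ^ 2 * n2 ξ y := by
    intro s y
    rw [n2_eq hξ, n2_eq hξ, star_smul, Complex.star_def, Complex.conj_ofReal,
      smul_mul_smul_comm, vtr_smul hξ, ← Complex.ofReal_mul, Complex.re_ofReal_mul]
    ring
  unfold n4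
  rw [star_smul, Complex.star_def, Complex.conj_ofReal, smul_mul_smul_comm, ← Complex.ofReal_mul,
    h1]
  ring_nf

/-- orthogonality to `N` passes through the vote -/
theorem orth_aux (hA : SO.IsMASA A M) (hξ : IsTrace M ξ) (hNM : ∀ x ∈ N, x ∈ M)
    (hAN : ∀ a ∈ A, a ∈ N) {b : H →L[ℂ] H} (hb : b ∈ M)
    (horth : ∀ n ∈ N, vtr ξ (star n * b) = 0) :
    ∀ n ∈ N, ∀ a ∈ A, ∀ a' ∈ A, vtr ξ (star n * (a * b * a')) = 0 := by
  intro n hn a ha a' ha'
  have h1 : star n * (a * b * a') = (star n * (a * b)) * a' := by simp only [mul_assoc]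
  have hM : star n * (a * b) ∈ M := mul_mem (star_mem (hNM n hn)) (mul_mem (hA.1 _ ha) hb)
  rw [h1, hξ.tracial _ hM _ (hA.1 _ ha')]
  have h2 := horth (star a * n * star a')
    (mul_mem (mul_mem (star_mem (hAN a ha)) hn) (star_mem (hAN a' ha')))
  rw [star_mul, star_mul, star_star, star_star] at h2
  rw [← h2]
  congr 1

/-- orthogonality to `N` passes to adjoints -/
theorem orth_star (hξ : IsTrace M ξ) (hNM : ∀ x ∈ N, x ∈ M) {b : H →L[ℂ] H} (hb : b ∈ M)
    (horth : ∀ n ∈ N, vtr ξ (star n * b) = 0) : ∀ n ∈ N, vtr ξ (star n * star b) = 0 := by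
  intro n hn
  have h1 := horth (star n) (star_mem hn)
  rw [star_star] at h1
  have h2 : star n * star b = star (b * n) := by rw [star_mul]
  rw [h2, vtr_star hξ, hξ.tracial _ hb _ (hNM n hn), h1, star_zero]

end DL

theorem small_blocks (hA : SO.IsMASA A M) (hξ : IsTrace M ξ) (hE : IsTrExp M A ξ E)
    (hNM : ∀ x ∈ N, x ∈ M) (hN : ∀ u : nrm M A, op u ∈ N) {y : H →L[ℂ] H} (hy : y ∈ M)
    (horth : ∀ n ∈ N, vtr ξ (star n * y) = 0) {ε : ℝ} (hε : 0 < ε) :
    ∃ Q : Part A.toStarSubalgebra, ∑ i, ∑ j, n4 ξ (Q.e i * y * Q.e j) ≤ ε := by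
  by_contra hcon
  push Not at hcon
  have hAs := SO.IsMASA.toStar hA
  have hAN := masa_le_of_nrm hA hN
  -- scaling
  obtain ⟨t, ht0, hbt⟩ : ∃ t : ℝ, 0 < t ∧ ‖(t : ℂ) • y‖ ≤ 1 := by
    refine ⟨(1 + ‖y‖)⁻¹, by positivity, ?_⟩
    rw [norm_smul, Complex.norm_real, Real.norm_eq_abs, abs_of_pos (by positivity),
      inv_mul_le_iff₀ (by positivity)]
    linarith only
  obtain ⟨b, hbdef⟩ : ∃ b : H →L[ℂ] H, b = (t : ℂ) • y := ⟨_, rfl⟩
  rw [← hbdef] at hbt
  have hbM : b ∈ M := by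
    rw [hbdef]
    exact Mj.smul_mem' _ hy
  have hborth : ∀ n ∈ N, vtr ξ (star n * b) = 0 := by
    intro n hn
    rw [hbdef, mul_smul_comm, vtr_smul hξ, horth n hn, mul_zero]
  have hc : 0 < t ^ 4 * ε := by (clear * - hε ht0; positivity)
  have hD : ∀ Q : Part A.toStarSubalgebra,
      t ^ 4 * ε ≤ ∑ i, ∑ j, n4 ξ (Q.e i * b * Q.e j) := by
    intro Q
    have h1 : ∀ i j, n4 ξ (Q.e i * b * Q.e j) = t ^ 4 * n4 ξ (Q.e i * y * Q.e j) := by
      intro i j
      rw [hbdef, mul_smul_comm, smul_mul_assoc, DL.n4_smul hξ]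
    simp_rw [h1, ← Finset.mul_sum]
    exact mul_le_mul_of_nonneg_left (hcon Q).le (by (clear * - ht0; positivity))
  -- first vote
  obtain ⟨x1, hx1M, hx10, hx1n, hx1o, hx1r, -⟩ :=
    majority hA hξ hE hbM hbt hc (DL.lower hA hξ hE hbM hD)
  have hx1orth : ∀ n ∈ N, vtr ξ (star n * x1) = 0 := fun n hn =>
    hx1o n (hNM n hn) (DL.orth_aux hA hξ hNM hAN hbM hborth n hn)
  -- the adjoint
  have hsx1 : star x1 ∈ M := star_mem hx1M
  have hleft : ∀ p ∈ A, IsStarProjection p → ∃ p' ∈ A, IsStarProjection p' ∧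
      p * star x1 = star x1 * p' := by
    intro p hp hpp
    obtain ⟨p', hp', hpp', h⟩ := hx1r p hp hpp
    refine ⟨p', hp', hpp', ?_⟩
    have h1 := congrArg star h
    rw [star_mul, star_mul, hpp.isSelfAdjoint.star_eq, hpp'.isSelfAdjoint.star_eq] at h1
    exact h1
  have hin : ∀ e ∈ A, star x1 * e * x1 ∈ A := by
    intro e he
    refine hA.2.2 _ (mul_mem (mul_mem hsx1 (hA.1 _ he)) hx1M) ?_
    intro a ha
    refine (hAs.comm_of_proj (y := star x1 * e * x1) ?_ a ha).symm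
    intro p hp hpp
    obtain ⟨p', hp', hpp', h⟩ := hx1r p hp hpp
    have h1 := congrArg star h
    rw [star_mul, star_mul, hpp.isSelfAdjoint.star_eq, hpp'.isSelfAdjoint.star_eq] at h1
    symm
    calc p * (star x1 * e * x1) = (p * star x1) * e * x1 := by simp only [mul_assoc]
      _ = star x1 * (p' * e) * x1 := by rw [h1]; simp only [mul_assoc]
      _ = star x1 * (e * p') * x1 := by rw [hA.2.1 p' hp' e he]
      _ = star x1 * e * (p' * x1) := by simp only [mul_assoc]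
      _ = star x1 * e * x1 * p := by rw [← h]; simp only [mul_assoc]
  have hpos : 0 < n2 ξ (star x1) := by
    rw [n2_star hξ hx1M]
    refine lt_of_le_of_ne (n2_nonneg _ _) fun h => hx10 (eq_zero_of_n2 hξ hx1M h.symm)
  have hlow : ∀ Q : Part A.toStarSubalgebra,
      n2 ξ (star x1) ^ 2 ≤ ∑ j, n2 ξ (E (star x1 * Q.e j * star (star x1))) := by
    intro Q
    have h1 : ∀ j, n2 ξ (E (star x1 * Q.e j * star (star x1))) = n4 ξ (Q.e j * x1) := by
      intro j
      rw [star_star, hE.idem _ (hin _ (Q.mem j))]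
      unfold n4
      rw [star_mul, (Q.proj j).isSelfAdjoint.star_eq]
      congr 1
      rw [mul_assoc (star x1) (Q.e j) (Q.e j * x1), ← mul_assoc (Q.e j) (Q.e j), Q.e_mul_self,
        mul_assoc]
    rw [Finset.sum_congr rfl fun j _ => h1 j, DL.sum_n4_left hA hξ Q hx1M]
    refine le_trans (le_of_eq ?_) (Mj.sq_vtr_le hξ _)
    rw [vtr_part_E hA hξ Q (mul_mem hx1M hsx1), n2_eq hξ, star_star]
  -- second vote
  obtain ⟨x2, hx2M, hx20, -, hx2o, hx2r, hx2l⟩ :=
    majority hA hξ hE hsx1 (by rwa [norm_star]) (by (clear * - hpos; positivity) : 0 < n2 ξ (star x1) ^ 2) hlow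
  have hx2orth : ∀ n ∈ N, vtr ξ (star n * x2) = 0 := fun n hn =>
    hx2o n (hNM n hn) (DL.orth_aux hA hξ hNM hAN hsx1
      (DL.orth_star hξ hNM hx1M hx1orth) n hn)
  obtain ⟨n, hn, hn0⟩ := not_orth_of_normalizing hA hξ hN hx2M hx20 hx2r (hx2l hleft)
  exact hn0 (hx2orth n hn)

end Vale.Agent.P078.F
end

end
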