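import Vale.Agent.P078.Bdl.B15
import Vale.Agent.P078.Bdl.B13
import Vale.Agent.P078.Bdl.B10
import Vale.Agent.P078.Bdl.B8
import Vale.Agent.P078.Bdl.Fast
import Vale.Agent.P078.Semi0
import Vale.Agent.P078.Growth0
import Vale.Agent.P078.FactorDefs0

set_option linter.all false
attribute [local instance] Vale.Agent.P078.Fast.a01 Vale.Agent.P078.Fast.a02
  Vale.Agent.P078.Fast.a03 Vale.Agent.P078.Fast.a04 Vale.Agent.P078.Fast.a05
  Vale.Agent.P078.Fast.a06 Vale.Agent.P078.Fast.a07 Vale.Agent.P078.Fast.a08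
  Vale.Agent.P078.Fast.a09 Vale.Agent.P078.Fast.a10 Vale.Agent.P078.Fast.a11
  Vale.Agent.P078.Fast.a12 Vale.Agent.P078.Fast.a13 Vale.Agent.P078.Fast.a14
  Vale.Agent.P078.Fast.a15 Vale.Agent.P078.Fast.a16 Vale.Agent.P078.Fast.a17
  Vale.Agent.P078.Fast.a18 Vale.Agent.P078.Fast.a19 Vale.Agent.P078.Fast.a20
  Vale.Agent.P078.Fast.a21 Vale.Agent.P078.Fast.a22 Vale.Agent.P078.Fast.a23
  Vale.Agent.P078.Fast.a24 Vale.Agent.P078.Fast.a25 Vale.Agent.P078.Fast.a26
  Vale.Agent.P078.Fast.a27 Vale.Agent.P078.Fast.a28 Vale.Agent.P078.Fast.a29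
  Vale.Agent.P078.Fast.a30 Vale.Agent.P078.Fast.a31 Vale.Agent.P078.Fast.a32
  Vale.Agent.P078.Fast.a33 Vale.Agent.P078.Fast.a34 Vale.Agent.P078.Fast.a35
  Vale.Agent.P078.Fast.a36 Vale.Agent.P078.Fast.a37 Vale.Agent.P078.Fast.a38
  Vale.Agent.P078.Fast.a39 Vale.Agent.P078.Fast.a40 Vale.Agent.P078.Fast.a41
  Vale.Agent.P078.Fast.a42 Vale.Agent.P078.Fast.a43 Vale.Agent.P078.Fast.a44
  Vale.Agent.P078.Fast.a45 Vale.Agent.P078.Fast.a46 Vale.Agent.P078.Fast.a47
  Vale.Agent.P078.Fast.a48 Vale.Agent.P078.Fast.a49 Vale.Agent.P078.Fast.a50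
  Vale.Agent.P078.Fast.a51 Vale.Agent.P078.Fast.a52 Vale.Agent.P078.Fast.a53
  Vale.Agent.P078.Fast.a54
attribute [local instance] Vale.Agent.P078.Fast.b01 Vale.Agent.P078.Fast.b02
  Vale.Agent.P078.Fast.b03 Vale.Agent.P078.Fast.b04 Vale.Agent.P078.Fast.b05
  Vale.Agent.P078.Fast.b06 Vale.Agent.P078.Fast.b07 Vale.Agent.P078.Fast.b08
  Vale.Agent.P078.Fast.b09 Vale.Agent.P078.Fast.b10 Vale.Agent.P078.Fast.b11

section
section

/-! T5 (Y): the block quantity for overlapping neighbourhoods. -/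

namespace Vale.Agent.P078.Y

open Filter Topology
open Vale.Agent.P078 Vale.Agent.P078.C Vale.Agent.P078.F
open scoped Classical

universe u

variable {H : Type u} [NormedAddCommGroup H] [InnerProductSpace ℂ H] [CompleteSpace H]
variable {M A N : VonNeumannAlgebra H} {ξ : ℕ → H} {E : (H →L[ℂ] H) →ₗ[ℂ] (H →L[ℂ] H)}

/-- the neighbourhood of the label atom `i` -/
noncomputable def nb (f : Part A.toStarSubalgebra) {I : Type*} (near : f.ι → Finset I) (i : I) :
    H →L[ℂ] H := ∑ l, if i ∈ near l then f.e l else 0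

/-- the square of a sum of operators -/
theorem star_sum_mul_sum_le {ι : Type*} (s : Finset ι) (x : ι → (H →L[ℂ] H)) :
    star (∑ i ∈ s, x i) * (∑ i ∈ s, x i) ≤ (s.card : ℝ) • ∑ i ∈ s, star (x i) * x i := by
  have h1 : ∑ i ∈ s, ∑ j ∈ s, star (x i - x j) * (x i - x j) =
      (2 : ℝ) • ((s.card : ℝ) • ∑ i ∈ s, star (x i) * x i -
        star (∑ i ∈ s, x i) * (∑ i ∈ s, x i)) := by
    have h2 : ∀ i j, star (x i - x j) * (x i - x j) =
        star (x i) * x i - star (x i) * x j - (star (x j) * x i - star (x j) * x j) := by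
      intro i j
      rw [star_sub, sub_mul, mul_sub, mul_sub]
    simp only [h2, Finset.sum_sub_distrib, Finset.sum_const, ← Finset.mul_sum, ← Finset.sum_mul]
    rw [← star_sum, ← Finset.smul_sum, two_smul, Nat.cast_smul_eq_nsmul]
    abel
  have h3 : 0 ≤ ∑ i ∈ s, ∑ j ∈ s, star (x i - x j) * (x i - x j) :=
    Finset.sum_nonneg fun i _ => Finset.sum_nonneg fun j _ => star_mul_self_nonneg _
  rw [h1] at h3
  have h4 := smul_nonneg (show (0 : ℝ) ≤ 1 / 2 by norm_num) h3
  rw [smul_smul] at h4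
  norm_num at h4
  rw [star_sum]
  exact h4

/-- the `4`-norm of a sum -/
theorem n4_sum_le (hξ : IsTrace M ξ) {ι : Type*} (s : Finset ι) (x : ι → (H →L[ℂ] H))
    (hx : ∀ i ∈ s, x i ∈ M) : n4 ξ (∑ i ∈ s, x i) ≤ (s.card : ℝ) ^ 3 * ∑ i ∈ s, n4 ξ (x i) := by
  have hS : ∑ i ∈ s, x i ∈ M := sum_mem hx
  have hxx : ∀ i ∈ s, star (x i) * x i ∈ M := fun i hi => mul_mem (star_mem (hx i hi)) (hx i hi)
  have hT : ((s.card : ℝ) • ∑ i ∈ s, star (x i) * x i : H →L[ℂ] H) =
      ((s.card : ℝ) : ℂ) • ∑ i ∈ s, star (x i) * x i := (Complex.coe_smul _ _).symm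
  have hle := star_sum_mul_sum_le s x
  rw [hT] at hle
  have h1 := n2_mono hξ (mul_mem (star_mem hS) hS) (Mj.smul_mem' _ (sum_mem hxx))
    (star_mul_self_nonneg _) hle
  rw [F.n2_smul] at h1
  have h2 := F.n2_sum_le hξ s fun i => star (x i) * x i
  have h3 : (0 : ℝ) ≤ ‖((s.card : ℝ) : ℂ)‖ ^ 2 := by (clear * -; positivity)
  calc n4 ξ (∑ i ∈ s, x i) ≤ ‖((s.card : ℝ) : ℂ)‖ ^ 2 * n2 ξ (∑ i ∈ s, star (x i) * x i) := h1
    _ ≤ ‖((s.card : ℝ) : ℂ)‖ ^ 2 * (s.card * ∑ i ∈ s, n2 ξ (star (x i) * x i)) :=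
        mul_le_mul_of_nonneg_left h2 h3
    _ = (s.card : ℝ) ^ 3 * ∑ i ∈ s, n4 ξ (x i) := by
        rw [Complex.norm_real, Real.norm_eq_abs, sq_abs]
        unfold n4
        ring

theorem n4_zero (ξ : ℕ → H) : n4 ξ (0 : H →L[ℂ] H) = 0 := by
  unfold n4
  rw [mul_zero, F.n2_zero]

/-- multiplication by a projection on the left -/
theorem n4_proj_mul_le (hξ : IsTrace M ξ) {p z : H →L[ℂ] H} (hp : p ∈ M)
    (hpp : IsStarProjection p) (hz : z ∈ M) : n4 ξ (p * z) ≤ n4 ξ z := by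
  unfold n4
  have h1 : star (p * z) * (p * z) = star z * p * z := by
    rw [star_mul, hpp.isSelfAdjoint.star_eq, mul_assoc, ← mul_assoc p p z,
      hpp.isIdempotentElem.eq, mul_assoc]
  rw [h1]
  refine n2_mono hξ (mul_mem (mul_mem (star_mem hz) hp) hz) (mul_mem (star_mem hz) hz)
    (star_left_conjugate_nonneg hpp.nonneg z) ?_
  have h2 : star z * z - star z * p * z = star z * (1 - p) * z := by
    rw [mul_sub, sub_mul, mul_one]
  rw [← sub_nonneg, h2]
  exact star_left_conjugate_nonneg hpp.one_sub.nonneg z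

/-- multiplication by a projection on the right -/
theorem n4_mul_proj_le (hξ : IsTrace M ξ) {p z : H →L[ℂ] H} (hp : p ∈ M)
    (hpp : IsStarProjection p) (hz : z ∈ M) : n4 ξ (z * p) ≤ n4 ξ z := by
  rw [← n4_star hξ (mul_mem hz hp), star_mul, hpp.isSelfAdjoint.star_eq, ← n4_star hξ hz]
  exact n4_proj_mul_le hξ hp hpp (star_mem hz)

/-- invariance under unitaries -/
theorem n4_star_op_mul (u : nrm M A) (z : H →L[ℂ] H) : n4 ξ (star (op u) * z) = n4 ξ z := by
  unfold n4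
  rw [star_mul, star_star, mul_assoc, ← mul_assoc (op u), op_mul_star, one_mul]

theorem n4_mul_op (hξ : IsTrace M ξ) (u : nrm M A) {z : H →L[ℂ] H} (hz : z ∈ M) :
    n4 ξ (z * op u) = n4 ξ z := by
  rw [← n4_star hξ (mul_mem hz (op_mem u)), star_mul, n4_star_op_mul, n4_star hξ hz]

/-- the pieces of a neighbourhood -/
noncomputable def nbp (f : Part A.toStarSubalgebra) {I : Type*} {n : ℕ} (idx : Fin n → f.ι → I)
    (i : I) (g : Fin n) : H →L[ℂ] H :=
  ∑ l, if idx g l = i ∧ ∀ g' < g, idx g' l ≠ i then f.e l else 0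

theorem nb_eq_sum (f : Part A.toStarSubalgebra) {I : Type*} {n : ℕ} (idx : Fin n → f.ι → I)
    (i : I) : nb f (fun l => Finset.univ.image fun g => idx g l) i = ∑ g, nbp f idx i g := by
  unfold nb nbp
  rw [Finset.sum_comm]
  refine Finset.sum_congr rfl fun l _ => ?_
  by_cases h : ∃ g, idx g l = i
  · have hmem : i ∈ Finset.univ.image fun g => idx g l := by
      obtain ⟨g, hg⟩ := h
      exact Finset.mem_image.2 ⟨g, Finset.mem_univ _, hg⟩
    rw [if_pos hmem]
    set S : Finset (Fin n) := Finset.univ.filter fun g => idx g l = i with hS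
    have hne : S.Nonempty := by
      obtain ⟨g, hg⟩ := h
      exact ⟨g, by simp only [hS, Finset.mem_filter, Finset.mem_univ, hg, and_self]⟩
    set g₀ := S.min' hne with hg₀
    have hg₀S : g₀ ∈ S := S.min'_mem hne
    rw [Finset.sum_eq_single g₀]
    · rw [if_pos]
      refine ⟨by simpa only [hS, Finset.mem_filter, Finset.mem_univ, true_and] using hg₀S, fun g' hg' h' => ?_⟩
      have := S.min'_le g' (by simp only [hS, Finset.mem_filter, Finset.mem_univ, h', and_self])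
      exact absurd hg' (not_lt.2 this)
    · intro g _ hg
      rw [if_neg]
      rintro ⟨h1, h2⟩
      have h3 := S.min'_le g (by simp only [hS, Finset.mem_filter, Finset.mem_univ, h1, and_self])
      exact h2 g₀ (lt_of_le_of_ne h3 (Ne.symm hg)) (by simpa only [hS, Finset.mem_filter, Finset.mem_univ, true_and] using hg₀S)
    · intro h'
      exact absurd (Finset.mem_univ _) h'
  · have hmem : i ∉ Finset.univ.image fun g => idx g l := by
      intro h'
      obtain ⟨g, -, hg⟩ := Finset.mem_image.1 h'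
      exact h ⟨g, hg⟩
    rw [if_neg hmem]
    symm
    refine Finset.sum_eq_zero fun g _ => ?_
    rw [if_neg]
    rintro ⟨h1, -⟩
    exact h ⟨g, h1⟩

theorem isStarProjection_sum_ite (f : Part A.toStarSubalgebra) (P : f.ι → Prop) :
    IsStarProjection (∑ l, if P l then f.e l else 0) := by
  refine ⟨?_, ?_⟩
  · show (∑ l, if P l then f.e l else 0) * (∑ l, if P l then f.e l else 0) = _
    rw [Finset.sum_mul]
    refine Finset.sum_congr rfl fun l _ => ?_
    by_cases h : P l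
    · rw [if_pos h, Finset.mul_sum, Finset.sum_eq_single l]
      · rw [if_pos h, f.e_mul_self]
      · intro l' _ hl'
        by_cases h' : P l'
        · rw [if_pos h', f.orth _ _ (Ne.symm hl')]
        · rw [if_neg h', mul_zero]
      · intro h'
        exact absurd (Finset.mem_univ _) h'
    · rw [if_neg h, zero_mul]
  · rw [IsSelfAdjoint, star_sum]
    refine Finset.sum_congr rfl fun l _ => ?_
    by_cases h : P l
    · rw [if_pos h, (f.proj l).isSelfAdjoint.star_eq]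
    · rw [if_neg h, star_zero]

theorem nbp_proj (f : Part A.toStarSubalgebra) {I : Type*} {n : ℕ} (idx : Fin n → f.ι → I)
    (i : I) (g : Fin n) : IsStarProjection (nbp f idx i g) := by
  have h := isStarProjection_sum_ite f fun l => idx g l = i ∧ ∀ g' < g, idx g' l ≠ i
  unfold nbp
  convert h

theorem nbp_mem (f : Part A.toStarSubalgebra) {I : Type*} {n : ℕ} (idx : Fin n → f.ι → I)
    (i : I) (g : Fin n) : nbp f idx i g ∈ A := by
  unfold nbp
  refine sum_mem fun l _ => ?_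
  split_ifs
  · exact f.mem l
  · exact zero_mem A

theorem mul_nbp {t f : Part A.toStarSubalgebra} {n : ℕ} (u : Fin n → nrm M A)
    (idx : Fin n → f.ι → t.ι)
    (hidx : ∀ g l, (star (op (u g)) * t.e (idx g l) * op (u g)) * f.e l = f.e l)
    (i : t.ι) (g : Fin n) :
    (star (op (u g)) * t.e i * op (u g)) * nbp f idx i g = nbp f idx i g := by
  unfold nbp
  rw [Finset.mul_sum]
  refine Finset.sum_congr rfl fun l _ => ?_
  split_ifs with h
  · have := hidx g l
    rwa [h.1] at this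
  · rw [mul_zero]

theorem nbp_mul {t f : Part A.toStarSubalgebra} {n : ℕ} (u : Fin n → nrm M A)
    (idx : Fin n → f.ι → t.ι)
    (hidx : ∀ g l, (star (op (u g)) * t.e (idx g l) * op (u g)) * f.e l = f.e l)
    (i : t.ι) (g : Fin n) :
    nbp f idx i g * (star (op (u g)) * t.e i * op (u g)) = nbp f idx i g := by
  have h := congrArg star (mul_nbp u idx hidx i g)
  rw [star_mul, star_mul, star_mul, star_star, (t.proj i).isSelfAdjoint.star_eq,
    (nbp_proj f idx i g).isSelfAdjoint.star_eq] at h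
  rwa [mul_assoc (star (op (u g)))]

/-- comparison with the block sums of translates -/
theorem dplus_le (hA : SO.IsMASA A M) (hξ : IsTrace M ξ) (t f : Part A.toStarSubalgebra)
    {n : ℕ} (u : Fin n → nrm M A) (idx : Fin n → f.ι → t.ι)
    (hidx : ∀ g l, (star (op (u g)) * t.e (idx g l) * op (u g)) * f.e l = f.e l)
    {y : H →L[ℂ] H} (hy : y ∈ M) :
    ∑ i, ∑ j, n4 ξ (nb f (fun l => Finset.univ.image fun g => idx g l) i * y *
        nb f (fun l => Finset.univ.image fun g => idx g l) j) ≤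
      (n : ℝ) ^ 6 * ∑ g, ∑ g', ∑ i, ∑ j,
        n4 ξ (t.e i * (op (u g) * y * star (op (u g'))) * t.e j) := by
  have htM : ∀ i, t.e i ∈ M := fun i => hA.1 _ (t.mem i)
  have hnM : ∀ i g, nbp f idx i g ∈ M := fun i g => hA.1 _ (nbp_mem f idx i g)
  have key : ∀ i j, n4 ξ (nb f (fun l => Finset.univ.image fun g => idx g l) i * y *
        nb f (fun l => Finset.univ.image fun g => idx g l) j) ≤
      (n : ℝ) ^ 6 * ∑ g, ∑ g', n4 ξ (t.e i * (op (u g) * y * star (op (u g'))) * t.e j) := by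
    intro i j
    have h1 : nb f (fun l => Finset.univ.image fun g => idx g l) i * y *
        nb f (fun l => Finset.univ.image fun g => idx g l) j =
        ∑ p : Fin n × Fin n, nbp f idx i p.1 * y * nbp f idx j p.2 := by
      rw [nb_eq_sum, nb_eq_sum, Fintype.sum_prod_type, Finset.sum_mul, Finset.sum_mul]
      refine Finset.sum_congr rfl fun g _ => ?_
      rw [Finset.mul_sum]
    rw [h1]
    refine (n4_sum_le hξ _ _ fun p _ => mul_mem (mul_mem (hnM i p.1) hy) (hnM j p.2)).trans ?_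
    have h2 : ((Finset.univ : Finset (Fin n × Fin n)).card : ℝ) ^ 3 = (n : ℝ) ^ 6 := by
      rw [Finset.card_univ, Fintype.card_prod, Fintype.card_fin]
      push_cast
      ring
    rw [h2, Fintype.sum_prod_type]
    refine mul_le_mul_of_nonneg_left ?_ (by (clear * -; positivity))
    refine Finset.sum_le_sum fun g _ => Finset.sum_le_sum fun g' _ => ?_
    have hU := op_mem (u g)
    have hU' := op_mem (u g')
    have hz : t.e i * (op (u g) * y * star (op (u g'))) * t.e j ∈ M :=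
      mul_mem (mul_mem (htM i) (mul_mem (mul_mem hU hy) (star_mem hU'))) (htM j)
    have h3 : nbp f idx i g * y * nbp f idx j g' = nbp f idx i g *
        ((star (op (u g)) * (t.e i * (op (u g) * y * star (op (u g'))) * t.e j)) * op (u g')) *
        nbp f idx j g' := by
      conv_lhs => rw [← nbp_mul u idx hidx i g, ← mul_nbp u idx hidx j g']
      simp only [mul_assoc]
    have hz' : (star (op (u g)) * (t.e i * (op (u g) * y * star (op (u g'))) * t.e j)) *
        op (u g') ∈ M := mul_mem (mul_mem (star_mem hU) hz) hU'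
    rw [h3]
    refine (n4_mul_proj_le hξ (hnM j g') (nbp_proj f idx j g') (mul_mem (hnM i g) hz')).trans ?_
    refine (n4_proj_mul_le hξ (hnM i g) (nbp_proj f idx i g) hz').trans (le_of_eq ?_)
    rw [n4_mul_op hξ (u g') (mul_mem (star_mem hU) hz), n4_star_op_mul]
  refine (Finset.sum_le_sum fun i _ => Finset.sum_le_sum fun j _ => key i j).trans (le_of_eq ?_)
  simp only [← Finset.mul_sum]
  congr 1
  rw [Finset.sum_congr rfl fun i _ => Finset.sum_comm]
  rw [Finset.sum_comm]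
  refine Finset.sum_congr rfl fun g _ => ?_
  rw [Finset.sum_congr rfl fun i _ => Finset.sum_comm]
  rw [Finset.sum_comm]

/-- block sums decrease under refinement -/
theorem block_mono (hA : SO.IsMASA A M) (hξ : IsTrace M ξ) {Q t : Part A.toStarSubalgebra}
    (h : Q.Finer t) {z : H →L[ℂ] H} (hz : z ∈ M) :
    ∑ i, ∑ j, n4 ξ (t.e i * z * t.e j) ≤ ∑ i, ∑ j, n4 ξ (Q.e i * z * Q.e j) := by
  have hAs := SO.IsMASA.toStar hA
  have hQM : ∀ i, Q.e i ∈ M := fun i => hA.1 _ (Q.mem i)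
  have htM : ∀ i, t.e i ∈ M := fun i => hA.1 _ (t.mem i)
  have hcov : ∀ i, t.e i ≠ 0 → ∃ k, t.e i * Q.e k = t.e i := by
    intro i hi
    by_contra hcon
    push Not at hcon
    apply hi
    have h3 : t.e i = ∑ k, t.e i * Q.e k := by rw [← Finset.mul_sum, Q.sum_eq, mul_one]
    rw [h3]
    refine Finset.sum_eq_zero fun k _ => ?_
    rcases h k i with h4 | h4
    · exact absurd ((hAs.2.1 _ (t.mem i) _ (Q.mem k)).trans h4) (hcon k)
    · rw [hAs.2.1 _ (t.mem i) _ (Q.mem k), h4]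
  have h1 : ∀ i j, n4 ξ (t.e i * z * t.e j) ≤
      ∑ k, ∑ l, n4 ξ (t.e i * (Q.e k * z * Q.e l) * t.e j) := by
    intro i j
    have hnn : ∀ k, ∀ l, 0 ≤ n4 ξ (t.e i * (Q.e k * z * Q.e l) * t.e j) :=
      fun k l => n4_nonneg _ _
    by_cases hi : t.e i = 0
    · rw [hi, zero_mul, zero_mul, n4_zero]
      exact Finset.sum_nonneg fun k _ => Finset.sum_nonneg fun l _ => n4_nonneg _ _
    by_cases hj : t.e j = 0
    · rw [hj, mul_zero, n4_zero]
      exact Finset.sum_nonneg fun k _ => Finset.sum_nonneg fun l _ => n4_nonneg _ _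
    obtain ⟨k, hk⟩ := hcov i hi
    obtain ⟨l, hl⟩ := hcov j hj
    have h2 : t.e i * z * t.e j = t.e i * (Q.e k * z * Q.e l) * t.e j := by
      have hl' : Q.e l * t.e j = t.e j := (hAs.2.1 _ (Q.mem l) _ (t.mem j)).trans hl
      conv_lhs => rw [← hk, ← hl']
      simp only [mul_assoc]
    rw [h2]
    refine le_trans ?_ (Finset.single_le_sum (fun k _ => Finset.sum_nonneg fun l _ => hnn k l)
      (Finset.mem_univ k))
    exact Finset.single_le_sum (fun l _ => hnn k l) (Finset.mem_univ l)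
  refine (Finset.sum_le_sum fun i _ => Finset.sum_le_sum fun j _ => h1 i j).trans ?_
  have h2 : ∑ i, ∑ j, ∑ k, ∑ l, n4 ξ (t.e i * (Q.e k * z * Q.e l) * t.e j) =
      ∑ k, ∑ l, ∑ j, ∑ i, n4 ξ (t.e i * ((Q.e k * z * Q.e l) * t.e j)) := by
    rw [Finset.sum_congr rfl fun i _ => Finset.sum_comm, Finset.sum_comm]
    refine Finset.sum_congr rfl fun k _ => ?_
    rw [Finset.sum_congr rfl fun i _ => Finset.sum_comm, Finset.sum_comm]
    refine Finset.sum_congr rfl fun l _ => ?_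
    rw [Finset.sum_comm]
    refine Finset.sum_congr rfl fun j _ => Finset.sum_congr rfl fun i _ => ?_
    rw [mul_assoc (t.e i)]
  rw [h2]
  refine Finset.sum_le_sum fun k _ => Finset.sum_le_sum fun l _ => ?_
  have hzz : Q.e k * z * Q.e l ∈ M := mul_mem (mul_mem (hQM k) hz) (hQM l)
  refine (Finset.sum_le_sum fun j _ => DL.sum_n4_left_le hA hξ t
    (mul_mem hzz (htM j))).trans ?_
  exact DL.sum_n4_right_le hA hξ t hzz

/-- a common refinement of finitely many partitions -/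
theorem exists_common (hA : SO.IsMASA A M) {K : Type*} (s : Finset K)
    (Q : K → Part A.toStarSubalgebra) :
    ∃ t₀ : Part A.toStarSubalgebra, ∀ t, t₀.Finer t → ∀ k ∈ s, (Q k).Finer t := by
  have hAs := SO.IsMASA.toStar hA
  induction s using Finset.induction_on with
  | empty => exact ⟨Part.trivialPart _, fun t _ k hk => absurd hk (Finset.notMem_empty k)⟩
  | insert a s ha ih =>
    obtain ⟨t₀, h⟩ := ih
    refine ⟨(Q a).inf hAs.2.1 t₀, fun t ht k hk => ?_⟩
    rcases Finset.mem_insert.1 hk with rfl | hk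
    · exact Part.finer_of_inf_left hAs.2.1 ht
    · exact h t (Part.finer_of_inf_right hAs.2.1 ht) k hk

/-- fine partitions make all block sums of translates small -/
theorem dplus_small (hA : SO.IsMASA A M) (hξ : IsTrace M ξ) (hE : IsTrExp M A ξ E)
    (hNM : ∀ x ∈ N, x ∈ M) (hN : ∀ u : nrm M A, op u ∈ N) {y : H →L[ℂ] H} (hy : y ∈ M)
    (horth : ∀ n ∈ N, vtr ξ (star n * y) = 0) {n : ℕ} (u : Fin n → nrm M A) {ε : ℝ}
    (hε : 0 < ε) :
    ∃ t₀ : Part A.toStarSubalgebra, ∀ t f : Part A.toStarSubalgebra, t₀.Finer t →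
      ∀ idx : Fin n → f.ι → t.ι,
      (∀ g l, (star (op (u g)) * t.e (idx g l) * op (u g)) * f.e l = f.e l) →
      ∑ i, ∑ j, n4 ξ (nb f (fun l => Finset.univ.image fun g => idx g l) i * y *
        nb f (fun l => Finset.univ.image fun g => idx g l) j) ≤ ε := by
  obtain ⟨ε', hε', hε''⟩ : ∃ ε' : ℝ, 0 < ε' ∧ (n : ℝ) ^ 6 * (n * (n * ε')) ≤ ε := by
    refine ⟨ε / ((n : ℝ) ^ 8 + 1), by positivity, ?_⟩
    rw [show (n : ℝ) ^ 6 * (n * (n * (ε / ((n : ℝ) ^ 8 + 1)))) =
      ((n : ℝ) ^ 8 * ε) / ((n : ℝ) ^ 8 + 1) by ring, div_le_iff₀ (by (clear * -; positivity))]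
    linarith only [hε]
  have hz : ∀ p : Fin n × Fin n, ∃ Q : Part A.toStarSubalgebra, ∑ i, ∑ j,
      n4 ξ (Q.e i * (op (u p.1) * y * star (op (u p.2))) * Q.e j) ≤ ε' := by
    intro p
    have hzM : op (u p.1) * y * star (op (u p.2)) ∈ M :=
      mul_mem (mul_mem (op_mem _) hy) (star_mem (op_mem _))
    refine small_blocks hA hξ hE hNM hN hzM (fun m hm => ?_) hε'
    have h1 : star m * (op (u p.1) * y * star (op (u p.2))) =
        (star m * (op (u p.1) * y)) * star (op (u p.2)) := by simp only [mul_assoc]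
    rw [h1, hξ.tracial _ (mul_mem (star_mem (hNM m hm)) (mul_mem (op_mem _) hy)) _
      (star_mem (op_mem _))]
    have h2 := horth (star (op (u p.1)) * m * op (u p.2))
      (mul_mem (mul_mem (star_mem (hN _)) hm) (hN _))
    rw [star_mul, star_mul, star_star] at h2
    rw [← h2]
    simp only [mul_assoc]
  choose Q hQ using hz
  obtain ⟨t₀, ht₀⟩ := exists_common hA Finset.univ Q
  refine ⟨t₀, fun t f ht idx hidx => ?_⟩
  refine (dplus_le hA hξ t f u idx hidx hy).trans (le_trans ?_ hε'')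
  refine mul_le_mul_of_nonneg_left ?_ (by (clear * -; (clear * -; positivity)))
  have h1 : ∀ g g', ∑ i, ∑ j, n4 ξ (t.e i * (op (u g) * y * star (op (u g'))) * t.e j) ≤ ε' := by
    intro g g'
    exact (block_mono hA hξ (ht₀ t ht (g, g') (Finset.mem_univ _))
      (mul_mem (mul_mem (op_mem _) hy) (star_mem (op_mem _)))).trans (hQ (g, g'))
  refine (Finset.sum_le_sum fun g _ => Finset.sum_le_sum fun g' _ => h1 g g').trans (le_of_eq ?_)
  simp only [Finset.sum_const, Finset.card_univ, Fintype.card_fin, nsmul_eq_mul]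

end Vale.Agent.P078.Y
end

section

/-! T5 (Y): the mixing part is paved by equivariant local random colourings. -/

set_option linter.unusedSectionVars false

namespace Vale.Agent.P078.Y

open Filter Topology
open Vale.Agent.P078 Vale.Agent.P078.C Vale.Agent.P078.F
open scoped Classical

universe u

variable {H : Type u} [NormedAddCommGroup H] [InnerProductSpace ℂ H] [CompleteSpace H]
variable {M A N : VonNeumannAlgebra H} {ξ : ℕ → H} {E : (H →L[ℂ] H) →ₗ[ℂ] (H →L[ℂ] H)}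

theorem nbh_eq (f : Part A.toStarSubalgebra) {I : Type*} (near : f.ι → Finset I) (i : I) :
    nbh f near i = nb f near i := by
  unfold nbh se nb
  exact Finset.sum_congr rfl fun l _ => by congr 1

/-- (Y): a self-adjoint contraction orthogonal to the normalizer is paved by some sample of every
equivariant local random colouring with labels on a fine partition -/
theorem mix (hA : SO.IsMASA A M) (hξ : IsTrace M ξ) (hE : IsTrExp M A ξ E)
    (hNM : ∀ x ∈ N, x ∈ M) (hN : ∀ u : nrm M A, op u ∈ N) {y : H →L[ℂ] H} (hy : y ∈ M)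
    (hsa : IsSelfAdjoint y) (hy1 : ‖y‖ ≤ 1) (horth : ∀ n ∈ N, vtr ξ (star n * y) = 0)
    {n : ℕ} (u : Fin n → nrm M A) (r : ℕ) [NeZero r] {s δ : ℝ}
    (hs : 2 / Real.sqrt r < s) (hδ : 0 < δ) :
    ∃ t₀ : Part A.toStarSubalgebra, ∀ t f : Part A.toStarSubalgebra, t₀.Finer t →
      ∀ idx : Fin n → f.ι → t.ι,
      (∀ g l, (star (op (u g)) * t.e (idx g l) * op (u g)) * f.e l = f.e l) →
      ∀ col : f.ι → (t.ι → ZMod r) → ZMod r,
      (∀ l U V, (∀ g, U (idx g l) = V (idx g l)) → col l U = col l V) →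
      (∀ l U, col l (fun i => U i + 1) = col l U + 1) →
      ∃ U : t.ι → ZMod r, ∃ w ∈ M, IsSelfAdjoint w ∧ ‖w‖ ≤ s ∧
        n2 ξ ((∑ a : ZMod r, (∑ l, if col l U = a then f.e l else 0) * y *
          (∑ l, if col l U = a then f.e l else 0)) - w) ≤ δ := by
  have hAM : ∀ a ∈ A, a ∈ M := fun a ha => hA.1 a ha
  obtain ⟨ε, hε, h1⟩ := mix_paving hξ hAM hy hsa hy1 r n hs hδ
  obtain ⟨t₀, h2⟩ := dplus_small hA hξ hE hNM hN hy horth u hε
  refine ⟨t₀, fun t f ht idx hidx col hdep heqv => ?_⟩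
  refine h1 f t.ι (fun l => Finset.univ.image fun g => idx g l) col
    ⟨fun l U V hUV => hdep l U V fun g => hUV _ (Finset.mem_image_of_mem _ (Finset.mem_univ g)),
      heqv⟩ (fun l => ?_) ?_
  · refine Finset.card_image_le.trans ?_
    rw [Finset.card_univ, Fintype.card_fin]
  · simp only [nbh_eq]
    exact h2 t f ht idx hidx

end Vale.Agent.P078.Y
end

section

/-! Auxiliary facts on pinchings and the `2`-norm; from `2`-norm paving to so-paving. -/

namespace Vale.Agent.P078.G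

open Vale.Agent.P078 Vale.Agent.P078.C
open Filter Topology

variable {H : Type*} [NormedAddCommGroup H] [InnerProductSpace ℂ H] [CompleteSpace H]
variable {M A : VonNeumannAlgebra H} {ξ : ℕ → H} {E : (H →L[ℂ] H) →ₗ[ℂ] (H →L[ℂ] H)}

/-! ### order and norm -/

theorem re_inner_smul_one (c : ℝ) (ζ : H) :
    (inner ℂ ζ (((c : ℂ) • (1 : H →L[ℂ] H)) ζ)).re = c * ‖ζ‖ ^ 2 := by
  rw [smul_apply, one_apply_eq_self, inner_smul_right,
    Complex.re_ofReal_mul, inner_self_re]

theorem sa_smul_one (c : ℝ) : IsSelfAdjoint ((c : ℂ) • (1 : H →L[ℂ] H)) := by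
  rw [IsSelfAdjoint, star_smul, star_one]
  simp only [RCLike.star_def, Complex.conj_ofReal, Complex.coe_smul]

theorem le_of_inner {S T : H →L[ℂ] H} (hS : IsSelfAdjoint S) (hT : IsSelfAdjoint T)
    (h : ∀ ζ, (inner ℂ ζ (S ζ)).re ≤ (inner ℂ ζ (T ζ)).re) : S ≤ T := by
  rw [← sub_nonneg]
  refine nonneg_of_inner (hT.sub hS) fun ζ => ?_
  rw [sub_apply, inner_sub_right, Complex.sub_re]
  linarith only [h ζ]

theorem le_smul_one_iff {w : H →L[ℂ] H} (hw : IsSelfAdjoint w) {c : ℝ} :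
    w ≤ (c : ℂ) • (1 : H →L[ℂ] H) ↔ ∀ ζ, (inner ℂ ζ (w ζ)).re ≤ c * ‖ζ‖ ^ 2 := by
  constructor
  · intro h ζ
    rw [← re_inner_smul_one]
    exact inner_le_of_le h ζ
  · intro h
    refine le_of_inner hw (sa_smul_one c) fun ζ => ?_
    rw [re_inner_smul_one]
    exact h ζ

theorem neg_smul_one_le_iff {w : H →L[ℂ] H} (hw : IsSelfAdjoint w) {c : ℝ} :
    -((c : ℂ) • (1 : H →L[ℂ] H)) ≤ w ↔ ∀ ζ, -c * ‖ζ‖ ^ 2 ≤ (inner ℂ ζ (w ζ)).re := by
  have e : ∀ ζ, (inner ℂ ζ ((-((c : ℂ) • (1 : H →L[ℂ] H))) ζ)).re = -c * ‖ζ‖ ^ 2 := by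
    intro ζ
    rw [neg_apply, inner_neg_right, Complex.neg_re, re_inner_smul_one]
    ring
  constructor
  · intro h ζ
    rw [← e]
    exact inner_le_of_le h ζ
  · intro h
    refine le_of_inner (sa_smul_one c).neg hw fun ζ => ?_
    rw [e]
    exact h ζ

theorem norm_le_of_bounds {w : H →L[ℂ] H} (hw : IsSelfAdjoint w) {b u C : ℝ} (hC : 0 ≤ C)
    (hb : b ≤ C) (hu : u ≤ C) (h1 : -((b : ℂ) • (1 : H →L[ℂ] H)) ≤ w)
    (h2 : w ≤ (u : ℂ) • (1 : H →L[ℂ] H)) : ‖w‖ ≤ C := by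
  refine norm_le_of_rayleigh hw hC fun v => ?_
  have h3 := (neg_smul_one_le_iff hw).1 h1 v
  have h4 := (le_smul_one_iff hw).1 h2 v
  have h5 : RCLike.re (inner ℂ (w v) v) = (inner ℂ v (w v)).re := by
    rw [← inner_conj_symm]
    exact RCLike.conj_re _
  rw [h5, abs_le]
  have h6 : 0 ≤ ‖v‖ ^ 2 := by (clear * -; positivity)
  constructor
  · linarith only [mul_nonneg (sq_nonneg (‖v‖ : ℝ)) (sub_nonneg.2 hb), h3]
  · linarith only [mul_nonneg (sq_nonneg (‖v‖ : ℝ)) (sub_nonneg.2 hu), h4]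

omit [CompleteSpace H] in
theorem re_inner_le (w : H →L[ℂ] H) (ζ : H) :
    |(inner ℂ ζ (w ζ)).re| ≤ ‖w‖ * ‖ζ‖ ^ 2 := by
  calc |(inner ℂ ζ (w ζ)).re| ≤ ‖inner ℂ ζ (w ζ)‖ := Complex.abs_re_le_norm _
    _ ≤ ‖ζ‖ * ‖w ζ‖ := norm_inner_le_norm _ _
    _ ≤ ‖ζ‖ * (‖w‖ * ‖ζ‖) := by gcongr; exact w.le_opNorm ζ
    _ = ‖w‖ * ‖ζ‖ ^ 2 := by ring

theorem le_of_norm_le {w : H →L[ℂ] H} (hw : IsSelfAdjoint w) {C : ℝ} (h : ‖w‖ ≤ C) :
    w ≤ (C : ℂ) • (1 : H →L[ℂ] H) := by
  rw [le_smul_one_iff hw]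
  intro ζ
  have h1 := (abs_le.1 (re_inner_le w ζ)).2
  have h2 : 0 ≤ ‖ζ‖ ^ 2 := by positivity
  linarith only [mul_nonneg (sq_nonneg (‖ζ‖ : ℝ)) (sub_nonneg.2 h), h1]

theorem neg_le_of_norm_le {w : H →L[ℂ] H} (hw : IsSelfAdjoint w) {C : ℝ} (h : ‖w‖ ≤ C) :
    -((C : ℂ) • (1 : H →L[ℂ] H)) ≤ w := by
  rw [neg_smul_one_le_iff hw]
  intro ζ
  have h1 := (abs_le.1 (re_inner_le w ζ)).1
  have h2 : 0 ≤ ‖ζ‖ ^ 2 := by (clear * -; positivity)
  linarith only [mul_nonneg (sq_nonneg (‖ζ‖ : ℝ)) (sub_nonneg.2 h), h1]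

/-! ### partitions and pinchings -/

omit [CompleteSpace H] in
theorem pinch_sub {r : ℕ} (P : Fin r → (H →L[ℂ] H)) (x y : H →L[ℂ] H) :
    pinch P (x - y) = pinch P x - pinch P y := by
  unfold pinch
  rw [← Finset.sum_sub_distrib]
  exact Finset.sum_congr rfl fun i _ => by noncomm_ring

omit [CompleteSpace H] in
theorem pinch_neg {r : ℕ} (P : Fin r → (H →L[ℂ] H)) (x : H →L[ℂ] H) :
    pinch P (-x) = -pinch P x := by
  unfold pinch
  rw [← Finset.sum_neg_distrib]
  exact Finset.sum_congr rfl fun i _ => by noncomm_ring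

omit [CompleteSpace H] in
theorem pinch_smul {r : ℕ} (P : Fin r → (H →L[ℂ] H)) (c : ℂ) (x : H →L[ℂ] H) :
    pinch P (c • x) = c • pinch P x := by
  unfold pinch
  rw [Finset.smul_sum]
  exact Finset.sum_congr rfl fun i _ => by rw [mul_smul_comm, smul_mul_assoc]

theorem pinch_mem (hA : SO.IsMASA A M) {r : ℕ} {P : Fin r → (H →L[ℂ] H)}
    (hP : IsPart A P) {x : H →L[ℂ] H} (hx : x ∈ M) : pinch P x ∈ M :=
  sum_mem fun i _ => mul_mem (mul_mem (hA.1 _ (hP.1 i).1) hx) (hA.1 _ (hP.1 i).1)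

theorem pinch_sa {r : ℕ} {P : Fin r → (H →L[ℂ] H)}
    (hP : IsPart A P) {x : H →L[ℂ] H} (hx : IsSelfAdjoint x) : IsSelfAdjoint (pinch P x) := by
  unfold pinch
  refine isSelfAdjoint_sum _ fun i _ => ?_
  have h1 := (hP.1 i).2.isSelfAdjoint
  rw [IsSelfAdjoint, star_mul, star_mul, h1.star_eq, hx.star_eq, mul_assoc]

omit [CompleteSpace H] in
theorem pinch_add {r : ℕ} (P : Fin r → (H →L[ℂ] H)) (x y : H →L[ℂ] H) :
    pinch P (x + y) = pinch P x + pinch P y := by
  unfold pinch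
  rw [← Finset.sum_add_distrib]
  exact Finset.sum_congr rfl fun i _ => by noncomm_ring

theorem norm_pinch_le' {r : ℕ} {P : Fin r → (H →L[ℂ] H)}
    (hP : IsPart A P) (x : H →L[ℂ] H) : ‖pinch P x‖ ≤ ‖x‖ :=
  Vale.Agent.P078.norm_pinch_le (A := A.toStarSubalgebra) hP.1 hP.2.1 hP.2.2 x

/-- elements of `A` are fixed by pinchings -/
theorem pinch_of_mem (hA : SO.IsMASA A M) {r : ℕ} {P : Fin r → (H →L[ℂ] H)}
    (hP : IsPart A P) {x : H →L[ℂ] H} (hx : x ∈ A) : pinch P x = x := by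
  unfold pinch
  have h1 : ∀ i, P i * x * P i = x * P i := by
    intro i
    rw [hA.2.1 _ (hP.1 i).1 _ hx, mul_assoc, (hP.1 i).2.isIdempotentElem.eq]
  simp only [h1]
  rw [← Finset.mul_sum, hP.2.2, mul_one]

theorem exp_pinch (hA : SO.IsMASA A M) (hE : IsTrExp M A ξ E) {r : ℕ}
    {P : Fin r → (H →L[ℂ] H)} (hP : IsPart A P) {x : H →L[ℂ] H} (hx : x ∈ M) :
    E (pinch P x) = E x := by
  have h1 : E (pinch P x) = pinch P (E x) := by
    unfold pinch
    rw [map_sum]
    exact Finset.sum_congr rfl fun i _ => hE.bimod _ (hP.1 i).1 _ (hP.1 i).1 x hx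
  rw [h1, pinch_of_mem hA hP (hE.mem x hx)]

/-- common refinement -/
noncomputable def refi {r₁ r₂ : ℕ} (P₁ : Fin r₁ → (H →L[ℂ] H)) (P₂ : Fin r₂ → (H →L[ℂ] H)) :
    Fin (r₁ * r₂) → (H →L[ℂ] H) :=
  fun k => P₁ (finProdFinEquiv.symm k).1 * P₂ (finProdFinEquiv.symm k).2

theorem isPart_refi (hA : SO.IsMASA A M) {r₁ r₂ : ℕ} {P₁ : Fin r₁ → (H →L[ℂ] H)}
    {P₂ : Fin r₂ → (H →L[ℂ] H)} (h₁ : IsPart A P₁) (h₂ : IsPart A P₂) :
    IsPart A (refi P₁ P₂) := by
  have hc : ∀ i j, P₁ i * P₂ j = P₂ j * P₁ i := fun i j => hA.2.1 _ (h₁.1 i).1 _ (h₂.1 j).1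
  refine ⟨fun k => ⟨mul_mem (h₁.1 _).1 (h₂.1 _).1, ?_, ?_⟩, fun k l hkl => ?_, ?_⟩
  · have e : ∀ i j, (P₁ i * P₂ j) * (P₁ i * P₂ j) = P₁ i * P₂ j := by
      intro i j
      calc (P₁ i * P₂ j) * (P₁ i * P₂ j) = P₁ i * (P₂ j * P₁ i) * P₂ j := by noncomm_ring
        _ = (P₁ i * P₁ i) * (P₂ j * P₂ j) := by rw [← hc]; noncomm_ring
        _ = P₁ i * P₂ j := by
          rw [(h₁.1 i).2.isIdempotentElem.eq, (h₂.1 j).2.isIdempotentElem.eq]
    exact e _ _
  · unfold refi
    rw [IsSelfAdjoint, star_mul, (h₁.1 _).2.isSelfAdjoint.star_eq,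
      (h₂.1 _).2.isSelfAdjoint.star_eq, hc]
  · have hne : finProdFinEquiv.symm k ≠ finProdFinEquiv.symm l :=
      fun h => hkl (finProdFinEquiv.symm.injective h)
    unfold refi
    generalize finProdFinEquiv.symm k = p at hne
    generalize finProdFinEquiv.symm l = q at hne
    have e : P₁ p.1 * P₂ p.2 * (P₁ q.1 * P₂ q.2) = (P₁ p.1 * P₁ q.1) * (P₂ p.2 * P₂ q.2) := by
      calc P₁ p.1 * P₂ p.2 * (P₁ q.1 * P₂ q.2) = P₁ p.1 * (P₂ p.2 * P₁ q.1) * P₂ q.2 := by
            noncomm_ring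
        _ = _ := by rw [← hc]; noncomm_ring
    rw [e]
    by_cases h : p.1 = q.1
    · have h' : p.2 ≠ q.2 := fun h' => hne (Prod.ext h h')
      rw [h₂.2.1 _ _ h', mul_zero]
    · rw [h₁.2.1 _ _ h, zero_mul]
  · unfold refi
    rw [Equiv.sum_comp finProdFinEquiv.symm (fun p : Fin r₁ × Fin r₂ => P₁ p.1 * P₂ p.2),
      Fintype.sum_prod_type]
    simp only [← Finset.mul_sum, h₂.2.2, mul_one, h₁.2.2]

theorem pinch_refi (hA : SO.IsMASA A M) {r₁ r₂ : ℕ} {P₁ : Fin r₁ → (H →L[ℂ] H)}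
    {P₂ : Fin r₂ → (H →L[ℂ] H)} (h₁ : IsPart A P₁) (h₂ : IsPart A P₂) (x : H →L[ℂ] H) :
    pinch (refi P₁ P₂) x = pinch P₂ (pinch P₁ x) := by
  have hc : ∀ i j, P₁ i * P₂ j = P₂ j * P₁ i := fun i j => hA.2.1 _ (h₁.1 i).1 _ (h₂.1 j).1
  unfold pinch refi
  rw [Equiv.sum_comp finProdFinEquiv.symm
    (fun p : Fin r₁ × Fin r₂ => P₁ p.1 * P₂ p.2 * x * (P₁ p.1 * P₂ p.2)),
    Fintype.sum_prod_type, Finset.sum_comm]
  refine Finset.sum_congr rfl fun j _ => ?_
  rw [Finset.mul_sum, Finset.sum_mul]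
  refine Finset.sum_congr rfl fun i _ => ?_
  calc P₁ i * P₂ j * x * (P₁ i * P₂ j) = P₂ j * P₁ i * x * (P₁ i * P₂ j) := by rw [hc i j]
    _ = P₂ j * (P₁ i * x * P₁ i) * P₂ j := by noncomm_ring

/-- padding a partition by zeros -/
theorem exists_pad {r r' : ℕ} (h : r ≤ r') {P : Fin r → (H →L[ℂ] H)} (hP : IsPart A P) :
    ∃ P' : Fin r' → (H →L[ℂ] H), IsPart A P' ∧ ∀ x, pinch P' x = pinch P x := by
  obtain ⟨k, rfl⟩ := Nat.exists_eq_add_of_le h
  refine ⟨Fin.append P (fun _ : Fin k => 0), ⟨fun i => ?_, fun i j => ?_, ?_⟩, fun x => ?_⟩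
  · refine Fin.addCases (fun i => ?_) (fun i => ?_) i
    · rw [Fin.append_left]; exact hP.1 i
    · rw [Fin.append_right]; exact ⟨zero_mem A, IsStarProjection.zero _⟩
  · refine Fin.addCases (fun i => ?_) (fun i => ?_) i <;>
      refine Fin.addCases (fun j => ?_) (fun j => ?_) j
    · intro h
      rw [Fin.append_left, Fin.append_left]
      exact hP.2.1 i j fun h' => h (by rw [h'])
    · intro _
      rw [Fin.append_right, mul_zero]
    · intro _
      rw [Fin.append_right, zero_mul]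
    · intro _
      rw [Fin.append_right, zero_mul]
  · rw [Fin.sum_univ_add]
    simp only [Fin.append_left, hP.2.2, Fin.append_right, Finset.sum_const_zero, add_zero]
  · unfold pinch
    rw [Fin.sum_univ_add]
    simp only [Fin.append_left, Fin.append_right, zero_mul, mul_zero, Finset.sum_const_zero, add_zero]

/-! ### the 2-norm -/

theorem n2_exp_le (hξ : IsTrace M ξ) (hE : IsTrExp M A ξ E) (hA : SO.IsMASA A M)
    {z : H →L[ℂ] H} (hz : z ∈ M) : n2 ξ (E z) ≤ n2 ξ z := by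
  have hEA := hE.mem z hz
  have hEM := hA.1 _ hEA
  have hzs : star z ∈ M := star_mem hz
  have hEs : star (E z) ∈ A := star_mem hEA
  have h1 : 0 ≤ star (z - E z) * (z - E z) := star_mul_self_nonneg _
  have h2 : star (z - E z) * (z - E z) ∈ M :=
    mul_mem (star_mem (sub_mem hz hEM)) (sub_mem hz hEM)
  have h3 := hE.nonneg _ h2 h1
  have h4 := (vtr_nonneg hξ h3).1
  have h5 : E (star (z - E z) * (z - E z)) = E (star z * z) - star (E z) * E z := by
    have e1 : star (z - E z) * (z - E z) =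
        star z * z - star z * E z - star (E z) * z + star (E z) * E z := by
      rw [star_sub]; noncomm_ring
    have e2 : E (star z * E z) = star (E z) * E z := by
      have := hE.bimod 1 (one_mem A) (E z) hEA (star z) hzs
      rw [one_mul, one_mul, hE.star z hz] at this
      exact this
    have e3 : E (star (E z) * z) = star (E z) * E z := by
      have := hE.bimod (star (E z)) hEs 1 (one_mem A) z hz
      rw [mul_one, mul_one] at this
      exact this
    have e4 : E (star (E z) * E z) = star (E z) * E z := hE.idem _ (mul_mem hEs hEA)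
    rw [e1, map_add, map_sub, map_sub, e2, e3, e4]
    abel
  have e0 : ∀ x y : H →L[ℂ] H, vtr ξ (x - y) = vtr ξ x - vtr ξ y := by
    intro x y
    have := vtr_add hξ (x - y) y
    rw [sub_add_cancel] at this
    rw [this]; ring
  rw [h5, e0, hE.tr _ (mul_mem hzs hz), Complex.sub_re] at h4
  rw [n2_eq hξ, n2_eq hξ]
  linarith only [h4]

theorem norm_exp_le (hE : IsTrExp M A ξ E)
    {x : H →L[ℂ] H} (hx : x ∈ M) (hs : IsSelfAdjoint x) : ‖E x‖ ≤ ‖x‖ := by
  have h1 := le_of_norm_le hs (le_refl ‖x‖)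
  have h2 := neg_le_of_norm_le hs (le_refl ‖x‖)
  have h3 : ((‖x‖ : ℝ) : ℂ) • (1 : H →L[ℂ] H) ∈ A := A.toStarSubalgebra.smul_mem (one_mem A) _
  have h4 : ((‖x‖ : ℝ) : ℂ) • (1 : H →L[ℂ] H) ∈ M := M.toStarSubalgebra.smul_mem (one_mem M) _
  have hEs : IsSelfAdjoint (E x) := by
    rw [IsSelfAdjoint, ← hE.star x hx, hs.star_eq]
  refine norm_le_of_bounds hEs (norm_nonneg _) le_rfl le_rfl ?_ ?_
  · have h5 : 0 ≤ x + ((‖x‖ : ℝ) : ℂ) • (1 : H →L[ℂ] H) := by
      rw [← sub_neg_eq_add]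
      exact sub_nonneg.2 h2
    have h6 := hE.nonneg _ (add_mem hx h4) h5
    rw [map_add, hE.idem _ h3, ← sub_neg_eq_add] at h6
    exact sub_nonneg.1 h6
  · have h6 := hE.nonneg _ (sub_mem h4 hx) (sub_nonneg.2 h1)
    rw [map_sub, hE.idem _ h3] at h6
    exact sub_nonneg.1 h6

/-- spectral truncation -/
theorem exists_cut (hξ : IsTrace M ξ) {z : H →L[ℂ] H} (hz : z ∈ M) {c : ℝ} (hc : 0 < c) :
    ∃ q ∈ M, IsStarProjection q ∧ ‖z * q‖ ≤ c ∧ (vtr ξ (1 - q)).re ≤ n2 ξ z / c ^ 2 := by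
  have hT : IsSelfAdjoint (star z * z) := IsSelfAdjoint.star_mul_self z
  obtain ⟨e, he, hcomm, hup, hlow⟩ := exists_spectral_proj (star z * z) hT (c ^ 2)
  have heM : e ∈ M := spectral_proj_mem (mul_mem (star_mem hz) hz) hcomm
  have hin : ∀ ζ : H, (inner ℂ ζ ((star z * z) ζ)).re = ‖z ζ‖ ^ 2 := by
    intro ζ
    have h1 : (star z * z) ζ = star z (z ζ) := rfl
    rw [h1, ← inner_conj_symm, star_apply_inner, inner_conj_symm, inner_self_re]
  refine ⟨1 - e, sub_mem (one_mem M) heM, he.one_sub, ?_, ?_⟩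
  · refine ContinuousLinearMap.opNorm_le_bound _ hc.le fun ζ => ?_
    have h1 : e ((1 - e) ζ) = 0 := by
      rw [sub_apply, one_apply_eq_self, map_sub, proj_apply_apply he, sub_self]
    have h2 := hlow _ h1
    rw [hin] at h2
    have h3 : ‖(1 - e) ζ‖ ≤ ‖ζ‖ := norm_proj_le he.one_sub ζ
    have h4 : ‖z ((1 - e) ζ)‖ ^ 2 ≤ (c * ‖ζ‖) ^ 2 := by
      calc ‖z ((1 - e) ζ)‖ ^ 2 ≤ c ^ 2 * ‖(1 - e) ζ‖ ^ 2 := h2
        _ ≤ c ^ 2 * ‖ζ‖ ^ 2 := by (clear * - hc h3; (clear * - h3 hc; gcongr))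
        _ = (c * ‖ζ‖) ^ 2 := by ring
    exact (sq_le_sq₀ (norm_nonneg _) (by (clear * - hc; positivity))).1 h4
  · rw [sub_sub_cancel]
    have h1 : (vtr ξ e).re = n2 ξ e := by
      rw [n2_eq hξ, he.isSelfAdjoint.star_eq, he.isIdempotentElem.eq]
    have h2 : n2 ξ (z * e) ≤ n2 ξ z := by
      refine (n2_mul_le' hξ hz heM).trans ?_
      have h3 : ‖e‖ ^ 2 ≤ 1 := by
        have := he.norm_le
        linarith only [mul_nonneg (sub_nonneg.2 this) (sub_nonneg.2 (norm_nonneg e)), mul_nonneg (sub_nonneg.2 this) (sub_nonneg.2 this)]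
      linarith only [mul_nonneg (sub_nonneg.2 h3) (sub_nonneg.2 (n2_nonneg ξ z))]
    have h3 : c ^ 2 * n2 ξ e ≤ n2 ξ (z * e) := by
      unfold n2
      rw [← tsum_mul_left]
      refine Summable.tsum_le_tsum (fun n => ?_) ((n2_summable hξ e).mul_left _)
        (n2_summable hξ (z * e))
      have h4 := hup (e (ξ n)) (proj_apply_apply he _)
      rw [hin] at h4
      exact h4
    rw [h1, le_div_iff₀ (by (clear * - hc; positivity))]
    linarith only [h2, h3]

/-- from paving in the `2`-norm to so-paving -/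
theorem sopavable_of (hA : SO.IsMASA A M) (hξ : IsTrace M ξ) (hE : IsTrExp M A ξ E) {ε : ℝ}
    (hε : 0 < ε) {R : ℕ} {x : H →L[ℂ] H} (hx : x ∈ M) (hxs : IsSelfAdjoint x)
    (hP : ∀ y ∈ M, IsSelfAdjoint y → ‖y‖ ≤ 1 → E y = 0 → ∀ δ : ℝ, 0 < δ →
      ∃ (r : ℕ) (P : Fin r → (H →L[ℂ] H)), r ≤ R ∧ IsPart A P ∧
        ∃ w ∈ M, ‖w‖ ≤ ε / 4 ∧ n2 ξ (pinch P y - w) ≤ δ) : SO.SOPavable M A 1 x ε R := by
  intro F _ δ hδ
  have hExA := hE.mem x hx
  have hExM := hA.1 _ hExA
  have hExs : IsSelfAdjoint (E x) := by rw [IsSelfAdjoint, ← hE.star x hx, hxs.star_eq]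
  have hExn := norm_exp_le hE hx hxs
  obtain ⟨κ, hκ, hvec⟩ := vec_small hξ F hδ
  -- the scale
  obtain ⟨N, hN, hN1, hN2⟩ : ∃ N : ℝ, 0 < N ∧ ‖x - E x‖ ≤ N ∧ (x ≠ 0 → N = 2 * ‖x‖) := by
    by_cases h0 : x = 0
    · refine ⟨1, one_pos, ?_, fun h => absurd h0 h⟩
      rw [h0, map_zero, sub_zero, norm_zero]
      exact zero_le_one
    · refine ⟨2 * ‖x‖, by (clear * - h0; positivity), ?_, fun _ => rfl⟩
      have := norm_sub_le x (E x)
      linarith only [hExn, this]
  obtain ⟨y, hy⟩ : ∃ y, y = ((N⁻¹ : ℝ) : ℂ) • (x - E x) := ⟨_, rfl⟩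
  have hyM : y ∈ M := by rw [hy]; exact M.toStarSubalgebra.smul_mem (sub_mem hx hExM) _
  have hys : IsSelfAdjoint y := by
    rw [hy, IsSelfAdjoint, star_smul, (hxs.sub hExs).star_eq]
    simp only [Complex.ofReal_inv, star_inv₀, RCLike.star_def, Complex.conj_ofReal]
  have hyn : ‖y‖ ≤ 1 := by
    rw [hy, norm_smul, Complex.norm_real, Real.norm_of_nonneg (by (clear * - hN; (clear * - hN; positivity))),
      inv_mul_le_iff₀ hN]
    linarith only [hN1]
  have hEy : E y = 0 := by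
    rw [hy, map_smul, map_sub, hE.idem _ hExA, sub_self, smul_zero]
  have hNy : x - E x = ((N : ℝ) : ℂ) • y := by
    rw [hy, smul_smul, ← Complex.ofReal_mul, mul_inv_cancel₀ hN.ne', Complex.ofReal_one, one_smul]
  obtain ⟨r, P, hrR, hP, w, hwM, hwn, hn⟩ := hP y hyM hys hyn hEy (κ * (ε / 4) ^ 2) (by (clear * - hε hκ; positivity))
  obtain ⟨P', hP', hpin⟩ := exists_pad hrR hP
  obtain ⟨q, hqM, hqp, hzq, htr⟩ := exists_cut hξ
    (sub_mem (pinch_mem hA hP hyM) hwM) (c := ε / 4) (by (clear * - hε; positivity))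
  have htr' : (vtr ξ (1 - q)).re ≤ κ := by
    refine htr.trans ?_
    rw [div_le_iff₀ (by (clear * - hε; positivity))]
    exact hn
  refine ⟨P', E x, q, hP'.1, hP'.2.1, hP'.2.2, hExA, one_mul _, hExs, hExn, hqM, one_mul _, hqp,
    hvec q hqM hqp htr', ?_⟩
  have e1 : ∑ i, P' i * x * P' i - E x = ((N : ℝ) : ℂ) • pinch P y := by
    have e2 : ∑ i, P' i * x * P' i - E x = pinch P' x - pinch P' (E x) := by
      rw [pinch_of_mem hA hP' hExA]
      rfl
    rw [e2, ← pinch_sub, hNy, pinch_smul, hpin]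
  by_cases h0 : x = 0
  · have e3 : ∑ i, P' i * x * P' i - E x = 0 := by
      rw [h0]; simp only [mul_zero, zero_mul, Finset.sum_const_zero, map_zero, sub_self]
    rw [e3, mul_zero, zero_mul, norm_zero]
    (clear * - hε; (clear * - hε; positivity))
  · rw [e1]
    have hqn : ‖q‖ ≤ 1 := hqp.norm_le
    have e4 : q * (((N : ℝ) : ℂ) • pinch P y) * q =
        ((N : ℝ) : ℂ) • (q * ((pinch P y - w) * q) + q * w * q) := by
      rw [mul_smul_comm, smul_mul_assoc]
      congr 1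
      noncomm_ring
    have e5 : ‖q * ((pinch P y - w) * q)‖ ≤ ε / 4 := by
      refine (norm_mul_le _ _).trans ?_
      calc ‖q‖ * ‖(pinch P y - w) * q‖ ≤ 1 * (ε / 4) := by (clear * - hzq hqn; gcongr)
        _ = ε / 4 := one_mul _
    have e6 : ‖q * w * q‖ ≤ ε / 4 := by
      refine (norm_mul_le _ _).trans ?_
      calc ‖q * w‖ * ‖q‖ ≤ (‖q‖ * ‖w‖) * ‖q‖ := by gcongr; exact norm_mul_le _ _
        _ ≤ (1 * (ε / 4)) * 1 := by (clear * - hε hwn hqn; gcongr)
        _ = ε / 4 := by ring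
    rw [e4, norm_smul, Complex.norm_real, Real.norm_of_nonneg hN.le, hN2 h0]
    have e7 := norm_add_le (q * ((pinch P y - w) * q)) (q * w * q)
    calc 2 * ‖x‖ * ‖q * ((pinch P y - w) * q) + q * w * q‖ ≤ 2 * ‖x‖ * (ε / 4 + ε / 4) := by
          gcongr
          linarith only [e7, e6, e5]
      _ = ε * ‖x‖ := by ring


end Vale.Agent.P078.G
end

section

/-! General MASAs, part 1: the expectation onto a von Neumann subalgebra `N` of `M`. -/

namespace Vale.Agent.P078.F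

open Filter Topology
open Vale.Agent.P078 Vale.Agent.P078.C

variable {H : Type*} [NormedAddCommGroup H] [InnerProductSpace ℂ H] [CompleteSpace H]
variable {M A N : VonNeumannAlgebra H} {ξ : ℕ → H} {E : (H →L[ℂ] H) →ₗ[ℂ] (H →L[ℂ] H)}

namespace ExpN

theorem cfc_mem (N : VonNeumannAlgebra H) {x : H →L[ℂ] H} (hx : x ∈ N) (f : ℝ → ℝ) :
    cfc f x ∈ N := by
  apply mem_of_forall_commute N hx
  intro y hy
  exact (hy.symm.cfc_real f).symm

theorem algebraMap_mem (N : VonNeumannAlgebra H) (c : ℝ) :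
    algebraMap ℝ (H →L[ℂ] H) c ∈ N := by
  have h : algebraMap ℝ (H →L[ℂ] H) c = (c : ℂ) • (1 : H →L[ℂ] H) := by
    rw [Algebra.algebraMap_eq_smul_one]
    ext v
    simp only [smul_apply, one_apply_eq_self, Complex.coe_smul]
  rw [h]
  exact N.toStarSubalgebra.smul_mem (one_mem _) _

theorem n2_add (hξ : IsTrace M ξ) (x y : H →L[ℂ] H) :
    n2 ξ (x + y) = n2 ξ x + n2 ξ y + 2 * (vtr ξ (star x * y)).re := by
  have h1 : star (x + y) * (x + y) = (star x * x + star y * y) + (star x * y + star y * x) := by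
    rw [star_add]
    noncomm_ring
  have h2 : vtr ξ (star y * x) = star (vtr ξ (star x * y)) := by
    rw [← vtr_star hξ, star_mul, star_star]
  rw [n2_eq hξ, n2_eq hξ x, n2_eq hξ y, h1, vtr_add hξ, vtr_add hξ, vtr_add hξ, h2]
  simp only [Complex.add_re, Complex.star_def, Complex.conj_re]
  ring

/-- the truncation -/
noncomputable def tr (c : ℝ) (t : ℝ) : ℝ := max (-c) (min t c)

theorem tr_cont (c : ℝ) : Continuous (tr c) := by
  unfold tr; fun_prop

theorem norm_cfc_tr_le {c : ℝ} (hc : 0 ≤ c) (n : H →L[ℂ] H) : ‖cfc (tr c) n‖ ≤ c := by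
  refine norm_cfc_le hc fun t _ => ?_
  rw [Real.norm_eq_abs, abs_le, tr]
  exact ⟨le_max_left _ _, max_le (by linarith only [hc]) (min_le_right _ _)⟩

/-- truncation does not increase the distance to `x` -/
theorem n2_tr_le (hξ : IsTrace M ξ) {x n : H →L[ℂ] H} (hx : x ∈ M) (hsa : IsSelfAdjoint x)
    (hn : n ∈ M) (hnsa : IsSelfAdjoint n) :
    n2 ξ (x - cfc (tr ‖x‖) n) ≤ n2 ξ (x - n) := by
  set c := ‖x‖ with hc
  have hc0 : 0 ≤ c := norm_nonneg x
  set F := cfc (tr c) n with hF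
  set fp : ℝ → ℝ := fun t => max (t - c) 0 with hfp
  set fq : ℝ → ℝ := fun t => max (-t - c) 0 with hfq
  have cp : Continuous fp := by rw [hfp]; (clear * -; fun_prop)
  have cq : Continuous fq := by rw [hfq]; (clear * -; fun_prop)
  set p := cfc fp n with hp
  set q := cfc fq n with hq
  have hFM : F ∈ M := cfc_mem M hn _
  have hpM : p ∈ M := cfc_mem M hn _
  have hqM : q ∈ M := cfc_mem M hn _
  have hp0 : 0 ≤ p := cfc_nonneg fun t _ => le_max_right _ _
  have hq0 : 0 ≤ q := cfc_nonneg fun t _ => le_max_right _ _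
  have hFsa : IsSelfAdjoint F := cfc_predicate _ _
  have e1 : F - n = q - p := by
    rw [hF, hq, hp, ← cfc_sub fq fp n cq.continuousOn cp.continuousOn]
    nth_rewrite 2 [← cfc_id' ℝ n]
    rw [← cfc_sub (tr c) (fun t => t) n (tr_cont c).continuousOn (by fun_prop)]
    congr 1
    ext t
    simp only [tr, hfp, hfq]
    rcases le_total t c with h1 | h1
    · rw [min_eq_left h1, max_eq_right (by linarith only [h1] : t - c ≤ 0)]
      rcases le_total (-c) t with h2 | h2
      · rw [max_eq_right h2, max_eq_right (by linarith only [h2] : -t - c ≤ 0)]; ring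
      · rw [max_eq_left h2, max_eq_left (by linarith only [h2] : 0 ≤ -t - c)]; ring
    · rw [min_eq_right h1, max_eq_right (by linarith only [hc0] : -c ≤ c),
        max_eq_right (by linarith only [hc0, h1] : -t - c ≤ 0), max_eq_left (by linarith only [h1] : 0 ≤ t - c)]; ring
  have e2 : F * p = algebraMap ℝ (H →L[ℂ] H) c * p := by
    rw [hF, hp, ← cfc_mul (tr c) fp n (tr_cont c).continuousOn cp.continuousOn,
      ← Algebra.smul_def, ← cfc_smul c fp n cp.continuousOn]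
    congr 1
    ext t
    simp only [tr, hfp, smul_eq_mul]
    rcases le_total t c with h1 | h1
    · rw [max_eq_right (by linarith only [h1] : t - c ≤ 0)]; ring
    · rw [min_eq_right h1, max_eq_right (by linarith only [hc0] : -c ≤ c)]
  have e3 : F * q = -(algebraMap ℝ (H →L[ℂ] H) c * q) := by
    rw [hF, hq, ← cfc_mul (tr c) fq n (tr_cont c).continuousOn cq.continuousOn,
      ← Algebra.smul_def, ← cfc_smul c fq n cq.continuousOn, ← cfc_neg]
    congr 1
    ext t
    simp only [tr, hfq, smul_eq_mul]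
    rcases le_total (-c) t with h1 | h1
    · rw [max_eq_right (by linarith only [h1] : -t - c ≤ 0)]; ring
    · rw [min_eq_left (by linarith only [hc0, h1] : t ≤ c), max_eq_left h1]; ring
  have e4 : star (x - F) * (F - n)
      = (algebraMap ℝ (H →L[ℂ] H) c - x) * p + (x + algebraMap ℝ (H →L[ℂ] H) c) * q := by
    rw [e1, star_sub, hsa.star_eq, hFsa.star_eq]
    calc (x - F) * (q - p) = x * q - F * q - x * p + F * p := by noncomm_ring
      _ = _ := by rw [e2, e3]; noncomm_ring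
  have h1 : 0 ≤ algebraMap ℝ (H →L[ℂ] H) c - x := sub_nonneg.2 hsa.le_algebraMap_norm_self
  have h2 : 0 ≤ x + algebraMap ℝ (H →L[ℂ] H) c := by
    have := hsa.neg_algebraMap_norm_le_self
    rw [← hc] at this
    have h3 := sub_nonneg.2 this
    rwa [sub_neg_eq_add] at h3
  have h3 := vtr_mul_nonneg hξ (sub_mem (algebraMap_mem M c) hx) hpM h1 hp0
  have h4 := vtr_mul_nonneg hξ (add_mem hx (algebraMap_mem M c)) hqM h2 hq0
  have h5 : x - n = (x - F) + (F - n) := by abel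
  rw [h5, n2_add hξ, e4, vtr_add hξ, Complex.add_re]
  have h6 := n2_nonneg ξ (F - n)
  linarith only [h6, h4, h3]

/-- the minimiser -/
theorem exists_min (hξ : IsTrace M ξ) {x : H →L[ℂ] H} :
    ∃ z ∈ N, IsSelfAdjoint z ∧ ‖z‖ ≤ ‖x‖ ∧
      ∀ n ∈ N, IsSelfAdjoint n → ‖n‖ ≤ ‖x‖ → n2 ξ (x - z) ≤ n2 ξ (x - n) := by
  set S : Set ℝ := {r | ∃ n ∈ N, IsSelfAdjoint n ∧ ‖n‖ ≤ ‖x‖ ∧ n2 ξ (x - n) = r} with hS
  have hne : S.Nonempty := ⟨_, 0, zero_mem _, IsSelfAdjoint.zero _, by simp only [norm_zero, norm_nonneg], rfl⟩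
  have hbd : BddBelow S := ⟨0, by rintro r ⟨n, -, -, -, rfl⟩; exact n2_nonneg _ _⟩
  have hseq : ∀ k : ℕ, ∃ n ∈ N, IsSelfAdjoint n ∧ ‖n‖ ≤ ‖x‖ ∧
      n2 ξ (x - n) < sInf S + 1 / ((k : ℝ) + 1) := by
    intro k
    obtain ⟨r, ⟨n, h1, h2, h3, h4⟩, hr⟩ := Real.lt_sInf_add_pos hne
      (by (clear * -; positivity) : (0 : ℝ) < 1 / ((k : ℝ) + 1))
    exact ⟨n, h1, h2, h3, by rw [h4]; exact hr⟩
  choose n h1 h2 h3 h4 using hseq
  set U : Ultrafilter ℕ := hyperfilter ℕ with hU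
  obtain ⟨z, hz, hlim⟩ := exists_wot_limit U n ‖x‖ (Eventually.of_forall h3) (norm_nonneg _)
  have hzN : z ∈ N := mem_of_tendsto' (Eventually.of_forall h1) hlim
  have hzsa : IsSelfAdjoint z := by
    rw [IsSelfAdjoint]
    refine inner_ext fun v w => ?_
    have e1 : inner ℂ v (star z w) = (starRingEnd ℂ) (inner ℂ w (z v)) := by
      rw [inner_conj_symm, ← star_apply_inner (star z) v w, star_star]
    rw [e1]
    refine tendsto_nhds_unique ((Complex.continuous_conj.tendsto _).comp (hlim w v)) ?_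
    refine (hlim v w).congr fun k => ?_
    rw [Function.comp_apply, inner_conj_symm, ← star_apply_inner, (h2 k).star_eq]
  refine ⟨z, hzN, hzsa, hz, fun m hm hmsa hmx => ?_⟩
  have h5 : sInf S ≤ n2 ξ (x - m) := csInf_le hbd ⟨m, hm, hmsa, hmx, rfl⟩
  refine le_trans ?_ h5
  refine le_of_forall_pos_le_add fun ε hε => ?_
  refine n2_le_of_tendsto hξ (l := (U : Filter ℕ)) (T := fun k => x - n k) ?_ fun v w => ?_
  · have h6 : Tendsto (fun k : ℕ => 1 / ((k : ℝ) + 1)) (U : Filter ℕ) (𝓝 0) :=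
      tendsto_one_div_add_atTop_nhds_zero_nat.mono_left Nat.hyperfilter_le_atTop
    filter_upwards [h6.eventually (gt_mem_nhds hε)] with k hk
    have := h4 k
    linarith only [this, hk]
  · simp only [sub_apply, inner_sub_right]
    exact tendsto_const_nhds.sub (hlim v w)

end ExpN

open ExpN in
/-- Selfadjoint elements of `M` have an expectation in `N` (nearest point for the `2`-norm among
the selfadjoint elements of `N` of norm at most `‖x‖`; truncation `t ↦ max (-c) (min t c)` is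
the nearest point projection onto `{-c ≤ h ≤ c}`, hence does not increase distances to `x`). -/
theorem exists_expN (hξ : IsTrace M ξ) (hN : ∀ x ∈ N, x ∈ M) {x : H →L[ℂ] H} (hx : x ∈ M)
    (hsa : IsSelfAdjoint x) :
    ∃ z ∈ N, IsSelfAdjoint z ∧ ‖z‖ ≤ ‖x‖ ∧ ∀ n ∈ N, vtr ξ (n * (x - z)) = 0 := by
  obtain ⟨z, hz, hzsa, hzx, hmin⟩ := exists_min (N := N) hξ (x := x)
  refine ⟨z, hz, hzsa, hzx, ?_⟩
  have hmin' : ∀ n ∈ N, IsSelfAdjoint n → n2 ξ (x - z) ≤ n2 ξ (x - n) := fun n hn hnsa =>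
    (hmin _ (cfc_mem N hn (tr ‖x‖)) (cfc_predicate _ _)
      (norm_cfc_tr_le (norm_nonneg _) n)).trans (n2_tr_le hξ hx hsa (hN n hn) hnsa)
  set y := x - z with hy
  have hyM : y ∈ M := sub_mem hx (hN z hz)
  have hysa : IsSelfAdjoint y := hsa.sub hzsa
  have key : ∀ h ∈ N, IsSelfAdjoint h → vtr ξ (h * y) = 0 := by
    intro h hh hhsa
    have h1 : ∀ t : ℝ, 0 ≤ t ^ 2 * n2 ξ h - 2 * t * (vtr ξ (y * h)).re := by
      intro t
      have htsa : IsSelfAdjoint ((t : ℂ) • h) := by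
        rw [IsSelfAdjoint, star_smul, hhsa.star_eq, Complex.star_def, Complex.conj_ofReal]
      have h2 := hmin' (z + (t : ℂ) • h) (add_mem hz (N.toStarSubalgebra.smul_mem hh _))
        (hzsa.add htsa)
      have h3 : x - (z + (t : ℂ) • h) = y + (-(t : ℂ)) • h := by
        rw [hy, neg_smul]; abel
      have h4 : n2 ξ ((-(t : ℂ)) • h) = t ^ 2 * n2 ξ h := by
        rw [n2_eq hξ, n2_eq hξ, star_smul, smul_mul_smul_comm, vtr_smul hξ, Complex.star_def]
        have : (starRingEnd ℂ) (-(t : ℂ)) * -(t : ℂ) = ((t ^ 2 : ℝ) : ℂ) := by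
          rw [map_neg, Complex.conj_ofReal]; push_cast; ring
        rw [this, Complex.re_ofReal_mul]
      have h5 : (vtr ξ (star y * ((-(t : ℂ)) • h))).re = -t * (vtr ξ (y * h)).re := by
        rw [hysa.star_eq, mul_smul_comm, vtr_smul hξ]
        have : (-(t : ℂ)) = ((-t : ℝ) : ℂ) := by push_cast; ring
        rw [this, Complex.re_ofReal_mul]
      rw [h3, n2_add hξ, h4, h5] at h2
      linarith only [h2]
    set a := n2 ξ h with ha
    set r := (vtr ξ (y * h)).re with hr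
    have ha0 : 0 ≤ a := n2_nonneg _ _
    have hr0 : r = 0 := by
      have h2 := h1 (r / (a + 1))
      have h3 : (r / (a + 1)) ^ 2 * a - 2 * (r / (a + 1)) * r
          = -(r ^ 2 * (a + 2)) / (a + 1) ^ 2 := by
        field_simp
        ring
      rw [h3] at h2
      have h4 : 0 ≤ -(r ^ 2 * (a + 2)) := by
        by_contra hlt
        push Not at hlt
        have : -(r ^ 2 * (a + 2)) / (a + 1) ^ 2 < 0 := div_neg_of_neg_of_pos hlt (by (clear * - ha0; positivity))
        linarith only [this, h2]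
      have h5 : r ^ 2 = 0 := by nlinarith only [ha0, h4]
      exact pow_eq_zero_iff (two_ne_zero) |>.1 h5
    have hcomm : vtr ξ (y * h) = vtr ξ (h * y) := hξ.tracial y hyM h (hN h hh)
    have him : (vtr ξ (y * h)).im = 0 := by
      have h2 := vtr_star hξ (y * h)
      rw [star_mul, hhsa.star_eq, hysa.star_eq, ← hcomm] at h2
      have h3 := congrArg Complex.im h2
      rw [Complex.star_def, Complex.conj_im] at h3
      linarith only [h3]
    rw [← hcomm]
    exact Complex.ext (by rw [← hr, hr0, Complex.zero_re]) (by rw [him, Complex.zero_im])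
  intro n hn
  have hs : star n ∈ N := star_mem hn
  have k1 := key (n + star n) (add_mem hn hs) (by
    rw [IsSelfAdjoint, star_add, star_star, add_comm])
  have k2 := key (Complex.I • (star n - n)) (N.toStarSubalgebra.smul_mem (sub_mem hs hn) _) (by
    rw [IsSelfAdjoint, star_smul, star_sub, star_star, Complex.star_def, Complex.conj_I, neg_smul,
      ← smul_neg, neg_sub])
  have e : n * y = (1 / 2 : ℂ) • ((n + star n) * y)
      + (Complex.I / 2) • ((Complex.I • (star n - n)) * y) := by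
    rw [smul_mul_assoc, smul_smul, sub_mul, add_mul]
    have : Complex.I / 2 * Complex.I = -(1 / 2) := by
      rw [div_mul_eq_mul_div, Complex.I_mul_I]; ring
    rw [this]
    module
  rw [e, vtr_add hξ, vtr_smul hξ, vtr_smul hξ, k1, k2]
  simp

end Vale.Agent.P078.F
end

section

/-! so-paving of arbitrary maximal abelian subalgebras of finite von Neumann algebras. -/

namespace Vale.Agent.P078.G

open Vale.Agent.P078 Vale.Agent.P078.C
open Filter Topology

universe u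

variable {H : Type u} [NormedAddCommGroup H] [InnerProductSpace ℂ H] [CompleteSpace H]
variable {M A N : VonNeumannAlgebra H} {ξ : ℕ → H} {E : (H →L[ℂ] H) →ₗ[ℂ] (H →L[ℂ] H)}

/-! ### the von Neumann algebra generated by the normalizer -/

/-- the normalizing unitaries -/
def nset (M A : VonNeumannAlgebra H) : Set (H →L[ℂ] H) := {x | ∃ u : nrm M A, x = op u}

/-- the von Neumann algebra generated by the normalizer -/
noncomputable def nAlg (M A : VonNeumannAlgebra H) : VonNeumannAlgebra H where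
  toStarSubalgebra := StarSubalgebra.centralizer ℂ (Set.centralizer (nset M A))
  centralizer_centralizer' := by
    change Set.centralizer (Set.centralizer (Set.centralizer _)) = Set.centralizer _
    rw [Set.centralizer_centralizer_centralizer]

theorem star_centralizer_nset {T : H →L[ℂ] H} (hT : T ∈ Set.centralizer (nset M A)) :
    star T ∈ Set.centralizer (nset M A) := by
  rintro _ ⟨u, rfl⟩
  have h := hT (star (op u)) ⟨u⁻¹, (op_inv u).symm⟩
  have h1 := congrArg star h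
  rw [star_mul, star_mul, star_star] at h1
  exact h1.symm

theorem mem_nAlg {x : H →L[ℂ] H} :
    x ∈ nAlg M A ↔ ∀ T ∈ Set.centralizer (nset M A), T * x = x * T := by
  constructor
  · intro h T hT
    exact h T (Or.inl hT)
  · intro h T hT
    rcases hT with hT | hT
    · exact h T hT
    · refine h T ?_
      have := star_centralizer_nset (M := M) (A := A) (T := star T) hT
      rwa [star_star] at this

theorem op_mem_nAlg (u : nrm M A) : op u ∈ nAlg M A :=
  mem_nAlg.2 fun _ hT => (hT (op u) ⟨u, rfl⟩).symm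

theorem nAlg_le {x : H →L[ℂ] H} (hx : x ∈ nAlg M A) : x ∈ M := by
  refine mem_of_commute fun y hy => ?_
  refine mem_nAlg.1 hx y ?_
  rintro _ ⟨u, rfl⟩
  exact (commutant_comm (op_mem u) hy).symm

theorem le_nAlg (hA : SO.IsMASA A M) {x : H →L[ℂ] H} (hx : x ∈ A) : x ∈ nAlg M A := by
  have h1 : nspan M A ≤ (Subalgebra.toSubmodule (nAlg M A).toStarSubalgebra.toSubalgebra) := by
    refine Submodule.span_le.2 ?_
    rintro _ ⟨u, rfl⟩
    exact op_mem_nAlg u
  exact h1 (nspan_of_mem hA hx)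

theorem isCartan_nAlg (hA : SO.IsMASA A M) : IsCartan A (nAlg M A) := by
  refine ⟨⟨fun x hx => le_nAlg hA hx, hA.2.1, fun x hx h => hA.2.2 x (nAlg_le hx) h⟩, ?_⟩
  intro T hT m hm
  refine mem_nAlg.1 hm T ?_
  rintro _ ⟨u, rfl⟩
  exact (hT ⟨u.1, op_mem_nAlg u, u.2.2.1, u.2.2.2⟩).symm

theorem isTrExp_sub (hE : IsTrExp M A ξ E) (hN : ∀ x ∈ N, x ∈ M) : IsTrExp N A ξ E :=
  ⟨fun x hx => hE.mem x (hN x hx), hE.idem, fun x hx => hE.nonneg x (hN x hx),
    fun a ha b hb x hx => hE.bimod a ha b hb x (hN x hx), fun x hx => hE.star x (hN x hx),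
    fun x hx => hE.tr x (hN x hx), fun x hx => hE.uniq x (hN x hx)⟩

/-! ### the combination -/

theorem vtr_sub' (hξ : IsTrace M ξ) (x y : H →L[ℂ] H) : vtr ξ (x - y) = vtr ξ x - vtr ξ y := by
  have := vtr_add hξ (x - y) y
  rw [sub_add_cancel] at this
  rw [this]; ring

theorem vtr_sum (hξ : IsTrace M ξ) {ι : Type*} (s : Finset ι) (x : ι → (H →L[ℂ] H)) :
    vtr ξ (∑ i ∈ s, x i) = ∑ i ∈ s, vtr ξ (x i) := by
  classical
  induction s using Finset.induction_on with
  | empty =>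
    rw [Finset.sum_empty, Finset.sum_empty]
    have := vtr_smul hξ 0 (0 : H →L[ℂ] H)
    rwa [zero_smul, zero_mul] at this
  | insert i s hi ih => rw [Finset.sum_insert hi, Finset.sum_insert hi, vtr_add hξ, ih]

/-- pinchings are self-adjoint for the trace pairing -/
theorem vtr_mul_pinch (hA : SO.IsMASA A M) (hξ : IsTrace M ξ) {r : ℕ} {P : Fin r → (H →L[ℂ] H)}
    (hP : IsPart A P) {x y : H →L[ℂ] H} (hx : x ∈ M) (hy : y ∈ M) :
    vtr ξ (x * pinch P y) = vtr ξ (pinch P x * y) := by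
  unfold pinch
  rw [Finset.mul_sum, Finset.sum_mul, vtr_sum hξ, vtr_sum hξ]
  refine Finset.sum_congr rfl fun i _ => ?_
  have hp := hA.1 _ (hP.1 i).1
  have e1 : x * (P i * y * P i) = (x * P i * y) * P i := by noncomm_ring
  have e2 : P i * x * P i * y = P i * (x * P i * y) := by noncomm_ring
  rw [e1, e2, hξ.tracial _ (mul_mem (mul_mem hx hp) hy) _ hp]

theorem sqrt_n2_smul (hξ : IsTrace M ξ) (c : ℝ) (hc : 0 ≤ c) (x : H →L[ℂ] H) :
    Real.sqrt (n2 ξ (((c : ℝ) : ℂ) • x)) = c * Real.sqrt (n2 ξ x) := by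
  have e : n2 ξ (((c : ℝ) : ℂ) • x) = c ^ 2 * n2 ξ x := by
    unfold n2
    rw [← tsum_mul_left]
    refine tsum_congr fun n => ?_
    rw [smul_apply, norm_smul, Complex.norm_real, Real.norm_of_nonneg hc, mul_pow]
  rw [e, Real.sqrt_mul (sq_nonneg c), Real.sqrt_sq hc]

/-- Combination of a paving of the part of `x` in the normalizer algebra with a random colouring
of the remaining part. -/
theorem combine (hA : SO.IsMASA A M) (hξ : IsTrace M ξ) (hE : IsTrExp M A ξ E)
    {ε : ℝ} (hε : 0 < ε) {R₁ r₂ : ℕ} (hr₂ : 64 / ε ^ 2 < r₂)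
    (hC : ∀ z ∈ nAlg M A, IsSelfAdjoint z → ‖z‖ ≤ 1 → E z = 0 → ∀ δ : ℝ, 0 < δ →
      ∃ (r : ℕ) (P : Fin r → (H →L[ℂ] H)), r ≤ R₁ ∧ IsPart A P ∧
        ∃ w ∈ nAlg M A, ‖w‖ ≤ ε / 2 ∧ n2 ξ (pinch P z - w) ≤ δ)
    {x : H →L[ℂ] H} (hx : x ∈ M) (hxs : IsSelfAdjoint x) (hx1 : ‖x‖ ≤ 1) (hEx : E x = 0)
    {δ : ℝ} (hδ : 0 < δ) :
    ∃ (r : ℕ) (P : Fin r → (H →L[ℂ] H)), r ≤ R₁ * r₂ ∧ IsPart A P ∧ ∃ w ∈ M, ‖w‖ ≤ ε ∧
      n2 ξ (pinch P x - w) ≤ δ := by
  have hNM : ∀ y ∈ nAlg M A, y ∈ M := fun y hy => nAlg_le hy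
  obtain ⟨z, hzN, hzs, hz1, hzo⟩ := F.exists_expN (N := nAlg M A) hξ hNM hx hxs
  have hzM := hNM z hzN
  -- the expectation of `z` vanishes
  have hEz : E z = 0 := by
    refine (hE.uniq z hzM 0 (zero_mem A) fun a ha => ?_).symm
    have haM := hA.1 a ha
    have h1 := hzo a (le_nAlg hA ha)
    rw [mul_sub, vtr_sub' hξ, hξ.tracial _ haM _ hx, hξ.tracial _ haM _ hzM] at h1
    have h2 : vtr ξ (x * a) = 0 := by
      rw [← hE.tr _ (mul_mem hx haM)]
      have := hE.bimod 1 (one_mem A) a ha x hx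
      rw [one_mul, one_mul] at this
      rw [this, hEx, zero_mul]
      have := vtr_smul hξ 0 (0 : H →L[ℂ] H)
      rwa [zero_smul, zero_mul] at this
    rw [h2, zero_sub, neg_eq_zero] at h1
    rw [h1, zero_mul]
    have := vtr_smul hξ 0 (0 : H →L[ℂ] H)
    rw [zero_smul, zero_mul] at this
    exact this.symm
  obtain ⟨r₁, P₁, hr₁, hP₁, w₁, hw₁N, hw₁n, hn₁⟩ := hC z hzN hzs (hz1.trans hx1) hEz (δ / 4)
    (by (clear * - hδ; (clear * - hδ; positivity)))
  have hw₁M := hNM w₁ hw₁N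
  -- the remaining part
  obtain ⟨y, hy⟩ : ∃ y, y = ((2⁻¹ : ℝ) : ℂ) • pinch P₁ (x - z) := ⟨_, rfl⟩
  have hpM : pinch P₁ (x - z) ∈ M := pinch_mem hA hP₁ (sub_mem hx hzM)
  have hyM : y ∈ M := by rw [hy]; exact M.toStarSubalgebra.smul_mem hpM _
  have hys : IsSelfAdjoint y := by
    rw [hy, IsSelfAdjoint, star_smul, (pinch_sa hP₁ (hxs.sub hzs)).star_eq]
    simp
  have hyn : ‖y‖ ≤ 1 := by
    have h1 : ‖pinch P₁ (x - z)‖ ≤ ‖x - z‖ := norm_pinch_le' hP₁ _
    have h2 : ‖x - z‖ ≤ 2 := by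
      refine (norm_sub_le _ _).trans ?_
      linarith only [hx1, hz1.trans hx1]
    rw [hy, norm_smul, Complex.norm_real, Real.norm_of_nonneg (by norm_num)]
    linarith only [h1, h2]
  have hyo : ∀ n ∈ nAlg M A, vtr ξ (star n * y) = 0 := by
    intro n hn
    have hs : star n ∈ nAlg M A := star_mem hn
    have hpN : pinch P₁ (star n) ∈ nAlg M A :=
      sum_mem fun i _ => mul_mem (mul_mem (le_nAlg hA (hP₁.1 i).1) hs) (le_nAlg hA (hP₁.1 i).1)
    rw [hy, mul_smul_comm, vtr_smul hξ, vtr_mul_pinch hA hξ hP₁ (hNM _ hs) (sub_mem hx hzM),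
      hzo _ hpN, mul_zero]
  have hr₂0 : 0 < r₂ := by
    have : (0 : ℝ) < r₂ := lt_trans (by (clear * - hε; (clear * - hε; positivity))) hr₂
    exact_mod_cast this
  obtain ⟨P₂, hP₂, w₂, hw₂M, hw₂s, hw₂n, hn₂⟩ := F.diffuse_paving hA hξ hyM hys hyn
    (fun κ hκ => F.small_blocks hA hξ hE hNM (fun u => op_mem_nAlg u) hyM hyo hκ)
    (r := r₂) hr₂0 (s := ε / 4) (δ := δ / 16) (by
      have h0 : (0 : ℝ) < r₂ := by exact_mod_cast hr₂0
      have h1 : 8 / ε < Real.sqrt r₂ := by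
        apply Real.lt_sqrt_of_sq_lt
        calc (8 / ε) ^ 2 = 64 / ε ^ 2 := by ring
          _ < (r₂ : ℝ) := hr₂
      have h2 : 0 < Real.sqrt r₂ := lt_trans (by (clear * - hε; (clear * - hε; positivity))) h1
      rw [div_lt_iff₀ h2]
      rw [div_lt_iff₀ hε] at h1
      linarith only [h1]) (by (clear * - hδ; positivity))
  refine ⟨r₁ * r₂, refi P₁ P₂, Nat.mul_le_mul_right _ hr₁, isPart_refi hA hP₁ hP₂,
    pinch P₂ w₁ + ((2 : ℝ) : ℂ) • w₂,
    add_mem (pinch_mem hA hP₂ hw₁M) (M.toStarSubalgebra.smul_mem hw₂M _), ?_, ?_⟩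
  · refine (norm_add_le _ _).trans ?_
    have h1 : ‖pinch P₂ w₁‖ ≤ ε / 2 := (norm_pinch_le' hP₂ w₁).trans hw₁n
    have h2 : ‖((2 : ℝ) : ℂ) • w₂‖ ≤ ε / 2 := by
      rw [norm_smul, Complex.norm_real, Real.norm_of_nonneg (by norm_num)]
      linarith only [hw₂n]
    linarith only [h1, h2]
  · have hxz : pinch P₁ x = pinch P₁ z + ((2 : ℝ) : ℂ) • y := by
      rw [hy, smul_smul, ← Complex.ofReal_mul, mul_inv_cancel₀ (by norm_num), Complex.ofReal_one,
        one_smul, pinch_sub]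
      abel
    have e1 : pinch (refi P₁ P₂) x - (pinch P₂ w₁ + ((2 : ℝ) : ℂ) • w₂) =
        pinch P₂ (pinch P₁ z - w₁) + ((2 : ℝ) : ℂ) • (pinch P₂ y - w₂) := by
      rw [pinch_refi hA hP₁ hP₂, hxz, pinch_add, pinch_smul, pinch_sub, smul_sub]
      abel
    have e2 : n2 ξ (pinch P₂ (pinch P₁ z - w₁)) ≤ δ / 4 :=
      (n2_pinch_le hA hξ hP₂ (sub_mem (pinch_mem hA hP₁ hzM) hw₁M)).trans hn₁
    have e4 : Real.sqrt (n2 ξ (pinch (refi P₁ P₂) x - (pinch P₂ w₁ + ((2 : ℝ) : ℂ) • w₂)))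
        ≤ Real.sqrt δ := by
      rw [e1]
      refine (sqrt_n2_add hξ _ _).trans ?_
      rw [sqrt_n2_smul hξ 2 (by norm_num)]
      have e6 := Real.sqrt_le_sqrt e2
      have e7 := Real.sqrt_le_sqrt hn₂
      have e8 : Real.sqrt (δ / 4) = Real.sqrt δ / 2 := by
        rw [Real.sqrt_div' _ (by norm_num), show (4 : ℝ) = 2 ^ 2 by norm_num,
          Real.sqrt_sq (by norm_num)]
      have e9 : Real.sqrt (δ / 16) = Real.sqrt δ / 4 := by
        rw [Real.sqrt_div' _ (by norm_num), show (16 : ℝ) = 4 ^ 2 by norm_num,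
          Real.sqrt_sq (by norm_num)]
      linarith only [e6, e7, e8, e9]
    exact (Real.sqrt_le_sqrt_iff hδ.le).1 e4

end Vale.Agent.P078.G
end

section

/-! T5: one colouring given by a rule serves the part in the normalizer algebra and the part
orthogonal to it. -/

set_option linter.unusedSectionVars false

namespace Vale.Agent.P078.Y

open Filter Topology
open Vale.Agent.P078 Vale.Agent.P078.C
open scoped Classical

universe u

variable {H : Type u} [NormedAddCommGroup H] [InnerProductSpace ℂ H] [CompleteSpace H]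
variable {M A N : VonNeumannAlgebra H} {ξ : ℕ → H} {E : (H →L[ℂ] H) →ₗ[ℂ] (H →L[ℂ] H)}
variable {X : Type*} [TopologicalSpace X] [MulAction (nrm M A) X]

theorem spec_ext (𝒮 : Spec M A X) {a b : H →L[ℂ] H} (ha : a ∈ A) (hb : b ∈ A)
    (h : ∀ ω, 𝒮.val ω a = 𝒮.val ω b) : a = b := by
  rw [← sub_eq_zero]
  refine 𝒮.inj _ (sub_mem ha hb) fun ω => ?_
  rw [𝒮.val_sub ω ha hb, h ω, sub_self]

/-- a partition gives a labelling of the spectrum -/
theorem exists_label (𝒮 : Spec M A X) (t : Part A.toStarSubalgebra) :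
    ∃ i : X → t.ι, IsLocallyConstant i ∧ ∀ j ω, 𝒮.val ω (t.e j) = if i ω = j then 1 else 0 := by
  have h01 : ∀ ω j, 𝒮.val ω (t.e j) = 0 ∨ 𝒮.val ω (t.e j) = 1 := fun ω j =>
    𝒮.val_proj ω (t.mem j) (t.proj j)
  have hsum : ∀ ω, ∑ j, 𝒮.val ω (t.e j) = 1 := by
    intro ω
    rw [← 𝒮.one ω, ← t.sum_eq, 𝒮.val_sum _ _ (fun j _ => t.mem j)]
  have hex : ∀ ω, ∃ j, 𝒮.val ω (t.e j) = 1 := by
    intro ω
    by_contra hcon
    push Not at hcon
    have h := hsum ω
    rw [Finset.sum_eq_zero fun j _ => (h01 ω j).resolve_right (hcon j)] at h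
    exact zero_ne_one h
  choose i hi using hex
  have hval : ∀ j ω, 𝒮.val ω (t.e j) = if i ω = j then 1 else 0 := by
    intro j ω
    split_ifs with h
    · rw [← h]; exact hi ω
    · have h1 := 𝒮.mul ω _ (t.mem (i ω)) _ (t.mem j)
      rw [t.orth _ _ h, 𝒮.val_zero, hi ω, one_mul] at h1
      exact h1.symm
  refine ⟨i, ?_, hval⟩
  rw [IsLocallyConstant.iff_eventually_eq]
  intro ω
  have hc := (𝒮.cont _ (t.mem (i ω))).continuousAt (x := ω)
  have h1 : ∀ᶠ ω' in 𝓝 ω, 𝒮.val ω' (t.e (i ω)) ≠ 0 := by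
    refine hc.eventually_ne ?_
    rw [hi ω]; exact one_ne_zero
  filter_upwards [h1] with ω' h2
  rw [hval] at h2
  by_contra h3
  rw [if_neg h3] at h2
  exact h2 rfl

/-- a locally constant function with finitely many values gives a partition -/
theorem exists_partY (hA : SO.IsMASA A M) (𝒮 : Spec M A X) {Y : Type} [Fintype Y] (F : X → Y)
    (hF : IsLocallyConstant F) :
    ∃ f : Y → (H →L[ℂ] H), (∀ l, f l ∈ A) ∧ (∀ l, IsStarProjection (f l)) ∧
      (∀ l l', l ≠ l' → f l * f l' = 0) ∧ ∑ l, f l = 1 ∧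
      ∀ l ω, 𝒮.val ω (f l) = if F ω = l then 1 else 0 := by
  obtain ⟨P, hP, hv⟩ := exists_part hA 𝒮 (fun ω => Fintype.equivFin Y (F ω)) (hF.comp _)
  refine ⟨fun l => P (Fintype.equivFin Y l), fun l => (hP.1 _).1, fun l => (hP.1 _).2,
    fun l l' h => hP.2.1 _ _ fun h' => h ((Fintype.equivFin Y).injective h'), ?_, fun l ω => ?_⟩
  · rw [← hP.2.2]
    exact Equiv.sum_comp (Fintype.equivFin Y) P
  · rw [hv]
    simp

/-- `mix` with colours in `Fin (k + 1)` -/
theorem mix_fin (hA : SO.IsMASA A M) (hξ : IsTrace M ξ) (hE : IsTrExp M A ξ E)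
    (hNM : ∀ x ∈ N, x ∈ M) (hN : ∀ u : nrm M A, op u ∈ N) {y : H →L[ℂ] H} (hy : y ∈ M)
    (hsa : IsSelfAdjoint y) (hy1 : ‖y‖ ≤ 1) (horth : ∀ n ∈ N, vtr ξ (star n * y) = 0)
    {n : ℕ} (u : Fin n → nrm M A) (k : ℕ) {s δ : ℝ}
    (hs : 2 / Real.sqrt ((k + 1 : ℕ) : ℝ) < s) (hδ : 0 < δ) :
    ∃ t₀ : Part A.toStarSubalgebra, ∀ t f : Part A.toStarSubalgebra, t₀.Finer t →
      ∀ idx : Fin n → f.ι → t.ι,
      (∀ g l, (star (op (u g)) * t.e (idx g l) * op (u g)) * f.e l = f.e l) →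
      ∀ col : f.ι → (t.ι → Fin (k + 1)) → Fin (k + 1),
      (∀ l U V, (∀ g, U (idx g l) = V (idx g l)) → col l U = col l V) →
      (∀ l U, col l (fun i => U i + 1) = col l U + 1) →
      ∃ U : t.ι → Fin (k + 1), ∃ w ∈ M, IsSelfAdjoint w ∧ ‖w‖ ≤ s ∧
        ∀ P : Fin (k + 1) → (H →L[ℂ] H), (∀ a, P a = ∑ l, if col l U = a then f.e l else 0) →
          n2 ξ (pinch P y - w) ≤ δ := by
  obtain ⟨t₀, h⟩ := mix hA hξ hE hNM hN hy hsa hy1 horth u (k + 1) hs hδ
  refine ⟨t₀, fun t f ht idx hidx col hdep heqv => ?_⟩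
  obtain ⟨U, w, hw, hwsa, hws, hn⟩ := h t f ht idx hidx col hdep heqv
  refine ⟨U, w, hw, hwsa, hws, fun P hP => ?_⟩
  have key : ∀ Q : Fin (k + 1) → (H →L[ℂ] H), (∀ a, P a = Q a) →
      n2 ξ ((∑ a, Q a * y * Q a) - w) ≤ δ → n2 ξ (pinch P y - w) ≤ δ := by
    intro Q hQ h
    obtain rfl : P = Q := funext hQ
    exact h
  refine key (fun a : ZMod (k + 1) => ∑ l, @ite _ (col l U = a)
    (ZMod.decidableEq (k + 1) (col l U) a) (f.e l) 0) (fun a => ?_) ?_
  · refine (hP a).trans (Finset.sum_congr rfl fun l _ => ?_)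
    congr
  · exact hn

/-- one sample of the rule serves the rule and the mixing part -/
theorem paint_aux (hA : SO.IsMASA A M) (hξ : IsTrace M ξ) (hE : IsTrExp M A ξ E)
    (hNM : ∀ x ∈ N, x ∈ M) (hN : ∀ u : nrm M A, op u ∈ N) {y : H →L[ℂ] H} (hy : y ∈ M)
    (hsa : IsSelfAdjoint y) (hy1 : ‖y‖ ≤ 1) (horth : ∀ n ∈ N, vtr ξ (star n * y) = 0)
    (𝒮 : Spec M A X) {k : ℕ} {B : Finset (nrm M A)}
    {Φ : X → (nrm M A → Fin (k + 1)) → Fin (k + 1)} (hΦ : D.IsRuleA B Φ)
    {s δ : ℝ} (hs : 2 / Real.sqrt ((k + 1 : ℕ) : ℝ) < s) (hδ : 0 < δ) :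
    ∃ U : X → Fin (k + 1), IsLocallyConstant U ∧ ∃ P : Fin (k + 1) → (H →L[ℂ] H), IsPart A P ∧
      (∀ i ω, 𝒮.val ω (P i) = if Φ ω (fun g => U (g • ω)) = i then 1 else 0) ∧
      ∃ w ∈ M, IsSelfAdjoint w ∧ ‖w‖ ≤ s ∧ n2 ξ (pinch P y - w) ≤ δ := by
  -- enumeration of the window
  obtain ⟨n, u, hu⟩ : ∃ (n : ℕ) (u : Fin n → nrm M A), ∀ g, g ∈ insert 1 B ↔ ∃ j, u j = g := by
    refine ⟨_, fun j => ((insert 1 B).equivFin.symm j : nrm M A), fun g => ⟨fun hg => ?_, ?_⟩⟩
    · exact ⟨(insert 1 B).equivFin ⟨g, hg⟩, by simp⟩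
    · rintro ⟨j, rfl⟩
      exact ((insert 1 B).equivFin.symm j).2
  obtain ⟨t, hmix⟩ := mix_fin hA hξ hE hNM hN hy hsa hy1 horth u k hs hδ
  obtain ⟨i, hi, hval⟩ := exists_label 𝒮 t
  obtain ⟨j₀, -⟩ := (hu 1).1 (Finset.mem_insert_self _ _)
  have hB : ∀ g ∈ B, ∃ j, u j = g := fun g hg => (hu g).1 (Finset.mem_insert_of_mem hg)
  -- extension by zero of the seen labels
  obtain ⟨ext, hext⟩ : ∃ ext : (Fin n → Fin (k + 1)) → (nrm M A → Fin (k + 1)),
      ∀ c, ext c = fun g => if h : ∃ j, u j = g then c h.choose else 0 := ⟨_, fun _ => rfl⟩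
  have hext1 : ∀ c, ∀ g ∈ B, ∃ j, u j = g ∧ ext c g = c j := by
    intro c g hg
    have h := hB g hg
    refine ⟨h.choose, h.choose_spec, ?_⟩
    rw [hext]
    simp only
    rw [dif_pos h]
  have hext2 : ∀ c c', (∀ j, c' j = c j + 1) → ∀ g ∈ B, ext c' g = ext c g + 1 := by
    intro c c' hc g hg
    have h := hB g hg
    rw [hext, hext]
    simp only
    rw [dif_pos h, dif_pos h, hc]
  obtain ⟨F, hFdef⟩ : ∃ F : X → (Fin n → t.ι) × ((Fin n → Fin (k + 1)) → Fin (k + 1)),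
      ∀ ω, F ω = (fun g => i (u g • ω), fun c => Φ ω (ext c)) := ⟨_, fun _ => rfl⟩
  have hF : IsLocallyConstant F := by
    rw [IsLocallyConstant.iff_eventually_eq]
    intro ω
    have h1 : ∀ g : Fin n, ∀ᶠ ω' in 𝓝 ω, i (u g • ω') = i (u g • ω) := fun g =>
      (𝒮.contAct (u g)).continuousAt.eventually
        ((IsLocallyConstant.iff_eventually_eq i).1 hi (u g • ω))
    have h2 : ∀ c : Fin n → Fin (k + 1), ∀ᶠ ω' in 𝓝 ω, Φ ω' (ext c) = Φ ω (ext c) := fun c =>
      (IsLocallyConstant.iff_eventually_eq _).1 (hΦ.lc (ext c)) ω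
    filter_upwards [Filter.eventually_all.2 h1, Filter.eventually_all.2 h2] with ω' h3 h4
    rw [hFdef, hFdef]
    exact Prod.ext (funext h3) (funext h4)
  obtain ⟨fe, hf1, hf2, hf3, hf4, hf5⟩ := exists_partY hA 𝒮 F hF
  obtain ⟨col, hcol⟩ : ∃ col : (Fin n → t.ι) × ((Fin n → Fin (k + 1)) → Fin (k + 1)) →
      (t.ι → Fin (k + 1)) → Fin (k + 1), ∀ l U, col l U =
        if ∃ ω, F ω = l then l.2 (fun g => U (l.1 g)) else U (l.1 j₀) := ⟨_, fun _ _ => rfl⟩
  obtain ⟨U, w, hw, hwsa, hws, hn⟩ := hmix t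
    ⟨(Fin n → t.ι) × ((Fin n → Fin (k + 1)) → Fin (k + 1)), fe, hf1, hf2, hf3, hf4⟩
    (Part.Finer.refl t) (fun g l => l.1 g) (fun g l => by
      change (star (op (u g)) * t.e (l.1 g) * op (u g)) * fe l = fe l
      have h1 : star (op (u g)) * t.e (l.1 g) * op (u g) ∈ A := (u g).2.2.2 _ (t.mem _)
      refine spec_ext 𝒮 (mul_mem h1 (hf1 l)) (hf1 l) fun ω => ?_
      rw [𝒮.mul ω _ h1 _ (hf1 l), hf5]
      have h2 := 𝒮.act (u g) ω _ (t.mem (l.1 g))
      rw [hval] at h2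
      split_ifs with h
      · rw [mul_one]
        refine h2.symm.trans ?_
        rw [if_pos]
        rw [← h, hFdef]
      · rw [mul_zero]) col (fun l U V h => by
      rw [hcol, hcol]
      split_ifs with h1
      · exact congrArg l.2 (funext fun g => h g)
      · exact h j₀) (fun l U => by
      rw [hcol, hcol]
      split_ifs with h1
      · obtain ⟨ω, rfl⟩ := h1
        rw [hFdef]
        simp only
        have h2 := hΦ.equiv ω (ext fun g => U (i (u g • ω))) 1
        refine Eq.trans ?_ h2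
        refine hΦ.loc ω _ _ fun g hg => ?_
        exact hext2 _ _ (fun j => rfl) g hg
      · rfl)
  refine ⟨fun ω => U (i ω), hi.comp _, ?_⟩
  obtain ⟨P, hP, hPv⟩ := exists_part hA 𝒮 (fun ω => Φ ω (fun g => U (i (g • ω)))) (by
    have h1 : (fun ω => Φ ω (fun g => U (i (g • ω)))) = fun ω => col (F ω) U := by
      funext ω
      rw [hcol, if_pos ⟨ω, rfl⟩, hFdef]
      simp only
      refine hΦ.loc ω _ _ fun g hg => ?_
      obtain ⟨j, h2, h3⟩ := hext1 (fun g => U (i (u g • ω))) g hg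
      rw [h3, h2]
    rw [h1]
    exact hF.comp fun l => col l U)
  refine ⟨P, hP, hPv, w, hw, hwsa, hws, ?_⟩
  have hPe : ∀ a, P a = ∑ l, if col l U = a then fe l else 0 := by
    intro a
    refine spec_ext 𝒮 (hP.1 a).1 (sum_mem fun l _ => ?_) fun ω => ?_
    · split_ifs
      exacts [hf1 l, zero_mem A]
    · rw [hPv, 𝒮.val_sum _ _ (fun l _ => by
        split_ifs
        exacts [hf1 l, zero_mem A])]
      have h1 : Φ ω (fun g => U (i (g • ω))) = col (F ω) U := by
        rw [hcol, if_pos ⟨ω, rfl⟩, hFdef]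
        simp only
        refine hΦ.loc ω _ _ fun g hg => ?_
        obtain ⟨j, h2, h3⟩ := hext1 (fun g => U (i (u g • ω))) g hg
        rw [h3, h2]
      rw [h1, Finset.sum_eq_single (F ω)]
      · split_ifs with h2
        · rw [hf5, if_pos rfl]
        · rw [𝒮.val_zero]
      · intro l _ hl
        split_ifs with h2
        · rw [hf5, if_neg (Ne.symm hl)]
        · rw [𝒮.val_zero]
      · exact fun h => absurd (Finset.mem_univ _) h
  exact hn P hPe

end Vale.Agent.P078.Y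
end

section

/-! so-paving of arbitrary maximal abelian subalgebras of finite von Neumann algebras:
the bound. -/

namespace Vale.Agent.P078.G

open Vale.Agent.P078 Vale.Agent.P078.C
open Filter Topology

universe u

variable {H : Type u} [NormedAddCommGroup H] [InnerProductSpace ℂ H] [CompleteSpace H]
variable {M A N : VonNeumannAlgebra H} {ξ : ℕ → H} {E : (H →L[ℂ] H) →ₗ[ℂ] (H →L[ℂ] H)}

theorem isTrace_sub (hξ : IsTrace M ξ) (hN : ∀ x ∈ N, x ∈ M) : IsTrace N ξ :=
  ⟨hξ.summable, hξ.norm_one, fun x hx y hy => hξ.tracial x (hN x hx) y (hN y hy),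
    fun x hx => hξ.faithful x (hN x hx)⟩

/-- paving in the `2`-norm, for an arbitrary maximal abelian subalgebra -/
theorem masa_two_norm (hA : SO.IsMASA A M) (hξ : IsTrace M ξ) (hE : IsTrExp M A ξ E)
    {ε : ℝ} (hε : 0 < ε) (hε1 : ε < 1) {x : H →L[ℂ] H} (hx : x ∈ M) (hxs : IsSelfAdjoint x)
    (hx1 : ‖x‖ ≤ 1) (hEx : E x = 0) {δ : ℝ} (hδ : 0 < δ) :
    ∃ (r : ℕ) (P : Fin r → (H →L[ℂ] H)), (r : ℝ) ≤ 327080 / ε ^ 5 ∧
        IsPart A P ∧ ∃ w ∈ M, ‖w‖ ≤ ε ∧ n2 ξ (pinch P x - w) ≤ δ := by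
  have hNM : ∀ y ∈ nAlg M A, y ∈ M := fun y hy => nAlg_le hy
  have hr₂ : 64 / ε ^ 2 < ((⌊64 / ε ^ 2⌋₊ + 1 : ℕ) : ℝ) := by
    push_cast
    exact Nat.lt_floor_add_one _
  obtain ⟨r, P, hr, hP, w, hw, hwn, hn⟩ := combine (R₁ := ⌊5032 / ε ^ 3⌋₊) hA hξ hE hε hr₂
    (fun z hz hzs hz1 hEz δ hδ => by
      obtain ⟨r, P, hr, hP, w, hw, hwn, hn⟩ := two_sided' (isCartan_nAlg hA)
        (isTrace_sub hξ hNM) (isTrExp_sub hE hNM) (ε := ε / 2) (by (clear * - hε; (clear * - hε; positivity))) (by linarith only [hε1])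
        hz hzs hz1 hEz hδ
      refine ⟨r, P, ?_, hP, w, hw, hwn, hn⟩
      apply Nat.le_floor
      refine hr.trans (le_of_eq ?_)
      field_simp
      norm_num) hx hxs hx1 hEx hδ
  refine ⟨r, P, ?_, hP, w, hw, hwn, hn⟩
  have h1 : (r : ℝ) ≤ ((⌊5032 / ε ^ 3⌋₊ * (⌊64 / ε ^ 2⌋₊ + 1) : ℕ) : ℝ) := by exact_mod_cast hr
  have h2 : ((⌊5032 / ε ^ 3⌋₊ : ℕ) : ℝ) ≤ 5032 / ε ^ 3 := Nat.floor_le (by (clear * - hε; (clear * - hε; positivity)))
  have h3 : ((⌊64 / ε ^ 2⌋₊ : ℕ) : ℝ) ≤ 64 / ε ^ 2 := Nat.floor_le (by (clear * - hε; positivity))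
  have h4 : 64 / ε ^ 2 + 1 ≤ 65 / ε ^ 2 := by
    have h5 : 1 ≤ 1 / ε ^ 2 := by
      rw [le_div_iff₀ (by (clear * - hε; positivity))]
      nlinarith only [hε, hε1]
    have h6 : 65 / ε ^ 2 = 64 / ε ^ 2 + 1 / ε ^ 2 := by ring
    linarith only [h5, h6]
  push_cast at h1
  calc (r : ℝ) ≤ (⌊5032 / ε ^ 3⌋₊ : ℝ) * ((⌊64 / ε ^ 2⌋₊ : ℝ) + 1) := h1
    _ ≤ (5032 / ε ^ 3) * (65 / ε ^ 2) := by
      gcongr
      linarith only [h3, h4]
    _ = 327080 / ε ^ 5 := by
      field_simp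
      norm_num

theorem masa_sopavable (hA : SO.IsMASA A M) (hξ : IsTrace M ξ) {ε : ℝ} (hε : 0 < ε)
    (hε1 : ε < 1) {R : ℕ} (hR : (327080 * 1024 : ℕ) / ε ^ 5 ≤ (R : ℝ)) {x : H →L[ℂ] H}
    (hx : x ∈ M) (hxs : IsSelfAdjoint x) : SO.SOPavable M A 1 x ε R := by
  obtain ⟨E, hE⟩ := exists_trExp hA hξ
  refine sopavable_of hA hξ hE hε hx hxs fun y hy hys hy1 hEy δ hδ => ?_
  obtain ⟨r, P, hr, hP, w, hw, hwn, hn⟩ := masa_two_norm hA hξ hE (ε := ε / 4) (by (clear * - hε; (clear * - hε; positivity)))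
    (by linarith only [hε1]) hy hys hy1 hEy hδ
  refine ⟨r, P, ?_, hP, w, hw, hwn, hn⟩
  have h : (r : ℝ) ≤ R := by
    refine hr.trans (le_trans (le_of_eq ?_) hR)
    push_cast
    field_simp
    norm_num
  exact_mod_cast h

end Vale.Agent.P078.G
end

section

/-! T5: paving in the `2`-norm with `C ε⁻²` projections, for every maximal abelian subalgebra of a
finite von Neumann algebra. -/

set_option linter.unusedSectionVars false

namespace Vale.Agent.P078.Y

open Filter Topology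
open Vale.Agent.P078 Vale.Agent.P078.C

universe u

variable {H : Type u} [NormedAddCommGroup H] [InnerProductSpace ℂ H] [CompleteSpace H]
variable {M A : VonNeumannAlgebra H} {ξ : ℕ → H} {E : (H →L[ℂ] H) →ₗ[ℂ] (H →L[ℂ] H)}

theorem exp_zero_of_orth (hA : SO.IsMASA A M) (hξ : IsTrace M ξ) (hE : IsTrExp M A ξ E)
    {x z : H →L[ℂ] H} (hx : x ∈ M) (hz : z ∈ M) (hEx : E x = 0)
    (hzo : ∀ n ∈ G.nAlg M A, vtr ξ (n * (x - z)) = 0) : E z = 0 := by
  refine (hE.uniq z hz 0 (zero_mem A) fun a ha => ?_).symm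
  have haM := hA.1 a ha
  have h1 := hzo a (G.le_nAlg hA ha)
  rw [mul_sub, G.vtr_sub' hξ, hξ.tracial _ haM _ hx, hξ.tracial _ haM _ hz] at h1
  have h2 : vtr ξ (x * a) = 0 := by
    rw [← hE.tr _ (mul_mem hx haM)]
    have := hE.bimod 1 (one_mem A) a ha x hx
    rw [one_mul, one_mul] at this
    rw [this, hEx, zero_mul]
    have := vtr_smul hξ 0 (0 : H →L[ℂ] H)
    rwa [zero_smul, zero_mul] at this
  rw [h2, zero_sub, neg_eq_zero] at h1
  rw [h1, zero_mul]
  have := vtr_smul hξ 0 (0 : H →L[ℂ] H)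
  rw [zero_smul, zero_mul] at this
  exact this.symm

theorem nspan_nAlg_le {x : H →L[ℂ] H} (hx : x ∈ nspan (G.nAlg M A) A) : x ∈ nspan M A := by
  refine Submodule.span_induction (p := fun x _ => x ∈ nspan M A) ?_ ?_ ?_ ?_ hx
  · rintro _ ⟨v, rfl⟩
    exact Submodule.subset_span ⟨⟨v.1, G.nAlg_le v.2.1, v.2.2.1, v.2.2.2⟩, rfl⟩
  · exact zero_mem _
  · exact fun a b _ _ => add_mem
  · exact fun c a _ => Submodule.smul_mem _ c

/-- both parts of `x` are paved by one sample of the rule -/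
theorem masa_pair (hA : SO.IsMASA A M) (hξ : IsTrace M ξ) (hE : IsTrExp M A ξ E)
    {k : ℕ} {t₀ u s : ℝ} (ht : 2 * 1 < t₀) (hu : eb (2 * (k + 1)) (2 * 1) (2 * 1) t₀ < u)
    (hu0 : 0 < u) (hs : 2 / Real.sqrt ((k + 1 : ℕ) : ℝ) < s)
    {x : H →L[ℂ] H} (hx : x ∈ M) (hxs : IsSelfAdjoint x)
    (hx1 : ‖x‖ ≤ 1) (hEx : E x = 0) {δ : ℝ} (hδ : 0 < δ) :
    ∃ P : Fin (k + 1) → (H →L[ℂ] H), IsPart A P ∧ ∃ w ∈ M, ‖w‖ ≤ u + 2 * s ∧
      n2 ξ (pinch P x - w) ≤ δ := by
  have hNM : ∀ y ∈ G.nAlg M A, y ∈ M := fun y hy => G.nAlg_le hy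
  obtain ⟨z, hzN, hzs, hz1, hzo⟩ := F.exists_expN (N := G.nAlg M A) hξ hNM hx hxs
  have hzM := hNM z hzN
  have hEz : E z = 0 := exp_zero_of_orth hA hξ hE hx hzM hEx hzo
  have hz1' : ‖z‖ ≤ 1 := hz1.trans hx1
  -- the slack
  have key : ∃ d : ℝ, 0 < d ∧ 2 * (1 + d) < t₀ ∧
      eb (2 * (k + 1)) (2 * (1 + d)) (2 * (1 + d)) t₀ < u ∧ d < δ / 36 := by
    have c1 : Continuous fun d : ℝ => 2 * (1 + d) := by fun_prop
    have c2 : Continuous fun d : ℝ => eb (2 * (k + 1)) (2 * (1 + d)) (2 * (1 + d)) t₀ := by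
      have h1 : (fun d : ℝ => eb (2 * (k + 1)) (2 * (1 + d)) (2 * (1 + d)) t₀) = fun d =>
          t₀ - (1 - 1 / ((2 * (k + 1) : ℕ) : ℝ)) ^ 2 *
            ((t₀ - 2 * (1 + d)) * (t₀ + 2 * (1 + d)) / t₀) := by
        funext d
        unfold eb
        rw [show t₀ + 2 * (1 + d) - 2 * (1 + d) = t₀ by ring]
      rw [h1]
      (clear * -; fun_prop)
    have e1 : ∀ᶠ d in 𝓝[>] (0 : ℝ), 2 * (1 + d) < t₀ :=
      ((c1.tendsto' 0 (2 * 1) (by simp)).eventually_lt_const ht).filter_mono nhdsWithin_le_nhds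
    have e2 : ∀ᶠ d in 𝓝[>] (0 : ℝ), eb (2 * (k + 1)) (2 * (1 + d)) (2 * (1 + d)) t₀ < u :=
      ((c2.tendsto' 0 (eb (2 * (k + 1)) (2 * 1) (2 * 1) t₀) (by simp)).eventually_lt_const
        hu).filter_mono nhdsWithin_le_nhds
    have e3 : ∀ᶠ d in 𝓝[>] (0 : ℝ), d < δ / 36 :=
      ((continuous_id.tendsto' 0 0 rfl).eventually_lt_const
        (by (clear * - hδ; positivity) : (0 : ℝ) < δ / 36)).filter_mono nhdsWithin_le_nhds
    obtain ⟨d, ⟨h1, h2⟩, h3, h4⟩ := ((e1.and e2).and (e3.and self_mem_nhdsWithin)).exists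
    exact ⟨d, h4, h1, h2, h3⟩
  obtain ⟨d, hd, had, hed, hsd⟩ := key
  obtain ⟨δ', hδ', happ⟩ := approx_zero (G.isCartan_nAlg hA) (G.isTrace_sub hξ hNM)
    (G.isTrExp_sub hE hNM) (a := 1) (b := 1) zero_le_one zero_le_one hd
  obtain ⟨x', hx'n, hx's, hEx', hx'a, hx'b, hn⟩ := happ z hzN hzs
    (G.le_of_norm_le hzs hz1') (G.neg_le_of_norm_le hzs hz1') (by
      rw [hEz]
      refine le_trans (n2_le hξ 0) ?_
      rw [norm_zero]
      simpa only [ne_eq, OfNat.ofNat_ne_zero, not_false_eq_true, zero_pow] using hδ'.le)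
  have hx' : x' ∈ nspan M A := nspan_nAlg_le hx'n
  have hx'M : x' ∈ M := nspan_le hx'
  -- the mixing part
  obtain ⟨y, hy⟩ : ∃ y, y = ((2⁻¹ : ℝ) : ℂ) • (x - z) := ⟨_, rfl⟩
  have hyM : y ∈ M := by rw [hy]; exact M.toStarSubalgebra.smul_mem (sub_mem hx hzM) _
  have hys : IsSelfAdjoint y := by
    rw [hy, IsSelfAdjoint, star_smul, (hxs.sub hzs).star_eq]
    simp only [Complex.ofReal_inv, Complex.ofReal_ofNat, star_inv₀, star_ofNat]
  have hyn : ‖y‖ ≤ 1 := by
    have h2 : ‖x - z‖ ≤ 2 := by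
      refine (norm_sub_le _ _).trans ?_
      linarith only [hx1, hz1]
    rw [hy, norm_smul, Complex.norm_real, Real.norm_of_nonneg (by norm_num)]
    linarith only [h2]
  have hyo : ∀ n ∈ G.nAlg M A, vtr ξ (star n * y) = 0 := by
    intro n hn
    have hs : star n ∈ G.nAlg M A := star_mem hn
    rw [hy, mul_smul_comm, vtr_smul hξ, hzo _ hs, mul_zero]
  -- the rule and the sample
  obtain ⟨X, _, _, _, _, _, ⟨𝒮⟩⟩ := exists_spec hA (nontrivial_of_trace hξ)
  obtain ⟨B, Φ, hΦ, hrule⟩ := D.two_sided_rule hA hξ hE 𝒮 hx' hx's hEx' (a := 1 + d)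
    (by linarith only [hd]) hx'a hx'b (r := k + 1) had hed hu0 (δ := δ / 36) (by (clear * - hδ; positivity))
  obtain ⟨U, hU, P, hP, hPv, w₂, hw₂M, hw₂s, hw₂n, hn₂⟩ := paint_aux hA hξ hE hNM
    (fun u => G.op_mem_nAlg u) hyM hys hyn hyo 𝒮 hΦ hs (δ := δ / 36) (by (clear * - hδ; positivity))
  obtain ⟨w₁, hw₁M, hw₁s, hw₁l, hw₁u, hn₁⟩ := hrule U hU P hP hPv
  refine ⟨P, hP, w₁ + ((2 : ℝ) : ℂ) • w₂,
    add_mem hw₁M (M.toStarSubalgebra.smul_mem hw₂M _), ?_, ?_⟩
  · refine (norm_add_le _ _).trans ?_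
    have h1 : ‖w₁‖ ≤ u := G.norm_le_of_bounds hw₁s hu0.le le_rfl le_rfl hw₁l hw₁u
    have h2 : ‖((2 : ℝ) : ℂ) • w₂‖ ≤ 2 * s := by
      rw [norm_smul, Complex.norm_real, Real.norm_of_nonneg (by norm_num)]
      linarith only [hw₂n]
    linarith only [h1, h2]
  · have hxz : x = (z - x') + x' + ((2 : ℝ) : ℂ) • y := by
      rw [hy, smul_smul, ← Complex.ofReal_mul, mul_inv_cancel₀ (by norm_num), Complex.ofReal_one,
        one_smul]
      abel
    have e1 : pinch P x - (w₁ + ((2 : ℝ) : ℂ) • w₂) =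
        (pinch P (z - x') + (pinch P x' - w₁)) + ((2 : ℝ) : ℂ) • (pinch P y - w₂) := by
      conv_lhs => rw [hxz]
      rw [G.pinch_add, G.pinch_add, G.pinch_smul, smul_sub]
      abel
    have e2 : n2 ξ (pinch P (z - x')) ≤ δ / 36 := by
      refine (n2_pinch_le hA hξ hP (sub_mem hzM hx'M)).trans ?_
      rw [← n2_neg, neg_sub]
      exact hn.trans hsd.le
    have e4 : Real.sqrt (n2 ξ (pinch P x - (w₁ + ((2 : ℝ) : ℂ) • w₂))) ≤ Real.sqrt δ := by
      rw [e1]
      refine (sqrt_n2_add hξ _ _).trans ?_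
      have e5 := sqrt_n2_add hξ (pinch P (z - x')) (pinch P x' - w₁)
      rw [G.sqrt_n2_smul hξ 2 (by norm_num)]
      have e6 := Real.sqrt_le_sqrt e2
      have e7 := Real.sqrt_le_sqrt hn₁
      have e8 := Real.sqrt_le_sqrt hn₂
      have e9 : Real.sqrt (δ / 36) = Real.sqrt δ / 6 := by
        rw [Real.sqrt_div' _ (by norm_num), show (36 : ℝ) = 6 ^ 2 by norm_num,
          Real.sqrt_sq (by norm_num)]
      have e10 := Real.sqrt_nonneg δ
      linarith only [e5, e6, e7, e8, e9, e10]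
    exact (Real.sqrt_le_sqrt_iff hδ.le).1 e4

/-- paving in the `2`-norm, for an arbitrary maximal abelian subalgebra, with `C ε⁻²` pieces -/
theorem masa_two_norm (hA : SO.IsMASA A M) (hξ : IsTrace M ξ) (hE : IsTrExp M A ξ E)
    {ε : ℝ} (hε : 0 < ε) (hε1 : ε < 1) {x : H →L[ℂ] H} (hx : x ∈ M) (hxs : IsSelfAdjoint x)
    (hx1 : ‖x‖ ≤ 1) (hEx : E x = 0) {δ : ℝ} (hδ : 0 < δ) :
    ∃ (r : ℕ) (P : Fin r → (H →L[ℂ] H)), (r : ℝ) ≤ 70 / ε ^ 2 ∧
        IsPart A P ∧ ∃ w ∈ M, ‖w‖ ≤ ε ∧ n2 ξ (pinch P x - w) ≤ δ := by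
  obtain ⟨k, hk, hk'⟩ : ∃ k : ℕ, 69 / ε ^ 2 ≤ ((k + 1 : ℕ) : ℝ) ∧
      ((k + 1 : ℕ) : ℝ) ≤ 69 / ε ^ 2 + 1 := by
    refine ⟨⌊69 / ε ^ 2⌋₊, ?_, ?_⟩
    · push_cast
      exact (Nat.lt_floor_add_one _).le
    · push_cast
      have := Nat.floor_le (a := 69 / ε ^ 2) (by (clear * - hε; positivity))
      linarith only [this]
  have hs : 8.3 / ε ≤ Real.sqrt ((k + 1 : ℕ) : ℝ) := by
    apply Real.le_sqrt_of_sq_le
    calc (8.3 / ε) ^ 2 = 68.89 / ε ^ 2 := by ring
      _ ≤ 69 / ε ^ 2 := by gcongr; norm_num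
      _ ≤ _ := hk
  have hs2 : 11.7 / ε ≤ Real.sqrt ((2 * (k + 1) : ℕ) : ℝ) := by
    apply Real.le_sqrt_of_sq_le
    push_cast at hk ⊢
    calc (11.7 / ε) ^ 2 = 136.89 / ε ^ 2 := by ring
      _ ≤ 2 * (69 / ε ^ 2) := by
        rw [show 2 * (69 / ε ^ 2) = 138 / ε ^ 2 by ring]
        gcongr
        norm_num
      _ ≤ 2 * ((k : ℝ) + 1) := by (clear * - hk; (clear * - hk; gcongr))
  have h0 : 0 < Real.sqrt ((k + 1 : ℕ) : ℝ) := lt_of_lt_of_le (by (clear * - hε; positivity)) hs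
  have h02 : 0 < Real.sqrt ((2 * (k + 1) : ℕ) : ℝ) := lt_of_lt_of_le (by (clear * - hε; positivity)) hs2
  have hk2 : 2 ≤ k + 1 := by
    have h1 : (69 : ℝ) ≤ ((k + 1 : ℕ) : ℝ) := by
      refine le_trans ?_ hk
      rw [le_div_iff₀ (by (clear * - hε; positivity))]
      (by_contra nlg; linarith only [nlg, mul_pos (sub_pos.2 hε1) (sub_pos.2 hε1), mul_pos (sub_pos.2 hε) (sub_pos.2 hε1), mul_pos (sub_pos.2 (not_le.1 nlg)) (sub_pos.2 hε1), mul_pos (sub_pos.2 (not_le.1 nlg)) (sub_pos.2 hε)])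
    have h2 : 69 ≤ k + 1 := by exact_mod_cast h1
    (clear * - h2; omega)
  have hu : eb (2 * (k + 1)) (2 * 1) (2 * 1) (2 * Real.sqrt ((2 * (k + 1) : ℕ) : ℝ)) <
      0.516 * ε := by
    refine (D.eb_two hk2).trans_lt ?_
    rw [div_lt_iff₀ h02]
    rw [div_le_iff₀ hε] at hs2
    linarith only [hs2]
  have ht : 2 * (1 : ℝ) < 2 * Real.sqrt ((2 * (k + 1) : ℕ) : ℝ) := by
    have : (1 : ℝ) < 11.7 / ε := by
      rw [lt_div_iff₀ hε]; linarith only [hε, hε1]
    linarith only [hs2, this]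
  have hs' : 2 / Real.sqrt ((k + 1 : ℕ) : ℝ) < 0.242 * ε := by
    rw [div_lt_iff₀ h0]
    rw [div_le_iff₀ hε] at hs
    linarith only [hε, hε1, hs]
  obtain ⟨P, hP, w, hwM, hwn, hn⟩ := masa_pair hA hξ hE ht hu (by (clear * - hε; positivity)) hs' hx hxs hx1 hEx hδ
  refine ⟨k + 1, P, ?_, hP, w, hwM, hwn.trans (by linarith only []), hn⟩
  refine hk'.trans ?_
  have : (1 : ℝ) ≤ 1 / ε ^ 2 := by
    rw [le_div_iff₀ (by (clear * - hε; positivity))]; nlinarith only [hε, hε1]
  have e : (70 : ℝ) / ε ^ 2 = 69 / ε ^ 2 + 1 / ε ^ 2 := by ring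
  linarith only [this, e]

end Vale.Agent.P078.Y
end

end

section
section

/-! Corner algebras: passage from `pMp`, acting on `pH`, back to `M`. -/

namespace Vale.Agent.P078.G

open Vale.Agent.P078 Vale.Agent.P078.C
open Filter Topology
open ContinuousLinearMap (adjoint)

universe u

section corner

variable {H K : Type u} [NormedAddCommGroup H] [InnerProductSpace ℂ H] [CompleteSpace H]
variable [NormedAddCommGroup K] [InnerProductSpace ℂ K] [CompleteSpace K]
variable {M A : VonNeumannAlgebra H} {i : K →L[ℂ] H} {p : H →L[ℂ] H}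

/-- compression to `K` -/
noncomputable def dn (i : K →L[ℂ] H) (x : H →L[ℂ] H) : K →L[ℂ] K :=
  (adjoint i).comp (x.comp i)

/-- extension from `K` to `H` -/
noncomputable def up (i : K →L[ℂ] H) (x : K →L[ℂ] K) : H →L[ℂ] H :=
  i.comp (x.comp (adjoint i))

/-- `i` is an isometry with range projection `p` -/
structure Iso (i : K →L[ℂ] H) (p : H →L[ℂ] H) : Prop where
  iso : ∀ v, adjoint i (i v) = v
  ran : ∀ v, i (adjoint i v) = p v

theorem exists_iso {p : H →L[ℂ] H} (hp : IsStarProjection p) :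
    ∃ (K : Type u) (_ : NormedAddCommGroup K) (_ : InnerProductSpace ℂ K) (_ : CompleteSpace K)
      (i : K →L[ℂ] H), Iso i p := by
  obtain ⟨h1, h2⟩ := isStarProjection_iff_eq_starProjection_range.1 hp
  have hc : CompleteSpace p.range := by
    have : IsClosed (p.range : Set H) := by
      rw [← Submodule.orthogonal_orthogonal p.range]
      exact Submodule.isClosed_orthogonal _
    exact this.completeSpace_coe
  refine ⟨p.range, inferInstance, inferInstance, hc, p.range.subtypeL, ⟨fun v => ?_, fun v => ?_⟩⟩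
  · rw [Submodule.adjoint_subtypeL]
    simp
  · rw [Submodule.adjoint_subtypeL]
    conv_rhs => rw [h2]
    rfl

namespace Iso

variable (hi : Iso i p)
include hi

theorem up_mul (x y : K →L[ℂ] K) : up i (x * y) = up i x * up i y := by
  ext v
  change i (x (y (adjoint i v))) = i (x (adjoint i (i (y (adjoint i v)))))
  rw [hi.iso]

omit hi in
theorem up_star (x : K →L[ℂ] K) : up i (star x) = star (up i x) := by
  refine (inner_ext fun ζ η => ?_).symm
  rw [← star_apply_inner, star_star]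
  change inner ℂ (i (x (adjoint i ζ))) η = inner ℂ ζ (i ((star x) (adjoint i η)))
  rw [← ContinuousLinearMap.adjoint_inner_right i, ← star_star x, star_apply_inner, star_star,
    ContinuousLinearMap.adjoint_inner_left]

omit hi in
theorem up_add (x y : K →L[ℂ] K) : up i (x + y) = up i x + up i y := by
  ext v
  change i (x (adjoint i v) + y (adjoint i v)) = _
  rw [map_add]
  rfl

omit hi in
theorem up_sub (x y : K →L[ℂ] K) : up i (x - y) = up i x - up i y := by
  ext v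
  change i (x (adjoint i v) - y (adjoint i v)) = _
  rw [map_sub]
  rfl

omit hi in
theorem up_sum {α : Type*} (s : Finset α) (x : α → (K →L[ℂ] K)) :
    up i (∑ j ∈ s, x j) = ∑ j ∈ s, up i (x j) := by
  ext v
  change i ((∑ j ∈ s, x j) (adjoint i v)) = _
  rw [sum_apply, sum_apply, map_sum]
  rfl

theorem up_one : up i (1 : K →L[ℂ] K) = p := by
  ext v
  exact hi.ran v

theorem norm_up_le (x : K →L[ℂ] K) : ‖up i x‖ ≤ ‖x‖ := by
  have h1 : ∀ v, ‖i v‖ = ‖v‖ := by
    intro v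
    have h2 : ‖i v‖ ^ 2 = ‖v‖ ^ 2 := by
      rw [← inner_self_re (i v), ← ContinuousLinearMap.adjoint_inner_right, hi.iso,
        inner_self_re]
    exact (sq_eq_sq₀ (norm_nonneg _) (norm_nonneg _)).1 h2
  have h3 : ∀ v, ‖adjoint i v‖ ≤ ‖v‖ := by
    intro v
    have h4 : ‖adjoint i v‖ ^ 2 ≤ ‖adjoint i v‖ * ‖v‖ := by
      calc ‖adjoint i v‖ ^ 2 = (inner ℂ (adjoint i v) (adjoint i v)).re := by
            rw [← inner_self_re]
        _ = (inner ℂ (i (adjoint i v)) v).re := by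
            rw [ContinuousLinearMap.adjoint_inner_right]
        _ ≤ ‖inner ℂ (i (adjoint i v)) v‖ := Complex.re_le_norm _
        _ ≤ ‖i (adjoint i v)‖ * ‖v‖ := norm_inner_le_norm _ _
        _ = ‖adjoint i v‖ * ‖v‖ := by rw [h1]
    rcases (norm_nonneg (adjoint i v)).eq_or_lt with h5 | h5
    · rw [← h5]; exact norm_nonneg _
    · rw [pow_two] at h4
      exact le_of_mul_le_mul_left h4 h5
  refine ContinuousLinearMap.opNorm_le_bound _ (norm_nonneg _) fun v => ?_
  change ‖i (x (adjoint i v))‖ ≤ _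
  rw [h1]
  exact (x.le_opNorm _).trans (mul_le_mul_of_nonneg_left (h3 v) (norm_nonneg _))

theorem norm_apply (v : K) : ‖i v‖ = ‖v‖ := by
  have h2 : ‖i v‖ ^ 2 = ‖v‖ ^ 2 := by
    rw [← inner_self_re (i v), ← ContinuousLinearMap.adjoint_inner_right, hi.iso,
      inner_self_re]
  exact (sq_eq_sq₀ (norm_nonneg _) (norm_nonneg _)).1 h2

theorem norm_adjoint_le (v : H) : ‖adjoint i v‖ ≤ ‖v‖ := by
  have h4 : ‖adjoint i v‖ ^ 2 ≤ ‖adjoint i v‖ * ‖v‖ := by
    calc ‖adjoint i v‖ ^ 2 = (inner ℂ (adjoint i v) (adjoint i v)).re := by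
          rw [← inner_self_re]
      _ = (inner ℂ (i (adjoint i v)) v).re := by
          rw [ContinuousLinearMap.adjoint_inner_right]
      _ ≤ ‖inner ℂ (i (adjoint i v)) v‖ := Complex.re_le_norm _
      _ ≤ ‖i (adjoint i v)‖ * ‖v‖ := norm_inner_le_norm _ _
      _ = ‖adjoint i v‖ * ‖v‖ := by rw [hi.norm_apply]
  rcases (norm_nonneg (adjoint i v)).eq_or_lt with h5 | h5
  · rw [← h5]; exact norm_nonneg _
  · rw [pow_two] at h4
    exact le_of_mul_le_mul_left h4 h5

theorem norm_dn_le (x : H →L[ℂ] H) : ‖dn i x‖ ≤ ‖x‖ := by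
  refine ContinuousLinearMap.opNorm_le_bound _ (norm_nonneg _) fun v => ?_
  change ‖adjoint i (x (i v))‖ ≤ _
  refine (hi.norm_adjoint_le _).trans ((x.le_opNorm _).trans ?_)
  rw [hi.norm_apply]

theorem dn_up (x : K →L[ℂ] K) : dn i (up i x) = x := by
  ext v
  change adjoint i (i (x (adjoint i (i v)))) = x v
  rw [hi.iso, hi.iso]

theorem up_dn (x : H →L[ℂ] H) : up i (dn i x) = p * x * p := by
  ext v
  change i (adjoint i (x (i (adjoint i v)))) = p (x (p v))
  rw [hi.ran, hi.ran]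

theorem adjoint_p (v : H) : adjoint i (p v) = adjoint i v := by
  rw [← hi.ran, hi.iso]

theorem p_apply (v : K) : p (i v) = i v := by
  rw [← hi.ran, hi.iso]

theorem proj : IsStarProjection p := by
  refine ⟨?_, ?_⟩
  · ext v
    change p (p v) = p v
    rw [← hi.ran v, hi.p_apply]
  · refine (inner_ext fun ζ η => ?_)
    rw [← star_apply_inner, star_star, ← hi.ran, ← hi.ran,
      ← ContinuousLinearMap.adjoint_inner_right i, ContinuousLinearMap.adjoint_inner_left i]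

theorem up_injective {x y : K →L[ℂ] K} (h : up i x = up i y) : x = y := by
  rw [← hi.dn_up x, h, hi.dn_up]

omit hi in
theorem dn_star (x : H →L[ℂ] H) : dn i (star x) = star (dn i x) := by
  refine (inner_ext fun ζ η => ?_).symm
  rw [← star_apply_inner, star_star]
  change inner ℂ (adjoint i (x (i ζ))) η = inner ℂ ζ (adjoint i ((star x) (i η)))
  rw [ContinuousLinearMap.adjoint_inner_right, ContinuousLinearMap.adjoint_inner_left,
    ← star_apply_inner, star_star]

end Iso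

/-- generators of the commutant of the corner algebra -/
def cset (M : VonNeumannAlgebra H) (i : K →L[ℂ] H) : Set (K →L[ℂ] K) :=
  {T | ∃ y ∈ M.commutant, T = dn i y}

/-- the corner algebra -/
noncomputable def cAlg (M : VonNeumannAlgebra H) (i : K →L[ℂ] H) : VonNeumannAlgebra K where
  toStarSubalgebra := StarSubalgebra.centralizer ℂ (cset M i)
  centralizer_centralizer' := by
    change Set.centralizer (Set.centralizer (Set.centralizer _)) = Set.centralizer _
    rw [Set.centralizer_centralizer_centralizer]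

theorem mem_cAlg (hi : Iso i p) (hp : p ∈ M) {x : K →L[ℂ] K} : x ∈ cAlg M i ↔ up i x ∈ M := by
  constructor
  · intro h
    refine mem_of_commute fun y hy => ?_
    have h1 : dn i y * x = x * dn i y := h (dn i y) (Or.inl ⟨y, hy, rfl⟩)
    have hyp : ∀ v, y (p v) = p (y v) := fun v => DFunLike.congr_fun (commutant_comm hp hy) v
    ext v
    change y (i (x (adjoint i v))) = i (x (adjoint i (y v)))
    have h2 := DFunLike.congr_fun h1 (adjoint i v)
    have h3 : adjoint i (y (i (x (adjoint i v)))) = x (adjoint i (y (i (adjoint i v)))) := h2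
    rw [hi.ran, hyp, hi.adjoint_p] at h3
    rw [← h3, hi.ran, ← hyp, hi.p_apply]
  · intro h T hT
    have key : ∀ y ∈ M.commutant, dn i y * x = x * dn i y := by
      intro y hy
      have hyp : ∀ v, y (p v) = p (y v) := fun v => DFunLike.congr_fun (commutant_comm hp hy) v
      ext v
      change adjoint i (y (i (x v))) = x (adjoint i (y (i v)))
      have h1 := DFunLike.congr_fun (commutant_comm h hy) (i v)
      have h2 : y (i (x (adjoint i (i v)))) = i (x (adjoint i (y (i v)))) := h1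
      rw [hi.iso] at h2
      rw [h2, hi.iso]
    rcases hT with ⟨y, hy, rfl⟩ | hT
    · exact key y hy
    · obtain ⟨y, hy, hTy⟩ := hT
      have h1 : T = dn i (star y) := by
        rw [Iso.dn_star, ← hTy, star_star]
      rw [h1]
      exact key _ (star_mem hy)

theorem dn_mem (hi : Iso i p) (hp : p ∈ M) {x : H →L[ℂ] H} (hx : x ∈ M) : dn i x ∈ cAlg M i := by
  rw [mem_cAlg hi hp, hi.up_dn]
  exact mul_mem (mul_mem hp hx) hp

theorem isMASA_cAlg (hA : SO.IsMASA A M) (hi : Iso i p) (hp : p ∈ A) :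
    SO.IsMASA (cAlg A i) (cAlg M i) := by
  have hpM := hA.1 p hp
  refine ⟨fun x hx => ?_, fun x hx y hy => ?_, fun x hx h => ?_⟩
  · rw [mem_cAlg hi hpM]
    exact hA.1 _ ((mem_cAlg hi hp).1 hx)
  · apply hi.up_injective
    rw [hi.up_mul, hi.up_mul]
    exact hA.2.1 _ ((mem_cAlg hi hp).1 hx) _ ((mem_cAlg hi hp).1 hy)
  · rw [mem_cAlg hi hp]
    refine hA.2.2 _ ((mem_cAlg hi hpM).1 hx) fun a ha => ?_
    have h1 := congrArg (up i) (h (dn i a) (dn_mem hi hp ha))
    rw [hi.up_mul, hi.up_mul, hi.up_dn] at h1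
    have hux : up i x = up i x * p := by
      conv_rhs => rw [← hi.up_one]
      rw [← hi.up_mul, mul_one]
    have hux' : up i x = p * up i x := by
      conv_rhs => rw [← hi.up_one]
      rw [← hi.up_mul, one_mul]
    have hpp := hi.proj.isIdempotentElem.eq
    have hap : a * p = p * a := hA.2.1 a ha p hp
    have e1 : p * a * p * up i x = a * up i x := by
      calc p * a * p * up i x = (a * p) * p * up i x := by rw [hap]
        _ = a * (p * p) * up i x := by noncomm_ring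
        _ = a * (p * up i x) := by rw [hpp, mul_assoc]
        _ = a * up i x := by rw [← hux']
    have e2 : up i x * (p * a * p) = up i x * a := by
      calc up i x * (p * a * p) = up i x * (p * (a * p)) := by noncomm_ring
        _ = up i x * (p * (p * a)) := by rw [hap]
        _ = up i x * (p * p) * a := by noncomm_ring
        _ = up i x * a := by rw [hpp, ← hux]
    rw [e1, e2] at h1
    exact h1

/-- so-paving in the corner algebra gives so-paving in the corner -/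
theorem sopavable_up (hA : SO.IsMASA A M) (hi : Iso i p) (hp : p ∈ A) {x : H →L[ℂ] H}
    (hpx : p * x * p = x) {ε : ℝ} (hε : 0 ≤ ε) {r : ℕ}
    (h : SO.SOPavable (cAlg M i) (cAlg A i) 1 (dn i x) ε r) : SO.SOPavable M A p x ε r := by
  classical
  have hpM := hA.1 p hp
  intro F hF δ hδ
  obtain ⟨P, a, q, hP1, hP2, hP3, haA, -, has, han, hqM, -, hqp, hqF, hn⟩ :=
    h (F.image (adjoint i)) (fun _ _ => rfl) δ hδ
  have hdx := hi.norm_dn_le x
  have hstar : ∀ y : K →L[ℂ] K, IsSelfAdjoint y → IsSelfAdjoint (up i y) := by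
    intro y hy
    rw [IsSelfAdjoint, ← Iso.up_star, hy.star_eq]
  have hproj : ∀ y : K →L[ℂ] K, IsStarProjection y → IsStarProjection (up i y) := by
    intro y hy
    refine ⟨?_, hstar y hy.isSelfAdjoint⟩
    change up i y * up i y = up i y
    rw [← hi.up_mul, hy.isIdempotentElem.eq]
  have hup1 : ∀ y : K →L[ℂ] K, p * up i y = up i y := by
    intro y
    conv_lhs => rw [← hi.up_one]
    rw [← hi.up_mul, one_mul]
  have hpin : ∀ y : K →L[ℂ] K, up i y * x * up i y = up i (y * dn i x * y) := by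
    intro y
    rw [hi.up_mul, hi.up_mul, hi.up_dn, hpx]
  refine ⟨fun j => up i (P j), up i a, up i q, fun j => ⟨(mem_cAlg hi hp).1 (hP1 j).1,
    hproj _ (hP1 j).2⟩, fun j k hjk => ?_, ?_, (mem_cAlg hi hp).1 haA, hup1 a, hstar a has,
    (hi.norm_up_le a).trans (han.trans hdx), (mem_cAlg hi hpM).1 hqM, hup1 q, hproj q hqp,
    fun ξ hξ => ?_, ?_⟩
  · rw [← hi.up_mul, hP2 j k hjk]
    ext v
    exact map_zero i
  · rw [← Iso.up_sum, hP3, hi.up_one]
  · have h1 := hqF (adjoint i ξ) (Finset.mem_image_of_mem _ hξ)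
    have h2 : ξ - up i q ξ = i (adjoint i ξ - q (adjoint i ξ)) := by
      rw [map_sub, hi.ran, hF ξ hξ]
      rfl
    rw [h2, hi.norm_apply]
    exact h1
  · have h1 : up i q * (∑ j, up i (P j) * x * up i (P j) - up i a) * up i q =
        up i (q * (∑ j, P j * dn i x * P j - a) * q) := by
      rw [hi.up_mul, hi.up_mul, Iso.up_sub, Iso.up_sum]
      simp only [hpin]
    rw [h1]
    exact (hi.norm_up_le _).trans (hn.trans (mul_le_mul_of_nonneg_left hdx hε))

theorem vtr_up (ξ : ℕ → H) (x : K →L[ℂ] K) :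
    vtr (fun n => adjoint i (ξ n)) x = vtr ξ (up i x) := by
  unfold vtr
  refine tsum_congr fun n => ?_
  rw [ContinuousLinearMap.adjoint_inner_left]
  rfl

end corner

section traceOn

variable {H : Type u} [NormedAddCommGroup H] [InnerProductSpace ℂ H] [CompleteSpace H]
variable {M A : VonNeumannAlgebra H} {p : H →L[ℂ] H}

/-- `ξ` gives a faithful normal finite trace on `p M p` -/
structure TraceOn (M : VonNeumannAlgebra H) (p : H →L[ℂ] H) (ξ : ℕ → H) : Prop where
  fix : ∀ n, p (ξ n) = ξ n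
  summable : Summable fun n => ‖ξ n‖ ^ 2
  tracial : ∀ x ∈ M, ∀ y ∈ M, vtr ξ (x * p * y) = vtr ξ (y * p * x)
  faithful : ∀ x ∈ M, (∀ n, x (ξ n) = 0) → x * p = 0

theorem vtr_const_smul (c : ℝ) (ξ : ℕ → H) (x : H →L[ℂ] H) :
    vtr (fun n => ((c : ℝ) : ℂ) • ξ n) x = ((c ^ 2 : ℝ) : ℂ) * vtr ξ x := by
  unfold vtr
  rw [← tsum_mul_left]
  refine tsum_congr fun n => ?_
  rw [map_smul, inner_smul_left, inner_smul_right, Complex.conj_ofReal]
  push_cast
  ring

/-- the corner algebra of a traceable projection is a finite von Neumann algebra -/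
theorem TraceOn.sopavable (hA : SO.IsMASA A M) (hp : p ∈ A) (hpp : IsStarProjection p)
    {ξ : ℕ → H} (hξ : TraceOn M p ξ) {ε : ℝ} (hε : 0 < ε) (hε1 : ε < 1) {R : ℕ}
    (hR : (327080 * 1024 : ℕ) / ε ^ 5 ≤ (R : ℝ)) {x : H →L[ℂ] H} (hx : x ∈ M)
    (hxs : IsSelfAdjoint x) (hpx : p * x * p = x) : SO.SOPavable M A p x ε R := by
  have hpM := hA.1 p hp
  have hR1 : 1 ≤ R := by
    have h1 : (0 : ℝ) < R := lt_of_lt_of_le (by (clear * - hε; positivity)) hR
    exact_mod_cast h1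
  by_cases hp0 : p = 0
  · -- trivial case
    subst hp0
    have hx0 : x = 0 := by rw [← hpx]; simp
    intro F hF δ hδ
    refine ⟨fun _ => 0, 0, 0, fun _ => ⟨zero_mem A, IsStarProjection.zero _⟩, fun _ _ _ => by simp,
      by simp only [Finset.sum_const_zero], zero_mem A, by simp, IsSelfAdjoint.zero _, by simp only [norm_zero, norm_nonneg], zero_mem M, by simp,
      IsStarProjection.zero _, fun ζ hζ => ?_, by simp only [hx0, mul_zero, Finset.sum_const_zero, sub_self, norm_zero, Std.le_refl]⟩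
    have := hF ζ hζ
    rw [← this]
    simpa only [zero_apply, sub_self, norm_zero, gt_iff_lt] using hδ
  · obtain ⟨K, _, _, _, i, hi⟩ := exists_iso hpp
    refine sopavable_up hA hi hp hpx hε.le ?_
    -- the trace
    obtain ⟨c, hc⟩ : ∃ c : ℝ, c = ∑' n, ‖ξ n‖ ^ 2 := ⟨_, rfl⟩
    have hc0 : 0 < c := by
      rcases (tsum_nonneg fun n => sq_nonneg ‖ξ n‖ : (0 : ℝ) ≤ ∑' n, ‖ξ n‖ ^ 2).eq_or_lt
        with h | h
      · exfalso
        have h1 : ∀ n, ‖ξ n‖ ^ 2 = 0 := by
          have := (hasSum_zero_iff_of_nonneg (fun n => sq_nonneg ‖ξ n‖)).1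
            (by rw [h]; exact hξ.summable.hasSum)
          intro n
          exact congrFun this n
        have h2 := hξ.faithful 1 (one_mem M) fun n => by
          have := h1 n
          rw [one_apply_eq_self]
          exact norm_eq_zero.1 (pow_eq_zero_iff (two_ne_zero)|>.1 this)
        rw [one_mul] at h2
        exact hp0 h2
      · rw [hc]; exact h
    have hcs : 0 < Real.sqrt c := Real.sqrt_pos.2 hc0
    obtain ⟨s, hs⟩ : ∃ s : ℝ, s = (Real.sqrt c)⁻¹ := ⟨_, rfl⟩
    have hs0 : 0 < s := by rw [hs]; (clear * - hc0; positivity)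
    have hs2 : s ^ 2 * c = 1 := by
      rw [hs, inv_pow, Real.sq_sqrt hc0.le, inv_mul_cancel₀ hc0.ne']
    obtain ⟨ζ, hζ⟩ : ∃ ζ : ℕ → H, ζ = fun n => ((s : ℝ) : ℂ) • ξ n := ⟨_, rfl⟩
    have hnorm : ∀ n, ‖adjoint i (ζ n)‖ ^ 2 = s ^ 2 * ‖ξ n‖ ^ 2 := by
      intro n
      have h1 : ‖adjoint i (ξ n)‖ = ‖ξ n‖ := by
        rw [← hi.norm_apply, hi.ran, hξ.fix]
      rw [hζ]
      simp only [map_smul]
      rw [norm_smul, Complex.norm_real, Real.norm_of_nonneg hs0.le, mul_pow, h1]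
    have hT : IsTrace (cAlg M i) (fun n => adjoint i (ζ n)) := by
      refine ⟨?_, ?_, fun x hx y hy => ?_, fun x hx h => ?_⟩
      · simp only [hnorm]
        exact hξ.summable.mul_left _
      · simp only [hnorm]
        rw [tsum_mul_left, ← hc, hs2]
      · rw [vtr_up, vtr_up, hi.up_mul, hi.up_mul, hζ, vtr_const_smul, vtr_const_smul]
        congr 1
        have hxM := (mem_cAlg hi hpM).1 hx
        have hyM := (mem_cAlg hi hpM).1 hy
        have e1 : up i x = up i x * p := by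
          conv_rhs => rw [← hi.up_one]
          rw [← hi.up_mul, mul_one]
        have e2 : up i y = up i y * p := by
          conv_rhs => rw [← hi.up_one]
          rw [← hi.up_mul, mul_one]
        have h1 := hξ.tracial _ hxM _ hyM
        rwa [← e1, ← e2] at h1
      · apply hi.up_injective
        have hxM := (mem_cAlg hi hpM).1 hx
        have e1 : up i x = up i x * p := by
          conv_rhs => rw [← hi.up_one]
          rw [← hi.up_mul, mul_one]
        have e0 : up i (0 : K →L[ℂ] K) = 0 := by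
          ext v
          exact map_zero i
        rw [e0, e1]
        refine hξ.faithful _ hxM fun n => ?_
        have h1 : x (adjoint i (ζ n)) = 0 := h n
        rw [hζ] at h1
        simp only [map_smul] at h1
        rcases smul_eq_zero.1 h1 with h2 | h2
        · exact absurd (by exact_mod_cast h2 : s = 0) hs0.ne'
        · change i (x (adjoint i (ξ n))) = 0
          rw [h2, map_zero]
    refine masa_sopavable (isMASA_cAlg hA hi hp) hT hε hε1 hR (dn_mem hi hpM hx) ?_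
    rw [IsSelfAdjoint, ← Iso.dn_star, hxs.star_eq]

end traceOn

end Vale.Agent.P078.G
end

section

/-! Semifinite von Neumann algebras: traces given by families of vectors, local so-paving. -/

namespace Vale.Agent.P078.G

open Vale.Agent.P078 Vale.Agent.P078.C
open Vale.Agent.P078.SO (wt SemiTrace)
open Filter Topology
open scoped ENNReal

universe u

variable {H : Type u} [NormedAddCommGroup H] [InnerProductSpace ℂ H] [CompleteSpace H]
variable {M A : VonNeumannAlgebra H}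

/-- so-paving is a local property -/
theorem sopavable_local (hA : SO.IsMASA A M) {z : H →L[ℂ] H} (hz : z ∈ A)
    (hzp : IsStarProjection z) {ε : ℝ} (hε : 0 ≤ ε) {r : ℕ} (hr : 1 ≤ r)
    (h : ∀ F : Finset H, (∀ ξ ∈ F, z ξ = ξ) → ∀ δ : ℝ, 0 < δ →
      ∃ p ∈ A, IsStarProjection p ∧ z * p = p ∧ (∀ ξ ∈ F, ‖ξ - p ξ‖ < δ) ∧
        ∀ x ∈ M, IsSelfAdjoint x → p * x * p = x → SO.SOPavable M A p x ε r)
    {x : H →L[ℂ] H} (hx : x ∈ M) (hxs : IsSelfAdjoint x) :
    SO.SOPavable M A z x ε r := by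
  classical
  intro F hF δ hδ
  obtain ⟨p, hpA, hpp, hzp', hpF, hp⟩ := h F hF (δ / 2) (by (clear * - hδ; positivity))
  have hpM := hA.1 p hpA
  have hpp2 : p * p = p := hpp.isIdempotentElem.eq
  have hpz : p * z = p := by rw [hA.2.1 p hpA z hz, hzp']
  have hxp : p * (p * x * p) * p = p * x * p := by
    calc p * (p * x * p) * p = (p * p) * x * (p * p) := by noncomm_ring
      _ = _ := by rw [hpp2]
  obtain ⟨P, a, q, hP1, hP2, hP3, haA, hpa, has, han, hqM, hpq, hqp, hqF, hn⟩ :=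
    hp (p * x * p) (mul_mem (mul_mem hpM hx) hpM) (by
      rw [IsSelfAdjoint, star_mul, star_mul, hxs.star_eq, hpp.isSelfAdjoint.star_eq, mul_assoc])
      hxp (F.image p) (fun ξ hξ => by
        obtain ⟨ζ, _, rfl⟩ := Finset.mem_image.1 hξ
        exact proj_apply_apply hpp ζ) (δ / 2) (by (clear * - hδ; positivity))
  have hnx : ‖p * x * p‖ ≤ ‖x‖ := by
    have h1 := hpp.norm_le
    calc ‖p * x * p‖ ≤ ‖p * x‖ * ‖p‖ := norm_mul_le _ _
      _ ≤ (‖p‖ * ‖x‖) * ‖p‖ := by gcongr; exact norm_mul_le _ _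
      _ ≤ (1 * ‖x‖) * 1 := by (clear * - h1; gcongr)
      _ = ‖x‖ := by ring
  have hqp' : q * p = q := by
    have := congrArg star hpq
    rwa [star_mul, hpp.isSelfAdjoint.star_eq, hqp.isSelfAdjoint.star_eq] at this
  have hpP : ∀ i, p * P i = P i := by
    intro i
    rw [← hP3, Finset.sum_mul, Finset.sum_eq_single i]
    · exact (hP1 i).2.isIdempotentElem.eq
    · intro j _ hj
      exact hP2 j i hj
    · intro hi
      exact absurd (Finset.mem_univ i) hi
  have hPp : ∀ i, P i * p = P i := by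
    intro i
    rw [hA.2.1 _ (hP1 i).1 p hpA, hpP]
  have hPz : ∀ i, P i * (z - p) = 0 := by
    intro i
    rw [← hPp i, mul_assoc, mul_sub, hpz, hpp2, sub_self, mul_zero]
  have hzP : ∀ i, (z - p) * P i = 0 := by
    intro i
    rw [← hpP i, ← mul_assoc, sub_mul, hzp', hpp2, sub_self, zero_mul]
  have hzz : z * z = z := hzp.isIdempotentElem.eq
  obtain ⟨i₀, hi₀⟩ : ∃ i₀ : Fin r, (i₀ : ℕ) = 0 := ⟨⟨0, hr⟩, rfl⟩
  let P' : Fin r → (H →L[ℂ] H) := fun i => P i + if i = i₀ then z - p else 0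
  have hzmp : (z - p) * (z - p) = z - p := by
    rw [mul_sub, sub_mul, sub_mul, hzz, hpz, hzp', hpp2]
    abel
  have hqP' : ∀ i, q * P' i = q * P i := by
    intro i
    change q * (P i + if i = i₀ then z - p else 0) = q * P i
    rw [mul_add]
    split_ifs
    · rw [← hqp', mul_assoc q p (z - p), mul_sub, hpz, hpp2, sub_self, mul_zero, add_zero]
    · rw [mul_zero, add_zero]
  have hP'q : ∀ i, P' i * q = P i * q := by
    intro i
    change (P i + if i = i₀ then z - p else 0) * q = P i * q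
    rw [add_mul]
    split_ifs
    · rw [← hpq, ← mul_assoc (z - p) p q, sub_mul, hzp', hpp2, sub_self, zero_mul, add_zero]
    · rw [zero_mul, add_zero]
  refine ⟨P', a, q, fun i => ⟨?_, ?_⟩, fun i j hij => ?_, ?_, haA, ?_, has, han.trans hnx, hqM, ?_,
    hqp, fun ξ hξ => ?_, ?_⟩
  · refine add_mem (hP1 i).1 ?_
    split_ifs
    · exact sub_mem hz hpA
    · exact zero_mem A
  · change IsStarProjection (P i + if i = i₀ then z - p else 0)
    split_ifs with hi
    · refine ⟨?_, (hP1 i).2.isSelfAdjoint.add (hzp.isSelfAdjoint.sub hpp.isSelfAdjoint)⟩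
      change (P i + (z - p)) * (P i + (z - p)) = _
      rw [mul_add, add_mul, add_mul, (hP1 i).2.isIdempotentElem.eq, hPz, hzP, hzmp]
      abel
    · rw [add_zero]
      exact (hP1 i).2
  · change (P i + if i = i₀ then z - p else 0) * (P j + if j = i₀ then z - p else 0) = 0
    rw [mul_add, add_mul, add_mul, hP2 i j hij]
    split_ifs with h1 h2 h2
    · exact absurd (h1.trans h2.symm) hij
    · simp [hzP]
    · simp [hPz]
    · simp
  · change ∑ i, (P i + if i = i₀ then z - p else 0) = z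
    rw [Finset.sum_add_distrib, hP3, Finset.sum_ite_eq' Finset.univ i₀,
      if_pos (Finset.mem_univ _)]
    abel
  · rw [← hpa, ← mul_assoc, hzp']
  · rw [← hpq, ← mul_assoc, hzp']
  · have h1 := hqF (p ξ) (Finset.mem_image_of_mem _ hξ)
    have h2 : q ξ = q (p ξ) := by
      conv_lhs => rw [← hqp']
      rfl
    calc ‖ξ - q ξ‖ = ‖(ξ - p ξ) + (p ξ - q (p ξ))‖ := by rw [h2]; congr 1; abel
      _ ≤ ‖ξ - p ξ‖ + ‖p ξ - q (p ξ)‖ := norm_add_le _ _
      _ < δ / 2 + δ / 2 := add_lt_add (hpF ξ hξ) h1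
      _ = δ := by ring
  · have h1 : q * (∑ i, P' i * x * P' i - a) * q =
        q * (∑ i, P i * (p * x * p) * P i - a) * q := by
      rw [mul_sub, mul_sub, sub_mul, sub_mul, Finset.mul_sum, Finset.mul_sum, Finset.sum_mul,
        Finset.sum_mul]
      congr 1
      refine Finset.sum_congr rfl fun i _ => ?_
      calc q * (P' i * x * P' i) * q = (q * P' i) * x * (P' i * q) := by noncomm_ring
        _ = (q * P i) * x * (P i * q) := by rw [hqP', hP'q]
        _ = q * ((P i * p) * x * (p * P i)) * q := by rw [hPp, hpP]; noncomm_ring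
        _ = _ := by noncomm_ring
    rw [h1]
    exact hn.trans (mul_le_mul_of_nonneg_left hnx hε)

section

variable {ι : Type*} {η : ι → H} {z : H →L[ℂ] H}

theorem wt_le_of_forall {η : ι → H} {x : H →L[ℂ] H} {C : ℝ}
    (h : ∀ s : Finset ι, ∑ k ∈ s, ‖x (η k)‖ ^ 2 ≤ C) : wt η x ≤ ENNReal.ofReal C := by
  unfold wt
  rw [ENNReal.tsum_eq_iSup_sum]
  refine iSup_le fun s => ?_
  rw [← ENNReal.ofReal_sum_of_nonneg fun k _ => sq_nonneg _]
  exact ENNReal.ofReal_le_ofReal (h s)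

theorem proj_comm_z {e : H →L[ℂ] H} (he : IsStarProjection e) (hz : IsStarProjection z)
    (h : z * e = e) : e * z = e := by
  have := congrArg star h
  rwa [star_mul, hz.isSelfAdjoint.star_eq, he.isSelfAdjoint.star_eq] at this

/-- the trace of the pinching of a finite projection -/
theorem sum_pinch_le (hA : SO.IsMASA A M) (hz : z ∈ A) (hzp : IsStarProjection z)
    (hη : SemiTrace M z η) {f : H →L[ℂ] H} (hf : f ∈ M) (hfp : IsStarProjection f)
    (hzf : z * f = f) (hfin : wt η f ≠ ∞) (Q : Part A.toStarSubalgebra) (s : Finset ι) :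
    ∑ k ∈ s, (inner ℂ (η k) (Q.E f (η k))).re ≤ (wt η f).toReal := by
  have hff : f * f = f := hfp.isIdempotentElem.eq
  have hfz := proj_comm_z hfp hzp hzf
  have h1 : ∀ k, (inner ℂ (η k) (Q.E f (η k))).re = ∑ i, ‖f (Q.e i (η k))‖ ^ 2 := by
    intro k
    rw [Part.E_apply, sum_apply, inner_sum, Complex.re_sum]
    refine Finset.sum_congr rfl fun i _ => ?_
    change (inner ℂ (η k) (Q.e i (f (Q.e i (η k))))).re = _
    rw [← proj_inner (Q.proj i), proj_inner_self hfp]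
  have h2 : ENNReal.ofReal (∑ k ∈ s, (inner ℂ (η k) (Q.E f (η k))).re) ≤ wt η f := by
    calc ENNReal.ofReal (∑ k ∈ s, (inner ℂ (η k) (Q.E f (η k))).re)
        = ∑ k ∈ s, ∑ i, ENNReal.ofReal (‖f (Q.e i (η k))‖ ^ 2) := by
          rw [ENNReal.ofReal_sum_of_nonneg fun k _ => by
            rw [h1]; exact Finset.sum_nonneg fun i _ => sq_nonneg _]
          refine Finset.sum_congr rfl fun k _ => ?_
          rw [h1, ENNReal.ofReal_sum_of_nonneg fun i _ => sq_nonneg _]
      _ ≤ ∑' k, ∑ i, ENNReal.ofReal (‖f (Q.e i (η k))‖ ^ 2) := ENNReal.sum_le_tsum s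
      _ = ∑ i, wt η (f * Q.e i) := by
          rw [Summable.tsum_finsetSum fun i _ => ENNReal.summable]
          rfl
      _ = ∑ i, wt η (Q.e i * f) := by
          refine Finset.sum_congr rfl fun i _ => ?_
          have hei : Q.e i ∈ A := Q.mem i
          rw [hη.tracial _ (mul_mem hf (hA.1 _ hei)), star_mul, hfp.isSelfAdjoint.star_eq,
            (Q.proj i).isSelfAdjoint.star_eq]
          calc z * (f * Q.e i) * z = (z * f) * (Q.e i * z) := by noncomm_ring
            _ = f * (z * Q.e i) := by rw [hzf, hA.2.1 _ hei z hz]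
            _ = (f * z) * Q.e i := by noncomm_ring
            _ = f * Q.e i := by rw [hfz]
      _ = ∑' k, ∑ i, ENNReal.ofReal (‖Q.e i (f (η k))‖ ^ 2) := by
          rw [Summable.tsum_finsetSum fun i _ => ENNReal.summable]
          rfl
      _ = wt η f := by
          unfold wt
          refine tsum_congr fun k => ?_
          rw [Q.norm_sq_eq (f (η k)), ENNReal.ofReal_sum_of_nonneg fun i _ => sq_nonneg _]
  rw [← ENNReal.ofReal_le_iff_le_toReal hfin]
  exact h2

/-- finite trace projections of `A` below the expected part -/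
theorem exists_finite_below (hA : SO.IsMASA A M) {z e : H →L[ℂ] H} (hz : z ∈ A)
    (hzp : IsStarProjection z) {E : (H →L[ℂ] H) →ₗ[ℂ] (H →L[ℂ] H)}
    (hE : SO.IsNormalExpectation M A z E) (heA : e ∈ A) (hep : IsStarProjection e)
    (hze : z * e = e) (he0 : e ≠ 0) (hη : SemiTrace M e η) :
    ∃ p ∈ A, IsStarProjection p ∧ p ≠ 0 ∧ e * p = p ∧ wt η p ≠ ∞ := by
  by_contra hcon
  push Not at hcon
  have hA' := SO.IsMASA.toStar hA
  have heM := hA.1 e heA
  have hee : e * e = e := hep.isIdempotentElem.eq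
  have hne : (Part.filter A.toStarSubalgebra).NeBot := Part.filter_neBot hA.2.1
  obtain ⟨U, hU⟩ : ∃ U : Ultrafilter (Part A.toStarSubalgebra),
    U = Ultrafilter.of (Part.filter A.toStarSubalgebra) := ⟨_, rfl⟩
  have hUle : (U : Filter (Part A.toStarSubalgebra)) ≤ Part.filter A.toStarSubalgebra := by
    rw [hU]; exact Ultrafilter.of_le _
  obtain ⟨E₀, hE1, hE2, hE3, hE4, hE5, hE6, hE7, hE8⟩ := exists_limit_expectation' hA' U hUle
  -- finite trace projections below `e` have zero limit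
  have hlim : ∀ f ∈ M, IsStarProjection f → e * f = f → wt η f ≠ ∞ → E₀ f = 0 := by
    intro f hf hfp hef hfin
    have hb : E₀ f ∈ A := hE3 f hf
    have hb0 : 0 ≤ E₀ f := hE4 f hfp.nonneg
    have hbs : IsSelfAdjoint (E₀ f) := IsSelfAdjoint.of_nonneg hb0
    have heb : e * E₀ f = E₀ f := by rw [← (hE6 e heA f).1, hef]
    have hsum : ∀ s : Finset ι, ∑ k ∈ s, (inner ℂ (η k) (E₀ f (η k))).re ≤ (wt η f).toReal := by
      intro s
      refine le_of_tendsto (f := fun Q : Part A.toStarSubalgebra =>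
        ∑ k ∈ s, (inner ℂ (η k) (Q.E f (η k))).re) (x := U) ?_
        (Eventually.of_forall fun Q => sum_pinch_le hA heA hep hη hf hfp hef hfin Q s)
      exact tendsto_finsetSum s fun k _ =>
        (Complex.continuous_re.tendsto _).comp (hE1 f (η k) (η k))
    by_contra hb1
    -- a vector detecting `E₀ f`
    obtain ⟨v, hv⟩ : ∃ v, 0 < (inner ℂ v (E₀ f v)).re := by
      by_contra hcon'
      push Not at hcon'
      refine hb1 (le_antisymm ?_ hb0)
      rw [← neg_nonneg]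
      refine nonneg_of_inner hbs.neg fun ζ => ?_
      rw [neg_apply, inner_neg_right, Complex.neg_re, neg_nonneg]
      exact hcon' ζ
    obtain ⟨t, ht⟩ : ∃ t : ℝ, t = (inner ℂ v (E₀ f v)).re / (2 * (‖v‖ ^ 2 + 1)) := ⟨_, rfl⟩
    have ht0 : 0 < t := by rw [ht]; (clear * - hv; positivity)
    obtain ⟨p, hpp, hpc, hp1, hp2⟩ := exists_spectral_proj (E₀ f) hbs t
    have hpA : p ∈ A := hA'.spectral_proj_mem hb hpc
    have hbp : E₀ f * p = p * E₀ f := hpc _ rfl
    have hep' : e * p = p := by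
      have h1 : (1 - e) * E₀ f = 0 := by rw [sub_mul, one_mul, heb, sub_self]
      ext w
      have hcm : p * ((1 - e) * p) = (1 - e) * p := by
        rw [← mul_assoc, hA.2.1 p hpA (1 - e) (sub_mem (one_mem A) heA), mul_assoc,
          hpp.isIdempotentElem.eq]
      have h2 := hp1 (((1 - e) * p) w) (DFunLike.congr_fun hcm w)
      have h3 : E₀ f (((1 - e) * p) w) = 0 := by
        have h4 : E₀ f * ((1 - e) * p) = 0 := by
          rw [← mul_assoc, hA.2.1 _ hb _ (sub_mem (one_mem A) heA), h1, zero_mul]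
        exact DFunLike.congr_fun h4 w
      rw [h3, inner_zero_right, Complex.zero_re] at h2
      have h5 : ‖((1 - e) * p) w‖ ^ 2 ≤ 0 := by
        by_contra hc
        push Not at hc
        have := mul_pos ht0 hc
        linarith only [h2, this]
      have h6 : ((1 - e) * p) w = 0 := by
        have : ‖((1 - e) * p) w‖ = 0 := by nlinarith only [h5]
        exact norm_eq_zero.1 this
      have h7 : p w - e (p w) = 0 := h6
      exact (sub_eq_zero.1 h7).symm
    have hp0 : p ≠ 0 := by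
      intro h0
      have h1 := hp2 v (by rw [h0]; rfl)
      have h2 : t * ‖v‖ ^ 2 < (inner ℂ v (E₀ f v)).re := by
        rw [ht, div_mul_eq_mul_div, div_lt_iff₀ (by (clear * -; positivity))]
        nlinarith only [hv]
      linarith only [h1, h2]
    refine hcon p hpA hpp hp0 hep' |> fun h => ?_
    have hkey : ∀ ζ : H, t * ‖p ζ‖ ^ 2 ≤ (inner ℂ ζ (E₀ f ζ)).re := by
      intro ζ
      have h1 := hp1 (p ζ) (proj_apply_apply hpp ζ)
      have h3 : 0 ≤ (inner ℂ (ζ - p ζ) (E₀ f (ζ - p ζ))).re := inner_nonneg_of_nonneg hb0 _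
      have e1 : inner ℂ (p ζ) (E₀ f (ζ - p ζ)) = 0 := by
        rw [proj_inner hpp]
        have h4 : p * E₀ f * (1 - p) = 0 := by
          rw [← hbp, mul_assoc, mul_sub, mul_one, hpp.isIdempotentElem.eq, sub_self, mul_zero]
        have h5 : p (E₀ f (ζ - p ζ)) = 0 := DFunLike.congr_fun h4 ζ
        rw [h5, inner_zero_right]
      have e2 : inner ℂ (ζ - p ζ) (E₀ f (p ζ)) = 0 := by
        have h4 : (1 - p) * E₀ f * p = 0 := by
          rw [mul_assoc, hbp, ← mul_assoc, sub_mul, one_mul, hpp.isIdempotentElem.eq, sub_self,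
            zero_mul]
        have h5 : inner ℂ ((1 - p) ζ) (E₀ f (p ζ)) = inner ℂ ζ (((1 - p) * E₀ f * p) ζ) :=
          proj_inner hpp.one_sub _ _
        rw [h4] at h5
        change inner ℂ ((1 - p) ζ) (E₀ f (p ζ)) = 0
        rw [h5, zero_apply, inner_zero_right]
      have h2 : inner ℂ ζ (E₀ f ζ) = inner ℂ (p ζ) (E₀ f (p ζ))
          + inner ℂ (ζ - p ζ) (E₀ f (ζ - p ζ)) := by
        have e3 : inner ℂ ζ (E₀ f ζ) =
            inner ℂ (p ζ + (ζ - p ζ)) (E₀ f (p ζ + (ζ - p ζ))) := by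
          rw [add_sub_cancel]
        rw [e3, map_add, inner_add_left, inner_add_right, inner_add_right, e1, e2]
        ring
      rw [h2, Complex.add_re]
      linarith only [h1, h3]
    have h8 : wt η p ≤ ENNReal.ofReal ((wt η f).toReal / t) := by
      refine wt_le_of_forall fun s => ?_
      rw [le_div_iff₀ ht0, Finset.sum_mul]
      refine le_trans (Finset.sum_le_sum fun k _ => ?_) (hsum s)
      rw [mul_comm]
      exact hkey _
    rw [h] at h8
    exact absurd h8 (not_le.2 ENNReal.ofReal_lt_top)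
  -- central normal functionals vanish at `e`
  have hnull : ∀ ψ : (H →L[ℂ] H) →ₗ[ℂ] ℂ,
      Vale.Agent.P078.CentralNormal M A.toStarSubalgebra ψ → ψ e = 0 := by
    intro ψ hψ
    have hψf : ∀ f ∈ M, IsStarProjection f → e * f = f → wt η f ≠ ∞ → ψ f = 0 := by
      intro f hf hfp hef hfin
      have h1 := hlim f hf hfp hef hfin
      have h2 : Tendsto ψ (Filter.map (fun Q : Part A.toStarSubalgebra => Q.E f) U)
          (𝓝 (ψ (E₀ f))) := by
        refine hψ.wcont ‖f‖ (E₀ f) _ (hA.1 _ (hE3 f hf)) ?_ ?_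
        · rw [eventually_map]
          exact Eventually.of_forall fun Q => ⟨Q.E_mem hA'.1 hf, Q.norm_E_le f⟩
        · intro ξ' η'
          rw [tendsto_map'_iff]
          exact hE1 f ξ' η'
      rw [tendsto_map'_iff, h1, map_zero] at h2
      have h3 : Tendsto (fun _ : Part A.toStarSubalgebra => ψ f) U (𝓝 0) := by
        refine h2.congr fun Q => ?_
        exact hψ.E_eq hA'.1 Q hf
      exact tendsto_nhds_unique tendsto_const_nhds h3
    obtain ⟨S, hS⟩ : ∃ S : Set (H →L[ℂ] H),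
      S = {g | g ∈ M ∧ IsStarProjection g ∧ e * g = g ∧ ψ g = 0} := ⟨_, rfl⟩
    obtain ⟨m, hm⟩ := zorn_le₀ S (fun c hcS hc => by
      rcases c.eq_empty_or_nonempty with h0 | hne
      · refine ⟨0, ?_, fun x hx => ?_⟩
        · rw [hS]
          exact ⟨zero_mem M, IsStarProjection.zero _, mul_zero _, map_zero _⟩
        · rw [h0] at hx; exact absurd hx (Set.notMem_empty _)
      · have hD : ∀ g ∈ c, g ∈ M ∧ IsStarProjection g := fun g hg => by
          have := hcS hg
          rw [hS] at this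
          exact ⟨this.1, this.2.1⟩
        obtain ⟨g, hgM, hgp, hlub, -⟩ := exists_sup_proj hne hc.directedOn hD
        refine ⟨g, ?_, fun x hx => hlub.1 hx⟩
        rw [hS]
        refine ⟨hgM, hgp, ?_, ?_⟩
        · refine (IsStarProjection.le_iff_mul_eq_right hgp hep).1 (hlub.2 fun d hd => ?_)
          have h1 := hcS hd
          rw [hS] at h1
          exact (IsStarProjection.le_iff_mul_eq_right h1.2.1 hep).2 h1.2.2.1
        · obtain ⟨l, hl1, hl2, ⟨R, hl3⟩, -, hl5⟩ := tendsto_of_isLUB hne hc.directedOn hlub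
          have h1 := hψ.wcont R g l hgM (by
            filter_upwards [hl2, hl3] with d hd hd'
            exact ⟨(hD d hd).1, hd'⟩) hl5
          have h2 : Tendsto ψ l (𝓝 0) := by
            refine tendsto_const_nhds.congr' ?_
            filter_upwards [hl2] with d hd
            have := hcS hd
            rw [hS] at this
            exact this.2.2.2.symm
          exact tendsto_nhds_unique h1 h2)
    have hmS := hm.prop
    rw [hS] at hmS
    obtain ⟨hmM, hmp, hem, hψm⟩ := hmS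
    have hme := proj_comm_z hmp hep hem
    have hmm : m * m = m := hmp.isIdempotentElem.eq
    by_cases hme' : e - m = 0
    · rw [sub_eq_zero.1 hme']; exact hψm
    exfalso
    have hemp : IsStarProjection (e - m) := by
      refine ⟨?_, hep.isSelfAdjoint.sub hmp.isSelfAdjoint⟩
      change (e - m) * (e - m) = e - m
      rw [mul_sub, sub_mul, sub_mul, hee, hme, hem, hmm]
      abel
    obtain ⟨f, hfM, hfp, hf0, hef, hfin⟩ := hη.semifinite (e - m) (sub_mem heM hmM) hemp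
      (by rw [mul_sub, hee, hem]) hme'
    have hmf : m * f = 0 := by
      rw [← hef, ← mul_assoc, mul_sub, hme, hmm, sub_self, zero_mul]
    have hef' : e * f = f := by
      have := hef
      rwa [sub_mul, hmf, sub_zero] at this
    have hfm : f * m = 0 := by
      have := congrArg star hmf
      rwa [star_mul, hmp.isSelfAdjoint.star_eq, hfp.isSelfAdjoint.star_eq, star_zero] at this
    have hmf' : m + f ∈ S := by
      rw [hS]
      refine ⟨add_mem hmM hfM, ⟨?_, hmp.isSelfAdjoint.add hfp.isSelfAdjoint⟩, ?_, ?_⟩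
      · change (m + f) * (m + f) = m + f
        rw [mul_add, add_mul, add_mul, hmm, hmf, hfm, hfp.isIdempotentElem.eq]
        abel
      · rw [mul_add, hem, hef']
      · rw [map_add, hψm, hψf f hfM hfp hef' hfin, add_zero]
    have h1 : m ≤ m + f := le_add_of_nonneg_right hfp.nonneg
    have h2 := hm.le_of_ge hmf' h1
    have h3 : f ≤ 0 := by
      have := sub_nonneg.2 h2
      rw [sub_add_cancel_left] at this
      exact neg_nonneg.1 this
    exact hf0 (le_antisymm h3 hfp.nonneg)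
  have h1 := mul_eq_zero_of_isNormalExpectation hA' heA hep hnull hz hzp
    (SO.isNormalExpectation_iff.1 hE)
  exact he0 (by rw [← proj_comm_z hep hzp hze, h1])

end

end Vale.Agent.P078.G
end

section

/-! so-paving of maximal abelian subalgebras of semifinite von Neumann algebras. -/

namespace Vale.Agent.P078.G

open Vale.Agent.P078 Vale.Agent.P078.C
open Vale.Agent.P078.SO (wt SemiTrace)
open Filter Topology
open scoped ENNReal

universe u

variable {H : Type u} [NormedAddCommGroup H] [InnerProductSpace ℂ H] [CompleteSpace H]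
variable {M A : VonNeumannAlgebra H}

/-! ### finite sums of vector functionals -/

section vec

variable {ξ : ℕ → H}

theorem vs_summable (hs : Summable fun n => ‖ξ n‖ ^ 2) (x : H →L[ℂ] H) :
    Summable fun n => inner ℂ (ξ n) (x (ξ n)) :=
  Summable.of_norm_bounded (hs.mul_left ‖x‖) (vtr_bound x)

theorem vs_add (hs : Summable fun n => ‖ξ n‖ ^ 2) (x y : H →L[ℂ] H) :
    vtr ξ (x + y) = vtr ξ x + vtr ξ y := by
  unfold vtr
  rw [← (vs_summable hs x).tsum_add (vs_summable hs y)]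
  refine tsum_congr fun n => ?_
  rw [add_apply, inner_add_right]

theorem vs_smul (c : ℂ) (x : H →L[ℂ] H) : vtr ξ (c • x) = c * vtr ξ x := by
  unfold vtr
  rw [← tsum_mul_left]
  refine tsum_congr fun n => ?_
  rw [smul_apply, inner_smul_right]

theorem vs_sub (hs : Summable fun n => ‖ξ n‖ ^ 2) (x y : H →L[ℂ] H) :
    vtr ξ (x - y) = vtr ξ x - vtr ξ y := by
  have h := vs_add hs (x - y) y
  rw [sub_add_cancel] at h
  rw [h]; ring

theorem vs_star_mul (x : H →L[ℂ] H) : vtr ξ (star x * x) = ((n2 ξ x : ℝ) : ℂ) := by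
  unfold n2 vtr
  rw [Complex.ofReal_tsum]
  refine tsum_congr fun n => ?_
  have h1 := star_apply_inner (star x) (ξ n) (x (ξ n))
  rw [star_star] at h1
  rw [← inner_self_re]
  have h2 : inner ℂ (ξ n) ((star x * x) (ξ n)) = inner ℂ (x (ξ n)) (x (ξ n)) := h1.symm
  rw [h2, inner_self_eq_norm_sq_to_K]
  norm_cast

/-- polarization -/
theorem vs_comm (hs : Summable fun n => ‖ξ n‖ ^ 2) {S : Set (H →L[ℂ] H)}
    (hadd : ∀ x ∈ S, ∀ y ∈ S, x + y ∈ S) (hsub : ∀ x ∈ S, ∀ y ∈ S, x - y ∈ S)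
    (hstar : ∀ x ∈ S, star x ∈ S) (hI : ∀ x ∈ S, Complex.I • x ∈ S)
    (h : ∀ x ∈ S, n2 ξ x = n2 ξ (star x)) {a b : H →L[ℂ] H} (ha : a ∈ S) (hb : b ∈ S) :
    vtr ξ (a * b) = vtr ξ (b * a) := by
  have hc : ∀ x ∈ S, vtr ξ (star x * x) = vtr ξ (x * star x) := by
    intro x hx
    have h1 := vs_star_mul (ξ := ξ) (star x)
    rw [star_star] at h1
    rw [vs_star_mul, h1, h x hx]
  have key : ∀ a ∈ S, ∀ b ∈ S, vtr ξ (a * b) + vtr ξ (star b * star a) =
      vtr ξ (b * a) + vtr ξ (star a * star b) := by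
    intro a ha b hb
    have h1 := hc _ (hadd _ (hstar a ha) b hb)
    have h2 := hc _ (hsub _ (hstar a ha) b hb)
    have e1 : star (star a + b) * (star a + b) - star (star a - b) * (star a - b) =
        (2 : ℂ) • (a * b + star b * star a) := by
      rw [star_add, star_sub, star_star, two_smul]
      noncomm_ring
    have e2 : (star a + b) * star (star a + b) - (star a - b) * star (star a - b) =
        (2 : ℂ) • (b * a + star a * star b) := by
      rw [star_add, star_sub, star_star, two_smul]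
      noncomm_ring
    have h3 := congrArg (vtr ξ) e1
    have h4 := congrArg (vtr ξ) e2
    rw [vs_sub hs, vs_smul, vs_add hs] at h3 h4
    rw [h1, h2, h4] at h3
    have : (2 : ℂ) ≠ 0 := two_ne_zero
    exact (mul_left_cancel₀ this h3).symm
  have h1 := key a ha b hb
  have h2 := key a ha _ (hI b hb)
  have e3 : star (Complex.I • b) = (-Complex.I) • star b := by
    rw [star_smul, Complex.star_def, Complex.conj_I]
  rw [e3, mul_smul_comm, mul_smul_comm, smul_mul_assoc, smul_mul_assoc, vs_smul, vs_smul,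
    vs_smul, vs_smul] at h2
  have h3 : vtr ξ (a * b) - vtr ξ (star b * star a) =
      vtr ξ (b * a) - vtr ξ (star a * star b) := by
    have h4 : Complex.I * (vtr ξ (a * b) - vtr ξ (star b * star a)) =
        Complex.I * (vtr ξ (b * a) - vtr ξ (star a * star b)) := by
      linear_combination h2
    exact mul_left_cancel₀ Complex.I_ne_zero h4
  have h5 : (2 : ℂ) * vtr ξ (a * b) = 2 * vtr ξ (b * a) := by
    linear_combination h1 + h3
  exact mul_left_cancel₀ two_ne_zero h5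

omit [CompleteSpace H] in
/-- enumeration of a square summable family -/
theorem exists_seq {ι : Type*} {v : ι → H} (h : Summable fun k => ‖v k‖ ^ 2) :
    ∃ ξ : ℕ → H, (∀ n, ξ n = 0 ∨ ∃ k, ξ n = v k) ∧ (∀ k, v k = 0 ∨ ∃ n, ξ n = v k) ∧
      (Summable fun n => ‖ξ n‖ ^ 2) ∧
      ∀ F : H → ℝ, F 0 = 0 → ∑' n, F (ξ n) = ∑' k, F (v k) := by
  classical
  obtain ⟨s, hs⟩ : ∃ s : Set ι, s = Function.support (fun k => ‖v k‖ ^ 2) := ⟨_, rfl⟩
  have hsc : s.Countable := by rw [hs]; exact h.countable_support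
  have hmem : ∀ k, k ∉ s → v k = 0 := by
    intro k hk
    rw [hs, Function.mem_support, not_not] at hk
    exact norm_eq_zero.1 (pow_eq_zero_iff two_ne_zero |>.1 hk)
  have : Countable s := hsc.to_subtype
  obtain ⟨f, hf⟩ := exists_injective_nat s
  have hext : ∀ (F : H → ℝ), F 0 = 0 → (fun n => F (Function.extend f (fun k : s => v k) 0 n)) =
      Function.extend f (fun k : s => F (v k)) 0 := by
    intro F hF
    funext n
    rw [Function.apply_extend F]
    congr 1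
    funext m
    exact hF
  refine ⟨Function.extend f (fun k : s => v k) 0, fun n => ?_, fun k => ?_, ?_, fun F hF => ?_⟩
  · by_cases hn : ∃ k, f k = n
    · obtain ⟨k, rfl⟩ := hn
      right
      exact ⟨k, hf.extend_apply _ _ _⟩
    · left
      rw [Function.extend_apply' _ _ _ hn]
      rfl
  · by_cases hk : k ∈ s
    · right
      exact ⟨f ⟨k, hk⟩, hf.extend_apply _ _ _⟩
    · left
      exact hmem k hk
  · rw [hext (fun v => ‖v‖ ^ 2) (by simp), summable_extend_zero hf]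
    exact h.subtype s
  · rw [hext F hF, tsum_extend_zero hf]
    refine tsum_subtype_eq_of_support_subset (f := fun k => F (v k)) fun k hk => ?_
    by_contra hks
    refine hk ?_
    change F (v k) = 0
    rw [hmem k hks, hF]

end vec

section

variable {ι : Type*} {η : ι → H} {z p : H →L[ℂ] H}

theorem wt_eq {x : H →L[ℂ] H} (h : Summable fun k => ‖x (η k)‖ ^ 2) :
    wt η x = ENNReal.ofReal (∑' k, ‖x (η k)‖ ^ 2) := by
  unfold wt
  rw [ENNReal.ofReal_tsum_of_nonneg (fun k => sq_nonneg _) h]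

theorem wt_summable {x : H →L[ℂ] H} (h : wt η x ≠ ∞) : Summable fun k => ‖x (η k)‖ ^ 2 := by
  have := ENNReal.summable_toReal h
  refine this.congr fun k => ?_
  rw [ENNReal.toReal_ofReal (sq_nonneg _)]

theorem traceOn_of_wt (hzp : IsStarProjection z) (hη : SemiTrace M z η) (hp : p ∈ M)
    (hpp : IsStarProjection p) (hz : z * p = p) (hfin : wt η p ≠ ∞) :
    ∃ ξ : ℕ → H, TraceOn M p ξ := by
  have hpp2 : p * p = p := hpp.isIdempotentElem.eq
  have hpz := proj_comm_z hpp hzp hz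
  have hsum := wt_summable hfin
  obtain ⟨ξ, h1, h2, h3, h4⟩ := exists_seq (v := fun k => p (η k)) hsum
  have hfix : ∀ n, p (ξ n) = ξ n := by
    intro n
    rcases h1 n with h | ⟨k, hk⟩
    · rw [h, map_zero]
    · rw [hk, proj_apply_apply hpp]
  -- the trace property
  have htr : ∀ x ∈ M, p * x * p = x → n2 ξ x = n2 ξ (star x) := by
    intro x hx hpx
    have hxp : ∀ v, x (p v) = x v := by
      intro v
      have : x * p = x := by rw [← hpx, mul_assoc, hpp2]
      exact DFunLike.congr_fun this v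
    have hpx' : p * star x * p = star x := by
      have := congrArg star hpx
      rwa [star_mul, star_mul, hpp.isSelfAdjoint.star_eq, ← mul_assoc] at this
    have hxp' : ∀ v, star x (p v) = star x v := by
      intro v
      have : star x * p = star x := by rw [← hpx', mul_assoc, hpp2]
      exact DFunLike.congr_fun this v
    have e1 : ∀ y : H →L[ℂ] H, (∀ v, y (p v) = y v) → (Summable fun k => ‖y (η k)‖ ^ 2) ∧
        n2 ξ y = ∑' k, ‖y (η k)‖ ^ 2 := by
      intro y hy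
      constructor
      · refine Summable.of_nonneg_of_le (fun k => sq_nonneg _) (fun k => ?_)
          (hsum.mul_left (‖y‖ ^ 2))
        rw [← hy, ← mul_pow]
        exact pow_le_pow_left₀ (norm_nonneg _) (y.le_opNorm _) 2
      · unfold n2
        rw [h4 (fun v => ‖y v‖ ^ 2) (by simp only [map_zero, norm_zero, ne_eq, OfNat.ofNat_ne_zero, not_false_eq_true, zero_pow])]
        refine tsum_congr fun k => ?_
        rw [hy]
    obtain ⟨s1, e2⟩ := e1 x hxp
    obtain ⟨s2, e3⟩ := e1 (star x) hxp'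
    have hzx : z * x * z = x := by
      rw [← hpx]
      calc z * (p * x * p) * z = (z * p) * x * (p * z) := by noncomm_ring
        _ = _ := by rw [hz, hpz]
    have h5 := hη.tracial x hx hzx
    rw [wt_eq s1, wt_eq s2] at h5
    rw [e2, e3]
    have h6 := congrArg ENNReal.toReal h5
    rwa [ENNReal.toReal_ofReal (tsum_nonneg fun k => sq_nonneg _),
      ENNReal.toReal_ofReal (tsum_nonneg fun k => sq_nonneg _)] at h6
  refine ⟨ξ, hfix, h3, fun x hx y hy => ?_, fun x hx h => ?_⟩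
  · have h5 := vs_comm h3 (S := {x | x ∈ M ∧ p * x * p = x})
      (fun x hx y hy => ⟨add_mem hx.1 hy.1, by rw [mul_add, add_mul, hx.2, hy.2]⟩)
      (fun x hx y hy => ⟨sub_mem hx.1 hy.1, by rw [mul_sub, sub_mul, hx.2, hy.2]⟩)
      (fun x hx => ⟨star_mem hx.1, by
        have := congrArg star hx.2
        rwa [star_mul, star_mul, hpp.isSelfAdjoint.star_eq, ← mul_assoc] at this⟩)
      (fun x hx => ⟨M.toStarSubalgebra.smul_mem hx.1 _, by
        rw [mul_smul_comm, smul_mul_assoc, hx.2]⟩)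
      (fun x hx => htr x hx.1 hx.2) (a := p * x * p) (b := p * y * p)
      ⟨mul_mem (mul_mem hp hx) hp, by
        calc p * (p * x * p) * p = (p * p) * x * (p * p) := by noncomm_ring
          _ = _ := by rw [hpp2]⟩
      ⟨mul_mem (mul_mem hp hy) hp, by
        calc p * (p * y * p) * p = (p * p) * y * (p * p) := by noncomm_ring
          _ = _ := by rw [hpp2]⟩
    have e : ∀ x y : H →L[ℂ] H, vtr ξ (p * x * p * (p * y * p)) = vtr ξ (x * p * y) := by
      intro x y
      unfold vtr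
      refine tsum_congr fun n => ?_
      change inner ℂ (ξ n) (p (x (p (p (y (p (ξ n))))))) = inner ℂ (ξ n) (x (p (y (ξ n))))
      rw [hfix, proj_apply_apply hpp, ← proj_inner hpp, hfix]
    rw [e, e] at h5
    exact h5
  · have hz' : z * (p * x * p) * z = p * x * p := by
      calc z * (p * x * p) * z = (z * p) * x * (p * z) := by noncomm_ring
        _ = _ := by rw [hz, hpz]
    -- faithfulness is applied to `p x* x p`
    have hT : p * (star x * x) * p = 0 := by
      refine hη.faithful _ (mul_mem (mul_mem hp (mul_mem (star_mem hx) hx)) hp) (by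
        calc z * (p * (star x * x) * p) * z = (z * p) * (star x * x) * (p * z) := by
              noncomm_ring
          _ = _ := by rw [hz, hpz]) fun k => ?_
      change p (star x (x (p (η k)))) = 0
      rcases h2 k with h5 | ⟨n, hn⟩
      · rw [h5, map_zero, map_zero, map_zero]
      · rw [← hn, h n, map_zero, map_zero]
    have h6 : star (x * p) * (x * p) = 0 := by
      rw [star_mul, hpp.isSelfAdjoint.star_eq, ← hT]
      noncomm_ring
    exact CStarRing.star_mul_self_eq_zero_iff _ |>.1 h6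

/-- finite projections of `A` converge strongly to `z` -/
theorem exists_finite_approx (hA : SO.IsMASA A M) (hz : z ∈ A)
    (hzp : IsStarProjection z) {E : (H →L[ℂ] H) →ₗ[ℂ] (H →L[ℂ] H)}
    (hE : SO.IsNormalExpectation M A z E) (hη : SemiTrace M z η) (F : Finset H)
    (hF : ∀ ξ ∈ F, z ξ = ξ) {δ : ℝ} (hδ : 0 < δ) :
    ∃ p ∈ A, IsStarProjection p ∧ z * p = p ∧ (∀ ξ ∈ F, ‖ξ - p ξ‖ < δ) ∧ wt η p ≠ ∞ := by
  classical
  obtain ⟨D, hD⟩ : ∃ D : Set (H →L[ℂ] H),
    D = {g | g ∈ A ∧ IsStarProjection g ∧ z * g = g ∧ wt η g ≠ ∞} := ⟨_, rfl⟩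
  have hDA : ∀ g ∈ D, g ∈ A ∧ IsStarProjection g := by
    intro g hg
    rw [hD] at hg
    exact ⟨hg.1, hg.2.1⟩
  have h0 : (0 : H →L[ℂ] H) ∈ D := by
    rw [hD]
    refine ⟨zero_mem A, IsStarProjection.zero _, mul_zero _, ?_⟩
    unfold wt
    simp only [zero_apply, norm_zero, ne_eq, OfNat.ofNat_ne_zero, not_false_eq_true, zero_pow, ENNReal.ofReal_zero, tsum_zero, ENNReal.zero_ne_top]
  have hsup : ∀ g ∈ D, ∀ h ∈ D, ∃ k ∈ D, g ≤ k ∧ h ≤ k ∧ ∀ v, k v = g v + (h v - g (h v)) := by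
    intro g hg h hh
    rw [hD] at hg hh
    obtain ⟨hgA, hgp, hzg, hgf⟩ := hg
    obtain ⟨hhA, hhp, hzh, hhf⟩ := hh
    have hgg : g * g = g := hgp.isIdempotentElem.eq
    have hhh : h * h = h := hhp.isIdempotentElem.eq
    have hgh : g * h = h * g := hA.2.1 g hgA h hhA
    have hkp : IsStarProjection (g + (h - g * h)) := by
      refine ⟨?_, ?_⟩
      · change (g + (h - g * h)) * (g + (h - g * h)) = g + (h - g * h)
        have e1 : g * (h - g * h) = 0 := by rw [mul_sub, ← mul_assoc, hgg, sub_self]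
        have e2 : (h - g * h) * g = 0 := by
          rw [sub_mul, mul_assoc, ← hgh, ← mul_assoc, hgg, sub_self]
        have e3 : (h - g * h) * (h - g * h) = h - g * h := by
          have e4 : (h - g * h) * (g * h) = 0 := by rw [← mul_assoc, e2, zero_mul]
          rw [mul_sub, e4, sub_zero, sub_mul, hhh, mul_assoc, hhh]
        rw [mul_add, add_mul, add_mul, hgg, e1, e2, e3]
        abel
      · rw [IsSelfAdjoint, star_add, star_sub, star_mul, hgp.isSelfAdjoint.star_eq,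
          hhp.isSelfAdjoint.star_eq, hgh]
    refine ⟨g + (h - g * h), ?_, ?_, ?_, fun v => rfl⟩
    · rw [hD]
      refine ⟨add_mem hgA (sub_mem hhA (mul_mem hgA hhA)), hkp, ?_, ?_⟩
      · rw [mul_add, mul_sub, ← mul_assoc, hzg, hzh]
      · have hle : wt η (g + (h - g * h)) ≤ wt η g + wt η h := by
          unfold wt
          rw [← ENNReal.tsum_add]
          refine ENNReal.tsum_le_tsum fun k => ?_
          rw [← ENNReal.ofReal_add (sq_nonneg _) (sq_nonneg _)]
          refine ENNReal.ofReal_le_ofReal ?_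
          have e5 : (g + (h - g * h)) (η k) = g (η k) + (1 - g) (h (η k)) := rfl
          have e6 : ‖g (η k) + (1 - g) (h (η k))‖ ^ 2 =
              ‖g (η k)‖ ^ 2 + ‖(1 - g) (h (η k))‖ ^ 2 := by
            have horth : inner ℂ (g (η k)) ((1 - g) (h (η k))) = 0 := by
              rw [proj_inner hgp]
              have : g ((1 - g) (h (η k))) = 0 := by
                change g (h (η k) - g (h (η k))) = 0
                rw [map_sub, proj_apply_apply hgp, sub_self]
              rw [this, inner_zero_right]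
            have h7 := norm_add_sq_eq_norm_sq_add_norm_sq_of_inner_eq_zero (𝕜 := ℂ)
              (g (η k)) ((1 - g) (h (η k))) horth
            rw [pow_two, pow_two, pow_two]
            exact h7
          rw [e5, e6]
          have h8 : ‖(1 - g) (h (η k))‖ ≤ ‖h (η k)‖ := norm_proj_le hgp.one_sub _
          have h9 := pow_le_pow_left₀ (norm_nonneg _) h8 2
          linarith only [h9]
        exact ne_top_of_le_ne_top (ENNReal.add_ne_top.2 ⟨hgf, hhf⟩) hle
    · refine (IsStarProjection.le_iff_mul_eq_right hgp hkp).2 ?_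
      rw [add_mul, sub_mul, hgg, mul_assoc, ← hgh, ← mul_assoc, hgg, sub_self, add_zero]
    · refine (IsStarProjection.le_iff_mul_eq_right hhp hkp).2 ?_
      rw [add_mul, sub_mul, hhh, mul_assoc, hhh]
      abel
  have hdir : DirectedOn (· ≤ ·) D := by
    intro g hg h hh
    obtain ⟨k, hk, h1, h2, -⟩ := hsup g hg h hh
    exact ⟨k, hk, h1, h2⟩
  obtain ⟨m, hmA, hmp, hlub, happ⟩ := exists_sup_proj (M := A) ⟨0, h0⟩ hdir hDA
  have hzm : z * m = m := by
    refine (IsStarProjection.le_iff_mul_eq_right hmp hzp).1 (hlub.2 fun d hd => ?_)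
    have h1 := hDA d hd
    rw [hD] at hd
    exact (IsStarProjection.le_iff_mul_eq_right h1.2 hzp).2 hd.2.2.1
  have hmz := proj_comm_z hmp hzp hzm
  have hzz : z * z = z := hzp.isIdempotentElem.eq
  have hmm : m * m = m := hmp.isIdempotentElem.eq
  have hmz' : z - m = 0 := by
    by_contra hne
    have hep : IsStarProjection (z - m) := by
      refine ⟨?_, hzp.isSelfAdjoint.sub hmp.isSelfAdjoint⟩
      change (z - m) * (z - m) = z - m
      rw [mul_sub, sub_mul, sub_mul, hzz, hmz, hzm, hmm]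
      abel
    have hze : z * (z - m) = z - m := by rw [mul_sub, hzz, hzm]
    have hez : (z - m) * z = z - m := by rw [sub_mul, hzz, hmz]
    have hη' : SemiTrace M (z - m) η := by
      have hcor : ∀ x : H →L[ℂ] H, (z - m) * x * (z - m) = x → z * x * z = x := by
        intro x hx
        rw [← hx]
        calc z * ((z - m) * x * (z - m)) * z = (z * (z - m)) * x * ((z - m) * z) := by
              noncomm_ring
          _ = _ := by rw [hze, hez]
      refine ⟨fun x hx h => hη.tracial x hx (hcor x h), fun x hx h => hη.faithful x hx (hcor x h),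
        fun e he hep' hee he0 => hη.semifinite e he hep' ?_ he0⟩
      rw [← hee, ← mul_assoc, hze]
    obtain ⟨p, hpA, hpp, hp0, hep', hfin⟩ := exists_finite_below hA hz hzp hE
      (sub_mem hz hmA) hep hze hne hη'
    have hpD : p ∈ D := by
      rw [hD]
      refine ⟨hpA, hpp, ?_, hfin⟩
      rw [← hep', ← mul_assoc, hze]
    have h1 := (IsStarProjection.le_iff_mul_eq_right hpp hmp).1 (hlub.1 hpD)
    refine hp0 ?_
    rw [← hep', sub_mul]
    have h2 : z * p = p := by rw [← hep', ← mul_assoc, hze]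
    rw [h1, h2, sub_self]
  have hmz2 : m = z := (sub_eq_zero.1 hmz').symm
  -- simultaneous approximation
  have hfin : ∀ F : Finset H, (∀ ξ ∈ F, z ξ = ξ) → ∃ g ∈ D, ∀ ξ ∈ F, ‖ξ - g ξ‖ < δ := by
    intro F
    induction F using Finset.induction_on with
    | empty => exact fun _ => ⟨0, h0, fun ξ hξ => absurd hξ (Finset.notMem_empty _)⟩
    | insert ζ F hζ ih =>
      intro hF
      obtain ⟨g, hg, hgF⟩ := ih fun ξ hξ => hF ξ (Finset.mem_insert_of_mem hξ)
      obtain ⟨h, hh, hhz⟩ := happ ζ δ hδ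
      rw [hmz2, hF ζ (Finset.mem_insert_self _ _)] at hhz
      obtain ⟨k, hk, hgk, hhk, -⟩ := hsup g hg h hh
      have hmono : ∀ g ∈ D, g ≤ k → ∀ ξ, ‖ξ - k ξ‖ ≤ ‖ξ - g ξ‖ := by
        intro g hg hgk ξ
        have h1 := (IsStarProjection.le_iff_mul_eq_right (hDA g hg).2 (hDA k hk).2).1 hgk
        have h2 : ξ - k ξ = (1 - k) (ξ - g ξ) := by
          change ξ - k ξ = (ξ - g ξ) - k (ξ - g ξ)
          have h3 : k (g ξ) = g ξ := DFunLike.congr_fun h1 ξ
          rw [map_sub, h3]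
          abel
        rw [h2]
        exact norm_proj_le (hDA k hk).2.one_sub _
      refine ⟨k, hk, fun ξ hξ => ?_⟩
      rcases Finset.mem_insert.1 hξ with rfl | hξ
      · exact (hmono h hh hhk ξ).trans_lt hhz
      · exact (hmono g hg hgk ξ).trans_lt (hgF ξ hξ)
  obtain ⟨g, hg, hgF⟩ := hfin F hF
  rw [hD] at hg
  exact ⟨g, hg.1, hg.2.1, hg.2.2.1, hgF, hg.2.2.2⟩

/-- so-paving over the expected part, when it is semifinite -/
theorem semifinite_sopavable (hA : SO.IsMASA A M) (hz : z ∈ A)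
    (hzp : IsStarProjection z) {E : (H →L[ℂ] H) →ₗ[ℂ] (H →L[ℂ] H)}
    (hE : SO.IsNormalExpectation M A z E) (hη : SemiTrace M z η) {ε : ℝ} (hε : 0 < ε)
    (hε1 : ε < 1) {R : ℕ} (hR : (327080 * 1024 : ℕ) / ε ^ 5 ≤ (R : ℝ)) {x : H →L[ℂ] H}
    (hx : x ∈ M) (hxs : IsSelfAdjoint x) : SO.SOPavable M A z x ε R := by
  have hR1 : 1 ≤ R := by
    have h1 : (0 : ℝ) < R := lt_of_lt_of_le (by (clear * - hε; positivity)) hR
    exact_mod_cast h1
  refine sopavable_local hA hz hzp hε.le hR1 (fun F hF δ hδ => ?_) hx hxs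
  obtain ⟨p, hpA, hpp, hzp', hpF, hfin⟩ := exists_finite_approx hA hz hzp hE hη F hF hδ
  refine ⟨p, hpA, hpp, hzp', hpF, fun x hx hxs hpx => ?_⟩
  obtain ⟨ξ, hξ⟩ := traceOn_of_wt hzp hη (hA.1 p hpA) hpp hzp' hfin
  exact TraceOn.sopavable hA hpA hpp hξ hε hε1 hR hx hxs hpx

theorem semifinite_paving (hA : SO.IsMASA A M) (hz : z ∈ A)
    (hzp : IsStarProjection z) {E : (H →L[ℂ] H) →ₗ[ℂ] (H →L[ℂ] H)}
    (hE : SO.IsNormalExpectation M A z E) (hη : SemiTrace M z η) {ε : ℝ} (hε : 0 < ε)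
    (hε1 : ε < 1) :
    SO.pavingNumber M A z ε ≤ (⌈((327080 * 1024 : ℕ) : ℝ) / ε ^ 5⌉₊ : ℕ∞) := by
  have h1 : 1 ≤ ⌈((327080 * 1024 : ℕ) : ℝ) / ε ^ 5⌉₊ := by
    rw [Nat.one_le_iff_ne_zero, ← Nat.pos_iff_ne_zero, Nat.ceil_pos]
    (clear * - hε; positivity)
  exact iInf₂_le (f := fun (r : ℕ) (_ : r ∈ {r : ℕ | 1 ≤ r ∧ ∀ x ∈ M, IsSelfAdjoint x →
    z * x * z = x → SO.SOPavable M A z x ε r}) => (r : ℕ∞)) _
    ⟨h1, fun x hx hxs _ => semifinite_sopavable hA hz hzp hE hη hε hε1 (Nat.le_ceil _) hx hxs⟩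

end

end Vale.Agent.P078.G
end

section

namespace Vale.Agent.P078.SO

variable {H : Type*} [NormedAddCommGroup H] [InnerProductSpace ℂ H] [CompleteSpace H]
variable {A M : VonNeumannAlgebra H}

theorem IsInfiniteDimensional.not_finite (h : IsInfiniteDimensional M) :
    ¬ FiniteDimensional ℂ M.toStarSubalgebra := by
  intro hfd
  obtain ⟨p, hp, ho⟩ := h (Module.finrank ℂ M.toStarSubalgebra + 1)
  let v : Fin (Module.finrank ℂ M.toStarSubalgebra + 1) → M.toStarSubalgebra :=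
    fun i => ⟨p i, (hp i).1⟩
  have hv : LinearIndependent ℂ v := by
    rw [Fintype.linearIndependent_iff]
    intro g hg i
    have h1 := congrArg (Subtype.val) hg
    have h2 : ∑ j, g j • p j = 0 := by
      have h3 : ((∑ j, g j • v j : M.toStarSubalgebra) : H →L[ℂ] H) = ∑ j, g j • p j := by
        rw [AddSubmonoidClass.coe_finset_sum]
        rfl
      rw [← h3, hg]
      rfl
    have h4 : p i * ∑ j, g j • p j = g i • p i := by
      rw [Finset.mul_sum, Finset.sum_eq_single i]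
      · rw [mul_smul_comm, (hp i).2.1.isIdempotentElem.eq]
      · intro j _ hj
        rw [mul_smul_comm, ho i j hj.symm, smul_zero]
      · intro hi
        exact absurd (Finset.mem_univ i) hi
    rw [h2, mul_zero] at h4
    exact (smul_eq_zero.1 h4.symm).resolve_right (hp i).2.2
  have := hv.fintype_card_le_finrank
  rw [Fintype.card_fin] at this
  omega

theorem IsTypeII1Factor.toStar (h : IsTypeII1Factor M) : Vale.Agent.P078.IsTypeII1Factor M :=
  ⟨h.1, h.2.1.not_finite, h.2.2⟩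

/-- growth of the so-paving number -/
theorem growth (h : IsMASA A M) :
    (∃ z, IsLargestExpected M A z ∧
      ∀ ε : ℝ, 0 < ε → nPave M A ε ≤ pavingNumber M A z ε + (⌊1 / ε⌋₊ + 1 : ℕ) ∧
        ∀ ε' : ℝ, ε < ε' → pavingNumber M A z ε' ≤ nPave M A ε) ∧
    (Nontrivial H → IsLargestExpected M A 0 →
      ∀ ε : ℝ, 0 < ε → ⌈1 / ε⌉₊ ≤ nPave M A ε ∧ nPave M A ε ≤ (⌊1 / ε⌋₊ + 1 : ℕ)) ∧
    (IsTypeII1Factor M → ∀ ε : ℝ, 0 < ε → ⌈1 / ε ^ 2⌉₊ ≤ nPave M A ε) := by
  have hA := h.toStar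
  refine ⟨?_, fun hH hne ε hε => ?_, fun hM ε hε => ?_⟩
  · obtain ⟨z, hzA, hzp, ⟨E, hE⟩, h0, hmax⟩ := exists_largest hA
    refine ⟨z, ⟨⟨hzA, hzp, ⟨E, isNormalExpectation_iff.2 hE⟩⟩, ?_⟩, ?_⟩
    · rintro p hpA hp ⟨E', hE'⟩
      exact (IsStarProjection.le_iff_mul_eq_right hp hzp).2
        (hmax p hpA hp ⟨E', isNormalExpectation_iff.1 hE'⟩)
    · intro ε hε
      exact ⟨pavingNumber_one_le hA hzA hzp h0 hε,
        fun ε' hε' => pavingNumber_corner_le hA hzA hzp hε'⟩
  · refine (main h).2 hH (fun p hp hpp hE => ?_) ε hε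
    have h1 := (IsStarProjection.le_iff_mul_eq_right hpp (IsStarProjection.zero _)).1
      (hne.2 p hp hpp hE)
    rw [zero_mul] at h1
    exact h1.symm
  · exact quadratic_lower hA hM.toStar hε

end Vale.Agent.P078.SO
end

section

/-! so-paving over all maximal abelian subalgebras with semifinite expected part. -/

namespace Vale.Agent.P078.G

open Vale.Agent.P078 Vale.Agent.P078.C
open Filter Topology
open scoped ENNReal
open Vale.Agent.P078.SO (wt SemiTrace IsSemifinite IsLargestExpected nPave)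

universe u

variable {H : Type u} [NormedAddCommGroup H] [InnerProductSpace ℂ H] [CompleteSpace H]
variable {M A : VonNeumannAlgebra H}

theorem isSemifinite_corner {z : H →L[ℂ] H} (h : IsSemifinite M 1) (hz : IsStarProjection z) :
    IsSemifinite M z := by
  obtain ⟨ι, η, hη⟩ := h
  refine ⟨ι, η, fun x hx _ => hη.tracial x hx (by simp), fun x hx _ => hη.faithful x hx (by simp),
    fun e he hep _ he0 => hη.semifinite e he hep (one_mul _) he0⟩

/-- so-paving over a maximal abelian subalgebra with semifinite expected part -/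
theorem nPave_le (hA : SO.IsMASA A M) {z : H →L[ℂ] H} (hz : IsLargestExpected M A z)
    (h : IsSemifinite M z) {ε : ℝ} (hε : 0 < ε) (hε1 : ε < 1) :
    nPave M A ε ≤ (⌈((327080 * 1024 + 2 : ℕ) : ℝ) / ε ^ 5⌉₊ : ℕ∞) := by
  obtain ⟨ι, η, hη⟩ := h
  obtain ⟨⟨hzA, hzp, E, hE⟩, hmax⟩ := hz
  -- the largest expected projection is unique
  obtain ⟨z', ⟨⟨hzA', hzp', E', hE'⟩, hmax'⟩, hr⟩ := (SO.growth hA).1
  have hzz : z' = z := le_antisymm (hmax z' hzA' hzp' ⟨E', hE'⟩) (hmax' z hzA hzp ⟨E, hE⟩)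
  subst hzz
  have h1 := (hr ε hε).1
  have h2 := semifinite_paving hA hzA hzp hE hη hε hε1
  refine h1.trans ((add_le_add_left h2 _).trans ?_)
  rw [← Nat.cast_add, Nat.cast_le]
  have h3 : (⌊1 / ε⌋₊ : ℝ) ≤ 1 / ε := Nat.floor_le (by positivity)
  have h4 : 1 / ε + 1 ≤ 2 / ε ^ 5 := by
    have h5 : ε ^ 5 ≤ 1 := pow_le_one₀ hε.le hε1.le
    have h6 : ε ^ 4 ≤ 1 := pow_le_one₀ hε.le hε1.le
    rw [le_div_iff₀ (by positivity), add_mul, one_div, one_mul]
    have h7 : ε⁻¹ * ε ^ 5 = ε ^ 4 := by field_simp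
    rw [h7]
    linarith only [h5, h6]
  rw [← Nat.ceil_add_natCast (by (clear * - hε; positivity))]
  refine Nat.ceil_le_ceil ?_
  push_cast
  have e1 : (334929922 : ℝ) / ε ^ 5 = 334929920 / ε ^ 5 + 2 / ε ^ 5 := by ring
  norm_num only
  rw [e1]
  linarith only [h3, h4]

theorem main5 : ∃ K : ℕ, ∀ {H : Type u} [NormedAddCommGroup H] [InnerProductSpace ℂ H]
    [CompleteSpace H] (M A : VonNeumannAlgebra H), SO.IsMASA A M →
    (IsSemifinite M 1 → ∀ ε : ℝ, 0 < ε → ε < 1 → nPave M A ε ≤ (⌈(K : ℝ) / ε ^ 5⌉₊ : ℕ∞)) ∧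
    ∀ z, IsLargestExpected M A z → IsSemifinite M z →
      ∀ ε : ℝ, 0 < ε → ε < 1 → nPave M A ε ≤ (⌈(K : ℝ) / ε ^ 5⌉₊ : ℕ∞) := by
  refine ⟨327080 * 1024 + 2, ?_⟩
  intro H _ _ _ M A hA
  refine ⟨fun h ε hε hε1 => ?_, fun z hz h ε hε hε1 => nPave_le hA hz h hε hε1⟩
  obtain ⟨z, hz, -⟩ := (SO.growth hA).1
  exact nPave_le hA hz (isSemifinite_corner h hz.1.2.1) hε hε1

end Vale.Agent.P078.G
end

section

/-! T5: the bound `C ε⁻²` for every maximal abelian subalgebra with semifinite expected part. -/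

set_option linter.unusedSectionVars false
set_option linter.unusedVariables false

namespace Vale.Agent.P078.Y

open Filter Topology
open ContinuousLinearMap (adjoint)
open Vale.Agent.P078 Vale.Agent.P078.C Vale.Agent.P078.G
open scoped ENNReal
open Vale.Agent.P078.SO (wt SemiTrace IsSemifinite IsLargestExpected nPave)

universe u

variable {H : Type u} [NormedAddCommGroup H] [InnerProductSpace ℂ H] [CompleteSpace H]
variable {M A : VonNeumannAlgebra H} {p : H →L[ℂ] H}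

theorem masa_sopavable (hA : SO.IsMASA A M) {ξ : ℕ → H} (hξ : IsTrace M ξ) {ε : ℝ} (hε : 0 < ε)
    (hε1 : ε < 1) {R : ℕ} (hR : (70 * 16 : ℕ) / ε ^ 2 ≤ (R : ℝ)) {x : H →L[ℂ] H}
    (hx : x ∈ M) (hxs : IsSelfAdjoint x) : SO.SOPavable M A 1 x ε R := by
  obtain ⟨E, hE⟩ := exists_trExp hA hξ
  refine sopavable_of hA hξ hE hε hx hxs fun y hy hys hy1 hEy δ hδ => ?_
  obtain ⟨r, P, hr, hP, w, hw, hwn, hn⟩ := Y.masa_two_norm hA hξ hE (ε := ε / 4) (by (clear * - hε; positivity))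
    (by linarith only [hε1]) hy hys hy1 hEy hδ
  refine ⟨r, P, ?_, hP, w, hw, hwn, hn⟩
  have h : (r : ℝ) ≤ R := by
    refine hr.trans (le_trans (le_of_eq ?_) hR)
    push_cast
    field_simp
    norm_num
  exact_mod_cast h

/-- the corner algebra of a traceable projection is a finite von Neumann algebra -/
theorem traceOn_sopavable (hA : SO.IsMASA A M) (hp : p ∈ A) (hpp : IsStarProjection p)
    {ξ : ℕ → H} (hξ : G.TraceOn M p ξ) {ε : ℝ} (hε : 0 < ε) (hε1 : ε < 1) {R : ℕ}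
    (hR : (70 * 16 : ℕ) / ε ^ 2 ≤ (R : ℝ)) {x : H →L[ℂ] H} (hx : x ∈ M)
    (hxs : IsSelfAdjoint x) (hpx : p * x * p = x) : SO.SOPavable M A p x ε R := by
  have hpM := hA.1 p hp
  have hR1 : 1 ≤ R := by
    have h1 : (0 : ℝ) < R := lt_of_lt_of_le (by (clear * - hε; positivity)) hR
    exact_mod_cast h1
  by_cases hp0 : p = 0
  · -- trivial case
    subst hp0
    have hx0 : x = 0 := by rw [← hpx]; simp
    intro F hF δ hδ
    refine ⟨fun _ => 0, 0, 0, fun _ => ⟨zero_mem A, IsStarProjection.zero _⟩, fun _ _ _ => by simp,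
      by simp only [Finset.sum_const_zero], zero_mem A, by simp, IsSelfAdjoint.zero _, by simp only [norm_zero, norm_nonneg], zero_mem M, by simp,
      IsStarProjection.zero _, fun ζ hζ => ?_, by simp only [hx0, mul_zero, Finset.sum_const_zero, sub_self, norm_zero, Std.le_refl]⟩
    have := hF ζ hζ
    rw [← this]
    simpa only [zero_apply, sub_self, norm_zero, gt_iff_lt] using hδ
  · obtain ⟨K, _, _, _, i, hi⟩ := exists_iso hpp
    refine sopavable_up hA hi hp hpx hε.le ?_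
    -- the trace
    obtain ⟨c, hc⟩ : ∃ c : ℝ, c = ∑' n, ‖ξ n‖ ^ 2 := ⟨_, rfl⟩
    have hc0 : 0 < c := by
      rcases (tsum_nonneg fun n => sq_nonneg ‖ξ n‖ : (0 : ℝ) ≤ ∑' n, ‖ξ n‖ ^ 2).eq_or_lt
        with h | h
      · exfalso
        have h1 : ∀ n, ‖ξ n‖ ^ 2 = 0 := by
          have := (hasSum_zero_iff_of_nonneg (fun n => sq_nonneg ‖ξ n‖)).1
            (by rw [h]; exact hξ.summable.hasSum)
          intro n
          exact congrFun this n
        have h2 := hξ.faithful 1 (one_mem M) fun n => by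
          have := h1 n
          rw [one_apply_eq_self]
          exact norm_eq_zero.1 (pow_eq_zero_iff (two_ne_zero)|>.1 this)
        rw [one_mul] at h2
        exact hp0 h2
      · rw [hc]; exact h
    have hcs : 0 < Real.sqrt c := Real.sqrt_pos.2 hc0
    obtain ⟨s, hs⟩ : ∃ s : ℝ, s = (Real.sqrt c)⁻¹ := ⟨_, rfl⟩
    have hs0 : 0 < s := by rw [hs]; (clear * - hc0; positivity)
    have hs2 : s ^ 2 * c = 1 := by
      rw [hs, inv_pow, Real.sq_sqrt hc0.le, inv_mul_cancel₀ hc0.ne']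
    obtain ⟨ζ, hζ⟩ : ∃ ζ : ℕ → H, ζ = fun n => ((s : ℝ) : ℂ) • ξ n := ⟨_, rfl⟩
    have hnorm : ∀ n, ‖adjoint i (ζ n)‖ ^ 2 = s ^ 2 * ‖ξ n‖ ^ 2 := by
      intro n
      have h1 : ‖adjoint i (ξ n)‖ = ‖ξ n‖ := by
        rw [← hi.norm_apply, hi.ran, hξ.fix]
      rw [hζ]
      simp only [map_smul]
      rw [norm_smul, Complex.norm_real, Real.norm_of_nonneg hs0.le, mul_pow, h1]
    have hT : IsTrace (cAlg M i) (fun n => adjoint i (ζ n)) := by
      refine ⟨?_, ?_, fun x hx y hy => ?_, fun x hx h => ?_⟩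
      · simp only [hnorm]
        exact hξ.summable.mul_left _
      · simp only [hnorm]
        rw [tsum_mul_left, ← hc, hs2]
      · rw [vtr_up, vtr_up, hi.up_mul, hi.up_mul, hζ, vtr_const_smul, vtr_const_smul]
        congr 1
        have hxM := (mem_cAlg hi hpM).1 hx
        have hyM := (mem_cAlg hi hpM).1 hy
        have e1 : up i x = up i x * p := by
          conv_rhs => rw [← hi.up_one]
          rw [← hi.up_mul, mul_one]
        have e2 : up i y = up i y * p := by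
          conv_rhs => rw [← hi.up_one]
          rw [← hi.up_mul, mul_one]
        have h1 := hξ.tracial _ hxM _ hyM
        rwa [← e1, ← e2] at h1
      · apply hi.up_injective
        have hxM := (mem_cAlg hi hpM).1 hx
        have e1 : up i x = up i x * p := by
          conv_rhs => rw [← hi.up_one]
          rw [← hi.up_mul, mul_one]
        have e0 : up i (0 : K →L[ℂ] K) = 0 := by
          ext v
          exact map_zero i
        rw [e0, e1]
        refine hξ.faithful _ hxM fun n => ?_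
        have h1 : x (adjoint i (ζ n)) = 0 := h n
        rw [hζ] at h1
        simp only [map_smul] at h1
        rcases smul_eq_zero.1 h1 with h2 | h2
        · exact absurd (by exact_mod_cast h2 : s = 0) hs0.ne'
        · change i (x (adjoint i (ξ n))) = 0
          rw [h2, map_zero]
    refine masa_sopavable (isMASA_cAlg hA hi hp) hT hε hε1 hR (dn_mem hi hpM hx) ?_
    rw [IsSelfAdjoint, ← Iso.dn_star, hxs.star_eq]


variable {z : H →L[ℂ] H} {ι : Type*} {η : ι → H}

/-- so-paving over the expected part, when it is semifinite -/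
theorem semifinite_sopavable (hA : SO.IsMASA A M) (hz : z ∈ A)
    (hzp : IsStarProjection z) {E : (H →L[ℂ] H) →ₗ[ℂ] (H →L[ℂ] H)}
    (hE : SO.IsNormalExpectation M A z E) (hη : SemiTrace M z η) {ε : ℝ} (hε : 0 < ε)
    (hε1 : ε < 1) {R : ℕ} (hR : (70 * 16 : ℕ) / ε ^ 2 ≤ (R : ℝ)) {x : H →L[ℂ] H}
    (hx : x ∈ M) (hxs : IsSelfAdjoint x) : SO.SOPavable M A z x ε R := by
  have hR1 : 1 ≤ R := by
    have h1 : (0 : ℝ) < R := lt_of_lt_of_le (by (clear * - hε; positivity)) hR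
    exact_mod_cast h1
  refine sopavable_local hA hz hzp hε.le hR1 (fun F hF δ hδ => ?_) hx hxs
  obtain ⟨p, hpA, hpp, hzp', hpF, hfin⟩ := exists_finite_approx hA hz hzp hE hη F hF hδ
  refine ⟨p, hpA, hpp, hzp', hpF, fun x hx hxs hpx => ?_⟩
  obtain ⟨ξ, hξ⟩ := traceOn_of_wt hzp hη (hA.1 p hpA) hpp hzp' hfin
  exact traceOn_sopavable hA hpA hpp hξ hε hε1 hR hx hxs hpx

theorem semifinite_paving (hA : SO.IsMASA A M) (hz : z ∈ A)
    (hzp : IsStarProjection z) {E : (H →L[ℂ] H) →ₗ[ℂ] (H →L[ℂ] H)}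
    (hE : SO.IsNormalExpectation M A z E) (hη : SemiTrace M z η) {ε : ℝ} (hε : 0 < ε)
    (hε1 : ε < 1) :
    SO.pavingNumber M A z ε ≤ (⌈((70 * 16 : ℕ) : ℝ) / ε ^ 2⌉₊ : ℕ∞) := by
  have h1 : 1 ≤ ⌈((70 * 16 : ℕ) : ℝ) / ε ^ 2⌉₊ := by
    rw [Nat.one_le_iff_ne_zero, ← Nat.pos_iff_ne_zero, Nat.ceil_pos]
    (clear * - hε; positivity)
  exact iInf₂_le (f := fun (r : ℕ) (_ : r ∈ {r : ℕ | 1 ≤ r ∧ ∀ x ∈ M, IsSelfAdjoint x →
    z * x * z = x → SO.SOPavable M A z x ε r}) => (r : ℕ∞)) _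
    ⟨h1, fun x hx hxs _ => semifinite_sopavable hA hz hzp hE hη hε hε1 (Nat.le_ceil _) hx hxs⟩


/-- so-paving over a maximal abelian subalgebra with semifinite expected part -/
theorem nPave_le (hA : SO.IsMASA A M) {z : H →L[ℂ] H} (hz : IsLargestExpected M A z)
    (h : IsSemifinite M z) {ε : ℝ} (hε : 0 < ε) (hε1 : ε < 1) :
    nPave M A ε ≤ (⌈((70 * 16 + 2 : ℕ) : ℝ) / ε ^ 2⌉₊ : ℕ∞) := by
  obtain ⟨ι, η, hη⟩ := h
  obtain ⟨⟨hzA, hzp, E, hE⟩, hmax⟩ := hz
  -- the largest expected projection is unique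
  obtain ⟨z', ⟨⟨hzA', hzp', E', hE'⟩, hmax'⟩, hr⟩ := (SO.growth hA).1
  have hzz : z' = z := le_antisymm (hmax z' hzA' hzp' ⟨E', hE'⟩) (hmax' z hzA hzp ⟨E, hE⟩)
  subst hzz
  have h1 := (hr ε hε).1
  have h2 := semifinite_paving hA hzA hzp hE hη hε hε1
  refine h1.trans ((add_le_add_left h2 _).trans ?_)
  rw [← Nat.cast_add, Nat.cast_le]
  have h3 : (⌊1 / ε⌋₊ : ℝ) ≤ 1 / ε := Nat.floor_le (by positivity)
  have h4 : 1 / ε + 1 ≤ 2 / ε ^ 2 := by
    have h5 : ε ^ 2 ≤ 1 := pow_le_one₀ hε.le hε1.le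
    rw [le_div_iff₀ (by positivity), add_mul, one_div, one_mul]
    have h7 : ε⁻¹ * ε ^ 2 = ε := by field_simp
    rw [h7]
    linarith only [hε1, h5]
  rw [← Nat.ceil_add_natCast (by (clear * - hε; positivity))]
  refine Nat.ceil_le_ceil ?_
  push_cast
  have e1 : (1122 : ℝ) / ε ^ 2 = 1120 / ε ^ 2 + 2 / ε ^ 2 := by ring
  rw [e1]
  linarith only [h3, h4]

/-- the optimal bound, with the matching lower bound for factors of type II₁ -/
theorem main2 {H : Type*} [NormedAddCommGroup H] [InnerProductSpace ℂ H] [CompleteSpace H]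
    (M A : VonNeumannAlgebra H) (hA : SO.IsMASA A M) :
    (IsSemifinite M 1 → ∀ ε : ℝ, 0 < ε → ε < 1 → nPave M A ε ≤ (⌈1122 / ε ^ 2⌉₊ : ℕ∞)) ∧
    (∀ z, IsLargestExpected M A z → IsSemifinite M z →
      ∀ ε : ℝ, 0 < ε → ε < 1 → nPave M A ε ≤ (⌈1122 / ε ^ 2⌉₊ : ℕ∞)) ∧
    (SO.IsTypeII1Factor M → ∀ ε : ℝ, 0 < ε → (⌈1 / ε ^ 2⌉₊ : ℕ∞) ≤ nPave M A ε) := by
  have key : ∀ z, IsLargestExpected M A z → IsSemifinite M z →
      ∀ ε : ℝ, 0 < ε → ε < 1 → nPave M A ε ≤ (⌈1122 / ε ^ 2⌉₊ : ℕ∞) := by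
    intro z hz h ε hε hε1
    have := Y.nPave_le hA hz h hε hε1
    norm_num at this ⊢
    exact this
  refine ⟨fun h => ?_, key, (SO.growth hA).2.2⟩
  obtain ⟨z, hz, -⟩ := (SO.growth hA).1
  exact key z hz (isSemifinite_corner h hz.1.2.1)

end Vale.Agent.P078.Y
end

end
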