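import Vale.Agent.P078.Bdl.B17
import Vale.Agent.P078.L.Lim0
import Vale.Agent.P078.Bdl.B10
import Vale.Agent.P078.Bdl.Fast

set_option linter.all false
attribute [local instance] Vale.Agent.P078.Fast.a01 Vale.Agent.P078.Fast.a02
  Vale.Agent.P078.Fast.a03 Vale.Agent.P078.Fast.a04 Vale.Agent.P078.Fast.a05
  Vale.Agent.P078.Fast.a06 Vale.Agent.P078.Fast.a07 Vale.Agent.P078.Fast.a08
  Vale.Agent.P078.Fast.a09 Vale.Agent.P078.Fast.a10 Vale.Agent.P078.Fast.a11
  Vale.Agent.P078.Fast.a12 Vale.Agent.P078.Fast.a13 Vale.Agent.P078.Fast.a14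
  Vale.Agent.P078.Fast.a15 Vale.Agent.P078.Fast.a16 Vale.Agent.P078.Fast.a17
  Vale.Agent.P078.Fast.a18 Vale.Agent.P078.Fast.a19 Vale.Agent.P078.Fast.a20
  Vale.Agent.P078.Fast.a21 Vale.Agent.P078.Fast.a22 Vale.Agent.P078.Fast.a23
  Vale.Agent.P078.Fast.a24 Vale.Agent.P078.Fast.a25 Vale.Agent.P078.Fast.a26
  Vale.Agent.P078.Fast.a27 Vale.Agent.P078.Fast.a28 Vale.Agent.P078.Fast.a29
  Vale.Agent.P078.Fast.a30 Vale.Agent.P078.Fast.a31 Vale.Agent.P078.Fast.a32
  Vale.Agent.P078.Fast.a33 Vale.Agent.P078.Fast.a34 Vale.Agent.P078.Fast.a35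
  Vale.Agent.P078.Fast.a36 Vale.Agent.P078.Fast.a37 Vale.Agent.P078.Fast.a38
  Vale.Agent.P078.Fast.a39 Vale.Agent.P078.Fast.a40 Vale.Agent.P078.Fast.a41
  Vale.Agent.P078.Fast.a42 Vale.Agent.P078.Fast.a43 Vale.Agent.P078.Fast.a44
  Vale.Agent.P078.Fast.a45 Vale.Agent.P078.Fast.a46 Vale.Agent.P078.Fast.a47
  Vale.Agent.P078.Fast.a48 Vale.Agent.P078.Fast.a49 Vale.Agent.P078.Fast.a50
  Vale.Agent.P078.Fast.a51 Vale.Agent.P078.Fast.a52 Vale.Agent.P078.Fast.a53
  Vale.Agent.P078.Fast.a54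
attribute [local instance] Vale.Agent.P078.Fast.b01 Vale.Agent.P078.Fast.b02
  Vale.Agent.P078.Fast.b03 Vale.Agent.P078.Fast.b04 Vale.Agent.P078.Fast.b05
  Vale.Agent.P078.Fast.b06 Vale.Agent.P078.Fast.b07 Vale.Agent.P078.Fast.b08
  Vale.Agent.P078.Fast.b09 Vale.Agent.P078.Fast.b10 Vale.Agent.P078.Fast.b11

section
set_option linter.unusedSectionVars false

/-! The normal functionals commuting with `A` are faithful on the expected corner. -/

namespace Vale.Agent.P078.L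

open Vale.Agent.P078
open Filter Topology
open scoped ComplexOrder

variable {H : Type*} [NormedAddCommGroup H] [InnerProductSpace ℂ H] [CompleteSpace H]
variable {M : VonNeumannAlgebra H} {A : StarSubalgebra ℂ (H →L[ℂ] H)}

/-- spectral projections of a positive element of `M` -/
theorem exists_spec {x : H →L[ℂ] H} (hx : x ∈ M) (hx0 : 0 ≤ x) (t : ℝ) :
    ∃ g ∈ M, IsStarProjection g ∧ (t : ℂ) • g ≤ x ∧
      (∀ y : H →L[ℂ] H, y * x = x * y → y * g = g * y) ∧
      (∀ ζ, g ζ = ζ → t * ‖ζ‖ ^ 2 ≤ (inner ℂ ζ (x ζ)).re) ∧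
      (∀ ζ, g ζ = 0 → (inner ℂ ζ (x ζ)).re ≤ t * ‖ζ‖ ^ 2) := by
  have hxs : IsSelfAdjoint x := IsSelfAdjoint.of_nonneg hx0
  obtain ⟨e, hep, hec, he1, he2⟩ := exists_spectral_proj x hxs t
  have hbe : x * e = e * x := hec x rfl
  have hee : e * e = e := hep.isIdempotentElem
  have hsa : IsSelfAdjoint ((t : ℂ) • e) := by
    rw [IsSelfAdjoint, star_smul, hep.isSelfAdjoint.star_eq, Complex.star_def,
      Complex.conj_ofReal]
  refine ⟨e, spectral_proj_mem hx hec, hep, ?_, hec, he1, he2⟩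
  rw [← sub_nonneg]
  refine nonneg_of_inner (hxs.sub hsa) fun ζ => ?_
  rw [sub_apply, inner_sub_right, Complex.sub_re, smul_apply, inner_smul_right,
    Complex.re_ofReal_mul, proj_inner_self hep]
  have h1 := he1 (e ζ) (proj_apply_apply hep ζ)
  have h2 : (inner ℂ ζ (x ζ)).re = (inner ℂ (e ζ) (x (e ζ))).re
      + (inner ℂ (ζ - e ζ) (x (ζ - e ζ))).re := by
    have e1 : x = e * x * e + (1 - e) * x * (1 - e) := by
      have : (1 - e) * x * (1 - e) = x - x * e - e * x + e * x * e := by noncomm_ring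
      rw [this, mul_assoc e x e, hbe, ← mul_assoc, hee]; abel
    have e2 : inner ℂ (e ζ) (x (e ζ)) = inner ℂ ζ ((e * x * e) ζ) := proj_inner hep _ _
    have e3 : inner ℂ (ζ - e ζ) (x (ζ - e ζ)) = inner ℂ ζ (((1 - e) * x * (1 - e)) ζ) :=
      proj_inner hep.one_sub _ _
    rw [e2, e3, ← Complex.add_re, ← inner_add_right, ← add_apply, ← e1]
  have h3 : 0 ≤ (inner ℂ (ζ - e ζ) (x (ζ - e ζ))).re := inner_nonneg_of_nonneg hx0 _
  linarith only [h1, h2, h3]

/-- a positive element whose spectral projections vanish is zero -/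
theorem eq_zero_of_spec {x : H →L[ℂ] H} (hx : x ∈ M) (hx0 : 0 ≤ x)
    (h : ∀ t : ℝ, 0 < t → ∀ g ∈ M, IsStarProjection g → (t : ℂ) • g ≤ x →
      (∀ y : H →L[ℂ] H, y * x = x * y → y * g = g * y) →
      (∀ ζ, g ζ = ζ → t * ‖ζ‖ ^ 2 ≤ (inner ℂ ζ (x ζ)).re) → g = 0) : x = 0 := by
  have hxs : IsSelfAdjoint x := IsSelfAdjoint.of_nonneg hx0
  have h1 : 0 ≤ -x := by
    refine nonneg_of_inner hxs.neg fun ζ => ?_
    rw [neg_apply, inner_neg_right, Complex.neg_re, neg_nonneg]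
    refine le_of_forall_pos_le_add fun ε hε => ?_
    obtain ⟨g, hgM, hgp, hle, hc, hg1, hg2⟩ := exists_spec hx hx0 (ε / (‖ζ‖ ^ 2 + 1))
    have hg0 := h _ (by (clear * - hε; positivity)) g hgM hgp hle hc hg1
    have h2 := hg2 ζ (by rw [hg0]; rfl)
    refine h2.trans ?_
    rw [zero_add, div_mul_eq_mul_div, div_le_iff₀ (by (clear * -; positivity))]
    linarith
  exact le_antisymm (neg_nonneg.1 h1) hx0

/-- null elements -/
def Nul (M : VonNeumannAlgebra H) (A : StarSubalgebra ℂ (H →L[ℂ] H)) (x : H →L[ℂ] H) : Prop :=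
  ∀ ψ : (H →L[ℂ] H) →ₗ[ℂ] ℂ, CentralNormal M A ψ → ψ x = 0

theorem Nul.of_le {x y : H →L[ℂ] H} (hx : x ∈ M) (hy : y ∈ M) (hx0 : 0 ≤ x) (hxy : x ≤ y)
    (h : Nul M A y) : Nul M A x :=
  fun ψ hψ => hψ.mono hx hy hxy (h ψ hψ) hx0

theorem smul_proj_nonneg {g : H →L[ℂ] H} (hg : IsStarProjection g) {t : ℝ} (ht : 0 ≤ t) :
    0 ≤ (t : ℂ) • g := by
  refine nonneg_of_inner ?_ fun ζ => ?_
  · rw [IsSelfAdjoint, star_smul, hg.isSelfAdjoint.star_eq, Complex.star_def,
      Complex.conj_ofReal]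
  · rw [smul_apply, inner_smul_right, Complex.re_ofReal_mul, proj_inner_self hg]
    (clear * - ht; positivity)

theorem Nul.spec {x g : H →L[ℂ] H} (hx : x ∈ M) (hg : g ∈ M) (hgp : IsStarProjection g) {t : ℝ}
    (ht : 0 < t) (hle : (t : ℂ) • g ≤ x) (h : Nul M A x) : Nul M A g := by
  intro ψ hψ
  have h1 := hψ.mono (M.toStarSubalgebra.smul_mem hg _) hx hle (h ψ hψ)
    (smul_proj_nonneg hgp ht.le)
  rw [map_smul, smul_eq_mul] at h1
  rcases mul_eq_zero.1 h1 with h2 | h2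
  · exact absurd (Complex.ofReal_eq_zero.1 h2) ht.ne'
  · exact h2

/-- a maximal null projection of `M` -/
theorem exists_max (M : VonNeumannAlgebra H) (A : StarSubalgebra ℂ (H →L[ℂ] H)) :
    ∃ m ∈ M, IsStarProjection m ∧ Nul M A m ∧
      ∀ g ∈ M, IsStarProjection g → Nul M A g → m ≤ g → g ≤ m := by
  obtain ⟨S, hS⟩ : ∃ S : Set (H →L[ℂ] H),
    S = {g | g ∈ M ∧ IsStarProjection g ∧ Nul M A g} := ⟨_, rfl⟩
  obtain ⟨m, hm⟩ := zorn_le₀ S (fun c hcS hc => by
    rcases c.eq_empty_or_nonempty with h0 | hne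
    · refine ⟨0, ?_, fun x hx => ?_⟩
      · rw [hS]
        exact ⟨zero_mem M, IsStarProjection.zero _, fun ψ _ => map_zero ψ⟩
      · rw [h0] at hx; exact absurd hx (Set.notMem_empty _)
    · have hD : ∀ g ∈ c, g ∈ M ∧ IsStarProjection g := fun g hg => by
        have := hcS hg
        rw [hS] at this
        exact ⟨this.1, this.2.1⟩
      obtain ⟨g, hgM, hgp, hlub, -⟩ := exists_sup_proj hne hc.directedOn hD
      refine ⟨g, ?_, fun x hx => hlub.1 hx⟩
      rw [hS]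
      refine ⟨hgM, hgp, fun ψ hψ => ?_⟩
      obtain ⟨l, hl1, hl2, ⟨R, hl3⟩, -, hl5⟩ := tendsto_of_isLUB hne hc.directedOn hlub
      have h1 := hψ.wcont R g l hgM (by
        filter_upwards [hl2, hl3] with d hd hd'
        exact ⟨(hD d hd).1, hd'⟩) hl5
      have h2 : Tendsto ψ l (𝓝 0) := by
        refine tendsto_const_nhds.congr' ?_
        filter_upwards [hl2] with d hd
        have := hcS hd
        rw [hS] at this
        exact (this.2.2 ψ hψ).symm
      exact tendsto_nhds_unique h1 h2)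
  have hmS := hm.prop
  rw [hS] at hmS
  refine ⟨m, hmS.1, hmS.2.1, hmS.2.2, fun g hg hgp hgn hle => hm.le_of_ge ?_ hle⟩
  rw [hS]
  exact ⟨hg, hgp, hgn⟩

/-- the maximal null projection dominates all null projections -/
theorem max_dom {m : H →L[ℂ] H} (hm : m ∈ M) (hmp : IsStarProjection m) (hmn : Nul M A m)
    (hmax : ∀ g ∈ M, IsStarProjection g → Nul M A g → m ≤ g → g ≤ m)
    {n : H →L[ℂ] H} (hn : n ∈ M) (hnp : IsStarProjection n) (hnn : Nul M A n) : n * m = n := by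
  have hmm : m * m = m := hmp.isIdempotentElem.eq
  have hnn2 : n * n = n := hnp.isIdempotentElem.eq
  have h1m : (1 - m) ∈ M := sub_mem (one_mem M) hm
  have hxM : (1 - m) * n * (1 - m) ∈ M := mul_mem (mul_mem h1m hn) h1m
  have hx0 : 0 ≤ (1 - m) * n * (1 - m) := conj_nonneg' hmp.one_sub hnp.nonneg
  -- the compression is null
  have hxn : Nul M A ((1 - m) * n * (1 - m)) := by
    intro ψ hψ
    have hpos : PosOn M ψ := hψ.nonneg
    have key : ∀ y ∈ M, ψ (y * n) = 0 := by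
      intro y hy
      have h1 := hpos.cauchy (x := n) (y := star y) hn (star_mem hy)
      rw [star_star, hnp.isSelfAdjoint.star_eq, hnn2, hnn ψ hψ, Complex.zero_re, mul_zero] at h1
      have h2 : ‖ψ (y * n)‖ = 0 := by nlinarith only [h1]
      exact norm_eq_zero.1 h2
    have key2 : ∀ y ∈ M, ψ (n * y) = 0 := by
      intro y hy
      have h1 := key (star y) (star_mem hy)
      have h2 := hpos.map_star (mul_mem (star_mem hy) hn)
      rw [h1, map_zero, star_mul, star_star, hnp.isSelfAdjoint.star_eq] at h2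
      exact h2
    have key3 : ∀ y ∈ M, ψ (y * m) = 0 := by
      intro y hy
      have h1 := hpos.cauchy (x := m) (y := star y) hm (star_mem hy)
      rw [star_star, hmp.isSelfAdjoint.star_eq, hmm, hmn ψ hψ, Complex.zero_re, mul_zero] at h1
      have h2 : ‖ψ (y * m)‖ = 0 := by nlinarith only [h1]
      exact norm_eq_zero.1 h2
    have e : (1 - m) * n * (1 - m) = (1 - m) * n - ((1 - m) * n) * m := by
      rw [mul_sub, mul_one]
    rw [e, map_sub, key _ h1m, key3 _ (mul_mem h1m hn), sub_zero]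
  have hx : (1 - m) * n * (1 - m) = 0 := by
    refine eq_zero_of_spec hxM hx0 fun t ht g hg hgp hle hcomm hg1 => ?_
    have hgn := hxn.spec hxM hg hgp ht hle
    have h1m' : m * (1 - m) = 0 := by rw [mul_sub, mul_one, hmm, sub_self]
    have hmx : m * ((1 - m) * n * (1 - m)) = 0 := by
      rw [← mul_assoc, ← mul_assoc, h1m', zero_mul, zero_mul]
    have hm1 : (1 - m) * m = 0 := by rw [sub_mul, one_mul, hmm, sub_self]
    have hxm : (1 - m) * n * (1 - m) * m = 0 := by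
      rw [mul_assoc, hm1, mul_zero]
    have hmg : m * g = g * m := hcomm m (by rw [hmx, hxm])
    have hmg0 : m * g = 0 := by
      ext v
      have h1 : g ((m * g) v) = (m * g) v := by
        change g (m (g v)) = m (g v)
        have h2 := DFunLike.congr_fun hmg (g v)
        have h3 : m (g (g v)) = g (m (g v)) := h2
        rw [← h3, proj_apply_apply hgp]
      have h2 := hg1 _ h1
      have h3 : ((1 - m) * n * (1 - m)) ((m * g) v) = 0 := DFunLike.congr_fun hxm (g v)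
      rw [h3, inner_zero_right, Complex.zero_re] at h2
      have h4 : ‖(m * g) v‖ = 0 := by
        by_contra hne
        have : 0 < ‖(m * g) v‖ := lt_of_le_of_ne (norm_nonneg _) (Ne.symm hne)
        have := mul_pos ht (pow_pos this 2)
        linarith only [h2, this]
      rw [zero_apply]
      exact norm_eq_zero.1 h4
    have hgm0 : g * m = 0 := by rw [← hmg, hmg0]
    have h1 := hmax (m + g) (add_mem hm hg) ?_ ?_ (le_add_of_nonneg_right hgp.nonneg)
    · have h2 : g ≤ 0 := by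
        have := sub_nonneg.2 h1
        rw [sub_add_cancel_left] at this
        exact neg_nonneg.1 this
      exact le_antisymm h2 hgp.nonneg
    · refine ⟨?_, hmp.isSelfAdjoint.add hgp.isSelfAdjoint⟩
      change (m + g) * (m + g) = m + g
      rw [mul_add, add_mul, add_mul, hmm, hmg0, hgm0, hgp.isIdempotentElem.eq]
      abel
    · intro ψ hψ
      rw [map_add, hmn ψ hψ, hgn ψ hψ, add_zero]
  have h2 : star (n * (1 - m)) * (n * (1 - m)) = 0 := by
    rw [star_mul, hmp.one_sub.isSelfAdjoint.star_eq, hnp.isSelfAdjoint.star_eq, ← hx]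
    calc (1 - m) * n * (n * (1 - m)) = (1 - m) * (n * n) * (1 - m) := by noncomm_ring
      _ = _ := by rw [hnn2]
  have h3 := CStarRing.star_mul_self_eq_zero_iff _ |>.1 h2
  rw [mul_sub, mul_one, sub_eq_zero] at h3
  exact h3.symm

/-- the central normal functionals are faithful on the expected corner -/
theorem faithful_of_expected (hA : IsMASA A M) {z : H →L[ℂ] H} (hz : z ∈ A)
    (hzp : IsStarProjection z) {E : (H →L[ℂ] H) →ₗ[ℂ] (H →L[ℂ] H)}
    (hE : IsNormalExpectation M A z E) {x : H →L[ℂ] H} (hx : x ∈ M) (hx0 : 0 ≤ x)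
    (hzx : z * x * z = x) (h : Nul M A x) : x = 0 := by
  obtain ⟨m, hm, hmp, hmn, hmax⟩ := exists_max M A
  have hmm : m * m = m := hmp.isIdempotentElem.eq
  have hdom : ∀ n ∈ M, IsStarProjection n → Nul M A n → n * m = n :=
    fun n hn hnp hnn => max_dom hm hmp hmn hmax hn hnp hnn
  have hcomm : ∀ e ∈ A, IsStarProjection e → m * e = e * m := by
    intro e he hep
    have heM := hA.1 he
    have hee : e * e = e := hep.isIdempotentElem.eq
    obtain ⟨u, hu⟩ : ∃ u, u = 1 - (2 : ℂ) • e := ⟨_, rfl⟩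
    have huM : u ∈ M := by
      rw [hu]; exact sub_mem (one_mem M) (M.toStarSubalgebra.smul_mem heM _)
    have huu : u * u = 1 := by
      rw [hu, mul_sub, sub_mul, sub_mul, mul_smul_comm, smul_mul_assoc, one_mul, mul_one,
        smul_mul_assoc, mul_smul_comm, hee, one_mul, two_smul, two_smul]
      abel
    have hus : IsSelfAdjoint u := by
      rw [hu, IsSelfAdjoint, star_sub, star_smul, star_one, hep.isSelfAdjoint.star_eq]
      simp
    have hnp : IsStarProjection (u * m * u) := by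
      refine ⟨?_, ?_⟩
      · change u * m * u * (u * m * u) = u * m * u
        calc u * m * u * (u * m * u) = u * m * (u * u) * m * u := by noncomm_ring
          _ = u * (m * m) * u := by rw [huu]; noncomm_ring
          _ = _ := by rw [hmm]
      · rw [IsSelfAdjoint, star_mul, star_mul, hus.star_eq, hmp.isSelfAdjoint.star_eq, mul_assoc]
    have hnn : Nul M A (u * m * u) := by
      intro ψ hψ
      have hc : ∀ y ∈ M, ψ (u * y) = ψ (y * u) := by
        intro y hy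
        rw [hu, sub_mul, mul_sub, map_sub, map_sub, one_mul, mul_one, smul_mul_assoc,
          mul_smul_comm, map_smul, map_smul, hψ.central e he hep y hy]
      rw [mul_assoc, hc _ (mul_mem hm huM), mul_assoc, huu, mul_one]
      exact hmn ψ hψ
    have h1 := hdom _ (mul_mem (mul_mem huM hm) huM) hnp hnn
    -- `u m u m = u m u`
    have h2 : m * u * m = m * u := by
      calc m * u * m = (u * u) * (m * u * m) := by rw [huu, one_mul]
        _ = u * (u * m * u * m) := by noncomm_ring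
        _ = u * (u * m * u) := by rw [h1]
        _ = (u * u) * (m * u) := by noncomm_ring
        _ = m * u := by rw [huu, one_mul]
    have h3 : m * u * m = u * m := by
      have := congrArg star h2
      rwa [star_mul, star_mul, hus.star_eq, hmp.isSelfAdjoint.star_eq, ← mul_assoc] at this
    have h4 : m * u = u * m := by rw [← h2, h3]
    rw [hu, mul_sub, sub_mul, mul_one, one_mul, mul_smul_comm, smul_mul_assoc] at h4
    have h5 : (2 : ℂ) • (m * e) = (2 : ℂ) • (e * m) := sub_right_inj.1 h4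
    exact smul_right_injective _ (two_ne_zero' ℂ) h5
  have hmA : m ∈ A := hA.mem hm fun a ha =>
    (hA.comm_of_proj (y := m) (fun e he hep => hcomm e he hep) a ha).symm
  have hmz : m * z = 0 := mul_eq_zero_of_isNormalExpectation hA hmA hmp hmn hz hzp hE
  refine eq_zero_of_spec hx hx0 fun t ht g hg hgp hle hcg hg1 => ?_
  have hgn := h.spec hx hg hgp ht hle
  have hgm := hdom g hg hgp hgn
  have hzz : z * z = z := hzp.isIdempotentElem.eq
  have hxz : x * (1 - z) = 0 := by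
    rw [← hzx, mul_assoc, mul_sub, mul_one, hzz, sub_self, mul_zero]
  have hzx' : (1 - z) * x = 0 := by
    rw [← hzx, ← mul_assoc, ← mul_assoc, sub_mul, one_mul, hzz, sub_self, zero_mul, zero_mul]
  have hzg : (1 - z) * g = g * (1 - z) := hcg _ (by rw [hxz, hzx'])
  have hzg0 : (1 - z) * g = 0 := by
    ext v
    have h1 : g (((1 - z) * g) v) = ((1 - z) * g) v := by
      have h2 := DFunLike.congr_fun hzg (g v)
      have h3 : (1 - z) (g (g v)) = g ((1 - z) (g v)) := h2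
      change g ((1 - z) (g v)) = (1 - z) (g v)
      rw [← h3, proj_apply_apply hgp]
    have h2 := hg1 _ h1
    have h3 : x (((1 - z) * g) v) = 0 := DFunLike.congr_fun hxz (g v)
    rw [h3, inner_zero_right, Complex.zero_re] at h2
    have h4 : ‖((1 - z) * g) v‖ = 0 := by
      by_contra hne
      have : 0 < ‖((1 - z) * g) v‖ := lt_of_le_of_ne (norm_nonneg _) (Ne.symm hne)
      have := mul_pos ht (pow_pos this 2)
      linarith only [h2, this]
    rw [zero_apply]
    exact norm_eq_zero.1 h4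
  have hgz : g = z * g := by
    rw [sub_mul, one_mul, sub_eq_zero] at hzg0
    exact hzg0
  have hmg : m * g = g := by
    have := congrArg star hgm
    rwa [star_mul, hgp.isSelfAdjoint.star_eq, hmp.isSelfAdjoint.star_eq] at this
  rw [← hmg, hgz, ← mul_assoc, hmz, zero_mul]

end Vale.Agent.P078.L

/-! A normal functional commuting with `A` controls the strong operator topology on projections
of the expected corner. -/

namespace Vale.Agent.P078.L

open Vale.Agent.P078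
open Filter Topology
open scoped ComplexOrder

variable {H : Type*} [NormedAddCommGroup H] [InnerProductSpace ℂ H] [CompleteSpace H]
variable {M : VonNeumannAlgebra H} {A : StarSubalgebra ℂ (H →L[ℂ] H)}

theorem centralNormal_sum (s : Finset {ψ : (H →L[ℂ] H) →ₗ[ℂ] ℂ // CentralNormal M A ψ}) :
    CentralNormal M A (∑ ψ ∈ s, ψ.1) := by
  have happ : ∀ x, (∑ ψ ∈ s, ψ.1) x = ∑ ψ ∈ s, ψ.1 x := fun x => by
    rw [LinearMap.sum_apply]
  refine ⟨fun x hx hx0 => ?_, fun e he hep x hx => ?_, ?_⟩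
  · rw [happ, Complex.re_sum, Complex.im_sum]
    exact ⟨Finset.sum_nonneg fun ψ _ => (ψ.2.nonneg x hx hx0).1,
      Finset.sum_eq_zero fun ψ _ => (ψ.2.nonneg x hx hx0).2⟩
  · rw [happ, happ]
    exact Finset.sum_congr rfl fun ψ _ => ψ.2.central e he hep x hx
  · exact (WCont.sum s fun ψ _ => ψ.2.wcont).congr fun x _ => (happ x).symm

/-- a central normal functional controlling finitely many vectors -/
theorem exists_control (hA : IsMASA A M) {z : H →L[ℂ] H} (hz : z ∈ A)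
    (hzp : IsStarProjection z) {E : (H →L[ℂ] H) →ₗ[ℂ] (H →L[ℂ] H)}
    (hE : IsNormalExpectation M A z E) (F : Finset H) {δ : ℝ} (hδ : 0 < δ) :
    ∃ ψ : (H →L[ℂ] H) →ₗ[ℂ] ℂ, CentralNormal M A ψ ∧ ∃ κ : ℝ, 0 < κ ∧
      ∀ e ∈ M, IsStarProjection e → z * e = e → (ψ e).re ≤ κ → ∀ ξ ∈ F, ‖e ξ‖ < δ := by
  classical
  by_contra hcon
  push Not at hcon
  have hzM : z ∈ M := hA.1 hz
  have hex : ∀ i : Finset {ψ : (H →L[ℂ] H) →ₗ[ℂ] ℂ // CentralNormal M A ψ} × ℕ,
      ∃ e ∈ M, IsStarProjection e ∧ z * e = e ∧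
        ((∑ ψ ∈ i.1, ψ.1) e).re ≤ 1 / ((i.2 : ℝ) + 1) ∧ ∃ ξ ∈ F, δ ≤ ‖e ξ‖ := by
    intro i
    exact hcon _ (centralNormal_sum i.1) (1 / ((i.2 : ℝ) + 1)) (by (clear hA z hz hzp E hE F δ hδ hcon hzM; positivity))
  choose e heM hep hze heψ ξ hξF hξ using hex
  obtain ⟨U, hU⟩ : ∃ U : Ultrafilter (Finset {ψ : (H →L[ℂ] H) →ₗ[ℂ] ℂ //
    CentralNormal M A ψ} × ℕ), U = Ultrafilter.of atTop := ⟨_, rfl⟩
  have hUle : (U : Filter (Finset {ψ : (H →L[ℂ] H) →ₗ[ℂ] ℂ //
    CentralNormal M A ψ} × ℕ)) ≤ atTop := by rw [hU]; exact Ultrafilter.of_le _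
  obtain ⟨L, hLn, hL⟩ := exists_wot_limit U e 1
    (Eventually.of_forall fun i => (hep i).norm_le) zero_le_one
  have hLM : L ∈ M := mem_of_tendsto' (Eventually.of_forall heM) hL
  have hL0 : 0 ≤ L := nonneg_of_tendsto (Eventually.of_forall fun i => (hep i).nonneg) hL
  have hezz : ∀ i, z * e i * z = e i := by
    intro i
    have h1 := congrArg star (hze i)
    rw [star_mul, hzp.isSelfAdjoint.star_eq, (hep i).isSelfAdjoint.star_eq] at h1
    rw [hze, h1]
  have hzL : z * L * z = L := by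
    refine inner_ext fun ξ η => ?_
    have h1 := hL (z ξ) (z η)
    rw [proj_inner hzp] at h1
    refine tendsto_nhds_unique (h1.congr fun i => ?_) (hL ξ η)
    rw [proj_inner hzp]
    exact congrArg (inner ℂ ξ) (DFunLike.congr_fun (hezz i) η)
  have hnul : Nul M A L := by
    intro ψ hψ
    have h1 : Tendsto ψ ((U : Filter (Finset {ψ : (H →L[ℂ] H) →ₗ[ℂ] ℂ //
      CentralNormal M A ψ} × ℕ)).map e) (𝓝 (ψ L)) := by
      refine hψ.wcont 1 L _ hLM ?_ fun ξ η => ?_
      · rw [eventually_map]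
        exact Eventually.of_forall fun i => ⟨heM i, (hep i).norm_le⟩
      · rw [tendsto_map'_iff]
        exact hL ξ η
    rw [tendsto_map'_iff] at h1
    have h2 : Tendsto (fun i => ψ (e i)) atTop (𝓝 0) := by
      rw [Metric.tendsto_nhds]
      intro ε hε
      obtain ⟨n, hn⟩ := exists_nat_one_div_lt hε
      filter_upwards [eventually_ge_atTop (({⟨ψ, hψ⟩} : Finset {ψ : (H →L[ℂ] H) →ₗ[ℂ] ℂ //
        CentralNormal M A ψ}), n)] with i hi
      obtain ⟨hi1, hi2⟩ := Prod.mk_le_mk.1 (show (({⟨ψ, hψ⟩} : Finset {ψ : (H →L[ℂ] H) →ₗ[ℂ] ℂ //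
        CentralNormal M A ψ}), n) ≤ (i.1, i.2) from hi)
      have h3 := hψ.nonneg (e i) (heM i) (hep i).nonneg
      have h4 : (ψ (e i)).re ≤ ((∑ ψ ∈ i.1, ψ.1) (e i)).re := by
        rw [LinearMap.sum_apply, Complex.re_sum]
        have hmem : (⟨ψ, hψ⟩ : {ψ : (H →L[ℂ] H) →ₗ[ℂ] ℂ // CentralNormal M A ψ}) ∈ i.1 :=
          hi1 (Finset.mem_singleton_self _)
        exact Finset.single_le_sum
          (f := fun φ : {ψ : (H →L[ℂ] H) →ₗ[ℂ] ℂ // CentralNormal M A ψ} => (φ.1 (e i)).re)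
          (fun φ _ => (φ.2.nonneg (e i) (heM i) (hep i).nonneg).1) hmem
      have h5 : 1 / ((i.2 : ℝ) + 1) ≤ 1 / ((n : ℝ) + 1) := by
        have : (n : ℝ) ≤ i.2 := by exact_mod_cast hi2
        (clear hA z hz hzp E hE F δ hδ hcon hzM e heM hep hze heψ ξ hξF hξ U hU hUle L hLn hL hLM hL0 hezz hzL ψ hψ h1 ε hε hn hi hi1 h3 h4; gcongr)
      rw [dist_zero_right]
      have h6 : ψ (e i) = (((ψ (e i)).re : ℝ) : ℂ) := Complex.ext (by simp) (by simpa using h3.2)
      rw [h6, Complex.norm_real, Real.norm_of_nonneg h3.1]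
      linarith only [heψ i, h5, h4, hn]
    exact tendsto_nhds_unique h1 (h2.mono_left hUle)
  have hLz := faithful_of_expected hA hz hzp hE hLM hL0 hzL hnul
  -- contradiction on `F`
  have h1 : Tendsto (fun i => (∑ ζ ∈ F, inner ℂ ζ (e i ζ)).re) U
      (𝓝 (∑ ζ ∈ F, inner ℂ ζ (L ζ)).re) :=
    (Complex.continuous_re.tendsto _).comp (tendsto_finsetSum F fun ζ _ => hL ζ ζ)
  have h2 : δ ^ 2 ≤ (∑ ζ ∈ F, inner ℂ ζ (L ζ)).re := by
    refine ge_of_tendsto h1 (Eventually.of_forall fun i => ?_)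
    rw [Complex.re_sum]
    refine le_trans ?_ (Finset.single_le_sum (f := fun ζ => (inner ℂ ζ (e i ζ)).re)
      (fun ζ _ => inner_nonneg_of_nonneg (hep i).nonneg ζ) (hξF i))
    rw [proj_inner_self (hep i)]
    exact pow_le_pow_left₀ hδ.le (hξ i) 2
  rw [hLz] at h2
  simp only [zero_apply, inner_zero_right, Finset.sum_const_zero, Complex.zero_re] at h2
  have : 0 < δ ^ 2 := by positivity
  linarith only [h2, this]

/-- strongly small bounded sets are small for normal functionals -/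
theorem small_of_strong {ψ : (H →L[ℂ] H) →ₗ[ℂ] ℂ} (hψ : WCont M ψ) {D : Set (H →L[ℂ] H)}
    {C : ℝ} (hD : ∀ d ∈ D, d ∈ M ∧ ‖d‖ ≤ C)
    (h : ∀ G : Finset H, ∀ δ : ℝ, 0 < δ → ∃ d ∈ D, ∀ ζ ∈ G, ‖d ζ‖ < δ) {κ : ℝ} (hκ : 0 < κ) :
    ∃ d ∈ D, (ψ (star d * d)).re < κ := by
  classical
  have hex : ∀ i : Finset H × ℕ, ∃ d ∈ D, ∀ ζ ∈ i.1, ‖d ζ‖ < 1 / ((i.2 : ℝ) + 1) :=
    fun i => h i.1 _ (by positivity)
  choose d hdD hd using hex
  have hlim : ∀ ζ : H, Tendsto (fun i => d i ζ) atTop (𝓝 0) := by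
    intro ζ
    rw [Metric.tendsto_nhds]
    intro ε hε
    obtain ⟨n, hn⟩ := exists_nat_one_div_lt hε
    filter_upwards [eventually_ge_atTop (({ζ} : Finset H), n)] with i hi
    obtain ⟨hi1, hi2⟩ := Prod.mk_le_mk.1 (show (({ζ} : Finset H), n) ≤ (i.1, i.2) from hi)
    have h5 : 1 / ((i.2 : ℝ) + 1) ≤ 1 / ((n : ℝ) + 1) := by
      have : (n : ℝ) ≤ i.2 := by exact_mod_cast hi2
      (clear * - this; gcongr)
    rw [dist_zero_right]
    have := hd i ζ (hi1 (Finset.mem_singleton_self _))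
    linarith
  have h1 : Tendsto ψ ((atTop : Filter (Finset H × ℕ)).map fun i => star (d i) * d i)
      (𝓝 (ψ 0)) := by
    refine hψ (C ^ 2) 0 _ (zero_mem M) ?_ fun ξ η => ?_
    · rw [eventually_map]
      refine Eventually.of_forall fun i => ⟨mul_mem (star_mem (hD _ (hdD i)).1) (hD _ (hdD i)).1,
        ?_⟩
      have h2 := (hD _ (hdD i)).2
      have h3 : 0 ≤ ‖d i‖ := norm_nonneg _
      calc ‖star (d i) * d i‖ ≤ ‖star (d i)‖ * ‖d i‖ := norm_mul_le _ _
        _ = ‖d i‖ ^ 2 := by rw [norm_star, sq]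
        _ ≤ C ^ 2 := by (clear * - h2; gcongr)
    · rw [tendsto_map'_iff, zero_apply, inner_zero_right]
      have h2 := (hlim ξ).inner (𝕜 := ℂ) (hlim η)
      rw [inner_zero_right] at h2
      refine h2.congr fun i => ?_
      have h3 : inner ℂ ξ ((star (d i) * d i) η) = inner ℂ (d i ξ) (d i η) := by
        have := star_apply_inner (star (d i)) ξ (d i η)
        rw [star_star] at this
        exact this.symm
      exact h3.symm
  rw [map_zero, tendsto_map'_iff] at h1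
  have h2 := (Complex.continuous_re.tendsto _).comp h1
  rw [Complex.zero_re] at h2
  obtain ⟨i, hi⟩ := (h2.eventually (gt_mem_nhds hκ)).exists
  exact ⟨d i, hdD i, hi⟩

end Vale.Agent.P078.L

/-! The double commutant theorem and the density theorem of Kaplansky. -/

namespace Vale.Agent.P078.L

open Vale.Agent.P078
open Filter Topology

variable {H : Type*} [NormedAddCommGroup H] [InnerProductSpace ℂ H] [CompleteSpace H]

/-- the diagonal amplification -/
noncomputable def amp (m : ℕ) (T : H →L[ℂ] H) :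
    PiLp 2 (fun _ : Fin m => H) →L[ℂ] PiLp 2 (fun _ : Fin m => H) :=
  ((PiLp.continuousLinearEquiv 2 ℂ (fun _ : Fin m => H)).symm :
    (Fin m → H) →L[ℂ] PiLp 2 (fun _ : Fin m => H)).comp
    (ContinuousLinearMap.pi fun k => T.comp (PiLp.proj 2 (fun _ : Fin m => H) k))

theorem amp_apply (m : ℕ) (T : H →L[ℂ] H) (v : PiLp 2 (fun _ : Fin m => H)) (k : Fin m) :
    amp m T v k = T (v k) := rfl

/-- the coordinate embedding -/
noncomputable def inj (m : ℕ) (k : Fin m) : H →L[ℂ] PiLp 2 (fun _ : Fin m => H) :=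
  ((PiLp.continuousLinearEquiv 2 ℂ (fun _ : Fin m => H)).symm :
    (Fin m → H) →L[ℂ] PiLp 2 (fun _ : Fin m => H)).comp
    (ContinuousLinearMap.single ℂ (fun _ : Fin m => H) k)

theorem inj_apply (m : ℕ) (k j : Fin m) (w : H) :
    inj m k w j = (Pi.single k w : Fin m → H) j := rfl

theorem amp_inj (m : ℕ) (T : H →L[ℂ] H) (k : Fin m) (w : H) :
    amp m T (inj m k w) = inj m k (T w) := by
  ext j
  rw [amp_apply, inj_apply, inj_apply]
  by_cases h : j = k
  · subst h; rw [Pi.single_eq_same, Pi.single_eq_same]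
  · rw [Pi.single_eq_of_ne h, Pi.single_eq_of_ne h, map_zero]

theorem sum_inj (m : ℕ) (v : PiLp 2 (fun _ : Fin m => H)) : ∑ k, inj m k (v k) = v := by
  ext j
  have h1 : (∑ k, inj m k (v k)) j = ∑ k, (inj m k (v k)) j := by
    have := map_sum (PiLp.proj 2 (fun _ : Fin m => H) j (𝕜 := ℂ)) (fun k => inj m k (v k))
      Finset.univ
    exact this
  rw [h1, Finset.sum_eq_single j]
  · rw [inj_apply, Pi.single_eq_same]
  · intro k _ hk
    rw [inj_apply, Pi.single_eq_of_ne hk.symm]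
  · intro h
    exact absurd (Finset.mem_univ j) h

theorem amp_star (m : ℕ) (T : H →L[ℂ] H) : star (amp m T) = amp m (star T) := by
  refine inner_ext fun u v => ?_
  have h1 : inner ℂ u (star (amp m T) v) = inner ℂ (amp m T u) v := by
    have := star_apply_inner (star (amp m T)) u v
    rw [star_star] at this
    exact this.symm
  rw [h1, PiLp.inner_apply, PiLp.inner_apply]
  refine Finset.sum_congr rfl fun k _ => ?_
  rw [amp_apply, amp_apply]
  have := star_apply_inner (star T) (u k) (v k)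
  rw [star_star] at this
  exact this

/-- the double commutant theorem, in weak form -/
theorem weak_bicommutant (𝒜 : StarSubalgebra ℂ (H →L[ℂ] H)) {T : H →L[ℂ] H}
    (hT : ∀ S : H →L[ℂ] H, (∀ y ∈ 𝒜, S * y = y * S) → S * T = T * S) {m : ℕ} (u v : Fin m → H)
    (h : ∀ y ∈ 𝒜, ∑ k, inner ℂ (u k) (y (v k)) = 0) : ∑ k, inner ℂ (u k) (T (v k)) = 0 := by
  obtain ⟨V, hV⟩ : ∃ V : PiLp 2 (fun _ : Fin m => H), V = WithLp.toLp 2 v := ⟨_, rfl⟩
  obtain ⟨U, hU⟩ : ∃ U : PiLp 2 (fun _ : Fin m => H), U = WithLp.toLp 2 u := ⟨_, rfl⟩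
  have hVk : ∀ k, V k = v k := fun k => by rw [hV]
  have hUk : ∀ k, U k = u k := fun k => by rw [hU]
  let S : Submodule ℂ (PiLp 2 (fun _ : Fin m => H)) :=
    { carrier := {w | ∃ y ∈ 𝒜, w = amp m y V}
      add_mem' := by
        rintro _ _ ⟨y, hy, rfl⟩ ⟨y', hy', rfl⟩
        refine ⟨y + y', add_mem hy hy', ?_⟩
        ext k
        rfl
      zero_mem' := ⟨0, zero_mem _, by ext k; rfl⟩
      smul_mem' := by
        rintro c _ ⟨y, hy, rfl⟩
        refine ⟨c • y, 𝒜.smul_mem hy c, ?_⟩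
        ext k
        rfl }
  let K := S.topologicalClosure
  have hKc : IsClosed (K : Set (PiLp 2 (fun _ : Fin m => H))) := S.isClosed_topologicalClosure
  have : CompleteSpace K := hKc.completeSpace_coe
  obtain ⟨P, hP⟩ : ∃ P, P = K.starProjection := ⟨_, rfl⟩
  have hinv : ∀ y ∈ 𝒜, ∀ w ∈ K, amp m y w ∈ K := by
    intro y hy w hw
    have h1 : ∀ w ∈ S, amp m y w ∈ S := by
      rintro _ ⟨y', hy', rfl⟩
      refine ⟨y * y', mul_mem hy hy', ?_⟩
      ext k
      rfl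
    have h2 : S ≤ K.comap (amp m y : PiLp 2 (fun _ : Fin m => H) →ₗ[ℂ] _) :=
      fun v hv => S.le_topologicalClosure (h1 v hv)
    have h3 : IsClosed ((K.comap (amp m y : PiLp 2 (fun _ : Fin m => H) →ₗ[ℂ] _) :
        Submodule ℂ _) : Set (PiLp 2 (fun _ : Fin m => H))) :=
      hKc.preimage (amp m y).continuous
    exact (S.topologicalClosure_minimal h2 h3) hw
  have hcomm : ∀ y ∈ 𝒜, amp m y * P = P * amp m y := by
    intro y hy
    rw [hP]
    refine commute_starProjection K (hinv y hy) ?_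
    rw [amp_star]
    exact hinv _ (star_mem hy)
  have hVK : V ∈ K := S.le_topologicalClosure ⟨1, one_mem _, by ext k; rfl⟩
  have hPV : P V = V := by rw [hP]; exact K.starProjection_eq_self_iff.2 hVK
  -- the entries of the projection commute with `T`
  have hent : ∀ j k : Fin m, ∀ w : H, (P (inj m k (T w))) j = T ((P (inj m k w)) j) := by
    intro j k w
    have h1 := hT ((PiLp.proj 2 (fun _ : Fin m => H) j).comp (P.comp (inj m k))) (by
      intro y hy
      ext w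
      change (P (inj m k (y w))) j = y ((P (inj m k w)) j)
      have h2 := DFunLike.congr_fun (hcomm y hy) (inj m k w)
      have h3 : amp m y (P (inj m k w)) = P (amp m y (inj m k w)) := h2
      rw [amp_inj] at h3
      rw [← h3, amp_apply])
    exact DFunLike.congr_fun h1 w
  have hTV : P (amp m T V) = amp m T V := by
    ext j
    have h1 : amp m T V = ∑ k, inj m k (T (V k)) := by
      rw [← sum_inj m (amp m T V)]
      rfl
    have hpr : ∀ f : Fin m → PiLp 2 (fun _ : Fin m => H), (∑ k, f k) j = ∑ k, (f k) j := by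
      intro f
      exact map_sum (PiLp.proj 2 (fun _ : Fin m => H) j (𝕜 := ℂ)) f Finset.univ
    rw [amp_apply, h1, map_sum, hpr]
    simp only [hent]
    rw [← map_sum, ← hpr, ← map_sum, sum_inj, hPV]
  have hTK : amp m T V ∈ K := by
    rw [← hTV, hP]
    exact K.starProjection_apply_mem _
  have hUS : ∀ w ∈ K, inner ℂ U w = 0 := by
    intro w hw
    have h1 : S ≤ LinearMap.ker ((innerSL ℂ U : PiLp 2 (fun _ : Fin m => H) →L[ℂ] ℂ) :
        PiLp 2 (fun _ : Fin m => H) →ₗ[ℂ] ℂ) := by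
      rintro _ ⟨y, hy, rfl⟩
      rw [LinearMap.mem_ker]
      change inner ℂ U (amp m y V) = 0
      rw [PiLp.inner_apply, ← h y hy]
      refine Finset.sum_congr rfl fun k _ => ?_
      rw [amp_apply, hVk, hUk]
    have h2 := S.topologicalClosure_minimal h1
      (ContinuousLinearMap.isClosed_ker (innerSL ℂ U)) hw
    exact h2
  have h1 := hUS _ hTK
  rw [PiLp.inner_apply] at h1
  rw [← h1]
  refine Finset.sum_congr rfl fun k _ => ?_
  rw [amp_apply, hVk, hUk]

end Vale.Agent.P078.L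

/-! Kaplansky's density theorem for self-adjoint elements. -/

namespace Vale.Agent.P078.L

open Vale.Agent.P078
open Filter Topology

variable {H : Type*} [NormedAddCommGroup H] [InnerProductSpace ℂ H] [CompleteSpace H]

/-- self-adjoint elements of the bicommutant are strong limits of self-adjoint elements -/
theorem dense_sa (𝒜 : StarSubalgebra ℂ (H →L[ℂ] H)) {T : H →L[ℂ] H} (hTs : IsSelfAdjoint T)
    (hT : ∀ S : H →L[ℂ] H, (∀ y ∈ 𝒜, S * y = y * S) → S * T = T * S) (F : Finset H) {δ : ℝ}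
    (hδ : 0 < δ) : ∃ y ∈ 𝒜, IsSelfAdjoint y ∧ ∀ ζ ∈ F, ‖(T - y) ζ‖ < δ := by
  obtain ⟨m, ξ, hξ⟩ : ∃ (m : ℕ) (ξ : Fin m → H), ∀ ζ ∈ F, ∃ k, ξ k = ζ :=
    ⟨F.card, fun i => (F.equivFin.symm i : H), fun u hu => ⟨F.equivFin ⟨u, hu⟩, by simp⟩⟩
  obtain ⟨Ξ, hΞ⟩ : ∃ Ξ : PiLp 2 (fun _ : Fin m => H), Ξ = WithLp.toLp 2 ξ := ⟨_, rfl⟩
  have hΞk : ∀ k, Ξ k = ξ k := fun k => by rw [hΞ]
  obtain ⟨V, hV⟩ : ∃ V : Set (PiLp 2 (fun _ : Fin m => H)),
    V = {w | ∃ y ∈ 𝒜, IsSelfAdjoint y ∧ w = amp m y Ξ} := ⟨_, rfl⟩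
  have hmem : ∀ w, w ∈ V ↔ ∃ y ∈ 𝒜, IsSelfAdjoint y ∧ w = amp m y Ξ := fun w => by rw [hV]; rfl
  rcases real_residual V ((hmem _).2 ⟨0, zero_mem _, IsSelfAdjoint.zero _, by ext k; rfl⟩)
    (fun a ha b hb => by
      obtain ⟨y, hy, hys, rfl⟩ := (hmem _).1 ha
      obtain ⟨y', hy', hys', rfl⟩ := (hmem _).1 hb
      exact (hmem _).2 ⟨y + y', add_mem hy hy', hys.add hys', by ext k; rfl⟩)
    (fun c a ha => by
      obtain ⟨y, hy, hys, rfl⟩ := (hmem _).1 ha
      refine (hmem _).2 ⟨(c : ℂ) • y, 𝒜.smul_mem hy _, ?_, by ext k; rfl⟩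
      rw [IsSelfAdjoint, star_smul, hys.star_eq, Complex.star_def, Complex.conj_ofReal])
    (amp m T Ξ) with h | ⟨d, hd0, hd⟩
  · obtain ⟨w, hw, hwd⟩ := Metric.mem_closure_iff.1 h δ hδ
    obtain ⟨y, hy, hys, rfl⟩ := (hmem _).1 hw
    refine ⟨y, hy, hys, fun ζ hζ => ?_⟩
    obtain ⟨k, rfl⟩ := hξ ζ hζ
    rw [dist_eq_norm] at hwd
    refine lt_of_le_of_lt ?_ hwd
    have h1 := PiLp.norm_apply_le (amp m T Ξ - amp m y Ξ) k
    refine le_trans (le_of_eq ?_) h1
    rw [PiLp.sub_apply, amp_apply, amp_apply, hΞk, sub_apply]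
  · exfalso
    -- the functional
    obtain ⟨φ, hφ⟩ : ∃ φ : (H →L[ℂ] H) →ₗ[ℂ] ℂ, ∀ y, φ y =
        ∑ k, inner ℂ (d k) (y (ξ k)) + ∑ k, inner ℂ (ξ k) (y (d k)) :=
      ⟨{ toFun := fun y => ∑ k, inner ℂ (d k) (y (ξ k)) + ∑ k, inner ℂ (ξ k) (y (d k))
         map_add' := fun a b => by
           simp only [add_apply, inner_add_right, Finset.sum_add_distrib]
           ring
         map_smul' := fun c a => by
           simp only [smul_apply, inner_smul_right, RingHom.id_apply, smul_eq_mul, mul_add,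
             Finset.mul_sum] }, fun _ => rfl⟩
    have hsa : ∀ a : H →L[ℂ] H, IsSelfAdjoint a →
        φ a = ((2 * (inner ℂ (amp m a Ξ) d).re : ℝ) : ℂ) := by
      intro a ha
      have h1 : inner ℂ (amp m a Ξ) d = ∑ k, inner ℂ (a (ξ k)) (d k) := by
        rw [PiLp.inner_apply]
        refine Finset.sum_congr rfl fun k _ => ?_
        rw [amp_apply, hΞk]
      have h2 : ∑ k, inner ℂ (ξ k) (a (d k)) = ∑ k, inner ℂ (a (ξ k)) (d k) := by
        refine Finset.sum_congr rfl fun k _ => ?_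
        have := star_apply_inner a (ξ k) (d k)
        rw [ha.star_eq] at this
        exact this.symm
      have h3 : ∑ k, inner ℂ (d k) (a (ξ k)) =
          (starRingEnd ℂ) (∑ k, inner ℂ (a (ξ k)) (d k)) := by
        rw [map_sum]
        refine Finset.sum_congr rfl fun k _ => ?_
        rw [inner_conj_symm]
      rw [hφ, h2, h3, ← h1, add_comm, Complex.add_conj]
    have h0 : ∀ y ∈ 𝒜, φ y = 0 := by
      have hsa0 : ∀ a ∈ 𝒜, IsSelfAdjoint a → φ a = 0 := by
        intro a ha has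
        rw [hsa a has, hd0 _ ((hmem _).2 ⟨a, ha, has, rfl⟩)]
        simp
      intro y hy
      have e1 := hsa0 (y + star y) (add_mem hy (star_mem hy)) (IsSelfAdjoint.add_star_self y)
      have e2 := hsa0 (Complex.I • (y - star y)) (𝒜.smul_mem (sub_mem hy (star_mem hy)) _) (by
        rw [IsSelfAdjoint, star_smul, star_sub, star_star, Complex.star_def, Complex.conj_I,
          neg_smul, ← smul_neg, neg_sub])
      rw [map_smul, smul_eq_mul, mul_eq_zero, map_sub] at e2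
      rw [map_add] at e1
      have e3 := e2.resolve_left Complex.I_ne_zero
      have e4 : (2 : ℂ) * φ y = 0 := by linear_combination e1 + e3
      exact (mul_eq_zero.1 e4).resolve_left two_ne_zero
    have h1 : φ T = 0 := by
      have h2 := weak_bicommutant 𝒜 hT (m := m + m) (Fin.append (fun k => d k) ξ)
        (Fin.append ξ (fun k => d k)) (fun y hy => by
          rw [Fin.sum_univ_add]
          simp only [Fin.append_left, Fin.append_right]
          rw [← hφ]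
          exact h0 y hy)
      rw [Fin.sum_univ_add] at h2
      simp only [Fin.append_left, Fin.append_right] at h2
      rw [hφ]
      exact h2
    rw [hsa T hTs, Complex.ofReal_eq_zero] at h1
    linarith only [hd, h1]

/-- the function `2 t / (1 + t ^ 2)` -/
noncomputable def fK (t : ℝ) : ℝ := 2 * ((1 + t ^ 2)⁻¹ * t)

/-- the resolvent function -/
noncomputable def rK (t : ℝ) : ℝ := (1 + t ^ 2)⁻¹

theorem rK_cont : Continuous rK := by
  unfold rK
  refine Continuous.inv₀ (by fun_prop) fun t => ?_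
  positivity

theorem fK_cont : Continuous fK := by
  unfold fK
  exact continuous_const.mul (rK_cont.mul continuous_id)

theorem fK_le (t : ℝ) : |fK t| ≤ 1 := by
  unfold fK
  have h : 0 < 1 + t ^ 2 := by (clear * -; positivity)
  rw [abs_le]
  have e : 2 * ((1 + t ^ 2)⁻¹ * t) = 2 * t / (1 + t ^ 2) := by
    rw [inv_mul_eq_div]; ring
  rw [e, le_div_iff₀ h, div_le_iff₀ h]
  constructor
  · linarith only [sq_nonneg (1 + t)]
  · linarith only [sq_nonneg (1 - t)]

theorem rK_le (t : ℝ) : |rK t| ≤ 1 := by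
  unfold rK
  have h : 0 < (1 + t ^ 2)⁻¹ := by positivity
  rw [abs_of_pos h]
  apply inv_le_one_of_one_le₀
  nlinarith only []

theorem cfc_rK {y : H →L[ℂ] H} (hy : IsSelfAdjoint y) :
    cfc rK y * (1 + y * y) = 1 ∧ (1 + y * y) * cfc rK y = 1 ∧ ‖cfc rK y‖ ≤ 1 ∧
      cfc fK y = (2 : ℝ) • (cfc rK y * y) ∧ cfc fK y = (2 : ℝ) • (y * cfc rK y) ∧
      ‖cfc fK y‖ ≤ 1 := by
  have h1 : cfc (fun t : ℝ => 1 + t ^ 2) y = 1 + y * y := by
    rw [cfc_add (fun _ : ℝ => 1) (fun t : ℝ => t ^ 2) (a := y), cfc_const_one ℝ y,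
      cfc_pow_id y 2, sq]
  have h2 : cfc rK y * (1 + y * y) = 1 := by
    rw [← h1, ← cfc_mul rK (fun t : ℝ => 1 + t ^ 2) y rK_cont.continuousOn (by fun_prop),
      ← cfc_const_one ℝ y]
    refine cfc_congr fun t _ => ?_
    unfold rK
    have : 1 + t ^ 2 ≠ 0 := by (clear * -; positivity)
    exact inv_mul_cancel₀ this
  have h3 : Commute (cfc rK y) y := by
    exact Commute.cfc_real (Commute.refl y) rK
  have h4 : (1 + y * y) * cfc rK y = 1 := by
    have h6 : Commute (cfc rK y) (1 + y * y) :=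
      (Commute.one_right _).add_right (h3.mul_right h3)
    rw [← h6.eq, h2]
  have h5 : cfc fK y = (2 : ℝ) • (cfc rK y * y) := by
    have e1 : cfc rK y * y = cfc (fun t : ℝ => rK t * t) y := by
      rw [cfc_mul rK (fun t : ℝ => t) y rK_cont.continuousOn (by fun_prop), cfc_id' ℝ y]
    rw [e1, ← cfc_const_mul (2 : ℝ) (fun t : ℝ => rK t * t) y
      ((rK_cont.mul continuous_id).continuousOn)]
    rfl
  refine ⟨h2, h4, norm_cfc_le zero_le_one fun t _ => rK_le t, h5, by rw [h5, h3.eq],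
    norm_cfc_le zero_le_one fun t _ => fK_le t⟩

/-- the inverse function -/
noncomputable def gK (s : ℝ) : ℝ := s / (1 + Real.sqrt (1 - s ^ 2))

theorem gK_cont : Continuous gK := by
  unfold gK
  refine Continuous.div continuous_id (by fun_prop) fun t => ?_
  have := Real.sqrt_nonneg (1 - t ^ 2)
  positivity

theorem fK_gK {s : ℝ} (hs : |s| ≤ 1) : fK (gK s) = s := by
  have h1 : 0 ≤ 1 - s ^ 2 := by
    have := (sq_le_one_iff_abs_le_one s).2 hs
    (clear * - this; linarith)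
  obtain ⟨r, hr⟩ : ∃ r, r = Real.sqrt (1 - s ^ 2) := ⟨_, rfl⟩
  have hr0 : 0 ≤ r := by rw [hr]; exact Real.sqrt_nonneg _
  have hr2 : r ^ 2 = 1 - s ^ 2 := by rw [hr]; exact Real.sq_sqrt h1
  have hs2 : s ^ 2 = 1 - r ^ 2 := by linarith only [hr2]
  unfold fK gK
  rw [← hr]
  have h2 : (0 : ℝ) < 1 + r := by (clear * - hr0; positivity)
  have h3 : 1 + (s / (1 + r)) ^ 2 = 2 / (1 + r) := by
    rw [div_pow, hs2]
    field_simp
    ring
  rw [h3]
  field_simp

/-- Kaplansky's density theorem -/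
theorem kaplansky (𝒜 : StarSubalgebra ℂ (H →L[ℂ] H))
    (hcl : ∀ y ∈ 𝒜, IsSelfAdjoint y → cfc fK y ∈ 𝒜) {x : H →L[ℂ] H} (hxs : IsSelfAdjoint x)
    (hx : ∀ S : H →L[ℂ] H, (∀ y ∈ 𝒜, S * y = y * S) → S * x = x * S) (hx1 : ‖x‖ ≤ 1)
    (F : Finset H) {δ : ℝ} (hδ : 0 < δ) :
    ∃ y ∈ 𝒜, IsSelfAdjoint y ∧ ‖y‖ ≤ 1 ∧ ∀ ζ ∈ F, ‖(x - y) ζ‖ < δ := by
  classical
  obtain ⟨T, hT⟩ : ∃ T, T = cfc gK x := ⟨_, rfl⟩
  have hTs : IsSelfAdjoint T := by rw [hT]; exact cfc_predicate gK x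
  have hTx : cfc fK T = x := by
    rw [hT, ← cfc_comp fK gK x hxs fK_cont.continuousOn gK_cont.continuousOn]
    conv_rhs => rw [← cfc_id ℝ x]
    refine cfc_congr fun t ht => ?_
    rw [Function.comp_apply, id]
    refine fK_gK ?_
    have h1 := norm_apply_le_norm_cfc (id : ℝ → ℝ) x ht
    rw [cfc_id ℝ x] at h1
    exact h1.trans hx1
  have hTc : ∀ S : H →L[ℂ] H, (∀ y ∈ 𝒜, S * y = y * S) → S * T = T * S := by
    intro S hS
    have h1 : Commute x S := (hx S hS).symm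
    rw [hT]
    exact (Commute.cfc_real h1 gK).eq.symm
  obtain ⟨hS1, hS2, hS3, hS4, hS5, hS6⟩ := cfc_rK hTs
  obtain ⟨S, hS⟩ : ∃ S, S = cfc rK T := ⟨_, rfl⟩
  rw [← hS] at hS1 hS2 hS3 hS4 hS5
  rw [hTx] at hS4 hS5
  obtain ⟨y, hyA, hys, hy⟩ := dense_sa 𝒜 hTs hTc (F.image S ∪ F.image x) (δ := δ / 4)
    (by positivity)
  obtain ⟨hR1, hR2, hR3, hR4, hR5, hR6⟩ := cfc_rK hys
  refine ⟨cfc fK y, hcl y hyA hys, cfc_predicate fK y, hR6, fun ζ hζ => ?_⟩
  obtain ⟨R, hR⟩ : ∃ R, R = cfc rK y := ⟨_, rfl⟩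
  obtain ⟨y', hy'⟩ : ∃ y', y' = cfc fK y := ⟨_, rfl⟩
  rw [← hR] at hR1 hR2 hR3 hR4 hR5
  rw [← hy'] at hR4 hR5 hR6 ⊢
  have key : x - y' = (2 : ℝ) • (R * ((T - y) * S)) - (2 : ℝ)⁻¹ • (y' * ((T - y) * x)) := by
    have e1 : (2 : ℝ)⁻¹ • (y' * ((T - y) * x)) = (2 : ℝ) • (R * y * ((T - y) * (T * S))) := by
      rw [hR4, hS5]
      simp only [mul_smul_comm, smul_mul_assoc, smul_smul]
      norm_num
    have e2 : R * ((T - y) * S) - R * y * ((T - y) * (T * S)) =
        (R * (1 + y * y)) * T * S - R * y * ((1 + T * T) * S) := by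
      noncomm_ring
    rw [e1, ← smul_sub, e2, hR1, hS2, one_mul, mul_one, smul_sub, ← hS5, ← hR4]
  rw [key]
  have h1 : ‖(T - y) (S ζ)‖ < δ / 4 :=
    hy _ (Finset.mem_union_left _ (Finset.mem_image_of_mem _ hζ))
  have h2 : ‖(T - y) (x ζ)‖ < δ / 4 :=
    hy _ (Finset.mem_union_right _ (Finset.mem_image_of_mem _ hζ))
  rw [sub_apply]
  refine (norm_sub_le _ _).trans_lt ?_
  have h3 : ‖((2 : ℝ) • (R * ((T - y) * S))) ζ‖ ≤ 2 * (δ / 4) := by
    have e : ((2 : ℝ) • (R * ((T - y) * S))) ζ = (2 : ℝ) • R ((T - y) (S ζ)) := rfl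
    rw [e, norm_smul, Real.norm_of_nonneg (by norm_num : (0 : ℝ) ≤ 2)]
    have := R.le_opNorm ((T - y) (S ζ))
    have h5 : ‖R‖ * ‖(T - y) (S ζ)‖ ≤ 1 * (δ / 4) := by (clear * - hR3 h1; gcongr)
    (clear * - this h5; linarith)
  have h4 : ‖((2 : ℝ)⁻¹ • (y' * ((T - y) * x))) ζ‖ ≤ 2⁻¹ * (δ / 4) := by
    have e : ((2 : ℝ)⁻¹ • (y' * ((T - y) * x))) ζ = (2 : ℝ)⁻¹ • y' ((T - y) (x ζ)) := rfl
    rw [e, norm_smul, Real.norm_of_nonneg (by norm_num : (0 : ℝ) ≤ 2⁻¹)]
    have := y'.le_opNorm ((T - y) (x ζ))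
    have h5 : ‖y'‖ * ‖(T - y) (x ζ)‖ ≤ 1 * (δ / 4) := by (clear * - hR6 h2; gcongr)
    linarith only [this, h5]
  linarith only [h4, h3, hδ]

end Vale.Agent.P078.L

end

section
set_option linter.unusedSectionVars false

/-! Paving up to an operator which is strongly small. -/

namespace Vale.Agent.P078.L

open Filter Topology
open ContinuousLinearMap (adjoint)
open Vale.Agent.P078 Vale.Agent.P078.C Vale.Agent.P078.G

universe u

variable {H : Type u} [NormedAddCommGroup H] [InnerProductSpace ℂ H] [CompleteSpace H]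
variable {M A : VonNeumannAlgebra H} {p : H →L[ℂ] H}

/-- small `2`-norm implies strong smallness on bounded sets -/
theorem strong_of_n2 {ξ : ℕ → H} (hξ : IsTrace M ξ) (G : Finset H) {C δ : ℝ} (hC : 0 ≤ C)
    (hδ : 0 < δ) : ∃ κ : ℝ, 0 < κ ∧ ∀ d ∈ M, ‖d‖ ≤ C → n2 ξ d ≤ κ → ∀ ζ ∈ G, ‖d ζ‖ < δ := by
  obtain ⟨κ, hκ, hvec⟩ := vec_small hξ G (δ := δ / (4 * (C + 1))) (by (clear * - hδ hC; positivity))
  obtain ⟨B, hB⟩ : ∃ B, B = 1 + ∑ ζ ∈ G, ‖ζ‖ := ⟨_, rfl⟩
  have hB0 : 0 < B := by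
    rw [hB]
    have : 0 ≤ ∑ ζ ∈ G, ‖ζ‖ := Finset.sum_nonneg fun _ _ => norm_nonneg _
    linarith
  have hBζ : ∀ ζ ∈ G, ‖ζ‖ ≤ B := by
    intro ζ hζ
    have := Finset.single_le_sum (f := fun ζ : H => ‖ζ‖) (fun _ _ => norm_nonneg _) hζ
    rw [hB]
    linarith only [this]
  refine ⟨κ * (δ / (4 * B)) ^ 2, by (clear * - hκ hδ hB0; positivity), fun d hd hdC hn ζ hζ => ?_⟩
  obtain ⟨q, hqM, hqp, hdq, htr⟩ := exists_cut hξ hd (c := δ / (4 * B)) (by positivity)
  have htr' : (vtr ξ (1 - q)).re ≤ κ := by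
    refine htr.trans ?_
    rw [div_le_iff₀ (by positivity)]
    exact hn
  have h1 := hvec q hqM hqp htr' ζ hζ
  have h2 : d ζ = (d * q) ζ + d (ζ - q ζ) := by
    rw [map_sub]
    change d ζ = d (q ζ) + (d ζ - d (q ζ))
    abel
  rw [h2]
  refine (norm_add_le _ _).trans_lt ?_
  have h3 : ‖(d * q) ζ‖ ≤ δ / 4 := by
    refine ((d * q).le_opNorm ζ).trans ?_
    calc ‖d * q‖ * ‖ζ‖ ≤ δ / (4 * B) * B := by
          have := hBζ ζ hζ
          (clear * - hdq this hδ hB0; gcongr)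
      _ = δ / 4 := by (clear * - hB0 hδ; field_simp)
  have h4 : ‖d (ζ - q ζ)‖ ≤ δ / 4 := by
    refine (d.le_opNorm _).trans ?_
    calc ‖d‖ * ‖ζ - q ζ‖ ≤ (C + 1) * (δ / (4 * (C + 1))) := by
          gcongr
          linarith only [hdC]
      _ = δ / 4 := by field_simp
  linarith only [hδ, h3, h4]

/-- paving up to a strongly small operator, in a finite von Neumann algebra -/
theorem masa_vec (hA : SO.IsMASA A M) {ξ : ℕ → H} (hξ : IsTrace M ξ) {ε : ℝ} (hε : 0 < ε)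
    (hε1 : ε < 1) {R : ℕ} (hR : (70 * 16 : ℕ) / ε ^ 2 ≤ (R : ℝ)) {x : H →L[ℂ] H}
    (hx : x ∈ M) (hxs : IsSelfAdjoint x) (G : Finset H) {δ : ℝ} (hδ : 0 < δ) :
    ∃ P : Fin R → (H →L[ℂ] H), IsPart A P ∧ ∃ a ∈ A, IsSelfAdjoint a ∧ ‖a‖ ≤ ‖x‖ ∧
      ∃ w ∈ M, ‖w‖ ≤ ε / 2 * ‖x‖ ∧ ∀ ζ ∈ G, ‖(pinch P x - a - w) ζ‖ < δ := by
  obtain ⟨E, hE⟩ := exists_trExp hA hξ
  have hExA := hE.mem x hx
  have hExM := hA.1 _ hExA
  have hExs : IsSelfAdjoint (E x) := by rw [IsSelfAdjoint, ← hE.star x hx, hxs.star_eq]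
  have hExn := norm_exp_le hE hx hxs
  -- the scale
  obtain ⟨N, hN, hN1, hN2⟩ : ∃ N : ℝ, 0 < N ∧ ‖x - E x‖ ≤ N ∧ (x ≠ 0 → N = 2 * ‖x‖) := by
    by_cases h0 : x = 0
    · refine ⟨1, one_pos, ?_, fun h => absurd h0 h⟩
      rw [h0, map_zero, sub_zero, norm_zero]
      exact zero_le_one
    · refine ⟨2 * ‖x‖, by positivity, ?_, fun _ => rfl⟩
      have := norm_sub_le x (E x)
      linarith only [hExn, this]
  obtain ⟨κ, hκ, hvec⟩ := strong_of_n2 hξ G (C := 2) (δ := δ / N) (by norm_num) (by positivity)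
  obtain ⟨y, hy⟩ : ∃ y, y = ((N⁻¹ : ℝ) : ℂ) • (x - E x) := ⟨_, rfl⟩
  have hyM : y ∈ M := by rw [hy]; exact M.toStarSubalgebra.smul_mem (sub_mem hx hExM) _
  have hys : IsSelfAdjoint y := by
    rw [hy, IsSelfAdjoint, star_smul, (hxs.sub hExs).star_eq]
    simp only [Complex.ofReal_inv, star_inv₀, RCLike.star_def, Complex.conj_ofReal]
  have hyn : ‖y‖ ≤ 1 := by
    rw [hy, norm_smul, Complex.norm_real, Real.norm_of_nonneg (by (clear * - hN; positivity)),
      inv_mul_le_iff₀ hN]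
    linarith only [hN1]
  have hEy : E y = 0 := by
    rw [hy, map_smul, map_sub, hE.idem _ hExA, sub_self, smul_zero]
  have hNy : x - E x = ((N : ℝ) : ℂ) • y := by
    rw [hy, smul_smul, ← Complex.ofReal_mul, mul_inv_cancel₀ hN.ne', Complex.ofReal_one, one_smul]
  obtain ⟨r, P, hr, hP, w, hwM, hwn, hn⟩ := Y.masa_two_norm hA hξ hE (ε := ε / 4) (by positivity)
    (by linarith only [hε1]) hyM hys hyn hEy hκ
  have hrR : r ≤ R := by
    have h : (r : ℝ) ≤ R := by
      refine hr.trans (le_trans (le_of_eq ?_) hR)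
      push_cast
      field_simp
      norm_num
    exact_mod_cast h
  obtain ⟨P', hP', hpin⟩ := exists_pad hrR hP
  have e1 : pinch P' x - E x = ((N : ℝ) : ℂ) • pinch P y := by
    have e2 : pinch P' x - E x = pinch P' x - pinch P' (E x) := by
      rw [pinch_of_mem hA hP' hExA]
    rw [e2, ← Vale.Agent.P078.G.pinch_sub, hNy, pinch_smul, hpin]
  have hdM : pinch P y - w ∈ M := sub_mem (Vale.Agent.P078.G.pinch_mem hA hP hyM) hwM
  have hdn : ‖pinch P y - w‖ ≤ 2 := by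
    refine (norm_sub_le _ _).trans ?_
    have := norm_pinch_le' hP y
    linarith only [this, hwn, hyn, hε1]
  by_cases h0 : x = 0
  · refine ⟨P', hP', E x, hExA, hExs, hExn, 0, zero_mem M, by simp only [norm_zero, h0, mul_zero, Std.le_refl], fun ζ hζ => ?_⟩
    have e3 : pinch P' x - E x - 0 = 0 := by
      rw [h0]; simp only [pinch, mul_zero, zero_mul, Finset.sum_const_zero, map_zero, sub_self]
    rw [e3, zero_apply, norm_zero]
    exact hδ
  · refine ⟨P', hP', E x, hExA, hExs, hExn, ((N : ℝ) : ℂ) • w,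
      M.toStarSubalgebra.smul_mem hwM _, ?_, fun ζ hζ => ?_⟩
    · rw [norm_smul, Complex.norm_real, Real.norm_of_nonneg hN.le, hN2 h0]
      have := norm_nonneg x
      linarith only [mul_nonneg (sub_nonneg.2 hwn) (sub_nonneg.2 this)]
    · rw [e1, ← smul_sub, smul_apply, norm_smul, Complex.norm_real, Real.norm_of_nonneg hN.le]
      have h1 := hvec _ hdM hdn hn ζ hζ
      rw [lt_div_iff₀ hN] at h1
      linarith only [h1]

/-- paving up to a strongly small operator, in the corner of a traceable projection -/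
theorem traceOn_vec (hA : SO.IsMASA A M) (hp : p ∈ A) (hpp : IsStarProjection p)
    {ξ : ℕ → H} (hξ : G.TraceOn M p ξ) {ε : ℝ} (hε : 0 < ε) (hε1 : ε < 1) {R : ℕ}
    (hR : (70 * 16 : ℕ) / ε ^ 2 ≤ (R : ℝ)) {x : H →L[ℂ] H} (hx : x ∈ M)
    (hxs : IsSelfAdjoint x) (hpx : p * x * p = x) (G : Finset H) {δ : ℝ} (hδ : 0 < δ) :
    ∃ P : Fin R → (H →L[ℂ] H), (∀ i, P i ∈ A ∧ IsStarProjection (P i)) ∧
      (∀ i j, i ≠ j → P i * P j = 0) ∧ ∑ i, P i = p ∧
      ∃ a ∈ A, p * a = a ∧ IsSelfAdjoint a ∧ ‖a‖ ≤ ‖x‖ ∧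
      ∃ w ∈ M, w * p = w ∧ ‖w‖ ≤ ε / 2 * ‖x‖ ∧
        ∀ ζ ∈ G, ‖(∑ i, P i * x * P i - a - w) ζ‖ < δ := by
  classical
  have hpM := hA.1 p hp
  have hR1 : 1 ≤ R := by
    have h1 : (0 : ℝ) < R := lt_of_lt_of_le (by positivity) hR
    exact_mod_cast h1
  by_cases hp0 : p = 0
  · -- trivial case
    subst hp0
    have hx0 : x = 0 := by rw [← hpx]; simp
    refine ⟨fun _ => 0, fun _ => ⟨zero_mem A, IsStarProjection.zero _⟩, fun _ _ _ => by simp,
      by simp only [Finset.sum_const_zero], 0, zero_mem A, by simp, IsSelfAdjoint.zero _, by simp only [norm_zero, norm_nonneg], 0, zero_mem M, by simp,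
      by simp only [norm_zero, hx0, mul_zero, Std.le_refl], fun ζ hζ => by simpa only [zero_mul, mul_zero, Finset.sum_const_zero, sub_self, zero_apply, norm_zero] using hδ⟩
  · obtain ⟨K, _, _, _, i, hi⟩ := exists_iso hpp
    -- the trace
    obtain ⟨c, hc⟩ : ∃ c : ℝ, c = ∑' n, ‖ξ n‖ ^ 2 := ⟨_, rfl⟩
    have hc0 : 0 < c := by
      rcases (tsum_nonneg fun n => sq_nonneg ‖ξ n‖ : (0 : ℝ) ≤ ∑' n, ‖ξ n‖ ^ 2).eq_or_lt
        with h | h
      · exfalso
        have h1 : ∀ n, ‖ξ n‖ ^ 2 = 0 := by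
          have := (hasSum_zero_iff_of_nonneg (fun n => sq_nonneg ‖ξ n‖)).1
            (by rw [h]; exact hξ.summable.hasSum)
          intro n
          exact congrFun this n
        have h2 := hξ.faithful 1 (one_mem M) fun n => by
          have := h1 n
          rw [one_apply_eq_self]
          exact norm_eq_zero.1 (pow_eq_zero_iff (two_ne_zero)|>.1 this)
        rw [one_mul] at h2
        exact hp0 h2
      · rw [hc]; exact h
    have hcs : 0 < Real.sqrt c := Real.sqrt_pos.2 hc0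
    obtain ⟨s, hs⟩ : ∃ s : ℝ, s = (Real.sqrt c)⁻¹ := ⟨_, rfl⟩
    have hs0 : 0 < s := by rw [hs]; (clear * - hc0; positivity)
    have hs2 : s ^ 2 * c = 1 := by
      rw [hs, inv_pow, Real.sq_sqrt hc0.le, inv_mul_cancel₀ hc0.ne']
    obtain ⟨ζ, hζ⟩ : ∃ ζ : ℕ → H, ζ = fun n => ((s : ℝ) : ℂ) • ξ n := ⟨_, rfl⟩
    have hnorm : ∀ n, ‖adjoint i (ζ n)‖ ^ 2 = s ^ 2 * ‖ξ n‖ ^ 2 := by
      intro n
      have h1 : ‖adjoint i (ξ n)‖ = ‖ξ n‖ := by
        rw [← hi.norm_apply, hi.ran, hξ.fix]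
      rw [hζ]
      simp only [map_smul]
      rw [norm_smul, Complex.norm_real, Real.norm_of_nonneg hs0.le, mul_pow, h1]
    have hT : IsTrace (cAlg M i) (fun n => adjoint i (ζ n)) := by
      refine ⟨?_, ?_, fun x hx y hy => ?_, fun x hx h => ?_⟩
      · simp only [hnorm]
        exact hξ.summable.mul_left _
      · simp only [hnorm]
        rw [tsum_mul_left, ← hc, hs2]
      · rw [vtr_up, vtr_up, hi.up_mul, hi.up_mul, hζ, vtr_const_smul, vtr_const_smul]
        congr 1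
        have hxM := (mem_cAlg hi hpM).1 hx
        have hyM := (mem_cAlg hi hpM).1 hy
        have e1 : up i x = up i x * p := by
          conv_rhs => rw [← hi.up_one]
          rw [← hi.up_mul, mul_one]
        have e2 : up i y = up i y * p := by
          conv_rhs => rw [← hi.up_one]
          rw [← hi.up_mul, mul_one]
        have h1 := hξ.tracial _ hxM _ hyM
        rwa [← e1, ← e2] at h1
      · apply hi.up_injective
        have hxM := (mem_cAlg hi hpM).1 hx
        have e1 : up i x = up i x * p := by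
          conv_rhs => rw [← hi.up_one]
          rw [← hi.up_mul, mul_one]
        have e0 : up i (0 : K →L[ℂ] K) = 0 := by
          ext v
          exact map_zero i
        rw [e0, e1]
        refine hξ.faithful _ hxM fun n => ?_
        have h1 : x (adjoint i (ζ n)) = 0 := h n
        rw [hζ] at h1
        simp only [map_smul] at h1
        rcases smul_eq_zero.1 h1 with h2 | h2
        · exact absurd (by exact_mod_cast h2 : s = 0) hs0.ne'
        · change i (x (adjoint i (ξ n))) = 0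
          rw [h2, map_zero]
    have hdx := hi.norm_dn_le x
    obtain ⟨P, ⟨hP1, hP2, hP3⟩, a, haA, has, han, w, hwM, hwn, hG⟩ :=
      masa_vec (isMASA_cAlg hA hi hp) hT hε hε1 hR (dn_mem hi hpM hx) (by
        rw [IsSelfAdjoint, ← Iso.dn_star, hxs.star_eq]) (G.image (adjoint i)) hδ
    have hstar : ∀ y : K →L[ℂ] K, IsSelfAdjoint y → IsSelfAdjoint (up i y) := by
      intro y hy
      rw [IsSelfAdjoint, ← Iso.up_star, hy.star_eq]
    have hproj : ∀ y : K →L[ℂ] K, IsStarProjection y → IsStarProjection (up i y) := by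
      intro y hy
      refine ⟨?_, hstar y hy.isSelfAdjoint⟩
      change up i y * up i y = up i y
      rw [← hi.up_mul, hy.isIdempotentElem.eq]
    have hup1 : ∀ y : K →L[ℂ] K, p * up i y = up i y := by
      intro y
      conv_lhs => rw [← hi.up_one]
      rw [← hi.up_mul, one_mul]
    have hpin : ∀ y : K →L[ℂ] K, up i y * x * up i y = up i (y * dn i x * y) := by
      intro y
      rw [hi.up_mul, hi.up_mul, hi.up_dn, hpx]
    have hup2 : up i w * p = up i w := by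
      conv_lhs => rw [← hi.up_one]
      rw [← hi.up_mul, mul_one]
    refine ⟨fun j => up i (P j), fun j => ⟨(mem_cAlg hi hp).1 (hP1 j).1,
      hproj _ (hP1 j).2⟩, fun j k hjk => ?_, ?_, up i a, (mem_cAlg hi hp).1 haA, hup1 a,
      hstar a has, (hi.norm_up_le a).trans (han.trans hdx), up i w, (mem_cAlg hi hpM).1 hwM,
      hup2, (hi.norm_up_le w).trans (hwn.trans ?_), fun ζ hζ => ?_⟩
    · rw [← hi.up_mul, hP2 j k hjk]
      ext v
      exact map_zero i
    · rw [← Iso.up_sum, hP3, hi.up_one]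
    · exact mul_le_mul_of_nonneg_left hdx (by positivity)
    · have h1 : ∑ j, up i (P j) * x * up i (P j) - up i a - up i w =
          up i (pinch P (dn i x) - a - w) := by
        rw [Iso.up_sub, Iso.up_sub]
        unfold pinch
        rw [Iso.up_sum]
        simp only [hpin]
      rw [h1]
      have h2 := hG (adjoint i ζ) (Finset.mem_image_of_mem _ hζ)
      change ‖i ((pinch P (dn i x) - a - w) (adjoint i ζ))‖ < δ
      rw [hi.norm_apply]
      exact h2

end Vale.Agent.P078.L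

/-! So-paving for maximal abelian subalgebras approximated by semifinite intermediate algebras. -/

namespace Vale.Agent.P078.L

open Filter Topology
open Vale.Agent.P078 Vale.Agent.P078.C Vale.Agent.P078.G
open Vale.Agent.P078.SO (wt SemiTrace IsSemifinite IsLargestExpected nPave)
open scoped ENNReal

universe u

variable {H : Type u} [NormedAddCommGroup H] [InnerProductSpace ℂ H] [CompleteSpace H]
variable {M A : VonNeumannAlgebra H} {p z : H →L[ℂ] H}

/-- self-adjoint elements of `M` are strong limits, with control of the norm, of self-adjoint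
elements of semifinite intermediate algebras -/
def ApproxSemi (M A : VonNeumannAlgebra H) (z : H →L[ℂ] H) : Prop :=
  ∀ x ∈ M, IsSelfAdjoint x → ∀ F : Finset H, ∀ δ : ℝ, 0 < δ →
    ∃ N : VonNeumannAlgebra H, (∀ a ∈ A, a ∈ N) ∧ (∀ y ∈ N, y ∈ M) ∧ IsSemifinite N z ∧
      ∃ y ∈ N, IsSelfAdjoint y ∧ ‖y‖ ≤ ‖x‖ ∧ ∀ ζ ∈ F, ‖(x - y) ζ‖ < δ

theorem spec_mul_zero {x g y : H →L[ℂ] H} (hgp : IsStarProjection g) {t : ℝ} (ht : 0 < t)
    (hc : ∀ y : H →L[ℂ] H, y * x = x * y → y * g = g * y)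
    (hg1 : ∀ ζ, g ζ = ζ → t * ‖ζ‖ ^ 2 ≤ (inner ℂ ζ (x ζ)).re) (hxy : x * y = 0)
    (hyx : y * x = 0) : y * g = 0 := by
  have hyg : y * g = g * y := hc y (by rw [hxy, hyx])
  ext v
  have h1 : g ((y * g) v) = (y * g) v := by
    have h2 := DFunLike.congr_fun hyg (g v)
    have h3 : y (g (g v)) = g (y (g v)) := h2
    change g (y (g v)) = y (g v)
    rw [← h3, proj_apply_apply hgp]
  have h2 := hg1 _ h1
  have h3 : x ((y * g) v) = 0 := DFunLike.congr_fun hxy (g v)
  rw [h3, inner_zero_right, Complex.zero_re] at h2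
  have h4 : ‖(y * g) v‖ = 0 := by
    by_contra hne
    have : 0 < ‖(y * g) v‖ := lt_of_le_of_ne (norm_nonneg _) (Ne.symm hne)
    have := mul_pos ht (pow_pos this 2)
    linarith only [h2, this]
  rw [zero_apply]
  exact norm_eq_zero.1 h4

/-- extension of a partition of `p` to a partition of `z` -/
theorem extend_part (hA : SO.IsMASA A M) (hz : z ∈ A) (hzp : IsStarProjection z) (hpA : p ∈ A)
    (hpp : IsStarProjection p) (hzp' : z * p = p) {r : ℕ} (hr : 1 ≤ r)
    {P : Fin r → (H →L[ℂ] H)} (hP1 : ∀ i, P i ∈ A ∧ IsStarProjection (P i))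
    (hP2 : ∀ i j, i ≠ j → P i * P j = 0) (hP3 : ∑ i, P i = p) :
    ∃ P' : Fin r → (H →L[ℂ] H), (∀ i, P' i ∈ A ∧ IsStarProjection (P' i)) ∧
      (∀ i j, i ≠ j → P' i * P' j = 0) ∧ ∑ i, P' i = z ∧
      ∀ q : H →L[ℂ] H, p * q = q → q * p = q → ∀ i, q * P' i = q * P i ∧ P' i * q = P i * q := by
  have hpp2 : p * p = p := hpp.isIdempotentElem.eq
  have hpz : p * z = p := by rw [hA.2.1 p hpA z hz, hzp']
  have hpP : ∀ i, p * P i = P i := by
    intro i
    rw [← hP3, Finset.sum_mul, Finset.sum_eq_single i]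
    · exact (hP1 i).2.isIdempotentElem.eq
    · intro j _ hj
      exact hP2 j i hj
    · intro hi
      exact absurd (Finset.mem_univ i) hi
  have hPp : ∀ i, P i * p = P i := by
    intro i
    rw [hA.2.1 _ (hP1 i).1 p hpA, hpP]
  have hPz : ∀ i, P i * (z - p) = 0 := by
    intro i
    rw [← hPp i, mul_assoc, mul_sub, hpz, hpp2, sub_self, mul_zero]
  have hzP : ∀ i, (z - p) * P i = 0 := by
    intro i
    rw [← hpP i, ← mul_assoc, sub_mul, hzp', hpp2, sub_self, zero_mul]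
  have hzz : z * z = z := hzp.isIdempotentElem.eq
  obtain ⟨i₀, hi₀⟩ : ∃ i₀ : Fin r, (i₀ : ℕ) = 0 := ⟨⟨0, hr⟩, rfl⟩
  have hzmp : (z - p) * (z - p) = z - p := by
    rw [mul_sub, sub_mul, sub_mul, hzz, hpz, hzp', hpp2]
    abel
  refine ⟨fun i => P i + if i = i₀ then z - p else 0, fun i => ⟨?_, ?_⟩, fun i j hij => ?_, ?_,
    fun q hpq hqp' i => ⟨?_, ?_⟩⟩
  · refine add_mem (hP1 i).1 ?_
    split_ifs
    · exact sub_mem hz hpA
    · exact zero_mem A
  · change IsStarProjection (P i + if i = i₀ then z - p else 0)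
    split_ifs with hi
    · refine ⟨?_, (hP1 i).2.isSelfAdjoint.add (hzp.isSelfAdjoint.sub hpp.isSelfAdjoint)⟩
      change (P i + (z - p)) * (P i + (z - p)) = _
      rw [mul_add, add_mul, add_mul, (hP1 i).2.isIdempotentElem.eq, hPz, hzP, hzmp]
      abel
    · rw [add_zero]
      exact (hP1 i).2
  · change (P i + if i = i₀ then z - p else 0) * (P j + if j = i₀ then z - p else 0) = 0
    rw [mul_add, add_mul, add_mul, hP2 i j hij]
    split_ifs with h1 h2 h2
    · exact absurd (h1.trans h2.symm) hij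
    · simp [hzP]
    · simp [hPz]
    · simp
  · change ∑ i, (P i + if i = i₀ then z - p else 0) = z
    rw [Finset.sum_add_distrib, hP3, Finset.sum_ite_eq' Finset.univ i₀,
      if_pos (Finset.mem_univ _)]
    abel
  · change q * (P i + if i = i₀ then z - p else 0) = q * P i
    rw [mul_add]
    split_ifs
    · rw [← hqp', mul_assoc q p (z - p), mul_sub, hpz, hpp2, sub_self, mul_zero, add_zero]
    · rw [mul_zero, add_zero]
  · change (P i + if i = i₀ then z - p else 0) * q = P i * q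
    rw [add_mul]
    split_ifs
    · rw [← hpq, ← mul_assoc (z - p) p q, sub_mul, hzp', hpp2, sub_self, zero_mul, add_zero]
    · rw [zero_mul, add_zero]

/-- pinchings contract the seminorm of a central functional -/
theorem pinch_central_le (hA : SO.IsMASA A M) {ψ : (H →L[ℂ] H) →ₗ[ℂ] ℂ}
    (hψ : Vale.Agent.P078.CentralNormal M A.toStarSubalgebra ψ) (hpA : p ∈ A)
    (hpp : IsStarProjection p) {r : ℕ}
    {P : Fin r → (H →L[ℂ] H)} (hP1 : ∀ i, P i ∈ A ∧ IsStarProjection (P i))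
    (hP2 : ∀ i j, i ≠ j → P i * P j = 0) (hP3 : ∑ i, P i = p) {d : H →L[ℂ] H} (hd : d ∈ M) :
    (ψ (star (∑ i, P i * d * P i) * ∑ i, P i * d * P i)).re ≤ (ψ (star d * d)).re := by
  have hpos : PosOn M ψ := hψ.nonneg
  have hPM : ∀ i, P i ∈ M := fun i => hA.1 _ (hP1 i).1
  have hpM : p ∈ M := hA.1 _ hpA
  have hPP : ∀ i, P i * P i = P i := fun i => (hP1 i).2.isIdempotentElem.eq
  have hstar : ∀ i, star (P i) = P i := fun i => (hP1 i).2.isSelfAdjoint.star_eq
  have hdd : star d * d ∈ M := mul_mem (star_mem hd) hd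
  have hpp2 : p * p = p := hpp.isIdempotentElem.eq
  -- expand
  have e1 : star (∑ i, P i * d * P i) * ∑ i, P i * d * P i =
      ∑ i, P i * star d * P i * d * P i := by
    rw [star_sum, Finset.sum_mul]
    refine Finset.sum_congr rfl fun i _ => ?_
    rw [Finset.mul_sum, Finset.sum_eq_single i]
    · rw [star_mul, star_mul, hstar]
      calc P i * (star d * P i) * (P i * d * P i) = P i * star d * (P i * P i) * d * P i := by
            noncomm_ring
        _ = _ := by rw [hPP]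
    · intro j _ hj
      rw [star_mul, star_mul, hstar]
      calc P i * (star d * P i) * (P j * d * P j) = P i * star d * (P i * P j) * d * P j := by
            noncomm_ring
        _ = 0 := by rw [hP2 i j hj.symm]; simp only [mul_zero, zero_mul]
    · intro hi
      exact absurd (Finset.mem_univ i) hi
  rw [e1, map_sum, Complex.re_sum]
  have h1 : ∀ i, (ψ (P i * star d * P i * d * P i)).re ≤ (ψ (star d * d * P i)).re := by
    intro i
    have h2 : ψ (star d * d * P i) = ψ (P i * (star d * d) * P i) := by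
      rw [mul_assoc (P i), hψ.central _ (hP1 i).1 (hP1 i).2 _ (mul_mem hdd (hPM i)),
        mul_assoc, mul_assoc, mul_assoc, hPP]
    rw [h2]
    refine hpos.mono (mul_mem (mul_mem (mul_mem (mul_mem (hPM i) (star_mem hd)) (hPM i)) hd)
      (hPM i)) (mul_mem (mul_mem (hPM i) hdd) (hPM i)) ?_
    have h3 : P i * (star d * d) * P i - P i * star d * P i * d * P i =
        star (d * P i) * (1 - P i) * (d * P i) := by
      rw [star_mul, hstar]
      noncomm_ring
    rw [← sub_nonneg, h3]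
    exact star_left_conjugate_nonneg (hP1 i).2.one_sub.nonneg _
  refine (Finset.sum_le_sum fun i _ => h1 i).trans ?_
  rw [← Complex.re_sum, ← map_sum, ← Finset.mul_sum, hP3]
  have h4 : ψ (star d * d * p) = ψ (p * (star d * d) * p) := by
    rw [mul_assoc p, hψ.central _ hpA hpp _ (mul_mem hdd hpM), mul_assoc, mul_assoc, mul_assoc,
      hpp2]
  have h5 : ψ (star d * d) = ψ (star d * d * p) + ψ ((1 - p) * (star d * d) * (1 - p)) := by
    have h1p : (1 - p) ∈ A := sub_mem (one_mem A) hpA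
    have h1pM : (1 - p) ∈ M := sub_mem (one_mem M) hpM
    have e2 : ψ ((1 - p) * (star d * d) * (1 - p)) = ψ (star d * d * (1 - p)) := by
      rw [mul_assoc (1 - p), hψ.central _ h1p hpp.one_sub _ (mul_mem hdd h1pM),
        mul_assoc (star d * d), hpp.one_sub.isIdempotentElem.eq]
    rw [e2, ← map_add, ← mul_add, add_sub_cancel, mul_one]
  have h6 : 0 ≤ (ψ ((1 - p) * (star d * d) * (1 - p))).re := by
    have h1pM : (1 - p) ∈ M := sub_mem (one_mem M) hpM
    exact (hpos _ (mul_mem (mul_mem h1pM hdd) h1pM)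
      (conj_nonneg' hpp.one_sub (star_mul_self_nonneg d))).1
  rw [h5, Complex.add_re]
  linarith

/-- so-paving over a maximal abelian subalgebra approximated by semifinite algebras -/
theorem approx_sopavable (hA : SO.IsMASA A M) (hz : z ∈ A) (hzp : IsStarProjection z)
    {E : (H →L[ℂ] H) →ₗ[ℂ] (H →L[ℂ] H)} (hE : SO.IsNormalExpectation M A z E)
    (happ : ApproxSemi M A z) {ε : ℝ} (hε : 0 < ε) (hε1 : ε < 1) {R : ℕ}
    (hR : (70 * 16 : ℕ) / ε ^ 2 ≤ (R : ℝ)) {x : H →L[ℂ] H} (hx : x ∈ M)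
    (hxs : IsSelfAdjoint x) : SO.SOPavable M A z x ε R := by
  classical
  intro F hF δ hδ
  have hR1 : 1 ≤ R := by
    have h1 : (0 : ℝ) < R := lt_of_lt_of_le (by (clear * - hε; positivity)) hR
    exact_mod_cast h1
  have hA' := SO.IsMASA.toStar hA
  have hzM := hA.1 z hz
  have hzz : z * z = z := hzp.isIdempotentElem.eq
  by_cases hx0 : x = 0
  · -- trivial case
    obtain ⟨P', h1, h2, h3, -⟩ := extend_part hA hz hzp (p := 0) (zero_mem A)
      (IsStarProjection.zero _) (mul_zero z) hR1 (P := fun _ => 0)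
      (fun _ => ⟨zero_mem A, IsStarProjection.zero _⟩) (fun _ _ _ => mul_zero _) (by simp only [Finset.sum_const_zero])
    refine ⟨P', 0, z, h1, h2, h3, zero_mem A, mul_zero _, IsSelfAdjoint.zero _, by simp only [norm_zero, norm_nonneg], hzM,
      hzz, hzp, fun ξ hξ => ?_, ?_⟩
    · rw [hF ξ hξ, sub_self, norm_zero]
      exact hδ
    · rw [hx0]; simp only [mul_zero, zero_mul, Finset.sum_const_zero, sub_self, norm_zero, Std.le_refl]
  have hxn : 0 < ‖x‖ := norm_pos_iff.2 hx0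
  obtain ⟨c, hc⟩ : ∃ c : ℝ, c = ε / 2 * ‖x‖ := ⟨_, rfl⟩
  have hc0 : 0 < c := by rw [hc]; (clear * - hε hx0; positivity)
  obtain ⟨ψ, hψ, κ, hκ, hctrl⟩ := exists_control hA' hz hzp (SO.isNormalExpectation_iff.1 hE) F
    (δ := δ / 2) (by positivity)
  have hpos : PosOn M ψ := hψ.nonneg
  -- the approximant
  obtain ⟨d, ⟨N, hAN, hNM, hNs, y, hyN, hys, hyn, rfl⟩, hdψ⟩ := small_of_strong hψ.wcont
    (D := {d | ∃ N : VonNeumannAlgebra H, (∀ a ∈ A, a ∈ N) ∧ (∀ y ∈ N, y ∈ M) ∧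
      IsSemifinite N z ∧ ∃ y ∈ N, IsSelfAdjoint y ∧ ‖y‖ ≤ ‖x‖ ∧ d = x - y}) (C := 2 * ‖x‖)
    (by
      rintro d ⟨N, hAN, hNM, hNs, y, hyN, hys, hyn, rfl⟩
      refine ⟨sub_mem hx (hNM y hyN), (norm_sub_le _ _).trans (by linarith only [hyn])⟩)
    (by
      intro G δ' hδ'
      obtain ⟨N, hAN, hNM, hNs, y, hyN, hys, hyn, hG⟩ := happ x hx hxs G δ' hδ'
      exact ⟨x - y, ⟨N, hAN, hNM, hNs, y, hyN, hys, hyn, rfl⟩, hG⟩)
    (κ := κ * c ^ 2 / 4) (by (clear * - hκ hc0; positivity))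
  have hyM := hNM y hyN
  have hAN' : SO.IsMASA A N := ⟨hAN, hA.2.1, fun v hv h => hA.2.2 v (hNM v hv) h⟩
  have hEN : SO.IsNormalExpectation N A z E :=
    ⟨fun v hv => hE.mem v (hNM v hv), hE.idem, fun v hv => hE.nonneg v (hNM v hv),
      fun a ha b hb v hv => hE.bimod a ha b hb v (hNM v hv),
      fun D hD1 hD2 hD3 => hE.normal D hD1 hD2 fun v hv => ⟨hNM v (hD3 v hv).1, (hD3 v hv).2⟩⟩
  obtain ⟨ι, η, hη⟩ := hNs
  obtain ⟨p, hpA, hpp, hzp', hpF, hfin⟩ := exists_finite_approx hAN' hz hzp hEN hη F hF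
    (δ := δ / 2) (by positivity)
  obtain ⟨ξ, hξ⟩ := traceOn_of_wt hzp hη (hAN p hpA) hpp hzp' hfin
  have hpM := hA.1 p hpA
  have hpN := hAN p hpA
  have hpp2 : p * p = p := hpp.isIdempotentElem.eq
  have hpz : p * z = p := by rw [hA.2.1 p hpA z hz, hzp']
  have hyp : p * (p * y * p) * p = p * y * p := by
    calc p * (p * y * p) * p = (p * p) * y * (p * p) := by noncomm_ring
      _ = _ := by rw [hpp2]
  have hypN : p * y * p ∈ N := mul_mem (mul_mem hpN hyN) hpN
  have hyps : IsSelfAdjoint (p * y * p) := by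
    rw [IsSelfAdjoint, star_mul, star_mul, hys.star_eq, hpp.isSelfAdjoint.star_eq, mul_assoc]
  have hny : ‖p * y * p‖ ≤ ‖x‖ := by
    have h1 := hpp.norm_le
    calc ‖p * y * p‖ ≤ ‖p * y‖ * ‖p‖ := norm_mul_le _ _
      _ ≤ (‖p‖ * ‖y‖) * ‖p‖ := by gcongr; exact norm_mul_le _ _
      _ ≤ (1 * ‖x‖) * 1 := by (clear * - h1 hyn hx0; gcongr)
      _ = ‖x‖ := by ring
  -- paving of the approximant
  obtain ⟨t, ⟨P, hP1, hP2, hP3, a, haA, hpa, has, han, w, hwN, hwp, hwn, rfl⟩, htψ⟩ :=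
    small_of_strong hψ.wcont
    (D := {t | ∃ P : Fin R → (H →L[ℂ] H), (∀ i, P i ∈ A ∧ IsStarProjection (P i)) ∧
      (∀ i j, i ≠ j → P i * P j = 0) ∧ ∑ i, P i = p ∧
      ∃ a ∈ A, p * a = a ∧ IsSelfAdjoint a ∧ ‖a‖ ≤ ‖p * y * p‖ ∧
      ∃ w ∈ N, w * p = w ∧ ‖w‖ ≤ ε / 2 * ‖p * y * p‖ ∧
        t = ∑ i, P i * (p * y * p) * P i - a - w}) (C := (R + 2) * ‖x‖)
    (by
      rintro t ⟨P, hP1, hP2, hP3, a, haA, hpa, has, han, w, hwN, hwp, hwn, rfl⟩
      refine ⟨hNM _ (sub_mem (sub_mem (sum_mem fun i _ => mul_mem (mul_mem (hAN _ (hP1 i).1)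
        hypN) (hAN _ (hP1 i).1)) (hAN _ haA)) hwN), ?_⟩
      have h1 : ‖∑ i, P i * (p * y * p) * P i‖ ≤ R * ‖x‖ := by
        refine (norm_sum_le _ _).trans ?_
        calc ∑ i : Fin R, ‖P i * (p * y * p) * P i‖ ≤ ∑ _i : Fin R, ‖x‖ := by
              refine Finset.sum_le_sum fun i _ => ?_
              have h2 := (hP1 i).2.norm_le
              calc ‖P i * (p * y * p) * P i‖ ≤ ‖P i * (p * y * p)‖ * ‖P i‖ := norm_mul_le _ _
                _ ≤ (‖P i‖ * ‖p * y * p‖) * ‖P i‖ := by gcongr; exact norm_mul_le _ _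
                _ ≤ (1 * ‖x‖) * 1 := by (clear * - h2 hny hx0; gcongr)
                _ = ‖x‖ := by ring
          _ = R * ‖x‖ := by simp only [Finset.sum_const, Finset.card_univ, Fintype.card_fin, nsmul_eq_mul]
      have h2 : ‖w‖ ≤ ‖x‖ := by
        refine hwn.trans ?_
        calc ε / 2 * ‖p * y * p‖ ≤ 1 * ‖x‖ := by gcongr; linarith only [hε1]
          _ = ‖x‖ := one_mul _
      have h3 := norm_sub_le (∑ i, P i * (p * y * p) * P i - a) w
      have h4 := norm_sub_le (∑ i, P i * (p * y * p) * P i) a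
      have h5 : ‖a‖ ≤ ‖x‖ := han.trans hny
      calc _ ≤ R * ‖x‖ + ‖x‖ + ‖x‖ := by linarith only [hny, han, h1, h2, h3, h4]
        _ = _ := by ring)
    (by
      intro G δ' hδ'
      obtain ⟨P, hP1, hP2, hP3, a, haA, hpa, has, han, w, hwN, hwp, hwn, hG⟩ :=
        traceOn_vec hAN' hpA hpp hξ hε hε1 hR hypN hyps hyp G hδ'
      exact ⟨_, ⟨P, hP1, hP2, hP3, a, haA, hpa, has, han, w, hwN, hwp, hwn, rfl⟩, hG⟩)
    (κ := κ * c ^ 2 / 4) (by (clear * - hκ hc0; positivity))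
  obtain ⟨t, ht⟩ : ∃ t, t = ∑ i, P i * (p * y * p) * P i - a - w := ⟨_, rfl⟩
  rw [← ht] at htψ
  have hPM : ∀ i, P i ∈ M := fun i => hA.1 _ (hP1 i).1
  have haM := hA.1 a haA
  have hwM := hNM w hwN
  have htM : t ∈ M := by
    rw [ht]
    exact sub_mem (sub_mem (sum_mem fun i _ => mul_mem (mul_mem (hPM i)
      (hNM _ hypN)) (hPM i)) haM) hwM
  obtain ⟨s, hs⟩ : ∃ s, s = ∑ i, P i * (x - y) * P i := ⟨_, rfl⟩
  have hsM : s ∈ M := by
    rw [hs]
    exact sum_mem fun i _ => mul_mem (mul_mem (hPM i) (sub_mem hx hyM)) (hPM i)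
  have hsψ : (ψ (star s * s)).re < κ * c ^ 2 / 4 := by
    rw [hs]
    exact (pinch_central_le hA hψ hpA hpp hP1 hP2 hP3 (sub_mem hx hyM)).trans_lt hdψ
  have hpP : ∀ i, p * P i = P i := by
    intro i
    rw [← hP3, Finset.sum_mul, Finset.sum_eq_single i]
    · exact (hP1 i).2.isIdempotentElem.eq
    · intro j _ hj
      exact hP2 j i hj
    · intro hi
      exact absurd (Finset.mem_univ i) hi
  have hPp : ∀ i, P i * p = P i := by
    intro i
    rw [hA.2.1 _ (hP1 i).1 p hpA, hpP]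
  obtain ⟨z₀, hz₀⟩ : ∃ z₀, z₀ = t + s := ⟨_, rfl⟩
  have hz₀M : z₀ ∈ M := by rw [hz₀]; exact add_mem htM hsM
  have hsplit : ∑ i, P i * x * P i - a = w + z₀ := by
    have e1 : ∑ i, P i * x * P i = ∑ i, P i * (p * y * p) * P i + ∑ i, P i * (x - y) * P i := by
      rw [← Finset.sum_add_distrib]
      refine Finset.sum_congr rfl fun i _ => ?_
      have : P i * (p * y * p) * P i = (P i * p) * y * (p * P i) := by noncomm_ring
      rw [this, hPp, hpP]
      noncomm_ring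
    rw [hz₀, ht, hs, e1]
    abel
  have hz₀p : z₀ * p = z₀ := by
    have hap : a * p = a := by rw [hA.2.1 a haA p hpA, hpa]
    rw [hz₀, ht, hs, add_mul, sub_mul, sub_mul, Finset.sum_mul, Finset.sum_mul, hap, hwp]
    simp only [mul_assoc, hPp]
  have hTψ : (ψ (star z₀ * z₀)).re ≤ κ * c ^ 2 := by
    have e1 : star z₀ * z₀ + star (t - s) * (t - s) =
        (2 : ℂ) • (star t * t) + (2 : ℂ) • (star s * s) := by
      rw [hz₀, star_add, star_sub, two_smul, two_smul]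
      noncomm_ring
    have h1 := congrArg (fun v => (ψ v).re) e1
    simp only [map_add, map_smul, smul_eq_mul, Complex.add_re] at h1
    have h2 : ∀ u : ℂ, ((2 : ℂ) * u).re = 2 * u.re := by intro u; simp
    rw [h2, h2] at h1
    have h3 := (hpos _ (mul_mem (star_mem (sub_mem htM hsM)) (sub_mem htM hsM))
      (star_mul_self_nonneg (t - s))).1
    linarith only [h3, h1, hsψ, htψ]
  -- the spectral projection
  obtain ⟨g, hgM, hgp, hgle, hgc, hg1, hg2⟩ := exists_spec (mul_mem (star_mem hz₀M) hz₀M)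
    (star_mul_self_nonneg z₀) (c ^ 2)
  have hin : ∀ ζ : H, (inner ℂ ζ ((star z₀ * z₀) ζ)).re = ‖z₀ ζ‖ ^ 2 := by
    intro ζ
    have h1 : (star z₀ * z₀) ζ = star z₀ (z₀ ζ) := rfl
    rw [h1, ← inner_conj_symm, star_apply_inner, inner_conj_symm, inner_self_re]
  have hgψ : (ψ g).re ≤ κ := by
    have h1 := hpos.mono (M.toStarSubalgebra.smul_mem hgM _)
      (mul_mem (star_mem hz₀M) hz₀M) hgle
    rw [map_smul, smul_eq_mul, Complex.re_ofReal_mul] at h1
    have h2 : c ^ 2 * (ψ g).re ≤ c ^ 2 * κ := by linarith only [h1, hTψ]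
    exact le_of_mul_le_mul_left h2 (by positivity)
  have hz₀p' : z₀ * (1 - p) = 0 := by rw [mul_sub, mul_one, hz₀p, sub_self]
  have hgp0 : (1 - p) * g = 0 := by
    refine spec_mul_zero hgp (t := c ^ 2) (by positivity) hgc hg1 ?_ ?_
    · rw [mul_assoc, hz₀p', mul_zero]
    · have := congrArg star hz₀p'
      rw [star_mul, hpp.one_sub.isSelfAdjoint.star_eq, star_zero] at this
      rw [← mul_assoc, this, zero_mul]
  have hpg : p * g = g := by
    rw [sub_mul, one_mul, sub_eq_zero] at hgp0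
    exact hgp0.symm
  have hgp' : g * p = g := by
    have := congrArg star hpg
    rwa [star_mul, hpp.isSelfAdjoint.star_eq, hgp.isSelfAdjoint.star_eq] at this
  have hzg : z * g = g := by rw [← hpg, ← mul_assoc, hzp']
  have hgg : g * g = g := hgp.isIdempotentElem.eq
  have hgF := hctrl g hgM hgp hzg hgψ
  have hqp : IsStarProjection (p - g) := by
    refine ⟨?_, hpp.isSelfAdjoint.sub hgp.isSelfAdjoint⟩
    change (p - g) * (p - g) = p - g
    rw [mul_sub, sub_mul, sub_mul, hpp2, hgp', hpg, hgg]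
    abel
  have hpq : p * (p - g) = p - g := by rw [mul_sub, hpp2, hpg]
  have hqp' : (p - g) * p = p - g := by rw [sub_mul, hpp2, hgp']
  obtain ⟨P', h1, h2, h3, h4⟩ := extend_part hA hz hzp hpA hpp hzp' hR1 hP1 hP2 hP3
  refine ⟨P', a, p - g, h1, h2, h3, haA, ?_, has, han.trans hny, sub_mem hpM hgM, ?_, hqp,
    fun ξ hξ => ?_, ?_⟩
  · rw [← hpa, ← mul_assoc, hzp']
  · rw [mul_sub, hzp', hzg]
  · have e1 : ξ - (p - g) ξ = (ξ - p ξ) + g ξ := by
      rw [sub_apply]; abel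
    rw [e1]
    refine (norm_add_le _ _).trans_lt ?_
    have := hpF ξ hξ
    have := hgF ξ hξ
    (clear hz hzp E hE happ hε1 hR hxs hF hδ hR1 hA' hzM hzz hxn hκ hys hyn hAN' hEN ι η hη hfin hpM hpp2 hpz hyp hyps hny has han hwn hsplit hg2 hin hgp' hgg hqp hpq hqp' P' h1 h2 h3 h4 e1; linarith)
  · obtain ⟨q, hq⟩ : ∃ q, q = p - g := ⟨_, rfl⟩
    rw [← hq] at hpq hqp' hqp ⊢
    have e1 : q * (∑ i, P' i * x * P' i - a) * q = q * (∑ i, P i * x * P i - a) * q := by
      rw [mul_sub, mul_sub, sub_mul, sub_mul, Finset.mul_sum, Finset.mul_sum, Finset.sum_mul,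
        Finset.sum_mul]
      congr 1
      refine Finset.sum_congr rfl fun i _ => ?_
      obtain ⟨h5, h6⟩ := h4 q hpq hqp' i
      calc q * (P' i * x * P' i) * q = (q * P' i) * x * (P' i * q) := by noncomm_ring
        _ = (q * P i) * x * (P i * q) := by rw [h5, h6]
        _ = _ := by noncomm_ring
    have hqn : ‖q‖ ≤ 1 := hqp.norm_le
    have hz₀q : ‖z₀ * q‖ ≤ c := by
      refine ContinuousLinearMap.opNorm_le_bound _ hc0.le fun ζ => ?_
      have h5 : g (q ζ) = 0 := by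
        have : g * q = 0 := by rw [hq, mul_sub, hgp', hgg, sub_self]
        exact DFunLike.congr_fun this ζ
      have h6 := hg2 _ h5
      rw [hin] at h6
      have h7 : ‖q ζ‖ ≤ ‖ζ‖ := norm_proj_le hqp ζ
      have h8 : ‖z₀ (q ζ)‖ ^ 2 ≤ (c * ‖ζ‖) ^ 2 := by
        calc ‖z₀ (q ζ)‖ ^ 2 ≤ c ^ 2 * ‖q ζ‖ ^ 2 := h6
          _ ≤ c ^ 2 * ‖ζ‖ ^ 2 := by (clear * - h7 hc0; gcongr)
          _ = (c * ‖ζ‖) ^ 2 := by ring
      exact (sq_le_sq₀ (norm_nonneg _) (by (clear * - hc0; positivity))).1 h8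
    have e2 : q * (∑ i, P i * x * P i - a) * q = q * w * q + q * (z₀ * q) := by
      rw [hsplit]
      noncomm_ring
    rw [e1, e2]
    refine (norm_add_le _ _).trans ?_
    have h5 : ‖q * (z₀ * q)‖ ≤ c := by
      refine (norm_mul_le _ _).trans ?_
      calc ‖q‖ * ‖z₀ * q‖ ≤ 1 * c := by (clear * - hqn hz₀q; gcongr)
        _ = c := one_mul _
    have h6 : ‖q * w * q‖ ≤ ε / 2 * ‖x‖ := by
      refine (norm_mul_le _ _).trans ?_
      calc ‖q * w‖ * ‖q‖ ≤ (‖q‖ * ‖w‖) * ‖q‖ := by gcongr; exact norm_mul_le _ _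
        _ ≤ (1 * (ε / 2 * ‖x‖)) * 1 := by
          gcongr
          exact hwn.trans (mul_le_mul_of_nonneg_left hny (by positivity))
        _ = ε / 2 * ‖x‖ := by ring
    rw [hc] at h5
    linarith only [h5, h6]

end Vale.Agent.P078.L

/-! The paving bound for limits of semifinite intermediate algebras. -/

namespace Vale.Agent.P078.L

open Filter Topology
open Vale.Agent.P078 Vale.Agent.P078.C Vale.Agent.P078.G
open Vale.Agent.P078.SO (wt SemiTrace IsSemifinite IsSemifiniteLimit IsLargestExpected nPave)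
open scoped ENNReal

universe u

variable {H : Type u} [NormedAddCommGroup H] [InnerProductSpace ℂ H] [CompleteSpace H]
variable {M A : VonNeumannAlgebra H} {z : H →L[ℂ] H}

theorem cfc_mem {N : VonNeumannAlgebra H} {y : H →L[ℂ] H} (hy : y ∈ N) (f : ℝ → ℝ) :
    cfc f y ∈ N := by
  refine mem_of_commute fun S hS => ?_
  have h1 : Commute y S := (commutant_comm hy hS).symm
  exact (Commute.cfc_real h1 f).eq.symm

/-- a semifinite corner is a limit -/
theorem isSemifiniteLimit_of (hA : SO.IsMASA A M) (h : IsSemifinite M z) :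
    IsSemifiniteLimit M A z :=
  ⟨{M}, Set.singleton_nonempty M, fun _ h1 _ h2 => ⟨M, Set.mem_singleton M,
    fun y hy => by rw [Set.mem_singleton_iff.1 h1] at hy; exact hy,
    fun y hy => by rw [Set.mem_singleton_iff.1 h2] at hy; exact hy⟩,
    fun N hN => by
      rw [Set.mem_singleton_iff.1 hN]
      exact ⟨hA.1, fun y hy => hy, h⟩,
    fun T hT => hT M (Set.mem_singleton M)⟩

/-- approximation by elements of the intermediate algebras -/
theorem approxSemi_of_limit (h : IsSemifiniteLimit M A z) : ApproxSemi M A z := by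
  obtain ⟨𝒩, ⟨N₀, hN₀⟩, hdir, hN, hgen⟩ := h
  intro x hx hxs F δ hδ
  by_cases hx0 : x = 0
  · obtain ⟨h1, h2, h3⟩ := hN N₀ hN₀
    refine ⟨N₀, h1, h2, h3, 0, zero_mem _, IsSelfAdjoint.zero _, by simp only [norm_zero, norm_nonneg], fun ζ _ => ?_⟩
    rw [hx0, sub_zero, zero_apply, norm_zero]
    exact hδ
  have hxn : 0 < ‖x‖ := norm_pos_iff.2 hx0
  let 𝒜 : StarSubalgebra ℂ (H →L[ℂ] H) :=
    { carrier := {y | ∃ N ∈ 𝒩, y ∈ N}
      mul_mem' := by
        rintro a b ⟨N, hN, ha⟩ ⟨N', hN', hb⟩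
        obtain ⟨N'', hN'', h1, h2⟩ := hdir N hN N' hN'
        exact ⟨N'', hN'', mul_mem (h1 a ha) (h2 b hb)⟩
      one_mem' := ⟨N₀, hN₀, one_mem _⟩
      add_mem' := by
        rintro a b ⟨N, hN, ha⟩ ⟨N', hN', hb⟩
        obtain ⟨N'', hN'', h1, h2⟩ := hdir N hN N' hN'
        exact ⟨N'', hN'', add_mem (h1 a ha) (h2 b hb)⟩
      zero_mem' := ⟨N₀, hN₀, zero_mem _⟩
      algebraMap_mem' := fun c => ⟨N₀, hN₀, by
        rw [Algebra.algebraMap_eq_smul_one]
        exact N₀.toStarSubalgebra.smul_mem (one_mem _) c⟩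
      star_mem' := by
        rintro a ⟨N, hN, ha⟩
        exact ⟨N, hN, star_mem ha⟩ }
  have hmem : ∀ y, y ∈ 𝒜 ↔ ∃ N ∈ 𝒩, y ∈ N := fun y => Iff.rfl
  obtain ⟨x', hx'⟩ : ∃ x', x' = ((‖x‖⁻¹ : ℝ) : ℂ) • x := ⟨_, rfl⟩
  have hxx' : x = ((‖x‖ : ℝ) : ℂ) • x' := by
    rw [hx', smul_smul, ← Complex.ofReal_mul, mul_inv_cancel₀ hxn.ne', Complex.ofReal_one,
      one_smul]
  have hxs' : IsSelfAdjoint x' := by
    rw [hx', IsSelfAdjoint, star_smul, hxs.star_eq, Complex.star_def, Complex.conj_ofReal]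
  have hxn' : ‖x'‖ ≤ 1 := by
    rw [hx', norm_smul, Complex.norm_real, Real.norm_of_nonneg (by positivity),
      inv_mul_cancel₀ hxn.ne']
  obtain ⟨y, hyA, hys, hyn, hy⟩ := kaplansky 𝒜 (fun y hy _ => by
      obtain ⟨N, hN, hyN⟩ := (hmem y).1 hy
      exact (hmem _).2 ⟨N, hN, cfc_mem hyN fK⟩) hxs' (fun S hS => by
      have h1 := hgen S (fun N hN y hy => hS y ((hmem y).2 ⟨N, hN, hy⟩)) x hx
      rw [hx', mul_smul_comm, smul_mul_assoc, h1]) hxn' F (δ := δ / ‖x‖) (by positivity)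
  obtain ⟨N, hNN, hyN⟩ := (hmem y).1 hyA
  obtain ⟨h1, h2, h3⟩ := hN N hNN
  refine ⟨N, h1, h2, h3, ((‖x‖ : ℝ) : ℂ) • y, N.toStarSubalgebra.smul_mem hyN _, ?_, ?_,
    fun ζ hζ => ?_⟩
  · rw [IsSelfAdjoint, star_smul, hys.star_eq, Complex.star_def, Complex.conj_ofReal]
  · rw [norm_smul, Complex.norm_real, Real.norm_of_nonneg hxn.le]
    linarith only [mul_nonneg (le_of_lt (sub_pos.2 hxn)) (sub_nonneg.2 hyn)]
  · have h4 : x - ((‖x‖ : ℝ) : ℂ) • y = ((‖x‖ : ℝ) : ℂ) • (x' - y) := by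
      rw [smul_sub, ← hxx']
    rw [h4, smul_apply, norm_smul, Complex.norm_real, Real.norm_of_nonneg hxn.le]
    have := hy ζ hζ
    rw [lt_div_iff₀ hxn] at this
    linarith only [this]

theorem limit_paving (hA : SO.IsMASA A M) (hz : z ∈ A)
    (hzp : IsStarProjection z) {E : (H →L[ℂ] H) →ₗ[ℂ] (H →L[ℂ] H)}
    (hE : SO.IsNormalExpectation M A z E) (h : IsSemifiniteLimit M A z) {ε : ℝ} (hε : 0 < ε)
    (hε1 : ε < 1) :
    SO.pavingNumber M A z ε ≤ (⌈((70 * 16 : ℕ) : ℝ) / ε ^ 2⌉₊ : ℕ∞) := by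
  have h1 : 1 ≤ ⌈((70 * 16 : ℕ) : ℝ) / ε ^ 2⌉₊ := by
    rw [Nat.one_le_iff_ne_zero, ← Nat.pos_iff_ne_zero, Nat.ceil_pos]
    (clear * - hε; positivity)
  exact iInf₂_le (f := fun (r : ℕ) (_ : r ∈ {r : ℕ | 1 ≤ r ∧ ∀ x ∈ M, IsSelfAdjoint x →
    z * x * z = x → SO.SOPavable M A z x ε r}) => (r : ℕ∞)) _
    ⟨h1, fun x hx hxs _ => approx_sopavable hA hz hzp hE (approxSemi_of_limit h) hε hε1
      (Nat.le_ceil _) hx hxs⟩

/-- so-paving over a maximal abelian subalgebra whose expected part is a limit of semifinite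
algebras -/
theorem nPave_le (hA : SO.IsMASA A M) {z : H →L[ℂ] H} (hz : IsLargestExpected M A z)
    (h : IsSemifiniteLimit M A z) {ε : ℝ} (hε : 0 < ε) (hε1 : ε < 1) :
    nPave M A ε ≤ (⌈((70 * 16 + 2 : ℕ) : ℝ) / ε ^ 2⌉₊ : ℕ∞) := by
  obtain ⟨⟨hzA, hzp, E, hE⟩, hmax⟩ := hz
  -- the largest expected projection is unique
  obtain ⟨z', ⟨⟨hzA', hzp', E', hE'⟩, hmax'⟩, hr⟩ := (SO.growth hA).1
  have hzz : z' = z := le_antisymm (hmax z' hzA' hzp' ⟨E', hE'⟩) (hmax' z hzA hzp ⟨E, hE⟩)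
  subst hzz
  have h1 := (hr ε hε).1
  have h2 := limit_paving hA hzA hzp hE h hε hε1
  refine h1.trans ((add_le_add_left h2 _).trans ?_)
  rw [← Nat.cast_add, Nat.cast_le]
  have h3 : (⌊1 / ε⌋₊ : ℝ) ≤ 1 / ε := Nat.floor_le (by positivity)
  have h4 : 1 / ε + 1 ≤ 2 / ε ^ 2 := by
    have h5 : ε ^ 2 ≤ 1 := pow_le_one₀ hε.le hε1.le
    rw [le_div_iff₀ (by positivity), add_mul, one_div, one_mul]
    have h7 : ε⁻¹ * ε ^ 2 = ε := by field_simp
    rw [h7]
    linarith only [hε1, h5]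
  rw [← Nat.ceil_add_natCast (by positivity)]
  refine Nat.ceil_le_ceil ?_
  push_cast
  have e1 : (1122 : ℝ) / ε ^ 2 = 1120 / ε ^ 2 + 2 / ε ^ 2 := by ring
  rw [e1]
  linarith only [h4, h3]

/-- the optimal bound for limits of semifinite algebras, with the matching lower bound for
factors of type II₁ -/
theorem main3 {H : Type*} [NormedAddCommGroup H] [InnerProductSpace ℂ H] [CompleteSpace H]
    (M A : VonNeumannAlgebra H) (hA : SO.IsMASA A M) :
    (IsSemifinite M 1 → ∀ ε : ℝ, 0 < ε → ε < 1 →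
      SO.pavingNumber M A 1 ε ≤ (⌈1122 / ε ^ 2⌉₊ : ℕ∞)) ∧
    (∃ z, SO.IsExpectedPart M A z ∧ (IsSemifiniteLimit M A z →
      ∀ ε : ℝ, 0 < ε → ε < 1 → SO.pavingNumber M A 1 ε ≤ (⌈1122 / ε ^ 2⌉₊ : ℕ∞))) ∧
    (SO.IsTypeII1Factor M → ∀ ε : ℝ, 0 < ε →
      (⌈1 / ε ^ 2⌉₊ : ℕ∞) ≤ SO.pavingNumber M A 1 ε) := by
  refine ⟨(Y.main2 M A hA).1, ?_, (SO.growth hA).2.2⟩
  obtain ⟨z, hz, -⟩ := (SO.growth hA).1
  refine ⟨z, hz, fun h ε hε hε1 => ?_⟩
  have := nPave_le hA hz h hε hε1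
  norm_num at this ⊢
  exact this

end Vale.Agent.P078.L

end
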