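import Vale.Agent.P078.Bdl.T2
import Vale.Agent.P078.Bdl.T3

set_option linter.all false

section
/-! T3-F5: locality and rotation invariance of the conditions; choice of a colour. -/

namespace Vale.Agent.P078.T

open Finset Polynomial
open Vale.Agent.P078.C (Herm ZD FB qf yc Q)

variable {α : Type*} [DecidableEq α] {r : ℕ}
variable {P : Par} {E : Env α} {S S' : α → St r} {z b Λ' : ℝ} {o x : α}

/-- rotation of the colours -/
def rot [NeZero r] (a : Fin r) (o : St r) : St r := o.map fun c => c.map fun b => b + a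

theorem rot_rot [NeZero r] (a b : Fin r) (o : St r) : rot b (rot a o) = rot (a + b) o := by
  rcases o with _ | _ | x
  · rfl
  · rfl
  · simp only [rot, Option.map_some, add_assoc]

theorem rot_zero [NeZero r] (o : St r) : rot 0 o = o := by
  rcases o with _ | _ | x
  · rfl
  · rfl
  · simp only [rot, Option.map_some, add_zero]

private theorem win_congr (h : ∀ v ∈ E.ball P.N x, S v = S' v) : win P E S x = win P E S' x := by
  unfold win
  exact Finset.filter_congr fun v hv => by rw [h v hv]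

private theorem lv_congr {v : α} (h : S v = S' v) : lv P E z S x v = lv P E z S' x v := by
  unfold lv
  rw [h]

omit [DecidableEq α] in
private theorem cs_congr {v : α} (h : S v = S' v) : cs S v = cs S' v := by
  unfold cs
  rw [h]

private theorem mem_ball_of_win {v : α} (h : v ∈ win P E S x) : v ∈ E.ball P.N x :=
  (mem_filter.1 h).1

theorem sw_congr (hrad : 2 * P.N ≤ E.rad) (h : ∀ v ∈ E.ball P.N o, S v = S' v) (a : Fin r) :
    sw P E z S o o b a = sw P E z S' o o b a := by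
  unfold sw
  rw [win_congr h]
  refine sg_congr (fun i hi => ?_) (fun i hi => ?_) (notMem_erase _ _)
  · by_cases hio : i = o
    · subst hio
      rw [Function.update_self, Function.update_self]
    · rw [Function.update_of_ne hio, Function.update_of_ne hio]
      have hi' := mem_of_mem_erase ((mem_insert.1 hi).resolve_left hio)
      exact cs_congr (h i (mem_ball_of_win hi'))
  · rw [lv_congr (h i (mem_ball_of_win (mem_of_mem_erase hi)))]

theorem alive_congr (hrad : 2 * P.N ≤ E.rad) (h : ∀ v ∈ E.ball P.N x, S v = S' v) :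
    Alive P E z S b x ↔ Alive P E z S' b x := by
  unfold Alive
  rw [win_congr h]
  have hb : ∀ i ∈ win P E S' x, S i = S' i := fun i hi => h i (mem_ball_of_win hi)
  constructor
  · intro H
    exact H.congr (fun i hi => cs_congr (hb i hi)) fun i hi => by
      rw [lv_congr (hb i hi)]
  · intro H
    exact H.congr (fun i hi => cs_congr (hb i hi).symm) fun i hi => by
      rw [lv_congr (hb i hi)]

theorem keep_congr (hrad : 2 * P.N ≤ E.rad) (h : ∀ v ∈ E.ball (2 * P.N) o, S v = S' v) :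
    Keep P E b Λ' z S o ↔ Keep P E b Λ' z S' o := by
  have hN : P.N ≤ E.rad := by omega
  have h1 : ∀ x ∈ E.ball P.N o, ∀ v ∈ E.ball P.N x, S v = S' v := by
    intro x hx v hv
    rw [E.mem_ball _ hN] at hx hv
    refine h v ((E.mem_ball _ hrad _ _).2 ?_)
    have := E.d_tri o x v
    omega
  have h2 : o ∈ E.ball P.N o := (E.mem_ball _ hN _ _).2 (by rw [E.d_self]; (clear * -; omega))
  unfold Keep
  refine and_congr (forall₂_congr fun x hx => alive_congr hrad (h1 x hx)) ?_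
  refine forall_congr' fun a => forall₂_congr fun θ _ => ?_
  rw [sw_congr hrad (h1 o h2), sw_congr hrad (h1 o h2)]

private theorem q_rot [NeZero r] {y : α → α → ℂ} (s : α → Option (Fin r)) (l : α → ℝ)
    (W : Finset α) (c : Fin r) : q y (fun v => (s v).map fun b => b + c) l W = q y s l W := by
  unfold q Q
  congr 2
  refine (Fintype.sum_equiv (Equiv.piCongrRight fun _ => Equiv.addRight c) _ _ fun d => ?_).symm
  congr 1
  ext i j
  have h1 : ∀ i : W, ((s i).map fun b => b + c).getD (d i + c) = (s i).getD (d i) + c := by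
    intro i
    rcases s i with _ | b <;> rfl
  simp only [Matrix.of_apply, Equiv.piCongrRight_apply, Equiv.coe_addRight, Pi.map_apply, h1, add_left_inj]

private theorem sg_rot [NeZero r] {y : α → α → ℂ} (s : α → Option (Fin r)) (l : α → ℝ)
    (W : Finset α) (c : Fin r) :
    sg y (fun v => (s v).map fun b => b + c) o l W = sg y s o l W := by
  unfold sg
  rw [q_rot, q_rot]

private theorem rot_eq_none [NeZero r] (c : Fin r) (o : St r) : rot c o = none ↔ o = none := by
  rcases o with _ | o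
  · exact Iff.rfl
  · simp only [rot, Option.map_some, reduceCtorEq]

private theorem rot_eq_del [NeZero r] (c : Fin r) (o : St r) :
    rot c o = some none ↔ o = some none := by
  rcases o with _ | _ | o
  · exact Iff.rfl
  · exact Iff.rfl
  · simp [rot]

private theorem cs_rot [NeZero r] (c : Fin r) (v : α) :
    cs (fun v => rot c (S v)) v = (cs S v).map fun b => b + c := by
  change (rot c (S v)).join = (S v).join.map fun b => b + c
  rcases S v with _ | _ | o <;> rfl

private theorem win_rot [NeZero r] (c : Fin r) :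
    win P E (fun v => rot c (S v)) x = win P E S x := by
  unfold win
  exact Finset.filter_congr fun v _ => not_congr (rot_eq_del c (S v))

private theorem lv_rot [NeZero r] (c : Fin r) (v : α) :
    lv P E z (fun v => rot c (S v)) x v = lv P E z S x v := by
  unfold lv
  simp only [rot_eq_none]

theorem sw_rot [NeZero r] (c a : Fin r) :
    sw P E z (fun v => rot c (S v)) o o b (a + c) = sw P E z S o o b a := by
  unfold sw
  rw [win_rot, ← sg_rot (Function.update (cs S) o (some a)) _ _ c]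
  congr 1
  · funext v
    by_cases h : v = o
    · subst h
      rw [Function.update_self, Function.update_self]
      rfl
    · rw [Function.update_of_ne h, Function.update_of_ne h, cs_rot]
  · funext v
    rw [lv_rot]

private theorem alive_rot [NeZero r] (c : Fin r) :
    Alive P E z (fun v => rot c (S v)) b x ↔ Alive P E z S b x := by
  unfold Alive
  rw [win_rot]
  have h1 : cs (fun v => rot c (S v)) = fun v => (cs S v).map fun b => b + c :=
    funext fun v => cs_rot c v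
  have h2 : (fun v => lv P E z (fun v => rot c (S v)) x v - b) =
      fun v => lv P E z S x v - b := funext fun v => by rw [lv_rot]
  rw [h1, h2]
  unfold Safe
  refine forall₂_congr fun U _ => ?_
  rw [q_rot]

theorem keep_rot [NeZero r] (c : Fin r) :
    Keep P E b Λ' z (fun v => rot c (S v)) o ↔ Keep P E b Λ' z S o := by
  unfold Keep
  refine and_congr (forall₂_congr fun x _ => alive_rot c) ?_
  rw [← (Equiv.addRight c).forall_congr_right]
  refine forall_congr' fun a => forall₂_congr fun θ _ => ?_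
  rw [Equiv.coe_addRight, sw_rot, sw_rot]

open Classical in
/-- the first element of `O` in the order given by the permutation `π` -/
noncomputable def pk [NeZero r] (π : Equiv.Perm (Fin r)) (O : Finset (Fin r)) : Fin r :=
  if h : (Finset.univ.filter fun k => π k ∈ O).Nonempty then
    π ((Finset.univ.filter fun k => π k ∈ O).min' h) else 0

theorem pk_mem [NeZero r] (π : Equiv.Perm (Fin r)) {O : Finset (Fin r)} (hO : O.Nonempty) :
    pk π O ∈ O := by
  obtain ⟨a, ha⟩ := hO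
  have h : (Finset.univ.filter fun k => π k ∈ O).Nonempty :=
    ⟨π.symm a, mem_filter.2 ⟨mem_univ _, by rwa [Equiv.apply_symm_apply]⟩⟩
  unfold pk
  rw [dif_pos h]
  exact (mem_filter.1 (min'_mem _ h)).2

private theorem pk_trans [NeZero r] (π σ : Equiv.Perm (Fin r)) {O : Finset (Fin r)}
    (hO : O.Nonempty) (hσ : ∀ x, σ x ∈ O ↔ x ∈ O) : pk (π.trans σ) O = σ (pk π O) := by
  obtain ⟨a, ha⟩ := hO
  have h : (Finset.univ.filter fun k => π k ∈ O).Nonempty :=
    ⟨π.symm a, mem_filter.2 ⟨mem_univ _, by rwa [Equiv.apply_symm_apply]⟩⟩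
  have e : (Finset.univ.filter fun k => (π.trans σ) k ∈ O) =
      Finset.univ.filter fun k => π k ∈ O :=
    Finset.filter_congr fun k _ => hσ (π k)
  unfold pk
  rw [dif_pos h]
  simp only [e]
  rw [dif_pos h]
  rfl

theorem pk_unif [NeZero r] {O : Finset (Fin r)} {a b : Fin r} (ha : a ∈ O) (hb : b ∈ O) :
    (Finset.univ.filter fun π => pk π O = a).card =
      (Finset.univ.filter fun π => pk π O = b).card := by
  have hσ : ∀ x, Equiv.swap a b x ∈ O ↔ x ∈ O := by
    intro x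
    by_cases hxa : x = a
    · rw [hxa, Equiv.swap_apply_left]
      exact iff_of_true hb ha
    · by_cases hxb : x = b
      · rw [hxb, Equiv.swap_apply_right]
        exact iff_of_true ha hb
      · rw [Equiv.swap_apply_of_ne_of_ne hxa hxb]
  have hpk : ∀ π : Equiv.Perm (Fin r), pk (π.trans (Equiv.swap a b)) O =
      Equiv.swap a b (pk π O) := fun π => pk_trans π _ ⟨a, ha⟩ hσ
  have hinv : ∀ π : Equiv.Perm (Fin r),
      (π.trans (Equiv.swap a b)).trans (Equiv.swap a b) = π := by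
    intro π
    ext k
    simp
  refine Finset.card_bij' (fun π _ => π.trans (Equiv.swap a b))
    (fun π _ => π.trans (Equiv.swap a b)) ?_ ?_ ?_ ?_
  · intro π hπ
    rw [mem_filter] at hπ ⊢
    exact ⟨mem_univ _, by rw [hpk, hπ.2, Equiv.swap_apply_left]⟩
  · intro π hπ
    rw [mem_filter] at hπ ⊢
    exact ⟨mem_univ _, by rw [hpk, hπ.2, Equiv.swap_apply_right]⟩
  · intro π _
    exact hinv π
  · intro π _
    exact hinv π

end Vale.Agent.P078.T
end

section
/-! T3-F6: the local equivariant rule (cf. D/LRule.lean). -/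

namespace Vale.Agent.P078.T

open Finset Polynomial
open scoped Pointwise Classical Topology
open Vale.Agent.P078.C (Herm ZD FB qf yc Q)

variable {X G : Type*} [TopologicalSpace X] [Group G] [MulAction G X] {r m : ℕ} [NeZero r]
variable (𝔖 : Sys3 X G) (n : ℕ) (cls : X → Fin m) (τ : Fin m → ℕ)
  (ρ : Fin m → Equiv.Perm (Fin r)) (K : ℕ → (G → St r) → Set X)
  (A : ℕ → (G → St r) → Fin r → Set X)

/-- the normalized pattern (of radius `2 n`) of the state `S` around `x` -/
noncomputable def nrmPat (u : Fin r) (S : X → St r) (x : X) : G → St r := fun h =>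
  if h ∈ 𝔖.ballG (2 * n) then rot (-u) (S (h • x)) else none

/-- the rule attached to the clopen sets `K`, `A` and to the source `U` -/
noncomputable def ruleU (U : X → Fin r) : Rule X r where
  keep := fun t S x => x ∈ K t (nrmPat 𝔖 n (U x) S x)
  allow := fun t S x => Finset.univ.filter fun a => x ∈ A t (nrmPat 𝔖 n (U x) S x) (a - U x)
  pick := fun x π O => pk π (Finset.univ.filter fun a => a + U x ∈ O) + U x

/-- the state of `x` before step `t` if the source at `g • x` is `σ g` -/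
noncomputable def psi : ℕ → X → (G → Fin r) → St r
  | 0 => fun _ _ => none
  | t + 1 => fun x σ =>
    let pat : G → St r := fun h =>
      if h ∈ 𝔖.ballG (2 * n) then rot (-σ 1) (psi t (h • x) fun g => σ (g * h)) else none
    if psi t x σ = none ∧ τ (cls x) = t then
      if (∃ w ∈ 𝔖.ball (2 * n) x, w ≠ x ∧ τ (cls w) = t) ∨ x ∉ K t pat then some none
      else some (some (pk (ρ (cls x)) (Finset.univ.filter fun a => x ∈ A t pat a) + σ 1))
    else psi t x σ

variable {𝔖 n cls τ ρ K A}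

/-- the normalized pattern -/
private noncomputable def pat' (𝔖 : Sys3 X G) (n : ℕ) (cls : X → Fin m) (τ : Fin m → ℕ)
    (ρ : Fin m → Equiv.Perm (Fin r)) (K : ℕ → (G → St r) → Set X)
    (A : ℕ → (G → St r) → Fin r → Set X) (t : ℕ) (x : X) (σ : G → Fin r) : G → St r := fun h =>
  if h ∈ 𝔖.ballG (2 * n) then
    rot (-σ 1) (psi 𝔖 n cls τ ρ K A t (h • x) fun g => σ (g * h)) else none

private theorem psi_succ (t : ℕ) (x : X) (σ : G → Fin r) :
    psi 𝔖 n cls τ ρ K A (t + 1) x σ =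
      if psi 𝔖 n cls τ ρ K A t x σ = none ∧ τ (cls x) = t then
        if (∃ w ∈ 𝔖.ball (2 * n) x, w ≠ x ∧ τ (cls w) = t) ∨
          x ∉ K t (pat' 𝔖 n cls τ ρ K A t x σ) then some none
        else some (some (pk (ρ (cls x)) (Finset.univ.filter fun a =>
          x ∈ A t (pat' 𝔖 n cls τ ρ K A t x σ) a) + σ 1))
      else psi 𝔖 n cls τ ρ K A t x σ := rfl

private theorem rot_none_iff (a : Fin r) (o : St r) : rot a o = none ↔ o = none := by
  cases o <;> simp [rot]

theorem psi_lc (hcls : IsLocallyConstant cls) (hK : ∀ t π, IsClopen (K t π))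
    (hA : ∀ t π a, IsClopen (A t π a)) (t : ℕ) (σ : G → Fin r) :
    IsLocallyConstant fun x => psi 𝔖 n cls τ ρ K A t x σ := by
  induction t generalizing σ with
  | zero => exact IsLocallyConstant.const _
  | succ t ih =>
    rw [IsLocallyConstant.iff_eventually_eq]
    intro x0
    have h1 : ∀ᶠ x in 𝓝 x0, ∀ h ∈ 𝔖.ballG (2 * n),
        psi 𝔖 n cls τ ρ K A t (h • x) (fun g => σ (g * h)) =
          psi 𝔖 n cls τ ρ K A t (h • x0) fun g => σ (g * h) :=
      (Filter.eventually_all_finset _).2 fun h _ =>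
        (𝔖.nice_locConst (ih fun g => σ (g * h)) h).eventually_eq x0
    have h2 : ∀ᶠ x in 𝓝 x0, ∀ h ∈ 𝔖.ballG (2 * n),
        cls (h • x) = cls (h • x0) ∧ (h • x = x ↔ h • x0 = x0) :=
      (Filter.eventually_all_finset _).2 fun h _ => by
        filter_upwards [(𝔖.nice_locConst hcls h).eventually_eq x0, 𝔖.nice_ev_eq h 1 x0]
          with x hx hx2
        rw [one_smul, one_smul] at hx2
        exact ⟨hx, hx2⟩
    have h3 : ∀ᶠ x in 𝓝 x0, ∀ a : Fin r,
        (x ∈ A t (pat' 𝔖 n cls τ ρ K A t x0 σ) a ↔ x0 ∈ A t (pat' 𝔖 n cls τ ρ K A t x0 σ) a) :=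
      Filter.eventually_all.2 fun a => Sys3.nice_ev_clopen (hA t _ a) x0
    filter_upwards [h1, h2, h3, hcls.eventually_eq x0, (ih σ).eventually_eq x0,
      Sys3.nice_ev_clopen (hK t (pat' 𝔖 n cls τ ρ K A t x0 σ)) x0] with x hx1 hx2 hx3 hx4 hx5 hx6
    have hp : pat' 𝔖 n cls τ ρ K A t x σ = pat' 𝔖 n cls τ ρ K A t x0 σ := by
      funext h
      unfold pat'
      by_cases hh : h ∈ 𝔖.ballG (2 * n)
      · rw [if_pos hh, if_pos hh, hx1 h hh]
      · rw [if_neg hh, if_neg hh]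
    have hex : (∃ w ∈ 𝔖.ball (2 * n) x, w ≠ x ∧ τ (cls w) = t) ↔
        ∃ w ∈ 𝔖.ball (2 * n) x0, w ≠ x0 ∧ τ (cls w) = t := by
      constructor
      · rintro ⟨w, hw, hw1, hw2⟩
        obtain ⟨h, hh, rfl⟩ := Sys3.mem_ball.1 hw
        refine ⟨h • x0, Sys3.mem_ball.2 ⟨h, hh, rfl⟩, fun h' => hw1 ((hx2 h hh).2.2 h'), ?_⟩
        rw [← (hx2 h hh).1]
        exact hw2
      · rintro ⟨w, hw, hw1, hw2⟩
        obtain ⟨h, hh, rfl⟩ := Sys3.mem_ball.1 hw
        refine ⟨h • x, Sys3.mem_ball.2 ⟨h, hh, rfl⟩, fun h' => hw1 ((hx2 h hh).2.1 h'), ?_⟩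
        rw [(hx2 h hh).1]
        exact hw2
    have hf : (Finset.univ.filter fun a => x ∈ A t (pat' 𝔖 n cls τ ρ K A t x0 σ) a) =
        Finset.univ.filter fun a => x0 ∈ A t (pat' 𝔖 n cls τ ρ K A t x0 σ) a :=
      Finset.filter_congr fun a _ => hx3 a
    rw [psi_succ, psi_succ, hp, hx4, hx5, hf]
    simp only [hex, hx6]
    congr!

theorem psi_loc (t : ℕ) (x : X) (σ σ' : G → Fin r)
    (h : ∀ g ∈ 𝔖.ballG (t * (2 * n)), σ g = σ' g) :
    psi 𝔖 n cls τ ρ K A t x σ = psi 𝔖 n cls τ ρ K A t x σ' := by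
  induction t generalizing x σ σ' with
  | zero => rfl
  | succ t ih =>
    have h1 : σ 1 = σ' 1 := h 1 (𝔖.one_mem_ballG _)
    have h2 : pat' 𝔖 n cls τ ρ K A t x σ = pat' 𝔖 n cls τ ρ K A t x σ' := by
      funext l
      unfold pat'
      by_cases hl : l ∈ 𝔖.ballG (2 * n)
      · rw [if_pos hl, if_pos hl, h1]
        congr 1
        refine ih _ _ _ fun g hg => h _ ?_
        unfold Sys3.ballG at hg hl ⊢
        rw [add_mul, one_mul, pow_add]
        exact Finset.mul_mem_mul hg hl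
      · rw [if_neg hl, if_neg hl]
    have h3 : psi 𝔖 n cls τ ρ K A t x σ = psi 𝔖 n cls τ ρ K A t x σ' := by
      refine ih _ _ _ fun g hg => h _ (Sys3.ballG_mono ?_ hg)
      rw [add_mul, one_mul]
      omega
    rw [psi_succ, psi_succ, h1, h2, h3]

theorem psi_rot (t : ℕ) (x : X) (σ : G → Fin r) (a : Fin r) :
    psi 𝔖 n cls τ ρ K A t x (fun g => σ g + a) = rot a (psi 𝔖 n cls τ ρ K A t x σ) := by
  induction t generalizing x σ with
  | zero => rfl
  | succ t ih =>
    have h2 : pat' 𝔖 n cls τ ρ K A t x (fun g => σ g + a) = pat' 𝔖 n cls τ ρ K A t x σ := by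
      funext l
      unfold pat'
      by_cases hl : l ∈ 𝔖.ballG (2 * n)
      · rw [if_pos hl, if_pos hl, ih (l • x) (fun g => σ (g * l)), rot_rot]
        congr 1
        rw [neg_add_rev, add_neg_cancel_left]
      · rw [if_neg hl, if_neg hl]
    rw [psi_succ, psi_succ, h2, ih x σ]
    simp only [rot_none_iff]
    by_cases h3 : psi 𝔖 n cls τ ρ K A t x σ = none ∧ τ (cls x) = t
    · rw [if_pos h3, if_pos h3]
      by_cases h4 : (∃ w ∈ 𝔖.ball (2 * n) x, w ≠ x ∧ τ (cls w) = t) ∨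
          x ∉ K t (pat' 𝔖 n cls τ ρ K A t x σ)
      · rw [if_pos h4, if_pos h4]
        rfl
      · rw [if_neg h4, if_neg h4]
        simp [rot, add_assoc]
    · rw [if_neg h3, if_neg h3]

/-- it is the process of the rule `ruleU` -/
theorem psi_eq_run (h : FB 1 1 𝔖.y) {cap : ℕ} {P : Par} (hn : n = P.N) (U : X → Fin r) (t : ℕ)
    (x : X) :
    psi 𝔖 n cls τ ρ K A t x (fun g => U (g • x)) =
      run P (𝔖.toEnv h cap) (ruleU 𝔖 n K A U) cls τ ρ t x := by
  induction t generalizing x with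
  | zero => rfl
  | succ t ih =>
    have hp : pat' 𝔖 n cls τ ρ K A t x (fun g => U (g • x)) =
        nrmPat 𝔖 n (U x) (run P (𝔖.toEnv h cap) (ruleU 𝔖 n K A U) cls τ ρ t) x := by
      funext l
      unfold pat' nrmPat
      by_cases hl : l ∈ 𝔖.ballG (2 * n)
      · rw [if_pos hl, if_pos hl, ← ih (l • x)]
        show rot (-U ((1 : G) • x)) (psi 𝔖 n cls τ ρ K A t (l • x) fun g => U ((g * l) • x)) = _
        rw [one_smul]
        simp only [mul_smul]
      · rw [if_neg hl, if_neg hl]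
    rw [psi_succ, hp, ih x]
    simp only [one_smul]
    show _ = step P (𝔖.toEnv h cap) (ruleU 𝔖 n K A U) cls τ ρ t
      (run P (𝔖.toEnv h cap) (ruleU 𝔖 n K A U) cls τ ρ t) x
    unfold step
    have e1 : (ruleU 𝔖 n K A U).pick x (ρ (cls x)) ((ruleU 𝔖 n K A U).allow t
        (run P (𝔖.toEnv h cap) (ruleU 𝔖 n K A U) cls τ ρ t) x) =
        pk (ρ (cls x)) (Finset.univ.filter fun a => x ∈ A t
          (nrmPat 𝔖 n (U x) (run P (𝔖.toEnv h cap) (ruleU 𝔖 n K A U) cls τ ρ t) x) a) + U x := by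
      show pk (ρ (cls x)) (Finset.univ.filter fun a => a + U x ∈
        Finset.univ.filter fun a => x ∈ A t (nrmPat 𝔖 n (U x)
          (run P (𝔖.toEnv h cap) (ruleU 𝔖 n K A U) cls τ ρ t) x) (a - U x)) + U x = _
      congr 2
      ext a
      simp only [Finset.mem_filter, Finset.mem_univ, true_and, add_sub_cancel_right]
    have e2 : ∀ S : X → St r, (ruleU 𝔖 n K A U).keep t S x =
        (x ∈ K t (nrmPat 𝔖 n (U x) S x)) := fun _ => rfl
    rw [e1]
    simp only [e2]
    rw [hn]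
    congr!

end Vale.Agent.P078.T
end

section
/-! T3-F6: validity of the local equivariant rule. -/

namespace Vale.Agent.P078.T

open Finset Polynomial
open scoped Pointwise Classical Topology
open Vale.Agent.P078.C (Herm ZD FB qf yc Q)

variable {X G : Type*} [TopologicalSpace X] [Group G] [MulAction G X] {r m : ℕ} [NeZero r]
variable {𝔖 : Sys3 X G} {n : ℕ} {K : ℕ → (G → St r) → Set X}
  {A : ℕ → (G → St r) → Fin r → Set X}

private theorem valid_ext (c : Fin r) (S : X → St r) (x v : X) (hv : v ∈ 𝔖.ball (2 * n) x) :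
    ext 𝔖 (2 * n) (nrmPat 𝔖 n c S x) x v = rot (-c) (S v) :=
  ext_of_mem 𝔖 (S := fun v => rot (-c) (S v)) (fun g hg => by
    unfold nrmPat
    rw [if_pos hg]) hv

private theorem valid_keep (E : Env X) {P : Par} (hrad : 2 * P.N ≤ E.rad)
    (hb : E.ball = 𝔖.ball) (b Λ' z : ℝ) (c : Fin r) (S : X → St r) (x : X) :
    Keep P E b Λ' z (ext 𝔖 (2 * P.N) (nrmPat 𝔖 P.N c S x) x) x ↔ Keep P E b Λ' z S x := by
  rw [keep_congr (S' := fun v => rot (-c) (S v)) hrad, keep_rot]
  intro v hv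
  rw [hb] at hv
  exact valid_ext c S x v hv

private theorem valid_sw (E : Env X) {P : Par} (hrad : 2 * P.N ≤ E.rad)
    (hb : E.ball = 𝔖.ball) (b z : ℝ) (c : Fin r) (S : X → St r) (x : X) (a : Fin r) :
    sw P E z (ext 𝔖 (2 * P.N) (nrmPat 𝔖 P.N c S x) x) x x b (a - c) = sw P E z S x x b a := by
  rw [sw_congr (S' := fun v => rot (-c) (S v)) hrad, sub_eq_add_neg, sw_rot]
  intro v hv
  rw [hb] at hv
  exact valid_ext c S x v (Sys3.ball_mono (by omega) x hv)

/-- validity of the rule -/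
theorem ruleU_valid (h : FB 1 1 𝔖.y) {cap : ℕ} {P : Par} (hcap : 2 * P.N ≤ cap) (hn : n = P.N)
    (hKA : ∀ t < P.T, ∀ π : G → St r, ∀ x,
      (x ∈ K t π → Keep P (𝔖.toEnv h cap) (4 * P.κ) P.Λ (P.zt t) (ext 𝔖 (2 * P.N) π x) x ∧
          Keep P (𝔖.toEnv h cap).neg (4 * P.κ) P.Λ (P.zt t) (ext 𝔖 (2 * P.N) π x) x) ∧
        (Keep P (𝔖.toEnv h cap) (5 * P.κ) (P.Λ / 2) (P.zt t) (ext 𝔖 (2 * P.N) π x) x →
          Keep P (𝔖.toEnv h cap).neg (5 * P.κ) (P.Λ / 2) (P.zt t) (ext 𝔖 (2 * P.N) π x) x →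
            x ∈ K t π) ∧
        ∀ a, (x ∈ K t π → x ∈ A t π a →
            sw P (𝔖.toEnv h cap) (P.zt t) (ext 𝔖 (2 * P.N) π x) x x 0 a ≤ 6 * P.zt t ∧
            sw P (𝔖.toEnv h cap).neg (P.zt t) (ext 𝔖 (2 * P.N) π x) x x 0 a ≤ 6 * P.zt t) ∧
          (x ∈ K t π →
            sw P (𝔖.toEnv h cap) (P.zt t) (ext 𝔖 (2 * P.N) π x) x x 0 a ≤ 5 * P.zt t →
            sw P (𝔖.toEnv h cap).neg (P.zt t) (ext 𝔖 (2 * P.N) π x) x x 0 a ≤ 5 * P.zt t →
            x ∈ A t π a)) (U : X → Fin r) :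
    (ruleU 𝔖 n K A U).Valid P (𝔖.toEnv h cap) := by
  subst hn
  have hrad : 2 * P.N ≤ (𝔖.toEnv h cap).rad := by
    change 2 * P.N ≤ cap + 1
    omega
  have hrad' : 2 * P.N ≤ (𝔖.toEnv h cap).neg.rad := hrad
  have hb : (𝔖.toEnv h cap).ball = 𝔖.ball := rfl
  have hb' : (𝔖.toEnv h cap).neg.ball = 𝔖.ball := rfl
  refine ⟨fun t ht S o _ hk => ?_, fun t ht S o _ h1 h2 => ?_, fun t ht S o _ hk a ha => ?_,
    fun t ht S o _ hk a h1 h2 => ?_, fun o π O hO => ?_, fun o O a ha b hb => ?_⟩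
  · have h1 := (hKA t ht (nrmPat 𝔖 P.N (U o) S o) o).1 hk
    rw [valid_keep _ hrad hb, valid_keep _ hrad' hb'] at h1
    exact h1
  · have h3 := (hKA t ht (nrmPat 𝔖 P.N (U o) S o) o).2.1
    rw [valid_keep _ hrad hb, valid_keep _ hrad' hb'] at h3
    exact h3 h1 h2
  · have ha' : o ∈ A t (nrmPat 𝔖 P.N (U o) S o) (a - U o) := (Finset.mem_filter.1 ha).2
    have h1 := ((hKA t ht (nrmPat 𝔖 P.N (U o) S o) o).2.2 (a - U o)).1 hk ha'
    rw [valid_sw _ hrad hb, valid_sw _ hrad' hb'] at h1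
    exact h1
  · have h3 := ((hKA t ht (nrmPat 𝔖 P.N (U o) S o) o).2.2 (a - U o)).2 hk
    rw [valid_sw _ hrad hb, valid_sw _ hrad' hb'] at h3
    exact Finset.mem_filter.2 ⟨Finset.mem_univ _, h3 h1 h2⟩
  · obtain ⟨b, hb⟩ := hO
    have hne : (Finset.univ.filter fun a => a + U o ∈ O).Nonempty :=
      ⟨b - U o, Finset.mem_filter.2 ⟨Finset.mem_univ _, by rw [sub_add_cancel]; exact hb⟩⟩
    exact (Finset.mem_filter.1 (pk_mem π hne)).2
  · have hf : ∀ c : Fin r, (Finset.univ.filter fun π => (ruleU 𝔖 P.N K A U).pick o π O = c) =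
        Finset.univ.filter fun π => pk π (Finset.univ.filter fun a => a + U o ∈ O) = c - U o := by
      intro c
      ext π
      rw [Finset.mem_filter, Finset.mem_filter]
      exact and_congr_right fun _ => eq_sub_iff_add_eq.symm
    have hm : ∀ c ∈ O, c - U o ∈ (Finset.univ.filter fun a => a + U o ∈ O) := fun c hc =>
      Finset.mem_filter.2 ⟨Finset.mem_univ _, by rw [sub_add_cancel]; exact hc⟩
    have h4 := pk_unif (hm a ha) (hm b hb)
    convert h4 using 2
    · convert hf a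
    · convert hf b

end Vale.Agent.P078.T
end

section
/-! T3-E4: averaging over the permutations. -/

namespace Vale.Agent.P078.T

open Finset Polynomial
open Vale.Agent.P078.C (Herm ZD FB qf yc Q)

variable {α : Type*} [DecidableEq α] {r m : ℕ}
variable {P : Par} {E : Env α} {𝓡 : Rule α r} {cls : α → Fin m} {τ : Fin m → ℕ}
variable {ρ : Fin m → Equiv.Perm (Fin r)} {t : ℕ} {x v : α}

/-- averaging over the permutation of one class: a function of the chosen colour -/
theorem sum_pick (h𝓡 : 𝓡.Valid P E) (o : α) (O : Finset (Fin r)) (hO : O.Nonempty)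
    (F : Fin r → ℝ) :
    O.card * ∑ π : Equiv.Perm (Fin r), F (𝓡.pick o π O) =
      Fintype.card (Equiv.Perm (Fin r)) * ∑ a ∈ O, F a := by
  have hmem : ∀ π, 𝓡.pick o π O ∈ O := fun π => h𝓡.pick_mem o π O hO
  obtain ⟨b, hb⟩ := hO
  have hN : ∀ a ∈ O, (Finset.univ.filter fun π => 𝓡.pick o π O = a).card =
      (Finset.univ.filter fun π => 𝓡.pick o π O = b).card :=
    fun a ha => h𝓡.pick_unif o O a ha b hb
  have h1 : ∑ π : Equiv.Perm (Fin r), F (𝓡.pick o π O) = ∑ a ∈ O,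
      ((Finset.univ.filter fun π => 𝓡.pick o π O = b).card : ℝ) * F a := by
    rw [← Finset.sum_fiberwise_of_maps_to (t := O) (fun π _ => hmem π)]
    refine Finset.sum_congr rfl fun a ha => ?_
    rw [Finset.sum_congr rfl (g := fun _ => F a)
      (fun π hπ => by rw [(Finset.mem_filter.1 hπ).2]), Finset.sum_const, nsmul_eq_mul, hN a ha]
  have h2 : (Fintype.card (Equiv.Perm (Fin r)) : ℝ) =
      O.card * ((Finset.univ.filter fun π => 𝓡.pick o π O = b).card : ℝ) := by
    rw [← Finset.card_univ, Finset.card_eq_sum_card_fiberwise (t := O)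
      (f := fun π => 𝓡.pick o π O) (fun π _ => hmem π)]
    rw [Finset.sum_congr rfl hN, Finset.sum_const, smul_eq_mul]
    push_cast
    rfl
  rw [h1, h2, ← Finset.mul_sum]
  ring

/-- averaging over one coordinate first -/
theorem sum_update (j : Fin m) (F : (Fin m → Equiv.Perm (Fin r)) → ℝ) :
    Fintype.card (Equiv.Perm (Fin r)) * ∑ ρ, F ρ = ∑ ρ, ∑ π, F (Function.update ρ j π) := by
  have h1 : (Fintype.card (Equiv.Perm (Fin r)) : ℝ) * ∑ ρ, F ρ =
      ∑ x : (Fin m → Equiv.Perm (Fin r)) × Equiv.Perm (Fin r), F x.1 := by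
    rw [← Finset.univ_product_univ, Finset.sum_product]
    simp only [mul_sum, sum_const, card_univ, nsmul_eq_mul]
  have h2 : ∑ ρ, ∑ π, F (Function.update ρ j π) =
      ∑ x : (Fin m → Equiv.Perm (Fin r)) × Equiv.Perm (Fin r), F (Function.update x.1 j x.2) := by
    rw [← Finset.univ_product_univ, Finset.sum_product]
  rw [h1, h2]
  refine Fintype.sum_bijective (fun x : (Fin m → Equiv.Perm (Fin r)) × Equiv.Perm (Fin r) =>
    (Function.update x.1 j x.2, x.1 j)) ?_ _ _ fun x => ?_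
  · refine Function.Involutive.bijective fun x => ?_
    ext1
    · simp
    · simp
  · simp

end Vale.Agent.P078.T
end

section
/-! T3-E2: the potential of a window. -/

namespace Vale.Agent.P078.T

open Finset Polynomial
open Vale.Agent.P078.C (Herm ZD FB qf yc Q)

variable {α : Type*} [DecidableEq α] {r : ℕ}
variable {P : Par} {E : Env α} {S : α → St r} {z u : ℝ} {x o : α}

/-- the potential of the window of centre `x` -/
noncomputable def PhiW (P : Par) (E : Env α) (z : ℝ) (S : α → St r) (x : α) : ℝ :=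
  Phi P.κ P.n E.y (cs S) (lv P E z S x) (win P E S x)

theorem Phi_congr_TDecPhi {κ : ℝ} {n : ℕ} {y : α → α → ℂ} {s s' : α → Option (Fin r)} {l l' : α → ℝ}
    {W : Finset α} (hs : ∀ i ∈ W, s i = s' i) (hl : ∀ i ∈ W, l i = l' i) :
    Phi κ n y s l W = Phi κ n y s' l' W := by
  have h : pl y s l W = pl y s' l' W := by
    unfold pl
    refine Finset.sum_congr rfl fun U hU => ?_
    have hU' := Finset.mem_powerset.1 hU
    rw [q_congr (fun i hi => hs i (hU' hi)) (fun i hi => hl i (hU' hi))]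
  unfold Phi dst
  rw [h]

/-- deletions and raising of the base level -/
theorem PhiW_mono (hr : 0 < r) (hP : P.Good E) {S' : α → St r} {z' : ℝ} (hz : z ≤ z')
    (hx : Alive P E z S P.κ x) (hS : ∀ v ∈ win P E S x, S' v = S v ∨ S' v = some none)
    (hS' : ∀ v, S v = some none → S' v = some none) :
    Alive P E z' S' P.κ x ∧ PhiW P E z' S' x ≤ PhiW P E z S x := by
  have hW : win P E S' x ⊆ win P E S x := by
    intro v hv
    rw [win, Finset.mem_filter] at hv ⊢
    exact ⟨hv.1, fun h => hv.2 (hS' v h)⟩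
  have hSS : ∀ v ∈ win P E S' x, S' v = S v := by
    intro v hv
    rcases hS v (hW hv) with h | h
    · exact h
    · rw [win, Finset.mem_filter] at hv
      exact absurd h hv.2
  have hcs : ∀ v ∈ win P E S' x, cs S v = cs S' v := by
    intro v hv
    simp only [cs, hSS v hv]
  have hlv : ∀ v ∈ win P E S' x, lv P E z' S x v = lv P E z' S' x v := by
    intro v hv
    simp only [lv, hSS v hv]
  have hle : ∀ v, lv P E z S x v ≤ lv P E z' S x v := by
    intro v
    simp only [lv]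
    linarith only [hz]
  have h1 : Safe E.y (cs S) (fun v => lv P E z S x v - P.κ) (win P E S' x) := hx.subset hW
  have h2 : Safe E.y (cs S) (fun v => lv P E z' S x v - P.κ) (win P E S' x) :=
    h1.mono hr E.herm fun v _ => by linarith only [hle v]
  refine ⟨?_, ?_⟩
  · exact h2.congr hcs fun v hv => by rw [hlv v hv]
  · unfold PhiW
    rw [← Phi_congr_TDecPhi hcs hlv]
    refine le_trans (Phi_mono_level hr E.herm E.zd hP.κ_pos P.n h1 fun v _ => hle v) ?_
    exact Phi_mono_set hr E.herm E.zd hP.κ_pos P.n hx hW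

/-- decision of `o` with a uniform colour in `O` -/
theorem PhiW_step (hr : 0 < r) (hP : P.Good E) (hz : P.ζ ≤ z) (hz2 : z ≤ 2 * P.ζ)
    (hSo : S o = none) (hox : o ∈ E.ball P.N x) (hK : Keep P E (4 * P.κ) P.Λ z S o)
    (O : Finset (Fin r)) (hO : r ≤ 2 * O.card) (ha : ∀ a ∈ O, sw P E z S o o 0 a ≤ 6 * z) :
    ∑ a ∈ O, PhiW P E z (Function.update S o (some (some a))) x ≤ O.card * PhiW P E z S x := by
  have hκ := hP.κ_pos
  have hζ := hP.ζ_pos
  have hκζ := hP.κ_le
  have hNrad : P.N ≤ E.rad := by have := hP.rad; omega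
  have hxo : x ∈ E.ball P.N o := by
    rw [E.mem_ball _ hNrad] at hox ⊢
    rwa [E.d_symm]
  have hoo : o ∈ E.ball P.N o := by
    rw [E.mem_ball _ hNrad, E.d_self]
    exact Nat.zero_le _
  have hAx : Alive P E z S (4 * P.κ) x := hK.1 x hxo
  have hAo : Alive P E z S (4 * P.κ) o := hK.1 o hoo
  have how : o ∈ win P E S x := by
    rw [win, Finset.mem_filter]
    exact ⟨hox, by rw [hSo]; simp⟩
  have hins : insert o ((win P E S x).erase o) = win P E S x := Finset.insert_erase how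
  have hne : o ∉ (win P E S x).erase o := Finset.notMem_erase o _
  have hwin : ∀ a : Fin r, win P E (Function.update S o (some (some a))) x = win P E S x := by
    intro a
    unfold win
    refine Finset.filter_congr fun v _ => ?_
    by_cases hv : v = o
    · subst hv
      rw [Function.update_self, hSo]
      simp
    · rw [Function.update_of_ne hv]
  have hcsu : ∀ a : Fin r, cs (Function.update S o (some (some a))) =
      Function.update (cs S) o (some a) := by
    intro a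
    funext v
    by_cases hv : v = o
    · subst hv
      simp [cs]
    · simp only [cs, Function.update_of_ne hv]
  have hlvu : ∀ a : Fin r, lv P E z (Function.update S o (some (some a))) x =
      Function.update (lv P E z S x) o (lv P E z S x o + (60 * P.ζ + 6 * fx P E x o)) := by
    intro a
    funext v
    by_cases hv : v = o
    · subst hv
      simp only [lv, Function.update_self, reduceCtorEq, ↓reduceIte, hSo, add_zero]
    · simp only [lv, Function.update_of_ne hv]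
  have hf : 0 ≤ fx P E x o := fx_nonneg
  have hlo : lv P E z S x o = z + fx P E x o := by simp [lv, hSo]
  have hcso : cs S o = none := by simp [cs, hSo]
  have hsafe1 : Safe E.y (cs S) (fun i => lv P E z S x i - P.κ)
      (insert o ((win P E S x).erase o)) := by
    rw [hins]
    exact Safe.mono hr E.herm hAx fun v _ => by linarith only [hκ]
  have hsafe2 : Safe E.y (cs S) (fun i => lv P E z S x i - P.κ - P.κ / 4)
      ((win P E S x).erase o) :=
    Safe.mono hr E.herm (Safe.subset hAx (Finset.erase_subset _ _)) fun v _ => by linarith only [hκ]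
  have hsafe3 : Safe E.y (cs S) (fun i => lv P E z S x i + -(5 / 2 * P.κ))
      ((win P E S x).erase o) :=
    Safe.mono hr E.herm (Safe.subset hAx (Finset.erase_subset _ _)) fun v _ => by linarith only [hκ]
  have hsafe1' : Safe E.y (cs S) (fun i => lv P E z S x i - P.κ) ((win P E S x).erase o) :=
    hsafe1.subset (Finset.subset_insert _ _)
  have hsgn : 0 ≤ sg E.y (cs S) o (fun i => lv P E z S x i - P.κ) ((win P E S x).erase o) :=
    sg_nonneg hr E.herm E.zd hne hsafe1'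
  have hsw : ∀ a ∈ O, sg E.y (Function.update (cs S) o (some a)) o
      (fun i => lv P E z S x i - P.κ) ((win P E S x).erase o) ≤ 24 * z := by
    intro a haO
    refine le_trans ?_ (sw_le hr hP hz hz2 hSo hox hAx hAo (ha a haO)).1
    unfold sw
    refine sg_anti hr E.herm hne ?_ fun v _ => by linarith only [hκ]
    refine hsafe3.congr (fun v hv => ?_) fun v _ => rfl
    rw [Function.update_of_ne (Finset.ne_of_mem_erase hv)]
  have hder : ∀ a ∈ O, sg E.y (Function.update (cs S) o (some a)) o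
      (fun i => lv P E z S x i - P.κ - P.κ / 4) ((win P E S x).erase o) -
      sg E.y (Function.update (cs S) o (some a)) o
      (fun i => lv P E z S x i - P.κ) ((win P E S x).erase o) ≤ P.M * (P.κ / 4) := by
    intro a haO
    have h := (deriv_bound hr hP hox hSo hK a
      (sw_le hr hP hz hz2 hSo hox hAx hAo (ha a haO)).2).2
    unfold sw at h
    have e1 : (fun v => lv P E z S x v + (-P.κ - P.κ / 4)) =
        fun v => lv P E z S x v - P.κ - P.κ / 4 := by funext v; ring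
    have e2 : (fun v => lv P E z S x v + -P.κ) = fun v => lv P E z S x v - P.κ := by
      funext v; ring
    rwa [e1, e2] at h
  have he : Real.exp 1 < 2.7182818286 := Real.exp_one_lt_d9
  have key := Phi_step hr E.herm E.zd hne hcso hκ P.n (δ := 60 * P.ζ + 6 * fx P E x o)
    (M := P.M) (η := P.κ / 4) (by (clear * - hζ hf; positivity)) ?_ hsafe1 O hO ?_ ?_ (by positivity) hsafe2 hder
  · rw [hins] at key
    unfold PhiW
    refine le_trans (le_of_eq ?_) key
    refine Finset.sum_congr rfl fun a _ => ?_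
    rw [hwin, hcsu, hlvu]
  · have := hP.hM
    have h1 : 0 ≤ 38400 * P.ζ / P.fs := by
      have := hP.fs_pos
      (clear * - hζ this; positivity)
    have h2 := hP.Λ_ge
    linarith only [h2, h1, this]
  · intro a haO
    have h1 := hsw a haO
    rw [hlo]
    have h2 : 0 ≤ z + fx P E x o := by linarith only [hz, hκ, hκζ, hf]
    have h3 : Real.exp 1 * (z + fx P E x o - P.κ -
        sg E.y (cs S) o (fun i => lv P E z S x i - P.κ) ((win P E S x).erase o)) ≤
        Real.exp 1 * (z + fx P E x o) :=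
      mul_le_mul_of_nonneg_left (by linarith only [hκ, hsgn]) (Real.exp_pos 1).le
    have h4 : Real.exp 1 * (z + fx P E x o) ≤ 2.7182818286 * (z + fx P E x o) :=
      mul_le_mul_of_nonneg_right he.le h2
    linarith only [hz2, hκ, hκζ, hf, h1, h3, h4]
  · intro a haO
    have h1 := hsw a haO
    have h2 := hP.hn
    rw [hlo]
    linarith only [hz2, hκ, hκζ, hf, h1, h2]

end Vale.Agent.P078.T
end

section
/-! T3-E3: the Green function of the centre of a window. -/

namespace Vale.Agent.P078.T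

open Finset Polynomial
open Vale.Agent.P078.C (Herm ZD FB qf yc Q)

variable {α : Type*} [DecidableEq α] {r : ℕ}
variable {P : Par} {E : Env α} {S : α → St r} {z u : ℝ} {x o : α}

/-- the Green function of the centre of the window, at base level `u` -/
noncomputable def GW (P : Par) (E : Env α) (u : ℝ) (S : α → St r) (x : α) : ℝ :=
  GG E.y (cs S) (lv P E u S x) (win P E S x) x

private theorem dg_GG_congr {y : α → α → ℂ} {s s' : α → Option (Fin r)} {l l' : α → ℝ}
    {W : Finset α} {v : α} (hs : ∀ i ∈ W, s i = s' i) (hl : ∀ i ∈ W, l i = l' i) :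
    GG y s l W v = GG y s' l' W v := by
  unfold GG
  rw [q_congr hs hl, q_congr (fun i hi => hs i (mem_of_mem_erase hi))
    (fun i hi => hl i (mem_of_mem_erase hi))]

private theorem dg_lv_add (S : α → St r) (x v : α) (u z : ℝ) :
    lv P E u S x v = lv P E z S x v + (u - z) := by
  unfold lv
  ring

private theorem dg_self_ball (hP : P.Good E) (x : α) : x ∈ E.ball P.N x :=
  (E.mem_ball P.N (by have := hP.rad; omega) x x).2 (by rw [E.d_self]; omega)

private theorem dg_safe (hr : 0 < r) {b : ℝ} (hu : z - b ≤ u) (hx : Alive P E z S b x) :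
    Safe E.y (cs S) (lv P E u S x) (win P E S x) := by
  refine Safe.mono hr E.herm hx fun i _ => ?_
  rw [dg_lv_add S x i u z]
  linarith only [hu]

theorem GW_mono (hr : 0 < r) (hP : P.Good E) {S' : α → St r} {b u' : ℝ} (hu : z - b ≤ u)
    (hu' : u ≤ u') (hx : Alive P E z S b x) (hxx : S x ≠ some none) (hxx' : S' x ≠ some none)
    (hS : ∀ v ∈ win P E S x, S' v = S v ∨ S' v = some none)
    (hS' : ∀ v, S v = some none → S' v = some none) :
    0 < GW P E u' S' x ∧ GW P E u' S' x ≤ GW P E u S x := by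
  have hsub : win P E S' x ⊆ win P E S x := by
    intro v hv
    unfold win at hv ⊢
    rw [mem_filter] at hv ⊢
    exact ⟨hv.1, fun h => hv.2 (hS' v h)⟩
  have heq : ∀ v ∈ win P E S' x, S' v = S v := by
    intro v hv
    rcases hS v (hsub hv) with h | h
    · exact h
    · unfold win at hv
      rw [mem_filter] at hv
      exact absurd h hv.2
  have hxW : x ∈ win P E S' x := by
    unfold win
    rw [mem_filter]
    exact ⟨dg_self_ball hP x, hxx'⟩
  have hsafe : Safe E.y (cs S) (lv P E u S x) (win P E S' x) :=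
    (dg_safe hr hu hx).subset hsub
  have hsafe' : Safe E.y (cs S) (lv P E u' S x) (win P E S' x) := by
    refine Safe.mono hr E.herm hsafe fun i _ => ?_
    rw [dg_lv_add S x i u' u]
    linarith only [hu']
  have hc : GW P E u' S' x = GG E.y (cs S) (lv P E u' S x) (win P E S' x) x := by
    unfold GW
    refine dg_GG_congr (fun i hi => ?_) fun i hi => ?_
    · unfold cs
      rw [heq i hi]
    · unfold lv
      rw [heq i hi]
  rw [hc]
  refine ⟨GG_pos hsafe', ?_⟩
  refine (GG_mono_level hr E.herm hsafe hxW fun i _ => ?_).trans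
    (GG_mono_set hr E.herm (dg_safe hr hu hx) hxW hsub)
  rw [dg_lv_add S x i u' u]
  linarith only [hu']

theorem GW_step (hr : 0 < r) (hP : P.Good E) (hz : P.ζ ≤ z) (hz2 : z ≤ 2 * P.ζ)
    (hSo : S o = none) (hox : o ∈ E.ball P.N x) (hne : x ≠ o) (hxx : S x ≠ some none)
    (hu : z - 5 / 2 * P.κ ≤ u) (hu2 : u ≤ 3 * P.ζ)
    (hx : Alive P E z S (4 * P.κ) x) (ho : Alive P E z S (4 * P.κ) o)
    (O : Finset (Fin r)) (hO : r ≤ 2 * O.card) (ha : ∀ a ∈ O, sw P E z S o o 0 a ≤ 6 * z) :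
    ∑ a ∈ O, GW P E u (Function.update S o (some (some a))) x ≤ O.card * GW P E u S x := by
  have hκ := hP.κ_pos
  have hζ := hP.ζ_pos
  have hf : 0 ≤ fx P E x o := fx_nonneg
  have hmem : o ∈ win P E S x := by
    unfold win
    rw [mem_filter]
    exact ⟨hox, by rw [hSo]; simp⟩
  have hxmem : x ∈ (win P E S x).erase o := by
    rw [mem_erase]
    refine ⟨hne, ?_⟩
    unfold win
    rw [mem_filter]
    exact ⟨dg_self_ball hP x, hxx⟩
  have hcsn : cs S o = none := by
    unfold cs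
    rw [hSo]
    rfl
  have hsafe : Safe E.y (cs S) (lv P E u S x) (insert o ((win P E S x).erase o)) := by
    rw [insert_erase hmem]
    exact dg_safe hr (b := 4 * P.κ) (by linarith only [hu, hκ]) hx
  have hlo : lv P E u S x o = u + fx P E x o := by
    unfold lv
    rw [if_pos hSo]
    ring
  have hsafe1 : Safe E.y (cs S) (lv P E u S x) ((win P E S x).erase o) :=
    hsafe.subset (subset_insert _ _)
  have hsg0 : 0 ≤ sg E.y (cs S) o (lv P E u S x) ((win P E S x).erase o) :=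
    sg_nonneg hr E.herm E.zd (notMem_erase _ _) hsafe1
  have key := GG_step (y := E.y) (s := cs S) (l := lv P E u S x) (W := (win P E S x).erase o)
    (o := o) (v := x) hr E.herm (notMem_erase _ _) hxmem hcsn
    (δ := 60 * P.ζ + 6 * fx P E x o) (by (clear * - hζ hf; positivity)) hsafe O hO ?_
  · rw [insert_erase hmem] at key
    have hL : ∀ a : Fin r, GW P E u (Function.update S o (some (some a))) x =
        GG E.y (Function.update (cs S) o (some a))
          (Function.update (lv P E u S x) o (lv P E u S x o + (60 * P.ζ + 6 * fx P E x o)))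
          (win P E S x) x := by
      intro a
      have hwin : win P E (Function.update S o (some (some a))) x = win P E S x := by
        unfold win
        refine filter_congr fun v _ => ?_
        by_cases hv : v = o
        · subst hv
          rw [Function.update_self, hSo]
          simp
        · rw [Function.update_of_ne hv]
      unfold GW
      rw [hwin]
      refine dg_GG_congr (fun v _ => ?_) fun v _ => ?_
      · by_cases hv : v = o
        · subst hv
          simp [cs]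
        · rw [Function.update_of_ne hv]
          unfold cs
          rw [Function.update_of_ne hv]
      · by_cases hv : v = o
        · subst hv
          rw [Function.update_self, hlo]
          unfold lv
          rw [Function.update_self, if_neg (by simp)]
        · rw [Function.update_of_ne hv]
          unfold lv
          rw [Function.update_of_ne hv]
    simp only [hL]
    exact key
  · intro c hc
    have h1 := (sw_le hr hP hz hz2 hSo hox hx ho (ha c hc)).1
    have h2 : sg E.y (Function.update (cs S) o (some c)) o (lv P E u S x)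
        ((win P E S x).erase o) ≤ sw P E z S x o (-(5 / 2 * P.κ)) c := by
      have h3 : Safe E.y (Function.update (cs S) o (some c))
          (fun v => lv P E z S x v + -(5 / 2 * P.κ)) ((win P E S x).erase o) := by
        have h4 : Safe E.y (cs S) (fun v => lv P E z S x v + -(5 / 2 * P.κ))
            ((win P E S x).erase o) :=
          Safe.mono hr E.herm (Safe.subset hx (erase_subset _ _)) (fun i _ => by linarith only [hκ])
        refine Safe.congr h4 (fun i hi => ?_) (fun i _ => rfl)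
        rw [Function.update_of_ne (ne_of_mem_erase hi)]
      unfold sw
      refine sg_anti hr E.herm (notMem_erase _ _) h3 fun i _ => ?_
      rw [dg_lv_add S x i u z]
      linarith only [hu]
    rw [hlo]
    linarith only [h2, h1, hsg0, hf, hζ, hu2, hz2]

private theorem dg_fx_self_le (hP : P.Good E) : fx P E o o ≤ P.ζ / 1000 := by
  have h1 := hP.hR
  have h2 := hP.κ_le
  have h3 := hP.c_pos
  have h4 := hP.R_pos
  have h5 := hP.κ_pos
  have hR : (10 : ℝ) ≤ P.R := by exact_mod_cast h4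
  have hR2 : (0 : ℝ) < (P.R : ℝ) ^ 2 := by (clear * - h4; positivity)
  unfold fx
  rw [E.d_self, div_pow]
  have hN : ((P.N : ℕ) : ℝ) = 4 * P.R := by unfold Par.N; push_cast; ring
  rw [hN, Nat.cast_zero, sub_zero]
  have h6 : (P.R : ℝ) ^ 2 ≤ (4 * (P.R : ℝ) + 1) ^ 2 := by nlinarith only [hR]
  have h7 : (0 : ℝ) < (4 * (P.R : ℝ) + 1) ^ 2 := by positivity
  rw [div_le_iff₀ h7]
  have h8 : P.κ * (P.R : ℝ) ^ 2 ≤ P.ζ / 100 * (P.R : ℝ) ^ 2 :=
    mul_le_mul_of_nonneg_right (by linarith only [h2]) hR2.le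
  have h9 : P.ζ / 1000 * (P.R : ℝ) ^ 2 ≤ P.ζ / 1000 * (4 * (P.R : ℝ) + 1) ^ 2 :=
    mul_le_mul_of_nonneg_left h6 (by have := hP.ζ_pos; linarith only [h2, h5])
  nlinarith only [h1, h8, h9]

private theorem dg_inv_sub {D₁ D₂ m : ℝ} (h1 : 0 < D₁) (h2 : D₁ ≤ D₂) (h3 : D₂ ≤ m) :
    D₂ - D₁ ≤ m ^ 2 * (1 / D₁ - 1 / D₂) := by
  have h4 : 0 < D₂ := h1.trans_le h2
  have h5 : m ^ 2 * (1 / D₁ - 1 / D₂) = m ^ 2 / (D₁ * D₂) * (D₂ - D₁) := by
    (clear * - h4 h1; field_simp)
  have h6 : 1 ≤ m ^ 2 / (D₁ * D₂) := by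
    rw [one_le_div (mul_pos h1 h4), sq]
    exact mul_le_mul (h2.trans h3) h3 h4.le (h4.le.trans h3)
  rw [h5]
  exact le_mul_of_one_le_left (by linarith only [h2]) h6

/-- the Green function controls the differences of self energies -/
theorem GW_sub_ge (hr : 0 < r) (hP : P.Good E) (hz : P.ζ ≤ z) (hz2 : z ≤ 2 * P.ζ)
    (hSo : S o = none) (ho : Alive P E z S (4 * P.κ) o) {θ : ℝ} (hθ : θ ∈ P.Θ) (a : Fin r) :
    (sw P E z S o o (-(5 / 2 * P.κ)) a - sw P E z S o o θ a) / r ≤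
      (3 * P.ζ) ^ 2 * (GW P E (z - 5 / 2 * P.κ) S o - GW P E (z + θ) S o) := by
  have hκ := hP.κ_pos
  have hζ := hP.ζ_pos
  have hκζ := hP.κ_le
  have hθκ := hP.Θ_ge θ hθ
  have hθζ := hP.Θ_le θ hθ
  have hr' : (0 : ℝ) < r := by exact_mod_cast hr
  have hmem : o ∈ win P E S o := by
    unfold win
    rw [mem_filter]
    exact ⟨dg_self_ball hP o, by rw [hSo]; simp⟩
  have hcsn : cs S o = none := by
    unfold cs
    rw [hSo]
    rfl
  have hsafe : ∀ b : ℝ, -(4 * P.κ) ≤ b →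
      Safe E.y (cs S) (lv P E (z + b) S o) (win P E S o) :=
    fun b hb => dg_safe hr (b := 4 * P.κ) (by linarith only [hb]) ho
  have hav : ∀ b : ℝ, sg E.y (cs S) o (lv P E (z + b) S o) ((win P E S o).erase o) =
      (∑ c, sw P E z S o o b c) / r := by
    intro b
    rw [sg_avg hr E.herm (notMem_erase _ _) hcsn]
    congr 1
    refine sum_congr rfl fun c _ => ?_
    unfold sw
    congr 1
    funext v
    rw [dg_lv_add S o v (z + b) z]
    ring
  have hanti : ∀ c : Fin r, sw P E z S o o θ c ≤ sw P E z S o o (-(5 / 2 * P.κ)) c := by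
    intro c
    have h3 : Safe E.y (Function.update (cs S) o (some c))
        (fun v => lv P E z S o v + -(5 / 2 * P.κ)) ((win P E S o).erase o) := by
      have h4 : Safe E.y (cs S) (fun v => lv P E z S o v + -(5 / 2 * P.κ))
          ((win P E S o).erase o) :=
        Safe.mono hr E.herm (Safe.subset ho (erase_subset _ _)) (fun i _ => by linarith only [hκ])
      refine Safe.congr h4 (fun i hi => ?_) (fun i _ => rfl)
      rw [Function.update_of_ne (ne_of_mem_erase hi)]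
    unfold sw
    exact sg_anti hr E.herm (notMem_erase _ _) h3 fun i _ => by linarith only [hκ, hθκ]
  have hsum : sw P E z S o o (-(5 / 2 * P.κ)) a - sw P E z S o o θ a ≤
      (∑ c, sw P E z S o o (-(5 / 2 * P.κ)) c) - ∑ c, sw P E z S o o θ c := by
    rw [← sum_sub_distrib]
    exact single_le_sum (f := fun c => sw P E z S o o (-(5 / 2 * P.κ)) c - sw P E z S o o θ c)
      (fun c _ => sub_nonneg.2 (hanti c)) (mem_univ a)
  have hlo : ∀ b : ℝ, lv P E (z + b) S o o = z + b + fx P E o o := by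
    intro b
    unfold lv
    rw [if_pos hSo]
    ring
  have hfx := dg_fx_self_le (o := o) hP
  have hs1 := hsafe (-(5 / 2 * P.κ)) (by linarith only [hκ])
  have hs2 := hsafe θ (by linarith only [hκ, hθκ])
  have hsg2 : 0 ≤ sg E.y (cs S) o (lv P E (z + θ) S o) ((win P E S o).erase o) :=
    sg_nonneg hr E.herm E.zd (notMem_erase _ _) (hs2.subset (erase_subset _ _))
  have hp1 := GG_pos (v := o) hs1
  have e1 := GG_eq hr E.herm hs1 hmem
  have e2 := GG_eq hr E.herm hs2 hmem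
  have hd : (sw P E z S o o (-(5 / 2 * P.κ)) a - sw P E z S o o θ a) / r ≤
      sg E.y (cs S) o (lv P E (z + -(5 / 2 * P.κ)) S o) ((win P E S o).erase o) -
        sg E.y (cs S) o (lv P E (z + θ) S o) ((win P E S o).erase o) := by
    rw [hav, hav, ← sub_div]
    exact div_le_div_of_nonneg_right hsum hr'.le
  have hd0 : 0 ≤ (sw P E z S o o (-(5 / 2 * P.κ)) a - sw P E z S o o θ a) / r :=
    div_nonneg (sub_nonneg.2 (hanti a)) hr'.le
  rw [sub_eq_add_neg z (5 / 2 * P.κ)]
  unfold GW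
  rw [e1] at hp1
  rw [e1, e2]
  rw [hlo, hlo] at *
  have hD1 := one_div_pos.1 hp1
  exact (by linarith only [hd, hθκ, hκ] : _ ≤ _).trans (dg_inv_sub hD1 (by linarith only [hd0, hd, hθκ, hκ]) (by linarith only [hz2, hκ, hκζ, hθζ, hfx, hsg2]))

end Vale.Agent.P078.T
end

section
/-! T3-E7: expected Green functions. -/

namespace Vale.Agent.P078.T

open Finset Polynomial
open Vale.Agent.P078.C (Herm ZD FB qf yc Q)

variable {α : Type*} [DecidableEq α] {r m : ℕ}
variable {P : Par} {E : Env α} {𝓡 : Rule α r} {cls : α → Fin m} {τ : Fin m → ℕ}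
variable {ρ : Fin m → Equiv.Perm (Fin r)} {t : ℕ} {x v : α}

/-- the window of centre `x` had the margin `4 κ` up to time `t` -/
def Alv (P : Par) (E : Env α) (𝓡 : Rule α r) (cls : α → Fin m) (τ : Fin m → ℕ)
    (ρ : Fin m → Equiv.Perm (Fin r)) (t : ℕ) (x : α) : Prop :=
  ∀ s ≤ t, Alive P E (P.zt s) (run P E 𝓡 cls τ ρ s) (4 * P.κ) x

open Classical in
/-- expected Green function of the centre at the base level `u` -/
noncomputable def HG (P : Par) (E : Env α) (𝓡 : Rule α r) (cls : α → Fin m) (τ : Fin m → ℕ)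
    (x : α) (t : ℕ) (u : ℝ) : ℝ :=
  ∑ ρ : Fin m → Equiv.Perm (Fin r), if Alv P E 𝓡 cls τ ρ t x then
    GW P E u (run P E 𝓡 cls τ ρ t) x else 0

private theorem Alv.of_succ (h : Alv P E 𝓡 cls τ ρ (t + 1) x) : Alv P E 𝓡 cls τ ρ t x :=
  fun s hs => h s (hs.trans (Nat.le_succ t))

private theorem Alv.alive (h : Alv P E 𝓡 cls τ ρ t x) :
    Alive P E (P.zt t) (run P E 𝓡 cls τ ρ t) (4 * P.κ) x := h t le_rfl

private theorem hg_mem_ball (hP : P.Good E) (x : α) : x ∈ E.ball P.N x := by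
  have h := hP.rad
  rw [E.mem_ball P.N (by omega) x x, E.d_self]
  exact Nat.zero_le _

private theorem hg_run_none (h : t ≤ τ (cls x)) : run P E 𝓡 cls τ ρ t x = none :=
  run_none_iff.2 h

private theorem hg_run_del (v : α) (h : run P E 𝓡 cls τ ρ t v = some none) :
    run P E 𝓡 cls τ ρ (t + 1) v = some none := by
  show step P E 𝓡 cls τ ρ t (run P E 𝓡 cls τ ρ t) v = some none
  unfold step
  rw [if_neg]
  · exact h
  · rintro ⟨h1, -⟩
    rw [h] at h1
    exact absurd h1 (by simp)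

private theorem hg_run_eq {π : Equiv.Perm (Fin r)} {j : Fin m} (hj : t ≤ τ j) :
    run P E 𝓡 cls τ (Function.update ρ j π) t = run P E 𝓡 cls τ ρ t := by
  refine run_congr fun i => ?_
  by_cases hi : i = j
  · subst hi
    exact Or.inr ⟨hj, hj⟩
  · exact Or.inl ⟨rfl, by rw [Function.update_of_ne hi]⟩

private theorem hg_alv_iff {π : Equiv.Perm (Fin r)} {j : Fin m} (hj : t ≤ τ j) :
    Alv P E 𝓡 cls τ (Function.update ρ j π) t x ↔ Alv P E 𝓡 cls τ ρ t x := by
  unfold Alv
  refine forall_congr' fun s => forall_congr' fun hs => ?_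
  rw [hg_run_eq (hs.trans hj)]

/-- the Green function depends only on the states in the ball -/
private theorem GW_congr {S S' : α → St r} {u : ℝ}
    (h : ∀ v ∈ E.ball P.N x, S v = S' v) : GW P E u S x = GW P E u S' x := by
  have hw : win P E S x = win P E S' x := by
    unfold win
    refine Finset.filter_congr fun v hv => ?_
    rw [h v hv]
  have hsub : ∀ v ∈ win P E S' x, v ∈ E.ball P.N x := fun v hv => (Finset.mem_filter.1 hv).1
  have hs : ∀ v ∈ win P E S' x, cs S v = cs S' v := fun v hv => by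
    unfold cs
    rw [h v (hsub v hv)]
  have hl : ∀ v ∈ win P E S' x, lv P E u S x v = lv P E u S' x v := fun v hv => by
    unfold lv
    rw [h v (hsub v hv)]
  unfold GW GG
  rw [hw, q_congr hs hl, q_congr (fun v hv => hs v (Finset.mem_of_mem_erase hv))
    (fun v hv => hl v (Finset.mem_of_mem_erase hv))]

private theorem hg_zt (hP : P.Good E) (ht : t ≤ P.T) : P.ζ ≤ P.zt t ∧ P.zt t ≤ 2 * P.ζ := by
  have h1 := hP.ζ_pos
  have h2 : (0 : ℝ) < P.T := by exact_mod_cast hP.T_pos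
  have h3 : (t : ℝ) / P.T ≤ 1 := by
    rw [div_le_one h2]
    exact_mod_cast ht
  have h4 : (0 : ℝ) ≤ (t : ℝ) / P.T := by positivity
  unfold Par.zt
  constructor <;> nlinarith only [h1, h3, h4]

private theorem hg_self (hr : 0 < r) (hP : P.Good E) {S : α → St r} {z b u u' : ℝ}
    (hu : z - b ≤ u) (hu' : u ≤ u') (hx : Alive P E z S b x) (hxx : S x ≠ some none) :
    0 < GW P E u' S x ∧ GW P E u' S x ≤ GW P E u S x :=
  GW_mono hr hP hu hu' hx hxx hxx (fun _ _ => Or.inl rfl) (fun _ h => h)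

/-- the case of a decision at the point `o` -/
private def BC (P : Par) (E : Env α) (𝓡 : Rule α r) (cls : α → Fin m) (τ : Fin m → ℕ)
    (ρ : Fin m → Equiv.Perm (Fin r)) (t : ℕ) (x o : α) : Prop :=
  o ∈ win P E (run P E 𝓡 cls τ ρ t) x ∧ run P E 𝓡 cls τ ρ t o = none ∧ τ (cls o) = t ∧
      𝓡.keep t (run P E 𝓡 cls τ ρ t) o ∧
      ∀ ρ' : Fin m → Equiv.Perm (Fin r), (∀ j, j ≠ cls o → ρ' j = ρ j) →
        run P E 𝓡 cls τ ρ' t = run P E 𝓡 cls τ ρ t ∧
        run P E 𝓡 cls τ ρ' (t + 1) o =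
          some (some (𝓡.pick o (ρ' (cls o)) (𝓡.allow t (run P E 𝓡 cls τ ρ t) o))) ∧
        ∀ v ∈ win P E (run P E 𝓡 cls τ ρ t) x, v ≠ o →
          run P E 𝓡 cls τ ρ' (t + 1) v = run P E 𝓡 cls τ ρ t v

private theorem BC.unique {o o' : α} (h : BC P E 𝓡 cls τ ρ t x o) (h' : BC P E 𝓡 cls τ ρ t x o') :
    o = o' := by
  by_contra hne
  have h1 := (h.2.2.2.2 ρ (fun _ _ => rfl)).2.2 o' h'.1 (Ne.symm hne)
  have h2 := (h'.2.2.2.2 ρ (fun _ _ => rfl)).2.1
  rw [h1, h'.2.1] at h2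
  exact absurd h2 (by simp)

private theorem BC.update {o : α} (h : BC P E 𝓡 cls τ ρ t x o) (π : Equiv.Perm (Fin r)) :
    BC P E 𝓡 cls τ (Function.update ρ (cls o) π) t x o := by
  have e : run P E 𝓡 cls τ (Function.update ρ (cls o) π) t = run P E 𝓡 cls τ ρ t :=
    hg_run_eq h.2.2.1.ge
  unfold BC
  rw [e]
  refine ⟨h.1, h.2.1, h.2.2.1, h.2.2.2.1, fun ρ' hρ' => ?_⟩
  exact h.2.2.2.2 ρ' fun j hj => by rw [hρ' j hj, Function.update_of_ne hj]

private theorem BC.update_iff {o : α} (π : Equiv.Perm (Fin r)) :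
    BC P E 𝓡 cls τ (Function.update ρ (cls o) π) t x o ↔ BC P E 𝓡 cls τ ρ t x o := by
  refine ⟨fun h => ?_, fun h => h.update π⟩
  have h' := h.update (ρ (cls o))
  rwa [Function.update_idem, Function.update_eq_self] at h'

open Classical in
/-- the term -/
private noncomputable def hgt (P : Par) (E : Env α) (𝓡 : Rule α r) (cls : α → Fin m)
    (τ : Fin m → ℕ) (x : α) (t : ℕ) (u : ℝ) (ρ : Fin m → Equiv.Perm (Fin r)) : ℝ :=
  if Alv P E 𝓡 cls τ ρ t x then GW P E u (run P E 𝓡 cls τ ρ t) x else 0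

/-- deletions only -/
private theorem hgt_A (hr : 0 < r) (hP : P.Good E) (hτ : P.T ≤ τ (cls x)) (ht : t < P.T) {u : ℝ}
    (hu : P.zt t - 5 / 2 * P.κ ≤ u)
    (hA : ∀ v ∈ win P E (run P E 𝓡 cls τ ρ t) x,
      run P E 𝓡 cls τ ρ (t + 1) v = run P E 𝓡 cls τ ρ t v ∨
      run P E 𝓡 cls τ ρ (t + 1) v = some none) :
    hgt P E 𝓡 cls τ x (t + 1) u ρ ≤ hgt P E 𝓡 cls τ x t u ρ := by
  classical
  have hκ := hP.κ_pos
  unfold hgt
  by_cases h : Alv P E 𝓡 cls τ ρ t x
  · rw [if_pos h]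
    have hx0 : run P E 𝓡 cls τ ρ t x = none := hg_run_none (by omega)
    have hx1 : run P E 𝓡 cls τ ρ (t + 1) x = none := hg_run_none (by omega)
    have h1 := GW_mono (u' := u) (b := 4 * P.κ) (z := P.zt t) hr hP (by linarith only [hκ, hu]) le_rfl h.alive
      (by rw [hx0]; simp) (by rw [hx1]; simp) hA hg_run_del
    split_ifs
    · exact h1.2
    · exact (h1.1.trans_le h1.2).le
  · rw [if_neg h, if_neg fun h' => h h'.of_succ]

/-- a decision -/
private theorem hgt_B (hr : 0 < r) (hP : P.Good E) (hPn : P.Good E.neg) (h𝓡 : 𝓡.Valid P E)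
    (hτ : P.T ≤ τ (cls x)) (ht : t < P.T) {u : ℝ}
    (hu : P.zt t - 5 / 2 * P.κ ≤ u) (hu2 : u ≤ 3 * P.ζ) {o : α}
    (hB : BC P E 𝓡 cls τ ρ t x o) :
    ∑ π, hgt P E 𝓡 cls τ x (t + 1) u (Function.update ρ (cls o) π) ≤
      ∑ π, hgt P E 𝓡 cls τ x t u (Function.update ρ (cls o) π) := by
  classical
  obtain ⟨how, hSo, hτo, hkeep, hrun⟩ := hB
  have hle : t ≤ τ (cls o) := hτo.ge
  by_cases h : Alv P E 𝓡 cls τ ρ t x
  · obtain ⟨hz, hz2⟩ := hg_zt hP ht.le
    have hκ := hP.κ_pos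
    have hox : o ∈ E.ball P.N x := (Finset.mem_filter.1 how).1
    have hne : x ≠ o := by
      rintro rfl
      omega
    have hx0 : run P E 𝓡 cls τ ρ t x = none := hg_run_none (by omega)
    have hw := h𝓡.weak t ht _ o hSo hkeep
    have ho : Alive P E (P.zt t) (run P E 𝓡 cls τ ρ t) (4 * P.κ) o :=
      hw.1.1 o (hg_mem_ball hP o)
    have ho' : Alive P E.neg (P.zt t) (run P E 𝓡 cls τ ρ t) (4 * P.κ) o :=
      hw.2.1 o (hg_mem_ball hP o)
    have ha := fun a haO => (h𝓡.allow_weak t ht _ o hSo hkeep a haO).1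
    have hO : r ≤ 2 * (𝓡.allow t (run P E 𝓡 cls τ ρ t) o).card :=
      card_allow hr hP hPn hz hSo ho ho' _ (h𝓡.allow_strong t ht _ o hSo hkeep)
    have hOne : (𝓡.allow t (run P E 𝓡 cls τ ρ t) o).Nonempty := by
      rw [← Finset.card_pos]
      omega
    have e1 : ∀ π, hgt P E 𝓡 cls τ x t u (Function.update ρ (cls o) π) =
        GW P E u (run P E 𝓡 cls τ ρ t) x := by
      intro π
      unfold hgt
      rw [if_pos ((hg_alv_iff hle).2 h), hg_run_eq hle]
    have e2 : ∀ π, hgt P E 𝓡 cls τ x (t + 1) u (Function.update ρ (cls o) π) ≤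
        GW P E u (Function.update (run P E 𝓡 cls τ ρ t) o
          (some (some (𝓡.pick o π (𝓡.allow t (run P E 𝓡 cls τ ρ t) o))))) x := by
      intro π
      have hπ := hrun (Function.update ρ (cls o) π) (fun j hj => Function.update_of_ne hj _ _)
      rw [Function.update_self] at hπ
      have hal := alive_update hr hP hz hz2 hSo hox h.alive ho
        (ha _ (h𝓡.pick_mem o π _ hOne))
      have hpos := (hg_self (u := u) (u' := u) hr hP hu le_rfl hal
        (by rw [Function.update_of_ne hne, hx0]; simp)).1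
      have hc : GW P E u (run P E 𝓡 cls τ (Function.update ρ (cls o) π) (t + 1)) x =
          GW P E u (Function.update (run P E 𝓡 cls τ ρ t) o
          (some (some (𝓡.pick o π (𝓡.allow t (run P E 𝓡 cls τ ρ t) o))))) x := by
        refine GW_congr fun v hv => ?_
        by_cases hvo : v = o
        · subst hvo
          rw [Function.update_self]
          exact hπ.2.1
        · rw [Function.update_of_ne hvo]
          by_cases hd : run P E 𝓡 cls τ ρ t v = some none
          · rw [hd]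
            refine hg_run_del v ?_
            rw [hπ.1, hd]
          · exact hπ.2.2 v (Finset.mem_filter.2 ⟨hv, hd⟩) hvo
      unfold hgt
      split_ifs
      · exact hc.le
      · exact hpos.le
    refine (Finset.sum_le_sum fun π _ => e2 π).trans ?_
    simp only [e1]
    have h3 := sum_pick h𝓡 o (𝓡.allow t (run P E 𝓡 cls τ ρ t) o) hOne
      (fun a => GW P E u (Function.update (run P E 𝓡 cls τ ρ t) o (some (some a))) x)
    have h4 := GW_step hr hP hz hz2 hSo hox hne (by rw [hx0]; simp) hu hu2 h.alive ho _ hO ha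
    have h5 : (0 : ℝ) < (𝓡.allow t (run P E 𝓡 cls τ ρ t) o).card := by
      exact_mod_cast Finset.card_pos.2 hOne
    rw [Finset.sum_const, Finset.card_univ, nsmul_eq_mul]
    refine le_of_mul_le_mul_left ?_ h5
    rw [h3]
    have h6 : (0 : ℝ) ≤ Fintype.card (Equiv.Perm (Fin r)) := Nat.cast_nonneg _
    calc (Fintype.card (Equiv.Perm (Fin r)) : ℝ) *
          ∑ a ∈ 𝓡.allow t (run P E 𝓡 cls τ ρ t) o,
            GW P E u (Function.update (run P E 𝓡 cls τ ρ t) o (some (some a))) x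
        ≤ (Fintype.card (Equiv.Perm (Fin r)) : ℝ) *
          ((𝓡.allow t (run P E 𝓡 cls τ ρ t) o).card *
            GW P E u (run P E 𝓡 cls τ ρ t) x) := mul_le_mul_of_nonneg_left h4 h6
      _ = _ := by ring
  · refine Finset.sum_le_sum fun π _ => ?_
    have h1 : ¬ Alv P E 𝓡 cls τ (Function.update ρ (cls o) π) t x := fun h' =>
      h ((hg_alv_iff hle).1 h')
    unfold hgt
    rw [if_neg h1, if_neg fun h' => h1 h'.of_succ]

/-- it does not increase in time -/
theorem HG_step (hr : 0 < r) (hP : P.Good E) (hPn : P.Good E.neg) (h𝓡 : 𝓡.Valid P E)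
    (hsp : SparseCls P E cls) (hτ : P.T ≤ τ (cls x)) (ht : t < P.T) {u : ℝ}
    (hu : P.zt t - 5 / 2 * P.κ ≤ u) (hu2 : u ≤ 3 * P.ζ) :
    HG P E 𝓡 cls τ x (t + 1) u ≤ HG P E 𝓡 cls τ x t u := by
  classical
  have hHG : ∀ t, HG P E 𝓡 cls τ x t u = ∑ ρ, hgt P E 𝓡 cls τ x t u ρ := fun t => rfl
  rw [hHG, hHG, ← sub_nonpos, ← Finset.sum_sub_distrib]
  have h1 : ∀ ρ : Fin m → Equiv.Perm (Fin r),
      hgt P E 𝓡 cls τ x (t + 1) u ρ - hgt P E 𝓡 cls τ x t u ρ ≤
      ∑ j, if ∃ o, cls o = j ∧ BC P E 𝓡 cls τ ρ t x o then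
        hgt P E 𝓡 cls τ x (t + 1) u ρ - hgt P E 𝓡 cls τ x t u ρ else 0 := by
    intro ρ
    by_cases hB : ∃ o, BC P E 𝓡 cls τ ρ t x o
    · obtain ⟨o, ho⟩ := hB
      rw [Finset.sum_eq_single (cls o)]
      · rw [if_pos ⟨o, rfl, ho⟩]
      · intro j _ hj
        rw [if_neg]
        rintro ⟨o', rfl, ho'⟩
        exact hj (by rw [ho.unique ho'])
      · exact fun h => absurd (Finset.mem_univ _) h
    · have hA := (step_cases (𝓡 := 𝓡) (τ := τ) (ρ := ρ) hsp hP.rad x t).resolve_right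
        (fun ⟨o, h⟩ => hB ⟨o, h⟩)
      have h2 := hgt_A hr hP hτ ht hu hA
      rw [Finset.sum_eq_zero]
      · linarith only [h2]
      · intro j _
        rw [if_neg]
        rintro ⟨o, -, ho⟩
        exact hB ⟨o, ho⟩
  refine (Finset.sum_le_sum fun ρ _ => h1 ρ).trans ?_
  rw [Finset.sum_comm]
  refine Finset.sum_nonpos fun j _ => ?_
  have hc : (0 : ℝ) < Fintype.card (Equiv.Perm (Fin r)) := by exact_mod_cast Fintype.card_pos
  have h3 := sum_update (r := r) j (fun ρ => if ∃ o, cls o = j ∧ BC P E 𝓡 cls τ ρ t x o then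
        hgt P E 𝓡 cls τ x (t + 1) u ρ - hgt P E 𝓡 cls τ x t u ρ else 0)
  have h4 : ∑ ρ : Fin m → Equiv.Perm (Fin r), ∑ π,
      (if ∃ o, cls o = j ∧ BC P E 𝓡 cls τ (Function.update ρ j π) t x o then
        hgt P E 𝓡 cls τ x (t + 1) u (Function.update ρ j π) -
          hgt P E 𝓡 cls τ x t u (Function.update ρ j π) else 0) ≤ 0 := by
    refine Finset.sum_nonpos fun ρ _ => ?_
    by_cases hB : ∃ o, cls o = j ∧ BC P E 𝓡 cls τ ρ t x o
    · obtain ⟨o, rfl, ho⟩ := hB
      have h5 : ∀ π : Equiv.Perm (Fin r), ∃ o', cls o' = cls o ∧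
          BC P E 𝓡 cls τ (Function.update ρ (cls o) π) t x o' :=
        fun π => ⟨o, rfl, ho.update π⟩
      simp only [h5, if_true]
      rw [Finset.sum_sub_distrib]
      have := hgt_B hr hP hPn h𝓡 hτ ht hu hu2 ho
      linarith only [this]
    · refine le_of_eq (Finset.sum_eq_zero fun π _ => ?_)
      rw [if_neg]
      rintro ⟨o, rfl, ho⟩
      exact hB ⟨o, rfl, (BC.update_iff π).1 ho⟩
  rw [← h3] at h4
  by_contra hcon
  push Not at hcon
  have := mul_pos hc hcon
  linarith only [h4, this]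

theorem HG_zero (hr : 0 < r) (hP : P.Good E) (hi : Ini P E r) {u : ℝ}
    (hu : P.ζ - 5 / 2 * P.κ ≤ u) :
    HG P E 𝓡 cls τ x 0 u ≤ Fintype.card (Fin m → Equiv.Perm (Fin r)) * (4 / P.ζ) := by
  classical
  have hζ := hP.ζ_pos
  have hκ := hP.κ_pos
  have hκζ := hP.κ_le
  have hpos : 0 < 4 / P.ζ := by positivity
  have key : GW P E u (fun _ => (none : St r)) x ≤ 4 / P.ζ := by
    have hx := hg_mem_ball hP x
    have hxw : x ∈ win P E (fun _ => (none : St r)) x :=
      Finset.mem_filter.2 ⟨hx, by simp⟩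
    have hcs : cs (fun _ : α => (none : St r)) = fun _ => none := rfl
    have hl : ∀ v, 2 / 3 * P.ζ ≤ lv P E u (fun _ => (none : St r)) x v := by
      intro v
      unfold lv
      have := fx_nonneg (P := P) (E := E) (x := x) (o := v)
      simp only [if_true]
      linarith only [hu, hκ, hκζ, this]
    have hS0 := hi (win P E (fun _ => (none : St r)) x)
    have hS : Safe E.y (fun _ => (none : Option (Fin r))) (lv P E u (fun _ => (none : St r)) x)
        (win P E (fun _ => (none : St r)) x) :=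
      hS0.mono hr E.herm fun i _ => hl i
    unfold GW
    rw [hcs, GG_eq hr E.herm hS hxw]
    have hne : x ∉ (win P E (fun _ => (none : St r)) x).erase x := Finset.notMem_erase _ _
    have h1 := (safe_insert_iff hr E.herm hne).1 (by rw [Finset.insert_erase hxw]; exact hS0)
    have h2 := sg_anti hr E.herm hne h1.1 (l' := lv P E u (fun _ => (none : St r)) x)
      fun i _ => hl i
    have h3 : u ≤ lv P E u (fun _ => (none : St r)) x x := by
      unfold lv
      have := fx_nonneg (P := P) (E := E) (x := x) (o := x)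
      simp only [if_true]
      linarith only [this]
    have h4 : P.ζ / 4 ≤ lv P E u (fun _ => (none : St r)) x x -
        sg E.y (fun _ => (none : Option (Fin r))) x (lv P E u (fun _ => (none : St r)) x)
          ((win P E (fun _ => (none : St r)) x).erase x) := by
      have := h1.2
      linarith only [this, h3, h2, hκζ, hκ, hu]
    have h5 : 4 / P.ζ = 1 / (P.ζ / 4) := by
      rw [one_div, inv_div]
    rw [h5]
    exact one_div_le_one_div_of_le (by positivity) h4
  unfold HG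
  refine (Finset.sum_le_sum (g := fun _ => 4 / P.ζ) fun ρ _ => ?_).trans ?_
  · split_ifs
    · exact key
    · exact hpos.le
  · rw [Finset.sum_const, Finset.card_univ, nsmul_eq_mul]

theorem HG_anti (hr : 0 < r) (hP : P.Good E) (hτ : P.T ≤ τ (cls x)) (ht : t ≤ P.T) {u u' : ℝ}
    (hu : P.zt t - 5 / 2 * P.κ ≤ u) (huu : u ≤ u') :
    0 ≤ HG P E 𝓡 cls τ x t u' ∧ HG P E 𝓡 cls τ x t u' ≤ HG P E 𝓡 cls τ x t u := by
  classical
  have hκ := hP.κ_pos
  have h : ∀ ρ : Fin m → Equiv.Perm (Fin r), Alv P E 𝓡 cls τ ρ t x →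
      0 < GW P E u' (run P E 𝓡 cls τ ρ t) x ∧
      GW P E u' (run P E 𝓡 cls τ ρ t) x ≤ GW P E u (run P E 𝓡 cls τ ρ t) x := by
    intro ρ hA
    refine hg_self (b := 4 * P.κ) (z := P.zt t) hr hP (by linarith only [hκ, hu]) huu hA.alive ?_
    rw [hg_run_none (by omega)]
    simp
  unfold HG
  constructor
  · refine Finset.sum_nonneg fun ρ _ => ?_
    split_ifs with hA
    · exact (h ρ hA).1.le
    · exact le_rfl
  · refine Finset.sum_le_sum fun ρ _ => ?_
    split_ifs with hA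
    · exact (h ρ hA).2
    · exact le_rfl

end Vale.Agent.P078.T
end

section
/-! T3-E6: the probability that a window is dead. -/

namespace Vale.Agent.P078.T

open Finset Polynomial
open Vale.Agent.P078.C (Herm ZD FB qf yc Q)

variable {α : Type*} [DecidableEq α] {r m : ℕ}
variable {P : Par} {E : Env α} {𝓡 : Rule α r} {cls : α → Fin m} {τ : Fin m → ℕ}
variable {ρ : Fin m → Equiv.Perm (Fin r)} {t : ℕ} {x v : α}

/-! ### Parameters -/

theorem pp_zt_mono (hP : P.Good E) (t : ℕ) : P.zt t ≤ P.zt (t + 1) := by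
  have h1 := hP.ζ_pos
  have h2 : (0 : ℝ) < P.T := by exact_mod_cast hP.T_pos
  unfold Par.zt
  have h3 : (t : ℝ) / P.T ≤ ((t + 1 : ℕ) : ℝ) / P.T := by
    apply div_le_div_of_nonneg_right _ h2.le
    push_cast
    linarith only []
  have := mul_le_mul_of_nonneg_left h3 h1.le
  linarith only [this]

theorem pp_le_zt (hP : P.Good E) (t : ℕ) : P.ζ ≤ P.zt t := by
  have h1 := hP.ζ_pos
  unfold Par.zt
  have : 0 ≤ P.ζ * ((t : ℝ) / P.T) := by positivity
  linarith

theorem pp_zt_le (hP : P.Good E) (ht : t ≤ P.T) : P.zt t ≤ 2 * P.ζ := by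
  have h1 := hP.ζ_pos
  have h2 : (0 : ℝ) < P.T := by exact_mod_cast hP.T_pos
  have h3 : (t : ℝ) / P.T ≤ 1 := by
    rw [div_le_one h2]
    exact_mod_cast ht
  unfold Par.zt
  have := mul_le_mul_of_nonneg_left h3 h1.le
  linarith only [this]

theorem pp_N_le (hP : P.Good E) : P.N ≤ E.rad := by
  have := hP.rad
  omega

/-- `n κ` is small compared with `ζ` -/
theorem pp_nκ (hP : P.Good E) : P.n * P.κ ≤ P.ζ / 1000 := by
  have h1 := hP.ζ_pos
  have h2 := hP.κ_pos
  have h3 : 0 ≤ 38400 * P.ζ / P.fs := by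
    have := hP.fs_pos
    positivity
  have h4 := hP.hM
  have h5 := hP.Λ_ge
  have h6 : (46400 : ℝ) ≤ 1 + P.M := by linarith only [h5, h4, h3]
  have h7 : P.n * P.κ * 46400 ≤ P.n * P.κ * (1 + P.M) :=
    mul_le_mul_of_nonneg_left h6 (by (clear * - h2; positivity))
  have h8 := hP.hn
  linarith only [h1, h7, h8]

theorem pp_pow_le (hP : P.Good E) : (P.ζ / 3 / (P.ζ / 3 - P.κ)) ^ P.n ≤ 3 := by
  have h1 := hP.ζ_pos
  have h2 := hP.κ_pos
  have h3 := hP.κ_le
  have h4 := pp_nκ hP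
  have h5 : P.ζ / 4 ≤ P.ζ / 3 - P.κ := by linarith only [h2, h3]
  have h6 : 0 < P.ζ / 3 - P.κ := by linarith only [h2, h3]
  have h7 : P.ζ / 3 / (P.ζ / 3 - P.κ) = P.κ / (P.ζ / 3 - P.κ) + 1 := by
    rw [div_add_one h6.ne']
    congr 1
    ring
  have h8 : P.κ / (P.ζ / 3 - P.κ) ≤ P.κ / (P.ζ / 4) :=
    div_le_div_of_nonneg_left h2.le (by positivity) h5
  have h9 : P.ζ / 3 / (P.ζ / 3 - P.κ) ≤ Real.exp (P.κ / (P.ζ / 4)) := by
    rw [h7]
    exact (Real.add_one_le_exp _).trans (Real.exp_le_exp.2 h8)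
  calc (P.ζ / 3 / (P.ζ / 3 - P.κ)) ^ P.n ≤ (Real.exp (P.κ / (P.ζ / 4))) ^ P.n :=
        pow_le_pow_left₀ (by (clear * - h1 h6; positivity)) h9 _
    _ = Real.exp (P.n * (P.κ / (P.ζ / 4))) := (Real.exp_nat_mul _ _).symm
    _ ≤ Real.exp 1 := by
        apply Real.exp_le_exp.2
        have : P.n * (P.κ / (P.ζ / 4)) = 4 * (P.n * P.κ) / P.ζ := by
          (clear * - h1 h2; field_simp)
        rw [this, div_le_one h1]
        linarith only [h2, h3, h4]
    _ ≤ 3 := by
        have := Real.exp_one_lt_d9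
        linarith only [this]

/-! ### Safety -/

theorem pp_alive_mono (hr : 0 < r) {z : ℝ} {S : α → St r} {b b' : ℝ} (hb : b' ≤ b)
    (h : Alive P E z S b x) : Alive P E z S b' x :=
  Safe.mono hr E.herm h fun i _ => by linarith only [hb]

theorem pp_keep_deleted {v : α} (h : run P E 𝓡 cls τ ρ t v = some none) :
    run P E 𝓡 cls τ ρ (t + 1) v = some none := by
  have h1 : run P E 𝓡 cls τ ρ (t + 1) = step P E 𝓡 cls τ ρ t (run P E 𝓡 cls τ ρ t) := rfl
  rw [h1]
  unfold step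
  rw [if_neg, h]
  rintro ⟨h2, -⟩
  rw [h] at h2
  cases h2

/-- the acting point is unique -/
theorem pp_unique (hP : P.Good E) {ρ : Fin m → Equiv.Perm (Fin r)} {o o' : α}
    (ho : o ∈ E.ball P.N x) (ho' : o' ∈ E.ball P.N x) (hτ' : τ (cls o') = t)
    {a : Fin r} (h : run P E 𝓡 cls τ ρ (t + 1) o = some (some a))
    (hn : run P E 𝓡 cls τ ρ t o = none) (hτ : τ (cls o) = t) : o' = o := by
  by_contra hne
  have h1 : run P E 𝓡 cls τ ρ (t + 1) = step P E 𝓡 cls τ ρ t (run P E 𝓡 cls τ ρ t) := rfl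
  rw [h1] at h
  unfold step at h
  rw [if_pos ⟨hn, hτ⟩, if_pos] at h
  · cases h
  · left
    refine ⟨o', ?_, hne, hτ'⟩
    rw [E.mem_ball _ hP.rad]
    have e1 := (E.mem_ball _ (pp_N_le hP) x o).1 ho
    have e2 := (E.mem_ball _ (pp_N_le hP) x o').1 ho'
    have e3 := E.d_tri o x o'
    rw [E.d_symm o x] at e3
    omega

theorem pp_mem_win {S : α → St r} {o : α} (h : o ∈ win P E S x) : o ∈ E.ball P.N x :=
  (Finset.mem_filter.1 h).1

theorem pp_sum_nonneg_card : 0 < (Fintype.card (Equiv.Perm (Fin r)) : ℝ) := by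
  exact_mod_cast Fintype.card_pos

/-- one step: averaging over the class of the acting point -/
theorem pp_step_avg (hr : 0 < r) (hP : P.Good E) (hPn : P.Good E.neg) (h𝓡 : 𝓡.Valid P E)
    (ht : t < P.T)
    (ρ₀ : Fin m → Equiv.Perm (Fin r)) {o : α}
    (ho : o ∈ win P E (run P E 𝓡 cls τ ρ₀ t) x) (hn : run P E 𝓡 cls τ ρ₀ t o = none)
    (hkeep : 𝓡.keep t (run P E 𝓡 cls τ ρ₀ t) o)
    (hall : ∀ ρ' : Fin m → Equiv.Perm (Fin r), (∀ j, j ≠ cls o → ρ' j = ρ₀ j) →
        run P E 𝓡 cls τ ρ' t = run P E 𝓡 cls τ ρ₀ t ∧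
        run P E 𝓡 cls τ ρ' (t + 1) o =
          some (some (𝓡.pick o (ρ' (cls o)) (𝓡.allow t (run P E 𝓡 cls τ ρ₀ t) o))) ∧
        ∀ v ∈ win P E (run P E 𝓡 cls τ ρ₀ t) x, v ≠ o →
          run P E 𝓡 cls τ ρ' (t + 1) v = run P E 𝓡 cls τ ρ₀ t v) :
    ∑ π, PhiW P E (P.zt (t + 1)) (run P E 𝓡 cls τ (Function.update ρ₀ (cls o) π) (t + 1)) x ≤
      ∑ π, PhiW P E (P.zt t) (run P E 𝓡 cls τ (Function.update ρ₀ (cls o) π) t) x := by
  set S := run P E 𝓡 cls τ ρ₀ t with hS
  set O := 𝓡.allow t S o with hO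
  have hz := pp_le_zt hP t
  have hz2 := pp_zt_le hP ht.le
  have hox := pp_mem_win ho
  obtain ⟨hK, hKn⟩ := h𝓡.weak t ht S o hn hkeep
  have hoo : o ∈ E.ball P.N o := by
    rw [E.mem_ball _ (pp_N_le hP), E.d_self]
    exact Nat.zero_le _
  have hxo : x ∈ E.ball P.N o := by
    rw [E.mem_ball _ (pp_N_le hP), E.d_symm]
    exact (E.mem_ball _ (pp_N_le hP) x o).1 hox
  have hAo := hK.1 o hoo
  have hAx := hK.1 x hxo
  have hAon := hKn.1 o hoo
  have hcard : r ≤ 2 * O.card := card_allow hr hP hPn hz hn hAo hAon O fun a h1 h2 =>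
    h𝓡.allow_strong t ht S o hn hkeep a h1 h2
  have hOne : O.Nonempty := by
    rw [← Finset.card_pos]
    omega
  have ha : ∀ a ∈ O, sw P E (P.zt t) S o o 0 a ≤ 6 * P.zt t := fun a ha =>
    (h𝓡.allow_weak t ht S o hn hkeep a ha).1
  -- pointwise comparison
  have hpt : ∀ π, PhiW P E (P.zt (t + 1))
      (run P E 𝓡 cls τ (Function.update ρ₀ (cls o) π) (t + 1)) x ≤
      PhiW P E (P.zt t) (Function.update S o (some (some (𝓡.pick o π O)))) x := by
    intro π
    obtain ⟨h1, h2, h3⟩ := hall (Function.update ρ₀ (cls o) π)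
      (fun j hj => Function.update_of_ne hj _ _)
    rw [Function.update_self] at h2
    have hal : Alive P E (P.zt t) (Function.update S o (some (some (𝓡.pick o π O)))) P.κ x :=
      pp_alive_mono hr (by linarith only [hP.κ_pos]) (alive_update hr hP hz hz2 hn hox hAx hAo
        (ha _ (h𝓡.pick_mem o π O hOne)))
    refine (PhiW_mono hr hP (pp_zt_mono hP t) hal ?_ ?_).2
    · intro v hv
      by_cases hvo : v = o
      · subst hvo
        left
        rw [h2, Function.update_self]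
      · left
        rw [Function.update_of_ne hvo]
        refine h3 v ?_ hvo
        have h4 := (Finset.mem_filter.1 hv).2
        rw [Function.update_of_ne hvo] at h4
        exact Finset.mem_filter.2 ⟨(Finset.mem_filter.1 hv).1, h4⟩
    · intro v hv
      by_cases hvo : v = o
      · subst hvo
        rw [Function.update_self] at hv
        cases hv
      · rw [Function.update_of_ne hvo] at hv
        apply pp_keep_deleted
        rw [h1]
        exact hv
  have hR : ∀ π, PhiW P E (P.zt t) (run P E 𝓡 cls τ (Function.update ρ₀ (cls o) π) t) x =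
      PhiW P E (P.zt t) S x := by
    intro π
    obtain ⟨h1, -, -⟩ := hall (Function.update ρ₀ (cls o) π)
      (fun j hj => Function.update_of_ne hj _ _)
    rw [h1]
  simp only [hR, Finset.sum_const, Finset.card_univ, nsmul_eq_mul]
  refine (Finset.sum_le_sum fun π _ => hpt π).trans ?_
  have e1 := sum_pick h𝓡 o O hOne fun a =>
    PhiW P E (P.zt t) (Function.update S o (some (some a))) x
  have e2 := PhiW_step hr hP hz hz2 hn hox hK O hcard ha
  have hOpos : (0 : ℝ) < O.card := by exact_mod_cast hOne.card_pos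
  have hc := pp_sum_nonneg_card (r := r)
  rw [← mul_le_mul_iff_right₀ hOpos]
  rw [e1]
  calc _ ≤ (Fintype.card (Equiv.Perm (Fin r)) : ℝ) * (O.card * PhiW P E (P.zt t) S x) :=
        mul_le_mul_of_nonneg_left e2 hc.le
    _ = _ := by ring

/-- one step -/
theorem pp_step (hr : 0 < r) (hP : P.Good E) (hPn : P.Good E.neg) (h𝓡 : 𝓡.Valid P E)
    (hsp : SparseCls P E cls) (hi : Ini P E r) (ht : t < P.T) (x : α) :
    ∑ ρ : Fin m → Equiv.Perm (Fin r),
        PhiW P E (P.zt (t + 1)) (run P E 𝓡 cls τ ρ (t + 1)) x ≤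
      ∑ ρ : Fin m → Equiv.Perm (Fin r), PhiW P E (P.zt t) (run P E 𝓡 cls τ ρ t) x := by
  classical
  -- the case of a deletion
  have hdel : ∀ ρ : Fin m → Equiv.Perm (Fin r), (∀ v ∈ win P E (run P E 𝓡 cls τ ρ t) x,
      run P E 𝓡 cls τ ρ (t + 1) v = run P E 𝓡 cls τ ρ t v ∨
      run P E 𝓡 cls τ ρ (t + 1) v = some none) →
      PhiW P E (P.zt (t + 1)) (run P E 𝓡 cls τ ρ (t + 1)) x ≤
        PhiW P E (P.zt t) (run P E 𝓡 cls τ ρ t) x := fun ρ h =>
    (PhiW_mono hr hP (pp_zt_mono hP t) (inv hr hP hPn h𝓡 hsp hi t ht.le x) h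
      fun v hv => pp_keep_deleted hv).2
  by_cases hex : ∃ ρ₀ : Fin m → Equiv.Perm (Fin r), ¬ ∀ v ∈ win P E (run P E 𝓡 cls τ ρ₀ t) x,
      run P E 𝓡 cls τ ρ₀ (t + 1) v = run P E 𝓡 cls τ ρ₀ t v ∨
      run P E 𝓡 cls τ ρ₀ (t + 1) v = some none
  · obtain ⟨ρ₀, hρ₀⟩ := hex
    obtain ⟨o₀, ho₀, -, hτ₀, -, -⟩ := (step_cases hsp hP.rad x t).resolve_left hρ₀
    have hc := pp_sum_nonneg_card (r := r)
    rw [← mul_le_mul_iff_right₀ hc, sum_update (cls o₀), sum_update (cls o₀)]
    refine Finset.sum_le_sum fun ρ _ => ?_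
    by_cases hall : ∀ π, ∀ v ∈ win P E
        (run P E 𝓡 cls τ (Function.update ρ (cls o₀) π) t) x,
        run P E 𝓡 cls τ (Function.update ρ (cls o₀) π) (t + 1) v =
          run P E 𝓡 cls τ (Function.update ρ (cls o₀) π) t v ∨
        run P E 𝓡 cls τ (Function.update ρ (cls o₀) π) (t + 1) v = some none
    · exact Finset.sum_le_sum fun π _ => hdel _ (hall π)
    · obtain ⟨π₁, hπ₁⟩ := not_forall.1 hall
      set ρ₁ := Function.update ρ (cls o₀) π₁ with hρ₁
      obtain ⟨o, ho, hn, hτ, hkeep, hrest⟩ := (step_cases hsp hP.rad x t).resolve_left hπ₁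
      have heq : o₀ = o := by
        refine pp_unique hP (pp_mem_win ho) (pp_mem_win ho₀) hτ₀ (hrest ρ₁ fun j _ => rfl).2.1
          hn hτ
      have hup : ∀ π, Function.update ρ (cls o₀) π = Function.update ρ₁ (cls o) π := by
        intro π
        rw [hρ₁, heq, Function.update_idem]
      simp only [hup]
      exact pp_step_avg hr hP hPn h𝓡 ht ρ₁ ho hn hkeep hrest
  · push Not at hex
    exact Finset.sum_le_sum fun ρ _ => hdel ρ (hex ρ)

theorem pp_zero (hr : 0 < r) (hP : P.Good E) (hi : Ini P E r) (x : α) :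
    PhiW P E (P.zt 0) (fun _ => none : α → St r) x ≤ 3 * (E.Δ : ℝ) ^ P.N := by
  have h1 := hP.ζ_pos
  have h2 := hP.κ_pos
  have h3 := hP.κ_le
  unfold PhiW
  have hs : Safe E.y (cs (fun _ => none : α → St r))
      (fun i => lv P E (P.zt 0) (fun _ => none : α → St r) x i - P.ζ / 3)
      (win P E (fun _ => none : α → St r) x) := by
    have h4 : Safe E.y (cs (fun _ => none : α → St r)) (fun _ => 2 / 3 * P.ζ)
        (win P E (fun _ => none : α → St r) x) := hi _
    refine h4.mono hr E.herm fun i _ => ?_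
    have h5 : 0 ≤ fx P E x i := fx_nonneg
    simp only [lv, Par.zt, if_true]
    simp only [CharP.cast_eq_zero, zero_div, mul_zero, add_zero, ge_iff_le]
    linarith
  refine (Phi_le hr E.herm h2 (a := P.ζ / 3) (by linarith only [h2, h3]) P.n hs).trans ?_
  have h6 : ((win P E (fun _ => none : α → St r) x).card : ℝ) ≤ (E.Δ : ℝ) ^ P.N := by
    have h7 : (win P E (fun _ => none : α → St r) x).card ≤ E.Δ ^ P.N :=
      (Finset.card_filter_le _ _).trans (E.card_ball _ (pp_N_le hP) x)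
    exact_mod_cast h7
  calc _ ≤ (E.Δ : ℝ) ^ P.N * 3 :=
        mul_le_mul h6 (pp_pow_le hP) (by
          have : 0 < P.ζ / 3 - P.κ := by linarith only [h2, h3]
          positivity) (by (clear * -; positivity))
    _ = _ := by ring

/-- expected potential -/
theorem sum_PhiW (hr : 0 < r) (hP : P.Good E) (hPn : P.Good E.neg) (h𝓡 : 𝓡.Valid P E)
    (hsp : SparseCls P E cls) (hi : Ini P E r) (t : ℕ) (ht : t ≤ P.T) (x : α) :
    ∑ ρ : Fin m → Equiv.Perm (Fin r), PhiW P E (P.zt t) (run P E 𝓡 cls τ ρ t) x ≤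
      Fintype.card (Fin m → Equiv.Perm (Fin r)) * (3 * (E.Δ : ℝ) ^ P.N) := by
  induction t with
  | zero =>
    have h1 : ∀ ρ : Fin m → Equiv.Perm (Fin r),
        PhiW P E (P.zt 0) (run P E 𝓡 cls τ ρ 0) x ≤ 3 * (E.Δ : ℝ) ^ P.N := fun ρ =>
      pp_zero hr hP hi x
    refine (Finset.sum_le_sum fun ρ _ => h1 ρ).trans ?_
    rw [Finset.sum_const, Finset.card_univ, nsmul_eq_mul]
  | succ t ih => exact (pp_step hr hP hPn h𝓡 hsp hi ht x).trans (ih (by omega))

open Classical in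
/-- probability that a window has not the margin `5 κ` at time `t` -/
theorem prob_dead (hr : 0 < r) (hP : P.Good E) (hPn : P.Good E.neg) (h𝓡 : 𝓡.Valid P E)
    (hsp : SparseCls P E cls) (hi : Ini P E r) (t : ℕ) (ht : t ≤ P.T) (x : α) :
    ((Finset.univ.filter fun ρ : Fin m → Equiv.Perm (Fin r) =>
      ¬ Alive P E (P.zt t) (run P E 𝓡 cls τ ρ t) (5 * P.κ) x).card : ℝ) ≤
      Fintype.card (Fin m → Equiv.Perm (Fin r)) * (3 * (E.Δ : ℝ) ^ P.N * (4 / 5) ^ P.n) := by
  have hκ := hP.κ_pos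
  have key := sum_PhiW (τ := τ) hr hP hPn h𝓡 hsp hi t ht x
  have h0 : ∀ ρ : Fin m → Equiv.Perm (Fin r),
      0 ≤ PhiW P E (P.zt t) (run P E 𝓡 cls τ ρ t) x := fun ρ =>
    Phi_nonneg hr E.herm hκ _ (inv hr hP hPn h𝓡 hsp hi t ht x)
  have h1 : ∀ ρ ∈ Finset.univ.filter fun ρ : Fin m → Equiv.Perm (Fin r) =>
      ¬ Alive P E (P.zt t) (run P E 𝓡 cls τ ρ t) (5 * P.κ) x,
      (5 / 4 : ℝ) ^ P.n ≤ PhiW P E (P.zt t) (run P E 𝓡 cls τ ρ t) x := by
    intro ρ hρ
    have h2 := Phi_ge hr E.herm hκ (a := 5 * P.κ) (by linarith only [hκ]) P.n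
      (inv hr hP hPn h𝓡 hsp hi t ht x (τ := τ) (ρ := ρ)) (Finset.mem_filter.1 hρ).2
    have h3 : 5 * P.κ / (5 * P.κ - P.κ) = 5 / 4 := by
      have : 5 * P.κ - P.κ = 4 * P.κ := by ring
      rw [this]
      field_simp
    rwa [h3] at h2
  have h2 : ((Finset.univ.filter fun ρ : Fin m → Equiv.Perm (Fin r) =>
      ¬ Alive P E (P.zt t) (run P E 𝓡 cls τ ρ t) (5 * P.κ) x).card : ℝ) * (5 / 4 : ℝ) ^ P.n ≤
      ∑ ρ : Fin m → Equiv.Perm (Fin r), PhiW P E (P.zt t) (run P E 𝓡 cls τ ρ t) x := by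
    rw [← nsmul_eq_mul]
    exact (Finset.card_nsmul_le_sum _ _ _ h1).trans
      (Finset.sum_le_univ_sum_of_nonneg h0)
  have h3 := h2.trans key
  have h4 : (0 : ℝ) < (4 / 5 : ℝ) ^ P.n := by positivity
  have h5 : (5 / 4 : ℝ) ^ P.n * (4 / 5 : ℝ) ^ P.n = 1 := by
    rw [← mul_pow]
    norm_num
  have h6 := mul_le_mul_of_nonneg_right h3 h4.le
  rw [mul_assoc, h5, mul_one] at h6
  calc _ ≤ _ := h6
    _ = _ := by ring

end Vale.Agent.P078.T
end

section
/-! T3-E8: the probability of large variations of self energies. -/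

namespace Vale.Agent.P078.T

open Finset Polynomial
open Vale.Agent.P078.C (Herm ZD FB qf yc Q)

variable {α : Type*} [DecidableEq α] {r m : ℕ}
variable {P : Par} {E : Env α} {𝓡 : Rule α r} {cls : α → Fin m} {τ : Fin m → ℕ}
variable {ρ : Fin m → Equiv.Perm (Fin r)} {t : ℕ} {x v : α}

private theorem zt_mono_aux (hP : P.Good E) {s t : ℕ} (h : s ≤ t) : P.zt s ≤ P.zt t := by
  unfold Par.zt
  have h1 : (0 : ℝ) < P.T := by exact_mod_cast hP.T_pos
  have h2 : (s : ℝ) ≤ t := by exact_mod_cast h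
  have h3 := hP.ζ_pos
  have h4 : (s : ℝ) / P.T ≤ t / P.T := by (clear * - h2 h1; gcongr)
  linarith only [mul_nonneg (le_of_lt (sub_pos.2 h3)) (sub_nonneg.2 h4)]

private theorem zt_ge_aux (hP : P.Good E) (t : ℕ) : P.ζ ≤ P.zt t := by
  unfold Par.zt
  have h3 := hP.ζ_pos
  have h4 : (0 : ℝ) ≤ t / P.T := by (clear * -; positivity)
  nlinarith only [h3, h4]

private theorem zt_le_aux (hP : P.Good E) {t : ℕ} (h : t ≤ P.T) : P.zt t ≤ 2 * P.ζ := by
  unfold Par.zt
  have h1 : (0 : ℝ) < P.T := by exact_mod_cast hP.T_pos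
  have h2 : (t : ℝ) ≤ P.T := by exact_mod_cast h
  have h3 := hP.ζ_pos
  have h4 : (t : ℝ) / P.T ≤ 1 := by rw [div_le_one h1]; exact h2
  linarith only [mul_nonneg (le_of_lt (sub_pos.2 h3)) (sub_nonneg.2 h4)]

/-- repeated steps at a fixed base level -/
private theorem HG_steps_aux (hr : 0 < r) (hP : P.Good E) (hPn : P.Good E.neg)
    (h𝓡 : 𝓡.Valid P E) (hsp : SparseCls P E cls) (hτ : P.T ≤ τ (cls x)) {u : ℝ} (t k : ℕ)
    (htk : t + k ≤ P.T) (hu : P.zt (t + k) - 5 / 2 * P.κ ≤ u) (hu2 : u ≤ 3 * P.ζ) :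
    HG P E 𝓡 cls τ x (t + k) u ≤ HG P E 𝓡 cls τ x t u := by
  induction k with
  | zero => simp
  | succ k ih =>
    have h1 : P.zt (t + k) ≤ P.zt (t + (k + 1)) := zt_mono_aux hP (by omega)
    have h2 := ih (by omega) (by linarith only [hu, h1])
    have h3 := HG_step (x := x) hr hP hPn h𝓡 hsp hτ (t := t + k) (by omega) (u := u)
      (by linarith only [h1, hu]) hu2
    exact h3.trans h2

/-- telescoping -/
private theorem telescope_aux (a b : ℕ → ℝ) (T K : ℕ) (c : ℝ) (hK : K ≤ T)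
    (hb : ∀ t, t < T → 0 ≤ b t) (hab : ∀ t, t + K < T → a (t + K) ≤ b t)
    (ha : ∀ t, t < T → a t ≤ c) :
    ∑ t ∈ Finset.range T, (a t - b t) ≤ K * c := by
  rw [Finset.sum_sub_distrib]
  obtain ⟨n, rfl⟩ : ∃ n, T = K + n := ⟨T - K, by omega⟩
  rw [Finset.sum_range_add a K n]
  have h1 : ∑ t ∈ Finset.range n, b t ≤ ∑ t ∈ Finset.range (K + n), b t := by
    refine Finset.sum_le_sum_of_subset_of_nonneg ?_ ?_
    · intro t ht
      simp only [Finset.mem_range] at ht ⊢
      omega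
    · intro t ht _
      exact hb t (Finset.mem_range.1 ht)
  have h2 : ∑ t ∈ Finset.range n, a (K + t) ≤ ∑ t ∈ Finset.range n, b t := by
    refine Finset.sum_le_sum fun t ht => ?_
    have h := Finset.mem_range.1 ht
    have := hab t (by omega)
    rwa [Nat.add_comm t K] at this
  have h3 : ∑ t ∈ Finset.range K, a t ≤ K * c := by
    calc ∑ t ∈ Finset.range K, a t ≤ ∑ _t ∈ Finset.range K, c :=
          Finset.sum_le_sum fun t ht => ha t (by have := Finset.mem_range.1 ht; omega)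
      _ = K * c := by simp only [sum_const, card_range, nsmul_eq_mul]
  linarith only [h1, h2, h3]

/-- the sum over time of the variations of the Green function -/
theorem sum_HG (hr : 0 < r) (hP : P.Good E) (hPn : P.Good E.neg) (h𝓡 : 𝓡.Valid P E)
    (hsp : SparseCls P E cls) (hi : Ini P E r) (hτ : P.T ≤ τ (cls x)) {θ : ℝ} (hθ : θ ∈ P.Θ) :
    ∑ t ∈ Finset.range P.T, (HG P E 𝓡 cls τ x t (P.zt t - 5 / 2 * P.κ) -
      HG P E 𝓡 cls τ x t (P.zt t + θ)) ≤
      P.T * Fintype.card (Fin m → Equiv.Perm (Fin r)) * (5 * θ / P.ζ ^ 2) := by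
  have hζ := hP.ζ_pos
  have hκ := hP.κ_pos
  have hθκ := hP.Θ_ge θ hθ
  have hθζ := hP.Θ_le θ hθ
  have hT := hP.T_ge
  have hT0 : (0 : ℝ) < P.T := by exact_mod_cast hP.T_pos
  have hθ0 : 0 < θ := by linarith only [hκ, hθκ]
  obtain ⟨K, hK⟩ : ∃ K : ℕ, K = ⌈(θ + 5 / 2 * P.κ) * P.T / P.ζ⌉₊ := ⟨_, rfl⟩
  have hK1 : (θ + 5 / 2 * P.κ) * P.T / P.ζ ≤ K := hK ▸ Nat.le_ceil _
  have hK2 : (K : ℝ) < (θ + 5 / 2 * P.κ) * P.T / P.ζ + 1 :=
    hK ▸ Nat.ceil_lt_add_one (by (clear * - hθ0 hκ hT0 hζ; positivity))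
  have hK1' : (θ + 5 / 2 * P.κ) * P.T ≤ K * P.ζ := by
    rwa [div_le_iff₀ hζ] at hK1
  have hK2' : (K : ℝ) * P.ζ ≤ 11 / 10 * θ * P.T := by
    have h1 : (K : ℝ) * P.ζ ≤ (θ + 5 / 2 * P.κ) * P.T + P.ζ := by
      have h2 : ((θ + 5 / 2 * P.κ) * P.T / P.ζ + 1) * P.ζ = (θ + 5 / 2 * P.κ) * P.T + P.ζ := by
        (clear * - hζ hθ0 hκ hT0; field_simp)
      rw [← h2]
      exact mul_le_mul_of_nonneg_right hK2.le hζ.le
    have h3 : 29 * P.κ * P.T ≤ θ * P.T := mul_le_mul_of_nonneg_right hθκ hT0.le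
    nlinarith only [hκ, hT, h1, h3]
  have hKT : K ≤ P.T := by
    have h1 : (K : ℝ) * P.ζ ≤ P.T * P.ζ := by
      have h3 : 2 * θ * P.T ≤ P.ζ * P.T := mul_le_mul_of_nonneg_right hθζ hT0.le
      nlinarith only [hκ, hK1', hK2', h3]
    exact_mod_cast le_of_mul_le_mul_right h1 hζ
  have key := telescope_aux (fun t => HG P E 𝓡 cls τ x t (P.zt t - 5 / 2 * P.κ))
    (fun t => HG P E 𝓡 cls τ x t (P.zt t + θ)) P.T K
    (Fintype.card (Fin m → Equiv.Perm (Fin r)) * (4 / P.ζ)) hKT ?_ ?_ ?_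
  · refine key.trans ?_
    have hc : (0 : ℝ) ≤ Fintype.card (Fin m → Equiv.Perm (Fin r)) := by (clear * -; positivity)
    have h1 : (K : ℝ) * (Fintype.card (Fin m → Equiv.Perm (Fin r)) * (4 / P.ζ)) =
        (K * P.ζ) * Fintype.card (Fin m → Equiv.Perm (Fin r)) * (4 / P.ζ ^ 2) := by
      (clear * - hζ; field_simp)
    rw [h1]
    have h2 : (P.T : ℝ) * Fintype.card (Fin m → Equiv.Perm (Fin r)) * (5 * θ / P.ζ ^ 2) =
        (5 / 4 * θ * P.T) * Fintype.card (Fin m → Equiv.Perm (Fin r)) * (4 / P.ζ ^ 2) := by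
      ring
    rw [h2]
    refine mul_le_mul_of_nonneg_right (mul_le_mul_of_nonneg_right ?_ hc) (by positivity)
    have h3 : 0 < θ * P.T := by (clear * - hθ0 hT0; positivity)
    nlinarith only [hκ, hK1', hK2']
  · intro t ht
    exact (HG_anti (x := x) hr hP hτ ht.le (u := P.zt t + θ) (u' := P.zt t + θ)
      (by linarith only [hκ, hθκ]) le_rfl).1
  · intro t ht
    have h0 : P.zt t + θ ≤ P.zt (t + K) - 5 / 2 * P.κ := by
      have h1 : P.zt (t + K) = P.zt t + K * P.ζ / P.T := by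
        unfold Par.zt
        push_cast
        field_simp
        ring
      have h2 : θ + 5 / 2 * P.κ ≤ K * P.ζ / P.T := by
        rw [le_div_iff₀ hT0]
        exact hK1'
      linarith only [h1, h2]
    have h1 := HG_steps_aux (x := x) hr hP hPn h𝓡 hsp hτ
      (u := P.zt (t + K) - 5 / 2 * P.κ) t K ht.le le_rfl
      (by linarith only [hκ, hθκ, hθζ, zt_le_aux hP (t := t + K) ht.le])
    have h2 := (HG_anti (E := E) (𝓡 := 𝓡) (cls := cls) (x := x) hr hP hτ (t := t) (by (clear * - hK ht; omega))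
      (u := P.zt t + θ) (u' := P.zt (t + K) - 5 / 2 * P.κ) (by linarith only [hκ, hθκ]) h0).2
    exact h1.trans h2
  · intro t ht
    have h0 : P.ζ ≤ P.zt t := zt_ge_aux hP t
    have h1 := HG_steps_aux (x := x) hr hP hPn h𝓡 hsp hτ
      (u := P.zt t - 5 / 2 * P.κ) 0 t (by omega) (by simp only [zero_add, Std.le_refl])
      (by linarith only [hκ, hθκ, hθζ, zt_le_aux hP (t := t) ht.le])
    simp only [Nat.zero_add] at h1
    exact h1.trans (HG_zero hr hP hi (by linarith only [h0]))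

open Classical in
/-- number of bad times and permutations -/
theorem prob_diff (hr : 0 < r) (hP : P.Good E) (hPn : P.Good E.neg) (h𝓡 : 𝓡.Valid P E)
    (hsp : SparseCls P E cls) (hi : Ini P E r) (hτ : P.T ≤ τ (cls x)) {θ : ℝ} (hθ : θ ∈ P.Θ) :
    ∑ t ∈ Finset.range P.T, ((Finset.univ.filter fun ρ : Fin m → Equiv.Perm (Fin r) =>
      Alv P E 𝓡 cls τ ρ t x ∧ ∃ a, P.Λ / 2 * θ <
        sw P E (P.zt t) (run P E 𝓡 cls τ ρ t) x x (-(5 / 2 * P.κ)) a -
        sw P E (P.zt t) (run P E 𝓡 cls τ ρ t) x x θ a).card : ℝ) ≤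
      P.T * Fintype.card (Fin m → Equiv.Perm (Fin r)) * (90 * r / P.Λ) := by
  have hζ := hP.ζ_pos
  have hκ := hP.κ_pos
  have hθκ := hP.Θ_ge θ hθ
  have hΛ := hP.Λ_ge
  have hθ0 : 0 < θ := by linarith only [hκ, hθκ]
  have hΛ0 : 0 < P.Λ := by linarith only [hΛ]
  have hr0 : (0 : ℝ) < r := by exact_mod_cast hr
  have key : ∀ t ∈ Finset.range P.T,
      ((Finset.univ.filter fun ρ : Fin m → Equiv.Perm (Fin r) =>
      Alv P E 𝓡 cls τ ρ t x ∧ ∃ a, P.Λ / 2 * θ <
        sw P E (P.zt t) (run P E 𝓡 cls τ ρ t) x x (-(5 / 2 * P.κ)) a -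
        sw P E (P.zt t) (run P E 𝓡 cls τ ρ t) x x θ a).card : ℝ) ≤
      (18 * r * P.ζ ^ 2 / (P.Λ * θ)) * (HG P E 𝓡 cls τ x t (P.zt t - 5 / 2 * P.κ) -
        HG P E 𝓡 cls τ x t (P.zt t + θ)) := by
    intro t ht
    have htT := Finset.mem_range.1 ht
    unfold HG
    rw [← Finset.sum_sub_distrib, Finset.mul_sum, Finset.card_filter]
    push_cast
    refine Finset.sum_le_sum fun ρ _ => ?_
    have hx0 : run P E 𝓡 cls τ ρ t x = none := run_none_iff.2 (by omega)
    by_cases hA : Alv P E 𝓡 cls τ ρ t x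
    · have hA' := hA t le_rfl
      simp only [hA, true_and, if_true]
      have hm := GW_mono hr hP (S := run P E 𝓡 cls τ ρ t) (S' := run P E 𝓡 cls τ ρ t)
        (x := x) (z := P.zt t) (b := 4 * P.κ) (u := P.zt t - 5 / 2 * P.κ) (u' := P.zt t + θ)
        (by linarith only [hκ]) (by linarith only [hθκ, hκ]) hA' (by rw [hx0]; simp) (by rw [hx0]; simp)
        (fun v _ => Or.inl rfl) (fun v h => h)
      split_ifs with hex
      · obtain ⟨a, ha⟩ := hex
        have h1 := GW_sub_ge hr hP (zt_ge_aux hP t) (zt_le_aux hP htT.le) hx0 hA' hθ a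
        have h2 : P.Λ / 2 * θ / r < (3 * P.ζ) ^ 2 * (GW P E (P.zt t - 5 / 2 * P.κ)
            (run P E 𝓡 cls τ ρ t) x - GW P E (P.zt t + θ) (run P E 𝓡 cls τ ρ t) x) :=
          lt_of_lt_of_le (div_lt_div_of_pos_right ha hr0) h1
        have h3 : (18 * r * P.ζ ^ 2 / (P.Λ * θ)) * (GW P E (P.zt t - 5 / 2 * P.κ)
            (run P E 𝓡 cls τ ρ t) x - GW P E (P.zt t + θ) (run P E 𝓡 cls τ ρ t) x) =
            (2 * r / (P.Λ * θ)) * ((3 * P.ζ) ^ 2 * (GW P E (P.zt t - 5 / 2 * P.κ)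
            (run P E 𝓡 cls τ ρ t) x - GW P E (P.zt t + θ) (run P E 𝓡 cls τ ρ t) x)) := by
          ring
        rw [h3]
        have h4 : (1 : ℝ) = (2 * r / (P.Λ * θ)) * (P.Λ / 2 * θ / r) := by
          (clear * - hr hΛ hθ0; field_simp)
        calc (1 : ℝ) = (2 * r / (P.Λ * θ)) * (P.Λ / 2 * θ / r) := h4
          _ ≤ _ := mul_le_mul_of_nonneg_left h2.le (by positivity)
      · exact mul_nonneg (by (clear * - hr hζ hΛ hθ0; positivity)) (sub_nonneg.2 hm.2)
    · simp only [hA, false_and, ↓reduceIte, sub_self, mul_zero, Std.le_refl]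
  refine (Finset.sum_le_sum key).trans ?_
  rw [← Finset.mul_sum]
  have h1 := sum_HG hr hP hPn h𝓡 hsp hi hτ hθ (x := x)
  calc _ ≤ (18 * r * P.ζ ^ 2 / (P.Λ * θ)) *
        (P.T * Fintype.card (Fin m → Equiv.Perm (Fin r)) * (5 * θ / P.ζ ^ 2)) :=
        mul_le_mul_of_nonneg_left h1 (by (clear * - hr hζ hΛ hθ0; positivity))
    _ = _ := by
        field_simp
        ring

end Vale.Agent.P078.T
end

section
/-! T3-E9: the probability of deletion. -/

namespace Vale.Agent.P078.T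

open Finset Polynomial
open Vale.Agent.P078.C (Herm ZD FB qf yc Q)

variable {α : Type*} [DecidableEq α] {r m : ℕ}
variable {P : Par} {E : Env α} {𝓡 : Rule α r} {cls : α → Fin m} {τ : Fin m → ℕ}
variable {ρ : Fin m → Equiv.Perm (Fin r)} {t : ℕ} {x v : α}

private theorem pd_neg_neg (E : Env α) : E.neg.neg = E := by
  cases E
  simp only [Env.neg, neg_neg]

private theorem pd_run_neg : run P E.neg 𝓡 cls τ ρ t = run P E 𝓡 cls τ ρ t := by
  induction t with
  | zero => rfl
  | succ t ih =>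
    show step P E.neg 𝓡 cls τ ρ t (run P E.neg 𝓡 cls τ ρ t) = step P E 𝓡 cls τ ρ t (run P E 𝓡 cls τ ρ t)
    rw [ih]
    rfl

private theorem pd_valid_neg (h : 𝓡.Valid P E) : 𝓡.Valid P E.neg where
  weak := fun t ht S o h1 h2 => by
    rw [pd_neg_neg]
    exact (h.weak t ht S o h1 h2).symm
  strong := fun t ht S o h1 h2 h3 => by
    rw [pd_neg_neg] at h3
    exact h.strong t ht S o h1 h3 h2
  allow_weak := fun t ht S o h1 h2 a ha => by
    rw [pd_neg_neg]
    exact (h.allow_weak t ht S o h1 h2 a ha).symm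
  allow_strong := fun t ht S o h1 h2 a h3 h4 => by
    rw [pd_neg_neg] at h4
    exact h.allow_strong t ht S o h1 h2 a h4 h3
  pick_mem := h.pick_mem
  pick_unif := h.pick_unif

private theorem pd_sum_upd {A : Type*} [Fintype A] (j : Fin m) (F : (Fin m → A) → ℝ) :
    Fintype.card A * ∑ ω, F ω = ∑ ω, ∑ v : A, F (Function.update ω j v) := by
  have h : ∑ p : (Fin m → A) × A, F (Function.update p.1 j p.2) = ∑ p : (Fin m → A) × A, F p.1 := by
    refine Fintype.sum_equiv
      { toFun := fun p => (Function.update p.1 j p.2, p.1 j)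
        invFun := fun p => (Function.update p.1 j p.2, p.1 j)
        left_inv := fun p => by simp only [Function.update_idem, Function.update_eq_self, Function.update_self, Prod.mk.eta]
        right_inv := fun p => by simp } _ _ fun p => rfl
  rw [Fintype.sum_prod_type, Fintype.sum_prod_type] at h
  rw [h]
  simp only [Finset.sum_const, Finset.card_univ, nsmul_eq_mul, Finset.mul_sum]

private theorem pd_mono {Ω : Type*} [Fintype Ω] {p q : Ω → Prop}
    {i1 : DecidablePred p} {i2 : DecidablePred q} (h : ∀ ω, p ω → q ω) :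
    ((Finset.univ.filter p).card : ℝ) ≤ ((Finset.univ.filter q).card : ℝ) := by
  have h1 : Finset.univ.filter p ⊆ Finset.univ.filter q := by
    intro ω hω
    simp only [Finset.mem_filter, Finset.mem_univ, true_and] at hω ⊢
    exact h ω hω
  exact_mod_cast Finset.card_le_card h1

private theorem pd_ite {Ω : Type*} [Fintype Ω] {p : Ω → Prop}
    {i1 : DecidablePred p} {i2 : DecidablePred p} :
    ∑ ω, (@ite ℝ (p ω) (i1 ω) 1 0) ≤ ((@Finset.filter Ω p i2 Finset.univ).card : ℝ) := by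
  rw [Finset.card_filter]
  push_cast
  refine Finset.sum_le_sum fun ω _ => ?_
  by_cases h : p ω
  · rw [if_pos h, if_pos h]
  · rw [if_neg h, if_neg h]

private theorem pd_union {ι Ω : Type*} [Fintype Ω] (s : Finset ι) (p : ι → Ω → Prop)
    [DecidablePred fun ω => ∃ i ∈ s, p i ω] [∀ i, DecidablePred (p i)] :
    ((Finset.univ.filter fun ω => ∃ i ∈ s, p i ω).card : ℝ) ≤
      ∑ i ∈ s, ((Finset.univ.filter (p i)).card : ℝ) := by
  classical
  have h : (Finset.univ.filter fun ω => ∃ i ∈ s, p i ω) ⊆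
      s.biUnion fun i => Finset.univ.filter (p i) := by
    intro ω hω
    simp only [Finset.mem_filter, Finset.mem_univ, true_and] at hω
    obtain ⟨i, hi, h⟩ := hω
    simp only [Finset.mem_biUnion, Finset.mem_filter, Finset.mem_univ, true_and]
    exact ⟨i, hi, h⟩
  exact_mod_cast (Finset.card_le_card h).trans Finset.card_biUnion_le

private theorem pd_prod {Ω₁ Ω₂ : Type*} [Fintype Ω₁] [Fintype Ω₂] (p : Ω₁ × Ω₂ → Prop)
    [DecidablePred p] [∀ a, DecidablePred fun b => p (a, b)] :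
    ((Finset.univ.filter p).card : ℝ) =
      ∑ a, ((Finset.univ.filter fun b => p (a, b)).card : ℝ) := by
  simp only [Finset.card_filter, Nat.cast_sum]
  rw [Fintype.sum_prod_type]

private theorem pd_alive_mono (hr : 0 < r) {z : ℝ} {S : α → St r} {b b' : ℝ} (h : b ≤ b')
    (hA : Alive P E z S b' x) : Alive P E z S b x :=
  Safe.mono hr E.herm hA fun i _ => by linarith only [h]

private theorem pd_delta (hP : P.Good E) (x : α) : 1 ≤ E.Δ := by
  have hN : 2 * P.N ≤ E.rad := hP.rad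
  have h1 : x ∈ E.ball P.N x := by
    rw [E.mem_ball _ (by omega), E.d_self]
    exact Nat.zero_le _
  have h2 : 1 ≤ E.Δ ^ P.N := (Finset.card_pos.2 ⟨x, h1⟩).trans_le (E.card_ball _ (by omega) x)
  have hR := hP.R_pos
  have h3 : P.N ≠ 0 := by
    unfold Par.N
    omega
  rcases Nat.eq_zero_or_pos E.Δ with h | h
  · rw [h, zero_pow h3] at h2
    omega
  · exact h

open Classical in
private theorem pd_bad1 (hr : 0 < r) (hP : P.Good E) (hPn : P.Good E.neg) (h𝓡 : 𝓡.Valid P E)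
    (hsp : SparseCls P E cls) (hi : Ini P E r) (t : ℕ) (ht : t ≤ P.T) (x : α) :
    ((Finset.univ.filter fun ρ : Fin m → Equiv.Perm (Fin r) =>
      ∃ x' ∈ E.ball P.N x, ¬ Alive P E (P.zt t) (run P E 𝓡 cls τ ρ t) (5 * P.κ) x').card : ℝ) ≤
      Fintype.card (Fin m → Equiv.Perm (Fin r)) *
        (3 * (E.Δ : ℝ) ^ (2 * P.N) * (4 / 5) ^ P.n) := by
  have h0 := pd_union (E.ball P.N x) (fun x' (ρ : Fin m → Equiv.Perm (Fin r)) =>
    ¬ Alive P E (P.zt t) (run P E 𝓡 cls τ ρ t) (5 * P.κ) x')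
  have h0' := Finset.sum_le_sum (s := E.ball P.N x) fun x' _ =>
    prob_dead (τ := τ) hr hP hPn h𝓡 hsp hi t ht x'
  refine h0.trans (h0'.trans ?_)
  rw [Finset.sum_const, nsmul_eq_mul]
  have h1 : ((E.ball P.N x).card : ℝ) ≤ (E.Δ : ℝ) ^ P.N := by
    have := hP.rad
    exact_mod_cast E.card_ball _ (by omega) x
  have h2 : (0 : ℝ) ≤ Fintype.card (Fin m → Equiv.Perm (Fin r)) *
      (3 * (E.Δ : ℝ) ^ P.N * (4 / 5) ^ P.n) := by (clear * -; positivity)
  refine (mul_le_mul_of_nonneg_right h1 h2).trans (le_of_eq ?_)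
  rw [two_mul, pow_add]
  ring

open Classical in
private theorem pd_bad2 (hr : 0 < r) (hP : P.Good E) (hPn : P.Good E.neg) (h𝓡 : 𝓡.Valid P E)
    (hsp : SparseCls P E cls) (hi : Ini P E r) (t : ℕ) (ht : t < P.T) (x : α) :
    ((Finset.univ.filter fun ρ : Fin m → Equiv.Perm (Fin r) =>
      ∃ s ∈ Finset.range (t + 1),
        ¬ Alive P E (P.zt s) (run P E 𝓡 cls τ ρ s) (5 * P.κ) x).card : ℝ) ≤
      Fintype.card (Fin m → Equiv.Perm (Fin r)) *
        (P.T * (3 * (E.Δ : ℝ) ^ (2 * P.N) * (4 / 5) ^ P.n)) := by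
  have h0 := pd_union (Finset.range (t + 1)) (fun s (ρ : Fin m → Equiv.Perm (Fin r)) =>
    ¬ Alive P E (P.zt s) (run P E 𝓡 cls τ ρ s) (5 * P.κ) x)
  have h0' := Finset.sum_le_sum (s := Finset.range (t + 1)) fun s hs =>
    prob_dead (τ := τ) hr hP hPn h𝓡 hsp hi s (by have := Finset.mem_range.1 hs; omega) x
  refine h0.trans (h0'.trans ?_)
  rw [Finset.sum_const, nsmul_eq_mul, Finset.card_range]
  have h1 : ((t + 1 : ℕ) : ℝ) ≤ P.T := by exact_mod_cast ht
  have hΔ : (1 : ℝ) ≤ E.Δ := by exact_mod_cast pd_delta hP x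
  have h3 : (E.Δ : ℝ) ^ P.N ≤ (E.Δ : ℝ) ^ (2 * P.N) := pow_le_pow_right₀ hΔ (by omega)
  have h4 : (3 * (E.Δ : ℝ) ^ P.N * (4 / 5) ^ P.n) ≤ 3 * (E.Δ : ℝ) ^ (2 * P.N) * (4 / 5) ^ P.n := by
    have : (0 : ℝ) ≤ (4 / 5) ^ P.n := by positivity
    linarith only [mul_nonneg (sub_nonneg.2 h3) (sub_nonneg.2 this)]
  calc ((t + 1 : ℕ) : ℝ) * (Fintype.card (Fin m → Equiv.Perm (Fin r)) *
      (3 * (E.Δ : ℝ) ^ P.N * (4 / 5) ^ P.n))
      ≤ P.T * (Fintype.card (Fin m → Equiv.Perm (Fin r)) *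
      (3 * (E.Δ : ℝ) ^ (2 * P.N) * (4 / 5) ^ P.n)) :=
        mul_le_mul h1 (mul_le_mul_of_nonneg_left h4 (by (clear * -; positivity))) (by positivity) (by (clear * -; positivity))
    _ = _ := by ring

/-- the third bad event -/
private def BadC (P : Par) (E : Env α) (𝓡 : Rule α r) (cls : α → Fin m) (τ : Fin m → ℕ)
    (ρ : Fin m → Equiv.Perm (Fin r)) (x : α) (θ : ℝ) (t : ℕ) : Prop :=
  Alv P E 𝓡 cls τ ρ t x ∧ ∃ a, P.Λ / 2 * θ <
    sw P E (P.zt t) (run P E 𝓡 cls τ ρ t) x x (-(5 / 2 * P.κ)) a -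
    sw P E (P.zt t) (run P E 𝓡 cls τ ρ t) x x θ a

private theorem pd_run_upd {s : ℕ} (h1 : s ≤ τ (cls x)) (h2 : s ≤ P.T) :
    run P E 𝓡 cls (Function.update τ (cls x) P.T) ρ s = run P E 𝓡 cls τ ρ s := by
  refine run_congr fun j => ?_
  by_cases hj : j = cls x
  · subst hj
    right
    simp [h1, h2]
  · left
    simp [Function.update_of_ne hj]

private theorem pd_badC_upd {θ : ℝ} {t : ℕ} (h1 : t ≤ τ (cls x)) (h2 : t ≤ P.T) :
    BadC P E 𝓡 cls (Function.update τ (cls x) P.T) ρ x θ t ↔ BadC P E 𝓡 cls τ ρ x θ t := by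
  unfold BadC
  rw [pd_run_upd h1 h2]
  have : Alv P E 𝓡 cls (Function.update τ (cls x) P.T) ρ t x ↔ Alv P E 𝓡 cls τ ρ t x := by
    unfold Alv
    refine forall_congr' fun s => forall_congr' fun hs => ?_
    rw [pd_run_upd (hs.trans h1) (hs.trans h2)]
  rw [this]

open Classical in
private theorem pd_bad3 (hr : 0 < r) (hP : P.Good E) (hPn : P.Good E.neg) (h𝓡 : 𝓡.Valid P E)
    (hsp : SparseCls P E cls) (hi : Ini P E r) (x : α) {θ : ℝ} (hθ : θ ∈ P.Θ) :
    ∑ ω : Fin m → Fin P.T, ((Finset.univ.filter fun ρ : Fin m → Equiv.Perm (Fin r) =>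
      BadC P E 𝓡 cls (fun j => (ω j : ℕ)) ρ x θ (ω (cls x) : ℕ)).card : ℝ) ≤
      Fintype.card (Fin m → Fin P.T) * Fintype.card (Fin m → Equiv.Perm (Fin r)) *
        (90 * r / P.Λ) := by
  set G : (Fin m → Fin P.T) → ℕ → ℝ := fun ω t =>
    ((Finset.univ.filter fun ρ : Fin m → Equiv.Perm (Fin r) =>
      BadC P E 𝓡 cls (Function.update (fun j => (ω j : ℕ)) (cls x) P.T) ρ x θ t).card : ℝ) with hG
  have h1 : ∀ ω : Fin m → Fin P.T, ((Finset.univ.filter fun ρ : Fin m → Equiv.Perm (Fin r) =>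
      BadC P E 𝓡 cls (fun j => (ω j : ℕ)) ρ x θ (ω (cls x) : ℕ)).card : ℝ) =
      G ω (ω (cls x) : ℕ) := by
    intro ω
    have h0 : ∀ ρ : Fin m → Equiv.Perm (Fin r),
        BadC P E 𝓡 cls (fun j => (ω j : ℕ)) ρ x θ (ω (cls x) : ℕ) =
        BadC P E 𝓡 cls (Function.update (fun j => (ω j : ℕ)) (cls x) P.T) ρ x θ
          (ω (cls x) : ℕ) := fun ρ =>
      propext (pd_badC_upd (τ := fun j => (ω j : ℕ)) le_rfl (ω (cls x)).isLt.le).symm
    simp only [hG, h0]
  simp only [h1]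
  have h2 := pd_sum_upd (cls x) (fun ω : Fin m → Fin P.T => G ω (ω (cls x) : ℕ))
  have h3 : ∀ ω : Fin m → Fin P.T, ∀ v : Fin P.T,
      G (Function.update ω (cls x) v) ((Function.update ω (cls x) v) (cls x) : ℕ) = G ω (v : ℕ) := by
    intro ω v
    simp only [hG, Function.update_self]
    have : Function.update (fun j => ((Function.update ω (cls x) v) j : ℕ)) (cls x) P.T =
        Function.update (fun j => (ω j : ℕ)) (cls x) P.T := by
      funext j
      by_cases hj : j = cls x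
      · subst hj
        simp
      · simp [Function.update_of_ne hj]
    rw [this]
  simp only [h3, Fintype.card_fin] at h2
  have h4 : ∀ ω : Fin m → Fin P.T, ∑ v : Fin P.T, G ω (v : ℕ) ≤
      P.T * Fintype.card (Fin m → Equiv.Perm (Fin r)) * (90 * r / P.Λ) := by
    intro ω
    rw [Fin.sum_univ_eq_sum_range (fun t => G ω t) P.T]
    refine le_trans (Finset.sum_le_sum fun t _ => ?_)
      (prob_diff (τ := Function.update (fun j => (ω j : ℕ)) (cls x) P.T) hr hP hPn h𝓡 hsp hi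
        (by rw [Function.update_self]) hθ)
    exact pd_mono fun ρ h => h
  have h5 : (P.T : ℝ) * ∑ ω : Fin m → Fin P.T, G ω (ω (cls x) : ℕ) ≤
      P.T * (Fintype.card (Fin m → Fin P.T) * Fintype.card (Fin m → Equiv.Perm (Fin r)) *
        (90 * r / P.Λ)) := by
    rw [h2]
    refine (Finset.sum_le_sum fun ω _ => h4 ω).trans (le_of_eq ?_)
    rw [Finset.sum_const, Finset.card_univ, nsmul_eq_mul]
    ring
  have hT : (0 : ℝ) < P.T := by exact_mod_cast hP.T_pos
  exact le_of_mul_le_mul_left h5 hT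

open Classical in
private theorem pd_not_keep (hr : 0 < r) (hP : P.Good E) {t : ℕ}
    (h : ¬ Keep P E (5 * P.κ) (P.Λ / 2) (P.zt t) (run P E 𝓡 cls τ ρ t) x) :
    (∃ x' ∈ E.ball P.N x, ¬ Alive P E (P.zt t) (run P E 𝓡 cls τ ρ t) (5 * P.κ) x') ∨
    (∃ s ∈ Finset.range (t + 1), ¬ Alive P E (P.zt s) (run P E 𝓡 cls τ ρ s) (5 * P.κ) x) ∨
    ∃ θ ∈ P.Θ, BadC P E 𝓡 cls τ ρ x θ t := by
  by_contra hc
  simp only [not_or, not_exists, not_and, not_not] at hc
  obtain ⟨h1, h2, h3⟩ := hc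
  refine h ⟨h1, fun a θ hθ => ?_⟩
  by_contra h4
  refine h3 θ hθ ⟨fun s hs => ?_, a, not_le.1 h4⟩
  have hκ := hP.κ_pos
  exact pd_alive_mono hr (by linarith only [hκ]) (h2 s (Finset.mem_range.2 (by omega)))

open Classical in
private theorem pd_total (hr : 0 < r) (hP : P.Good E) (hPn : P.Good E.neg) (h𝓡 : 𝓡.Valid P E)
    (hsp : SparseCls P E cls) (hi : Ini P E r) (x : α) :
    ∑ ω : Fin m → Fin P.T, ((Finset.univ.filter fun ρ : Fin m → Equiv.Perm (Fin r) =>
      ¬ Keep P E (5 * P.κ) (P.Λ / 2) (P.zt (ω (cls x) : ℕ))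
        (run P E 𝓡 cls (fun j => (ω j : ℕ)) ρ (ω (cls x) : ℕ)) x).card : ℝ) ≤
      Fintype.card (Fin m → Fin P.T) * Fintype.card (Fin m → Equiv.Perm (Fin r)) *
        (3 * (P.T + 1) * (E.Δ : ℝ) ^ (2 * P.N) * (4 / 5) ^ P.n + 90 * r * P.Θ.card / P.Λ) := by
  have hstep : ∀ ω : Fin m → Fin P.T, ((Finset.univ.filter fun ρ : Fin m → Equiv.Perm (Fin r) =>
      ¬ Keep P E (5 * P.κ) (P.Λ / 2) (P.zt (ω (cls x) : ℕ))
        (run P E 𝓡 cls (fun j => (ω j : ℕ)) ρ (ω (cls x) : ℕ)) x).card : ℝ) ≤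
      Fintype.card (Fin m → Equiv.Perm (Fin r)) *
        (3 * (E.Δ : ℝ) ^ (2 * P.N) * (4 / 5) ^ P.n) +
      Fintype.card (Fin m → Equiv.Perm (Fin r)) *
        (P.T * (3 * (E.Δ : ℝ) ^ (2 * P.N) * (4 / 5) ^ P.n)) +
      ∑ θ ∈ P.Θ, ((Finset.univ.filter fun ρ : Fin m → Equiv.Perm (Fin r) =>
        BadC P E 𝓡 cls (fun j => (ω j : ℕ)) ρ x θ (ω (cls x) : ℕ)).card : ℝ) := by
    intro ω
    have h1 := pd_bad1 (τ := fun j => (ω j : ℕ)) hr hP hPn h𝓡 hsp hi (ω (cls x) : ℕ)
      (ω (cls x)).isLt.le x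
    have h2 := pd_bad2 (τ := fun j => (ω j : ℕ)) hr hP hPn h𝓡 hsp hi (ω (cls x) : ℕ)
      (ω (cls x)).isLt x
    have h3 := pd_union P.Θ (fun θ (ρ : Fin m → Equiv.Perm (Fin r)) =>
        BadC P E 𝓡 cls (fun j => (ω j : ℕ)) ρ x θ (ω (cls x) : ℕ))
    refine le_trans ?_ (add_le_add (add_le_add h1 h2) h3)
    have h4 : (Finset.univ.filter fun ρ : Fin m → Equiv.Perm (Fin r) =>
      ¬ Keep P E (5 * P.κ) (P.Λ / 2) (P.zt (ω (cls x) : ℕ))
        (run P E 𝓡 cls (fun j => (ω j : ℕ)) ρ (ω (cls x) : ℕ)) x) ⊆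
      ((Finset.univ.filter fun ρ : Fin m → Equiv.Perm (Fin r) =>
        ∃ x' ∈ E.ball P.N x, ¬ Alive P E (P.zt (ω (cls x) : ℕ))
          (run P E 𝓡 cls (fun j => (ω j : ℕ)) ρ (ω (cls x) : ℕ)) (5 * P.κ) x') ∪
      (Finset.univ.filter fun ρ : Fin m → Equiv.Perm (Fin r) =>
        ∃ s ∈ Finset.range ((ω (cls x) : ℕ) + 1),
          ¬ Alive P E (P.zt s) (run P E 𝓡 cls (fun j => (ω j : ℕ)) ρ s) (5 * P.κ) x)) ∪
      (Finset.univ.filter fun ρ : Fin m → Equiv.Perm (Fin r) =>
        ∃ θ ∈ P.Θ, BadC P E 𝓡 cls (fun j => (ω j : ℕ)) ρ x θ (ω (cls x) : ℕ)) := by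
      intro ρ hρ
      simp only [Finset.mem_filter, Finset.mem_univ, true_and] at hρ
      simp only [Finset.mem_union, Finset.mem_filter, Finset.mem_univ, true_and]
      rcases pd_not_keep hr hP hρ with h | h | h
      · exact Or.inl (Or.inl h)
      · exact Or.inl (Or.inr h)
      · exact Or.inr h
    have h5 := (Finset.card_le_card h4).trans ((Finset.card_union_le _ _).trans
      (Nat.add_le_add_right (Finset.card_union_le _ _) _))
    exact_mod_cast h5
  refine (Finset.sum_le_sum fun ω _ => hstep ω).trans ?_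
  rw [Finset.sum_add_distrib, Finset.sum_comm, Finset.sum_const, Finset.card_univ, nsmul_eq_mul]
  refine (add_le_add_right (Finset.sum_le_sum fun θ hθ => pd_bad3 hr hP hPn h𝓡 hsp hi x hθ) _).trans
    (le_of_eq ?_)
  rw [Finset.sum_const, nsmul_eq_mul]
  ring

open Classical in
private theorem pd_tie (hP : P.Good E) (hsp : SparseCls P E cls) (x : α) :
    ((Finset.univ.filter fun ω : Fin m → Fin P.T =>
      ∃ w ∈ E.ball (2 * P.N) x, w ≠ x ∧ ω (cls w) = ω (cls x)).card : ℝ) ≤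
      Fintype.card (Fin m → Fin P.T) * ((E.Δ : ℝ) ^ (2 * P.N) / P.T) := by
  have hT : (0 : ℝ) < P.T := by exact_mod_cast hP.T_pos
  have h0 := pd_union (E.ball (2 * P.N) x) (fun w (ω : Fin m → Fin P.T) =>
    w ≠ x ∧ ω (cls w) = ω (cls x))
  refine (pd_mono fun ω h => h).trans (h0.trans ?_)
  have h1 : ∀ w ∈ E.ball (2 * P.N) x, ((Finset.univ.filter fun ω : Fin m → Fin P.T =>
      w ≠ x ∧ ω (cls w) = ω (cls x)).card : ℝ) ≤ Fintype.card (Fin m → Fin P.T) / P.T := by
    intro w hw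
    by_cases hwx : w = x
    · simp only [hwx, ne_eq, not_true_eq_false, false_and, Finset.filter_false, Finset.card_empty,
        Nat.cast_zero]
      positivity
    have hd : E.d x w ≤ 2 * P.N := (E.mem_ball _ hP.rad x w).1 hw
    have hc : cls w ≠ cls x := by
      intro h
      have := hsp w x hwx h
      rw [E.d_symm] at this
      omega
    have h2 := pd_sum_upd (cls w) (fun ω : Fin m → Fin P.T =>
      if ω (cls w) = ω (cls x) then (1 : ℝ) else 0)
    simp only [Function.update_self, Function.update_of_ne hc.symm, Finset.sum_ite_eq',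
      Finset.mem_univ, if_true, Fintype.card_fin, Finset.sum_const, Finset.card_univ,
      nsmul_eq_mul, mul_one] at h2
    rw [le_div_iff₀ hT]
    simp only [ne_eq, hwx, not_false_eq_true, true_and]
    rw [mul_comm]
    refine le_trans (le_of_eq ?_) h2.le
    simp only [Finset.card_filter, Nat.cast_sum, Nat.cast_ite, Nat.cast_one, Nat.cast_zero]
  refine (Finset.sum_le_sum h1).trans ?_
  rw [Finset.sum_const, nsmul_eq_mul]
  have h3 : ((E.ball (2 * P.N) x).card : ℝ) ≤ (E.Δ : ℝ) ^ (2 * P.N) := by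
    exact_mod_cast E.card_ball _ hP.rad x
  calc ((E.ball (2 * P.N) x).card : ℝ) * (Fintype.card (Fin m → Fin P.T) / P.T)
      ≤ (E.Δ : ℝ) ^ (2 * P.N) * (Fintype.card (Fin m → Fin P.T) / P.T) :=
        mul_le_mul_of_nonneg_right h3 (by (clear * - hT; (clear * - hT; positivity)))
    _ = _ := by ring

private theorem pd_deleted (h𝓡 : 𝓡.Valid P E) (hlt : τ (cls x) < P.T)
    (h : run P E 𝓡 cls τ ρ P.T x = some none) :
    (∃ w ∈ E.ball (2 * P.N) x, w ≠ x ∧ τ (cls w) = τ (cls x)) ∨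
    ¬ Keep P E (5 * P.κ) (P.Λ / 2) (P.zt (τ (cls x))) (run P E 𝓡 cls τ ρ (τ (cls x))) x ∨
    ¬ Keep P E.neg (5 * P.κ) (P.Λ / 2) (P.zt (τ (cls x))) (run P E 𝓡 cls τ ρ (τ (cls x))) x := by
  have h0 : run P E 𝓡 cls τ ρ (τ (cls x)) x = none := run_none_iff.2 le_rfl
  have h1 : ∀ k, run P E 𝓡 cls τ ρ (τ (cls x) + 1 + k) x = run P E 𝓡 cls τ ρ (τ (cls x) + 1) x := by
    intro k
    induction k with
    | zero => rfl
    | succ k ih =>
      rw [← ih]
      show step P E 𝓡 cls τ ρ (τ (cls x) + 1 + k) (run P E 𝓡 cls τ ρ (τ (cls x) + 1 + k)) x = _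
      unfold step
      rw [if_neg]
      rintro ⟨_, h3⟩
      omega
  have h2 : run P E 𝓡 cls τ ρ (τ (cls x) + 1) x = some none := by
    rw [← h1 (P.T - (τ (cls x) + 1)), Nat.add_sub_cancel' hlt]
    exact h
  by_contra hc
  simp only [not_or, not_not] at hc
  obtain ⟨h3, h4, h5⟩ := hc
  have hk := h𝓡.strong _ hlt _ x h0 h4 h5
  change step P E 𝓡 cls τ ρ _ (run P E 𝓡 cls τ ρ (τ (cls x))) x = some none at h2
  unfold step at h2
  rw [if_pos ⟨h0, rfl⟩, if_neg] at h2
  · simp at h2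
  · rintro (h6 | h6)
    · exact h3 h6
    · exact h6 hk

open Classical in
/-- probability of deletion -/
theorem prob_del (hr : 0 < r) (hP : P.Good E) (hPn : P.Good E.neg) (h𝓡 : 𝓡.Valid P E)
    (hsp : SparseCls P E cls) (hi : Ini P E r) (hi' : Ini P E.neg r) {δ : ℝ}
    (hδ : (E.Δ : ℝ) ^ (2 * P.N) / P.T + 12 * (P.T + 2) * (E.Δ : ℝ) ^ (2 * P.N) * (4 / 5) ^ P.n +
      180 * r * P.Θ.card / P.Λ ≤ δ) (x : α) :
    ((Finset.univ.filter fun ω : (Fin m → Fin P.T) × (Fin m → Equiv.Perm (Fin r)) =>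
      run P E 𝓡 cls (fun j => (ω.1 j : ℕ)) ω.2 P.T x = some none).card : ℝ) ≤
      δ * Fintype.card ((Fin m → Fin P.T) × (Fin m → Equiv.Perm (Fin r))) := by
  have hA := pd_total (m := m) hr hP hPn h𝓡 hsp hi x
  have hPnn : P.Good E.neg.neg := by
    rw [pd_neg_neg]
    exact hP
  have hB := pd_total (m := m) (E := E.neg) hr hPn hPnn (pd_valid_neg h𝓡)
    (fun v w h1 h2 => hsp v w h1 h2) hi' x
  simp only [pd_run_neg] at hB
  have hC := pd_tie (m := m) hP hsp x
  refine le_trans (le_trans (pd_mono fun ω h => h) (le_of_eq (pd_prod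
    (fun ω : (Fin m → Fin P.T) × (Fin m → Equiv.Perm (Fin r)) =>
      run P E 𝓡 cls (fun j => (ω.1 j : ℕ)) ω.2 P.T x = some none)))) ?_
  set R : ℝ := (Fintype.card (Fin m → Equiv.Perm (Fin r)) : ℝ) with hR
  set C : ℝ := (Fintype.card (Fin m → Fin P.T) : ℝ) with hCdef
  have hstep : ∀ ω : Fin m → Fin P.T, ((Finset.univ.filter fun ρ : Fin m → Equiv.Perm (Fin r) =>
      run P E 𝓡 cls (fun j => (ω j : ℕ)) ρ P.T x = some none).card : ℝ) ≤
      R * (if ∃ w ∈ E.ball (2 * P.N) x, w ≠ x ∧ ω (cls w) = ω (cls x) then 1 else 0) +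
      ((Finset.univ.filter fun ρ : Fin m → Equiv.Perm (Fin r) =>
        ¬ Keep P E (5 * P.κ) (P.Λ / 2) (P.zt (ω (cls x) : ℕ))
          (run P E 𝓡 cls (fun j => (ω j : ℕ)) ρ (ω (cls x) : ℕ)) x).card : ℝ) +
      ((Finset.univ.filter fun ρ : Fin m → Equiv.Perm (Fin r) =>
        ¬ Keep P E.neg (5 * P.κ) (P.Λ / 2) (P.zt (ω (cls x) : ℕ))
          (run P E 𝓡 cls (fun j => (ω j : ℕ)) ρ (ω (cls x) : ℕ)) x).card : ℝ) := by
    intro ω
    by_cases htie : ∃ w ∈ E.ball (2 * P.N) x, w ≠ x ∧ ω (cls w) = ω (cls x)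
    · rw [if_pos htie, mul_one]
      have h1 : ((Finset.univ.filter fun ρ : Fin m → Equiv.Perm (Fin r) =>
        run P E 𝓡 cls (fun j => (ω j : ℕ)) ρ P.T x = some none).card : ℝ) ≤ R := by
        rw [hR]
        exact_mod_cast Finset.card_le_univ _
      have h2 : (0 : ℝ) ≤ ((Finset.univ.filter fun ρ : Fin m → Equiv.Perm (Fin r) =>
        ¬ Keep P E (5 * P.κ) (P.Λ / 2) (P.zt (ω (cls x) : ℕ))
          (run P E 𝓡 cls (fun j => (ω j : ℕ)) ρ (ω (cls x) : ℕ)) x).card : ℝ) := Nat.cast_nonneg _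
      have h3 : (0 : ℝ) ≤ ((Finset.univ.filter fun ρ : Fin m → Equiv.Perm (Fin r) =>
        ¬ Keep P E.neg (5 * P.κ) (P.Λ / 2) (P.zt (ω (cls x) : ℕ))
          (run P E 𝓡 cls (fun j => (ω j : ℕ)) ρ (ω (cls x) : ℕ)) x).card : ℝ) := Nat.cast_nonneg _
      linarith only [h1]
    · rw [if_neg htie, mul_zero, zero_add]
      have h4 : (Finset.univ.filter fun ρ : Fin m → Equiv.Perm (Fin r) =>
          run P E 𝓡 cls (fun j => (ω j : ℕ)) ρ P.T x = some none) ⊆
        (Finset.univ.filter fun ρ : Fin m → Equiv.Perm (Fin r) =>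
        ¬ Keep P E (5 * P.κ) (P.Λ / 2) (P.zt (ω (cls x) : ℕ))
          (run P E 𝓡 cls (fun j => (ω j : ℕ)) ρ (ω (cls x) : ℕ)) x) ∪
        (Finset.univ.filter fun ρ : Fin m → Equiv.Perm (Fin r) =>
        ¬ Keep P E.neg (5 * P.κ) (P.Λ / 2) (P.zt (ω (cls x) : ℕ))
          (run P E 𝓡 cls (fun j => (ω j : ℕ)) ρ (ω (cls x) : ℕ)) x) := by
        intro ρ hρ
        simp only [Finset.mem_filter, Finset.mem_univ, true_and] at hρ
        simp only [Finset.mem_union, Finset.mem_filter, Finset.mem_univ, true_and]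
        rcases pd_deleted (τ := fun j => (ω j : ℕ)) h𝓡 (ω (cls x)).isLt hρ with h | h
        · obtain ⟨w, hw, h1, h2⟩ := h
          exact absurd ⟨w, hw, h1, Fin.ext h2⟩ htie
        · exact h
      exact_mod_cast (Finset.card_le_card h4).trans (Finset.card_union_le _ _)
  refine (Finset.sum_le_sum fun ω _ => hstep ω).trans ?_
  rw [Finset.sum_add_distrib, Finset.sum_add_distrib, ← Finset.mul_sum]
  have hC' : ∑ ω : Fin m → Fin P.T,
      (if ∃ w ∈ E.ball (2 * P.N) x, w ≠ x ∧ ω (cls w) = ω (cls x) then (1 : ℝ) else 0) ≤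
      C * ((E.Δ : ℝ) ^ (2 * P.N) / P.T) := by
    exact pd_ite.trans hC
  have hcard : (Fintype.card ((Fin m → Fin P.T) × (Fin m → Equiv.Perm (Fin r))) : ℝ) = C * R := by
    rw [Fintype.card_prod]
    push_cast
    rfl
  rw [hcard]
  have hR0 : 0 ≤ R := Nat.cast_nonneg _
  have hC0 : 0 ≤ C := Nat.cast_nonneg _
  have hq : (0 : ℝ) ≤ (P.T : ℝ) * ((E.Δ : ℝ) ^ (2 * P.N) * (4 / 5) ^ P.n) := by (clear * -; positivity)
  have hq' : (0 : ℝ) ≤ ((E.Δ : ℝ) ^ (2 * P.N) * (4 / 5) ^ P.n) := by (clear * -; positivity)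
  have hΔn : E.neg.Δ = E.Δ := rfl
  rw [hΔn] at hB
  have h6 := mul_le_mul_of_nonneg_left hC' hR0
  have h7 : (E.Δ : ℝ) ^ (2 * P.N) / P.T + (3 * (P.T + 1) * (E.Δ : ℝ) ^ (2 * P.N) * (4 / 5) ^ P.n +
      90 * r * P.Θ.card / P.Λ) + (3 * (P.T + 1) * (E.Δ : ℝ) ^ (2 * P.N) * (4 / 5) ^ P.n +
      90 * r * P.Θ.card / P.Λ) ≤ δ := by
    refine le_trans ?_ hδ
    have e1 : (180 * r * P.Θ.card / P.Λ : ℝ) = 90 * r * P.Θ.card / P.Λ + 90 * r * P.Θ.card / P.Λ := by
      ring
    rw [e1]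
    nlinarith only [hq']
  have h8 := mul_le_mul_of_nonneg_right h7 (mul_nonneg hC0 hR0)
  calc _ ≤ R * (C * ((E.Δ : ℝ) ^ (2 * P.N) / P.T)) +
      C * R * (3 * (P.T + 1) * (E.Δ : ℝ) ^ (2 * P.N) * (4 / 5) ^ P.n + 90 * r * P.Θ.card / P.Λ) +
      C * R * (3 * (P.T + 1) * (E.Δ : ℝ) ^ (2 * P.N) * (4 / 5) ^ P.n + 90 * r * P.Θ.card / P.Λ) :=
        add_le_add (add_le_add h6 hA) hB
    _ ≤ _ := by linarith only [h8]

end Vale.Agent.P078.T
end

section
/-! T3-E10: the final form bound. -/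

namespace Vale.Agent.P078.T

open Finset Polynomial
open Vale.Agent.P078.C (Herm ZD FB qf yc Q)

variable {α : Type*} [DecidableEq α] {r m : ℕ}
variable {P : Par} {E : Env α} {𝓡 : Rule α r} {cls : α → Fin m} {τ : Fin m → ℕ}
variable {ρ : Fin m → Equiv.Perm (Fin r)} {t : ℕ} {x v : α}

/-- all points are coloured or deleted at the end -/
theorem run_end (ω : Fin m → Fin P.T) (ρ : Fin m → Equiv.Perm (Fin r)) (x : α) :
    run P E 𝓡 cls (fun j => (ω j : ℕ)) ρ P.T x ≠ none := by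
  rw [Ne, run_none_iff]
  exact not_le.2 (ω (cls x)).isLt

private lemma neg_neg_env (E : Env α) : E.neg.neg = E := by
  cases E
  simp only [Env.neg, neg_neg]

private lemma run_neg (τ : Fin m → ℕ) (ρ : Fin m → Equiv.Perm (Fin r)) (t : ℕ) :
    run P E.neg 𝓡 cls τ ρ t = run P E 𝓡 cls τ ρ t := by
  induction t with
  | zero => rfl
  | succ t ih =>
    simp only [run, ih]
    rfl

private lemma valid_neg (h : 𝓡.Valid P E) : 𝓡.Valid P E.neg where
  weak t ht S o hS hk := by
    rw [neg_neg_env]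
    exact (h.weak t ht S o hS hk).symm
  strong t ht S o hS h1 h2 := by
    rw [neg_neg_env] at h2
    exact h.strong t ht S o hS h2 h1
  allow_weak t ht S o hS hk a ha := by
    rw [neg_neg_env]
    exact (h.allow_weak t ht S o hS hk a ha).symm
  allow_strong t ht S o hS hk a h1 h2 := by
    rw [neg_neg_env] at h2
    exact h.allow_strong t ht S o hS hk a h2 h1
  pick_mem := h.pick_mem
  pick_unif := h.pick_unif

omit [DecidableEq α] in
private lemma qf_neg (y : α → α → ℂ) (c : α → Fin r) (W : Finset α) (v : α → ℂ) :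
    qf (yc (fun i j => -y i j) c) W v = -qf (yc y c) W v := by
  unfold qf yc
  rw [← Complex.neg_re, ← Finset.sum_neg_distrib]
  congr 1
  refine Finset.sum_congr rfl fun i _ => ?_
  rw [← Finset.sum_neg_distrib]
  refine Finset.sum_congr rfl fun j _ => ?_
  split_ifs <;> ring

private lemma upper (hr : 0 < r) (hP : P.Good E) (hPn : P.Good E.neg) (h𝓡 : 𝓡.Valid P E)
    (hsp : SparseCls P E cls) (hi : Ini P E r) (ω : Fin m → Fin P.T)
    (ρ : Fin m → Equiv.Perm (Fin r)) (x : α) {W : Finset α} (hW : W ⊆ E.ball P.R x)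
    (c : α → Fin r)
    (hc : ∀ v ∈ W, run P E 𝓡 cls (fun j => (ω j : ℕ)) ρ P.T v = some (some (c v))) (v : α → ℂ) :
    qf (yc E.y c) W v ≤ 63 * P.ζ * ∑ i ∈ W, ‖v i‖ ^ 2 := by
  have hal := inv (τ := fun j => (ω j : ℕ)) (ρ := ρ) hr hP hPn h𝓡 hsp hi P.T le_rfl x
  set S := run P E 𝓡 cls (fun j => (ω j : ℕ)) ρ P.T with hS
  have hrad := hP.rad
  have hN : P.N = 4 * P.R := rfl
  have hWd : ∀ w ∈ W, E.d x w ≤ P.R := fun w hw =>
    (E.mem_ball P.R (by (clear * - hrad hN; omega)) x w).1 (hW hw)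
  have hWw : W ⊆ win P E S x := by
    intro w hw
    rw [win, Finset.mem_filter]
    refine ⟨(E.mem_ball P.N (by omega) x w).2 (by have := hWd w hw; (clear * - hN this; omega)), ?_⟩
    rw [hc w hw]
    simp
  have hsafe : Safe E.y (cs S) (fun v => lv P E (P.zt P.T) S x v - P.κ) W := hal.subset hWw
  have hform := form_le_of_safe hr E.herm hsafe c (fun w hw => by simp [cs, hc w hw]) v
  refine hform.trans ?_
  rw [Finset.mul_sum]
  refine Finset.sum_le_sum fun w hw => ?_
  refine mul_le_mul_of_nonneg_right ?_ (by (clear * -; positivity))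
  have hT : (0 : ℝ) < P.T := by exact_mod_cast hP.T_pos
  have hR : (0 : ℝ) < P.R := by
    have := hP.R_pos
    exact_mod_cast (by omega : 0 < P.R)
  have hzt : P.zt P.T = 2 * P.ζ := by
    unfold Par.zt
    rw [div_self hT.ne']
    ring
  have hSw : S w ≠ none := by rw [hc w hw]; simp
  have hζ := hP.ζ_pos
  have hκ := hP.κ_pos
  have hκζ := hP.κ_le
  have hfx : fx P E x w ≤ P.κ / 180 := by
    unfold fx
    have hd : (E.d x w : ℝ) ≤ P.R := by exact_mod_cast hWd w hw
    have hNR : (P.N : ℝ) = 4 * P.R := by simp [Par.N]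
    have hden : 3 * (P.R : ℝ) ≤ (P.N : ℝ) + 1 - (E.d x w : ℝ) := by
      rw [hNR]; linarith only [hd]
    have hpos : 0 < (P.N : ℝ) + 1 - (E.d x w : ℝ) := by linarith only [hd, hNR]
    rw [div_pow, div_le_iff₀ (by (clear * - hpos; positivity))]
    have h9 : (3 * (P.R : ℝ)) ^ 2 ≤ ((P.N : ℝ) + 1 - (E.d x w : ℝ)) ^ 2 :=
      pow_le_pow_left₀ (by (clear * - hR; positivity)) hden 2
    have h20 := hP.hR
    linarith only [mul_nonneg (le_of_lt (sub_pos.2 hκ)) (sub_nonneg.2 h9), mul_nonneg (mul_self_nonneg (1 : ℝ)) (sub_nonneg.2 h20)]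
  simp only [lv, if_neg hSw, hzt]
  linarith only [hκ, hκζ, hfx]

/-- the final form bound -/
theorem run_form (hr : 0 < r) (hP : P.Good E) (hPn : P.Good E.neg) (h𝓡 : 𝓡.Valid P E)
    (hsp : SparseCls P E cls) (hi : Ini P E r) (hi' : Ini P E.neg r) (ω : Fin m → Fin P.T)
    (ρ : Fin m → Equiv.Perm (Fin r)) (x : α) {W : Finset α} (hW : W ⊆ E.ball P.R x)
    (c : α → Fin r)
    (hc : ∀ v ∈ W, run P E 𝓡 cls (fun j => (ω j : ℕ)) ρ P.T v = some (some (c v))) (v : α → ℂ) :
    |qf (yc E.y c) W v| ≤ 63 * P.ζ * ∑ i ∈ W, ‖v i‖ ^ 2 := by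
  have h1 := upper hr hP hPn h𝓡 hsp hi ω ρ x hW c hc v
  have h2 := upper (E := E.neg) hr hPn (by rw [neg_neg_env]; exact hP) (valid_neg h𝓡) hsp hi' ω ρ x
    hW c (by rw [run_neg]; exact hc) v
  have h3 : qf (yc E.neg.y c) W v = -qf (yc E.y c) W v := qf_neg E.y c W v
  rw [h3] at h2
  exact abs_le.2 ⟨by linarith only [h2], h1⟩

end Vale.Agent.P078.T
end

section
/-! T3-F7: the colouring theorem for local systems. -/

namespace Vale.Agent.P078.T

open Finset Polynomial
open scoped Pointwise Classical Topology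
open Vale.Agent.P078.C (Herm ZD FB qf yc Q)

variable {X G : Type*} [TopologicalSpace X] [Group G] [MulAction G X]

/-- A local equivariant partial colouring rule: `Φ x σ` is the colour of `x` (`none`: deleted) if
the source at `g • x` is `σ g`. -/
structure IsRule3 (𝔖 : Sys3 X G) {r : ℕ} [NeZero r] (R : ℕ)
    (Φ : X → (G → Fin r) → Option (Fin r)) : Prop where
  lc : ∀ σ, IsLocallyConstant fun x => Φ x σ
  loc : ∀ x (σ σ' : G → Fin r), (∀ g ∈ 𝔖.ballG R, σ g = σ' g) → Φ x σ = Φ x σ'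
  equiv : ∀ x (σ : G → Fin r) (a : Fin r), Φ x (fun g => σ g + a) = (Φ x σ).map fun c => c + a

/-- The colouring theorem. -/
theorem main_sys [CompactSpace X] [T2Space X] [TotallyDisconnectedSpace X] (𝔖 : Sys3 X G)
    (hFB : FB 1 1 𝔖.y) {r : ℕ} [NeZero r] (hr : 2 ≤ r) {ζ : ℝ} (hζ : 0 < ζ) (hζ1 : ζ ≤ 1)
    (hini : ∀ W : Finset X,
      Safe 𝔖.y (fun _ => (none : Option (Fin r))) (fun _ => 2 / 3 * ζ) W ∧
      Safe 𝔖.neg.y (fun _ => (none : Option (Fin r))) (fun _ => 2 / 3 * ζ) W)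
    {δ : ℝ} (hδ : 0 < δ) (k : ℕ) :
    ∃ (R : ℕ) (Ω : Type) (_ : Fintype Ω) (_ : Nonempty Ω)
      (Φ : Ω → X → (G → Fin r) → Option (Fin r)), (∀ ω, IsRule3 𝔖 R (Φ ω)) ∧
      ∀ U : X → Fin r, IsLocallyConstant U →
        (∀ x, ((Finset.univ.filter fun ω => Φ ω x (fun g => U (g • x)) = none).card : ℝ) ≤
          δ * Fintype.card Ω) ∧
        ∀ ω x, ∀ W ⊆ 𝔖.ball k x, ∀ c : X → Fin r,
          (∀ v ∈ W, Φ ω v (fun g => U (g • v)) = some (c v)) → ∀ v : X → ℂ,
          |qf (yc 𝔖.y c) W v| ≤ 63 * ζ * ∑ i ∈ W, ‖v i‖ ^ 2 := by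
  have hr0 : 0 < r := by omega
  have hD : (1 : ℝ) ≤ (𝔖.S.card : ℝ) := by
    exact_mod_cast Finset.card_pos.mpr ⟨1, 𝔖.one_mem⟩
  obtain ⟨P, hPζ, hkR, hPδ, hPgood⟩ := exists_par r hζ hδ hD 𝔖.S.card k
  have hcap : 2 * P.N ≤ 2 * P.N := le_refl _
  have hP : P.Good (𝔖.toEnv hFB (2 * P.N)) := hPgood X (𝔖.toEnv hFB (2 * P.N)) rfl (Nat.le_succ _)
  have hPn : P.Good (𝔖.toEnv hFB (2 * P.N)).neg :=
    hPgood X (𝔖.toEnv hFB (2 * P.N)).neg rfl (Nat.le_succ _)
  have hκ : 0 < P.κ := hP.κ_pos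
  have hΛ : 0 < P.Λ := lt_of_lt_of_le one_pos hP.Λ_ge
  have hΘ : ∀ θ ∈ P.Θ, 0 < θ := fun θ hθ => lt_of_lt_of_le (by (clear * - hκ; positivity)) (hP.Θ_ge θ hθ)
  have hz : ∀ t : ℕ, 0 < P.zt t := by
    intro t
    have h1 := hP.ζ_pos
    unfold Par.zt
    (clear * - h1; positivity)
  obtain ⟨m, cls, hcls, hsp0⟩ := 𝔖.exists_sparse (2 * P.N)
  have hsp : SparseCls P (𝔖.toEnv hFB (2 * P.N)) cls := by
    intro v w hvw hc
    by_contra hlt
    have h1 : (𝔖.toEnv hFB (2 * P.N)).d v w ≤ 2 * P.N := not_lt.mp hlt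
    have h2 : w ∈ 𝔖.ball (2 * P.N) v :=
      ((𝔖.toEnv hFB (2 * P.N)).mem_ball (2 * P.N) (Nat.le_succ _) v w).mpr h1
    exact hvw (hsp0 (cls w) v hc w rfl (Sys3.mem_ball_comm.mp h2))
  have hsets := fun (t : ℕ) (π : G → St r) =>
    exists_sets hr0 𝔖 hFB hcap hκ hΛ hΘ (hz t) π
  choose K A hK hA hKA using hsets
  have hi : Ini P (𝔖.toEnv hFB (2 * P.N)) r := by
    intro W
    rw [hPζ]
    exact (hini W).1
  have hi' : Ini P (𝔖.toEnv hFB (2 * P.N)).neg r := by
    intro W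
    rw [hPζ]
    exact (hini W).2
  have hvalid : ∀ U : X → Fin r,
      (ruleU 𝔖 P.N K A U).Valid P (𝔖.toEnv hFB (2 * P.N)) := fun U =>
    ruleU_valid hFB hcap rfl (fun t _ π x => hKA t π x) U
  have hTne : Nonempty (Fin P.T) := ⟨⟨0, hP.T_pos⟩⟩
  have hjoin : ∀ (o : St r) (a : Fin r), Option.join (rot a o) = (Option.join o).map fun c => c + a := by
    intro o a
    rcases o with _ | _ | b <;> rfl
  refine ⟨P.T * (2 * P.N), (Fin m → Fin P.T) × (Fin m → Equiv.Perm (Fin r)), inferInstance,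
    inferInstance,
    fun ω x σ => (psi 𝔖 P.N cls (fun j => (ω.1 j : ℕ)) ω.2 K A P.T x σ).join, ?_, ?_⟩
  · intro ω
    refine ⟨fun σ => ?_, fun x σ σ' h => ?_, fun x σ a => ?_⟩
    · exact (psi_lc hcls hK hA P.T σ).comp Option.join
    · beta_reduce
      rw [psi_loc P.T x σ σ' h]
    · beta_reduce
      rw [psi_rot, hjoin]
  · intro U _
    have hrun : ∀ (ω : (Fin m → Fin P.T) × (Fin m → Equiv.Perm (Fin r))) (x : X),
        psi 𝔖 P.N cls (fun j => (ω.1 j : ℕ)) ω.2 K A P.T x (fun g => U (g • x)) =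
        run P (𝔖.toEnv hFB (2 * P.N)) (ruleU 𝔖 P.N K A U) cls (fun j => (ω.1 j : ℕ)) ω.2 P.T x :=
      fun ω x => psi_eq_run hFB rfl U P.T x
    refine ⟨fun x => ?_, fun ω x W hW c hc v => ?_⟩
    · refine le_trans (le_of_eq ?_) (prob_del hr0 hP hPn (hvalid U) hsp hi hi' hPδ x)
      congr 2
      ext ω
      simp only [Finset.mem_filter, Finset.mem_univ, true_and]
      rw [hrun ω x]
      have hne := run_end (P := P) (E := 𝔖.toEnv hFB (2 * P.N)) (𝓡 := ruleU 𝔖 P.N K A U)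
        (cls := cls) ω.1 ω.2 x
      revert hne
      rcases run P (𝔖.toEnv hFB (2 * P.N)) (ruleU 𝔖 P.N K A U) cls (fun j => (ω.1 j : ℕ)) ω.2
        P.T x with _ | _ | b <;> simp
    · rw [← hPζ]
      refine run_form hr0 hP hPn (hvalid U) hsp hi hi' ω.1 ω.2 x
        (hW.trans (Sys3.ball_mono hkR x)) c (fun w hw => ?_) v
      rw [← hrun ω w]
      exact Option.join_eq_some_iff.mp (hc w hw)

end Vale.Agent.P078.T
end
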