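import Vale.Agent.P078.Bdl.B13
import Vale.Agent.P078.Bdl.Fast

set_option linter.all false
attribute [local instance] Vale.Agent.P078.Fast.a01 Vale.Agent.P078.Fast.a02
  Vale.Agent.P078.Fast.a03 Vale.Agent.P078.Fast.a04 Vale.Agent.P078.Fast.a05
  Vale.Agent.P078.Fast.a06 Vale.Agent.P078.Fast.a07 Vale.Agent.P078.Fast.a08
  Vale.Agent.P078.Fast.a09 Vale.Agent.P078.Fast.a10 Vale.Agent.P078.Fast.a11
  Vale.Agent.P078.Fast.a12 Vale.Agent.P078.Fast.a13 Vale.Agent.P078.Fast.a14
  Vale.Agent.P078.Fast.a15 Vale.Agent.P078.Fast.a16 Vale.Agent.P078.Fast.a17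
  Vale.Agent.P078.Fast.a18 Vale.Agent.P078.Fast.a19 Vale.Agent.P078.Fast.a20
  Vale.Agent.P078.Fast.a21 Vale.Agent.P078.Fast.a22 Vale.Agent.P078.Fast.a23
  Vale.Agent.P078.Fast.a24 Vale.Agent.P078.Fast.a25 Vale.Agent.P078.Fast.a26
  Vale.Agent.P078.Fast.a27 Vale.Agent.P078.Fast.a28 Vale.Agent.P078.Fast.a29
  Vale.Agent.P078.Fast.a30 Vale.Agent.P078.Fast.a31 Vale.Agent.P078.Fast.a32
  Vale.Agent.P078.Fast.a33 Vale.Agent.P078.Fast.a34 Vale.Agent.P078.Fast.a35
  Vale.Agent.P078.Fast.a36 Vale.Agent.P078.Fast.a37 Vale.Agent.P078.Fast.a38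
  Vale.Agent.P078.Fast.a39 Vale.Agent.P078.Fast.a40 Vale.Agent.P078.Fast.a41
  Vale.Agent.P078.Fast.a42 Vale.Agent.P078.Fast.a43 Vale.Agent.P078.Fast.a44
  Vale.Agent.P078.Fast.a45 Vale.Agent.P078.Fast.a46 Vale.Agent.P078.Fast.a47
  Vale.Agent.P078.Fast.a48 Vale.Agent.P078.Fast.a49 Vale.Agent.P078.Fast.a50
  Vale.Agent.P078.Fast.a51 Vale.Agent.P078.Fast.a52 Vale.Agent.P078.Fast.a53
  Vale.Agent.P078.Fast.a54
attribute [local instance] Vale.Agent.P078.Fast.b01 Vale.Agent.P078.Fast.b02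
  Vale.Agent.P078.Fast.b03 Vale.Agent.P078.Fast.b04 Vale.Agent.P078.Fast.b05
  Vale.Agent.P078.Fast.b06 Vale.Agent.P078.Fast.b07 Vale.Agent.P078.Fast.b08
  Vale.Agent.P078.Fast.b09 Vale.Agent.P078.Fast.b10 Vale.Agent.P078.Fast.b11

section
/-! Faithful normal `A`-central states (given by a sequence of vectors) instead of traces: the
expectation onto `A`, its covariance under the normalizer. -/

namespace Vale.Agent.P078.W

open Filter Topology
open Vale.Agent.P078 Vale.Agent.P078.C

variable {H : Type*} [NormedAddCommGroup H] [InnerProductSpace ℂ H] [CompleteSpace H]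
variable {M A : VonNeumannAlgebra H} {ξ : ℕ → H} {E : (H →L[ℂ] H) →ₗ[ℂ] (H →L[ℂ] H)}

/-- `vtr ξ` is a faithful normal state on `M` which commutes with `A` -/
structure IsCState (M A : VonNeumannAlgebra H) (ξ : ℕ → H) : Prop where
  summable : Summable fun n => ‖ξ n‖ ^ 2
  norm_one : ∑' n, ‖ξ n‖ ^ 2 = 1
  central : ∀ a ∈ A, ∀ x ∈ M, vtr ξ (a * x) = vtr ξ (x * a)
  faithful : ∀ x ∈ M, (∀ n, x (ξ n) = 0) → x = 0

/-- a trace is a central state -/
theorem isCState_of_trace (hA : SO.IsMASA A M) (hξ : IsTrace M ξ) : IsCState M A ξ :=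
  ⟨hξ.summable, hξ.norm_one, fun a ha x hx => hξ.tracial a (hA.1 a ha) x hx, hξ.faithful⟩

/-- The restriction to `A` is a trace. All the lemmas on `vtr ξ` and `n2 ξ` which do not need
membership in `M` follow by taking `M := A`. -/
theorem IsCState.tr (hξ : IsCState M A ξ) (hA : SO.IsMASA A M) : IsTrace A ξ :=
  ⟨hξ.summable, hξ.norm_one, fun x hx y hy => by rw [hA.2.1 x hx y hy],
    fun x hx h => hξ.faithful x (hA.1 x hx) h⟩

theorem IsCState.eq_zero (hξ : IsCState M A ξ) (hA : SO.IsMASA A M) {x : H →L[ℂ] H}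
    (hx : x ∈ M) (h : n2 ξ x = 0) : x = 0 := by
  refine hξ.faithful x hx fun n => ?_
  have h1 := (n2_summable (hξ.tr hA) x).hasSum
  change HasSum _ (n2 ξ x) at h1
  rw [h, hasSum_zero_iff_of_nonneg (fun _ => by positivity)] at h1
  have h2 := congrFun h1 n
  simpa using h2

/-- normality of vector states -/
theorem wcont_vtr' (N : VonNeumannAlgebra H) (hξ : IsTrace M ξ) : WCont N (vtr ξ) := by
  refine WCont.of_approx fun ε hε => ?_
  obtain ⟨s, hs⟩ : ∃ s : Finset ℕ, ∑' n, ‖ξ n‖ ^ 2 - ∑ n ∈ s, ‖ξ n‖ ^ 2 ≤ ε := by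
    have h1 := hξ.summable.hasSum
    rw [HasSum, Metric.tendsto_nhds] at h1
    obtain ⟨s, hs⟩ := (h1 ε hε).exists
    refine ⟨s, ?_⟩
    rw [dist_eq_norm, Real.norm_eq_abs, abs_lt] at hs
    linarith [hs.1]
  refine ⟨fun x => ∑ n ∈ s, inner ℂ (ξ n) (x (ξ n)),
    WCont.sum s fun n _ => WCont.inner_apply (ξ n) (ξ n), fun x _ => ?_⟩
  have h2 : vtr ξ x - ∑ n ∈ s, inner ℂ (ξ n) (x (ξ n)) =
      ∑' n : { n // n ∉ s }, inner ℂ (ξ n) (x (ξ n)) := by
    rw [sub_eq_iff_eq_add, add_comm]
    exact ((vtr_summable hξ x).sum_add_tsum_subtype_compl s).symm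
  rw [h2]
  have hsn : Summable fun n : { n // n ∉ s } => ‖inner ℂ (ξ (n : ℕ)) (x (ξ n))‖ :=
    (vtr_summable hξ x).norm.subtype _
  have hsn2 : Summable fun n : { n // n ∉ s } => ‖x‖ * ‖ξ (n : ℕ)‖ ^ 2 :=
    (hξ.summable.mul_left ‖x‖).subtype _
  refine (norm_tsum_le_tsum_norm hsn).trans ?_
  refine (Summable.tsum_le_tsum (fun n => vtr_bound x _) hsn hsn2).trans ?_
  rw [tsum_mul_left, mul_comm]
  refine mul_le_mul_of_nonneg_right ?_ (norm_nonneg _)
  have h3 := hξ.summable.sum_add_tsum_subtype_compl s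
  linarith

/-- normality of the state -/
theorem IsCState.wcont (hξ : IsCState M A ξ) (hA : SO.IsMASA A M) : WCont M (vtr ξ) :=
  wcont_vtr' M (hξ.tr hA)

theorem IsCState.vtr_part_E (hξ : IsCState M A ξ) (hA : SO.IsMASA A M)
    (Q : Part A.toStarSubalgebra) {x : H →L[ℂ] H} (hx : x ∈ M) :
    vtr ξ (Q.E x) = vtr ξ x := by
  have hAs := SO.IsMASA.toStar hA
  rw [Part.E_apply, vtr_sum (hξ.tr hA)]
  have h2 : ∀ i, vtr ξ (Q.e i * x * Q.e i) = vtr ξ (x * Q.e i) := by
    intro i
    have hei : Q.e i ∈ M := hAs.1 (Q.mem i)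
    rw [mul_assoc, hξ.central (Q.e i) (Q.mem i) _ (mul_mem hx hei), mul_assoc, Q.e_mul_self]
  rw [Finset.sum_congr rfl fun i _ => h2 i, ← vtr_sum (hξ.tr hA), ← Finset.mul_sum, Q.sum_eq,
    mul_one]

/-- pinching does not increase the norm of the state -/
theorem IsCState.n2_pinch_le (hξ : IsCState M A ξ) (hA : SO.IsMASA A M) {r : ℕ}
    {P : Fin r → (H →L[ℂ] H)} (hP : IsPart A P) {x : H →L[ℂ] H} (hx : x ∈ M) :
    n2 ξ (pinch P x) ≤ n2 ξ x := by
  have ht := hξ.tr hA
  have h1 : n2 ξ (pinch P x) = ∑ i, n2 ξ (P i * x * P i) := by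
    unfold n2
    rw [← Summable.tsum_finsetSum fun i _ => n2_summable ht _]
    exact tsum_congr fun n => norm_sq_pinch hP x (ξ n)
  have h2 : ∀ i, n2 ξ (P i * x * P i) ≤ n2 ξ (x * P i) := by
    intro i
    unfold n2
    refine Summable.tsum_le_tsum (fun n => ?_) (n2_summable ht _) (n2_summable ht _)
    rw [mul_assoc]
    exact pow_le_pow_left₀ (norm_nonneg _) (norm_proj_le (hP.1 i).2 _) 2
  have h3 : ∀ i, n2 ξ (x * P i) = (vtr ξ (star x * x * P i)).re := by
    intro i
    have hPi : P i ∈ M := hA.1 _ (hP.1 i).1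
    rw [n2_eq ht, star_mul, (hP.1 i).2.isSelfAdjoint.star_eq, mul_assoc,
      hξ.central (P i) (hP.1 i).1 _ (mul_mem (star_mem hx) (mul_mem hx hPi))]
    congr 2
    rw [← mul_assoc, mul_assoc, (hP.1 i).2.isIdempotentElem]
  rw [h1]
  refine (Finset.sum_le_sum fun i _ => h2 i).trans ?_
  rw [Finset.sum_congr rfl fun i _ => h3 i, ← Complex.re_sum, ← vtr_sum ht, ← Finset.mul_sum,
    hP.2.2, mul_one, ← n2_eq ht]

theorem algebraMap_eq' (c : ℝ) :
    algebraMap ℝ (H →L[ℂ] H) c = (c : ℂ) • (1 : H →L[ℂ] H) := by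
  rw [Algebra.algebraMap_eq_smul_one]
  ext v
  simp

/-- right multiplication by elements of `A` is bounded -/
theorem IsCState.n2_mul_le (hξ : IsCState M A ξ) (hA : SO.IsMASA A M) {x a : H →L[ℂ] H}
    (hx : x ∈ M) (ha : a ∈ A) : n2 ξ (x * a) ≤ n2 ξ x * ‖a‖ ^ 2 := by
  have ht := hξ.tr hA
  have haM := hA.1 a ha
  have has : star a ∈ A := star_mem ha
  have hT : star x * x ∈ M := mul_mem (star_mem hx) hx
  have haa : a * star a ∈ A := mul_mem ha has
  set c : H →L[ℂ] H := algebraMap ℝ (H →L[ℂ] H) (‖a‖ ^ 2) with hc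
  have hcA : c ∈ A := by
    rw [hc, algebraMap_eq']
    exact A.toStarSubalgebra.smul_mem (one_mem _) _
  have hpos : 0 ≤ c - a * star a := by
    rw [sub_nonneg, hc]
    have h1 := (IsSelfAdjoint.mul_star_self a).le_algebraMap_norm_self
    rw [CStarRing.norm_self_mul_star, ← sq] at h1
    exact h1
  set d := CFC.sqrt (c - a * star a) with hd
  have hdA : d ∈ A := F.sqrt_mem A (sub_mem hcA haa)
  have hdd : d * d = c - a * star a := CFC.sqrt_mul_sqrt_self _ hpos
  have hds : star d = d := (IsSelfAdjoint.of_nonneg (CFC.sqrt_nonneg _)).star_eq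
  have h1 : 0 ≤ (vtr ξ (star x * x * (d * d))).re := by
    have h2 : vtr ξ (star x * x * (d * d)) = vtr ξ (d * (star x * x) * d) := by
      rw [mul_assoc d, hξ.central d hdA _ (mul_mem hT (hA.1 d hdA)), mul_assoc (star x * x)]
    rw [h2]
    have h3 : 0 ≤ d * (star x * x) * d := by
      nth_rewrite 1 [← hds]
      exact star_left_conjugate_nonneg (star_mul_self_nonneg x) d
    exact (vtr_nonneg ht h3).1
  have h4 : n2 ξ (x * a) = (vtr ξ (star x * x * (a * star a))).re := by
    have e : star (x * a) * (x * a) = star a * (star x * x * a) := by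
      rw [star_mul]
      noncomm_ring
    rw [n2_eq ht, e, hξ.central (star a) has _ (mul_mem hT haM), mul_assoc]
  have h5 : vtr ξ (star x * x * c) = ((‖a‖ ^ 2 : ℝ) : ℂ) * vtr ξ (star x * x) := by
    rw [hc, algebraMap_eq', mul_smul_comm, mul_one, vtr_smul ht]
  rw [hdd, mul_sub, vtr_sub ht, Complex.sub_re, h5, Complex.re_ofReal_mul, ← n2_eq ht] at h1
  rw [h4]
  linarith

/-- existence of the expectation onto `A` -/
theorem exists_cexp (hA : SO.IsMASA A M) (hξ : IsCState M A ξ) : ∃ E, IsTrExp M A ξ E := by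
  have hAs := SO.IsMASA.toStar hA
  have ht := hξ.tr hA
  have := Part.filter_neBot hAs.2.1
  obtain ⟨E, hlim, hnorm, hmem, hpos, hsa, hbi, hid, -⟩ := exists_limit_expectation' hAs
    (Ultrafilter.of (Part.filter A.toStarSubalgebra)) (Ultrafilter.of_le _)
  have htr : ∀ x ∈ M, vtr ξ (E x) = vtr ξ x := by
    intro x hx
    have hEx : E x ∈ M := hA.1 _ (hmem x hx)
    have h1 := hξ.wcont hA ‖x‖ (E x) (Filter.map (fun Q : Part A.toStarSubalgebra => Q.E x)
      (Ultrafilter.of (Part.filter A.toStarSubalgebra) : Filter _)) hEx ?_ ?_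
    · refine tendsto_nhds_unique h1 ?_
      rw [tendsto_map'_iff]
      refine tendsto_const_nhds.congr fun Q => ?_
      exact (hξ.vtr_part_E hA Q hx).symm
    · rw [eventually_map]
      exact Eventually.of_forall fun Q => ⟨Q.E_mem hAs.1 hx, Q.norm_E_le x⟩
    · intro a b
      rw [tendsto_map'_iff]
      exact hlim x a b
  have hstar : ∀ x ∈ M, E (star x) = star (E x) := by
    intro x _
    have h1 : IsSelfAdjoint (E (x + star x)) := hsa _ (IsSelfAdjoint.add_star_self x)
    have h2 : IsSelfAdjoint (E (Complex.I • (x - star x))) := hsa _ (by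
      rw [IsSelfAdjoint, star_smul, star_sub, star_star, Complex.star_def, Complex.conj_I,
        neg_smul, ← smul_neg, neg_sub])
    have e1 := h1.star_eq
    have e2 := h2.star_eq
    rw [map_add, star_add] at e1
    rw [map_smul, map_sub, star_smul, star_sub, Complex.star_def, Complex.conj_I] at e2
    have e3 : -(star (E x) - star (E (star x))) = E x - E (star x) := by
      have h := congrArg (fun z => (-Complex.I) • z) e2
      simp only [smul_smul] at h
      simpa using h
    have e4 : (2 : ℂ) • E (star x) = (2 : ℂ) • star (E x) := by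
      rw [two_smul, two_smul]
      have h5 : E (star x) + E (star x) = (E x + E (star x)) - (E x - E (star x)) := by abel
      rw [h5, ← e1, ← e3]
      abel
    exact smul_right_injective _ (two_ne_zero' ℂ) e4
  have hbi' : ∀ a ∈ A, ∀ b ∈ A, ∀ x ∈ M, E (a * x * b) = a * E x * b := by
    intro a ha b hb x _
    rw [(hbi b hb (a * x)).2, (hbi a ha x).1]
  refine ⟨E, hmem, hid, fun x _ hx => hpos x hx, hbi', hstar, htr, ?_⟩
  intro x hx b hb h
  have hEx : E x ∈ A := hmem x hx
  have hc : b - E x ∈ A := sub_mem hb hEx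
  have h1 : ∀ a ∈ A, vtr ξ ((b - E x) * a) = 0 := by
    intro a ha
    have h2 := htr (x * a) (mul_mem hx (hA.1 a ha))
    rw [(hbi a ha x).2] at h2
    rw [sub_mul, vtr_sub ht, h2, ← h a ha, sub_self]
  have h3 := h1 (star (b - E x)) (star_mem hc)
  have h4 : n2 ξ (star (b - E x)) = 0 := by
    rw [n2_eq ht, star_star, h3, Complex.zero_re]
  have h5 := hξ.eq_zero hA (star_mem (hA.1 _ hc)) h4
  rw [star_eq_zero, sub_eq_zero] at h5
  exact h5

/-- block-diagonal parts converge weakly to the expectation -/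
theorem tendsto_part_E (hA : SO.IsMASA A M) (hξ : IsCState M A ξ) (hE : IsTrExp M A ξ E)
    {x : H →L[ℂ] H} (hx : x ∈ M) (ζ η : H) :
    Tendsto (fun Q : Part A.toStarSubalgebra => inner ℂ ζ (Q.E x η))
      (Part.filter A.toStarSubalgebra) (𝓝 (inner ℂ ζ (E x η))) := by
  have hAs := SO.IsMASA.toStar hA
  have ht := hξ.tr hA
  refine tendsto_iff_ultrafilter _ _ _ |>.2 fun U hU => ?_
  obtain ⟨v, hv1, hv2⟩ := exists_wot_limit U (fun Q : Part A.toStarSubalgebra => Q.E x) ‖x‖
    (Eventually.of_forall fun Q => Q.norm_E_le x) (norm_nonneg x)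
  have hvM : v ∈ M := mem_of_tendsto' (Eventually.of_forall fun Q => Q.E_mem hAs.1 hx) hv2
  have hcomm : ∀ a ∈ A.toStarSubalgebra, v * a = a * v := by
    refine hAs.comm_of_proj (y := v) ?_
    intro e he hp
    refine (commute_of_tendsto (l := (U : Filter (Part A.toStarSubalgebra)))
      (T := fun Q : Part A.toStarSubalgebra => Q.E x) ?_ hv2).symm
    have h1 := hU (Part.eventually_finer (Part.two e he hp))
    filter_upwards [h1] with Q hQ
    exact Part.comm_E_of_finer hAs.2.1 hQ true x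
  have hvA : v ∈ A := hA.2.2 v hvM fun a ha => (hcomm a ha).symm
  have hvE : v = E x := by
    refine hE.uniq x hx v hvA fun a ha => ?_
    have hb : WCont M fun y => vtr ξ (y * a) := (hξ.wcont hA).mul_right (hA.1 a ha)
    have h1 := hb ‖x‖ v (Filter.map (fun Q : Part A.toStarSubalgebra => Q.E x) (U : Filter _)) hvM
      (by
        rw [eventually_map]
        exact Eventually.of_forall fun Q => ⟨Q.E_mem hAs.1 hx, Q.norm_E_le x⟩)
      (by
        intro a b
        rw [tendsto_map'_iff]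
        exact hv2 a b)
    rw [tendsto_map'_iff] at h1
    refine (tendsto_nhds_unique h1 (tendsto_const_nhds.congr fun Q => ?_)).symm
    have h2 : Part.E Q (x * a) = Q.E x * a := by
      rw [Part.E_apply, Part.E_apply, Finset.sum_mul]
      refine Finset.sum_congr rfl fun i _ => ?_
      rw [← mul_assoc, mul_assoc (Q.e i * x), hAs.2.1 _ ha _ (Q.mem i), ← mul_assoc]
    rw [Function.comp_apply, ← h2, hξ.vtr_part_E hA Q (mul_mem hx (hA.1 a ha))]
  rw [← hvE]
  exact hv2 ζ η

/-- conjugation of partitions by elements of the normalizer -/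
noncomputable def conjPart (u : nrm M A) (Q : Part A.toStarSubalgebra) : Part A.toStarSubalgebra where
  ι := Q.ι
  e i := op u * Q.e i * star (op u)
  mem i := conj_mem u (Q.mem i)
  proj i := by
    refine ⟨?_, ?_⟩
    · change op u * Q.e i * star (op u) * (op u * Q.e i * star (op u)) = _
      have h : op u * Q.e i * star (op u) * (op u * Q.e i * star (op u)) =
          op u * Q.e i * (star (op u) * op u) * Q.e i * star (op u) := by noncomm_ring
      rw [h, star_op_mul, mul_one, mul_assoc (op u), Q.e_mul_self]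
    · rw [IsSelfAdjoint, star_mul, star_mul, star_star, (Q.proj i).isSelfAdjoint.star_eq,
        mul_assoc]
  orth i j hij := by
    have h : op u * Q.e i * star (op u) * (op u * Q.e j * star (op u)) =
        op u * Q.e i * (star (op u) * op u) * Q.e j * star (op u) := by noncomm_ring
    rw [h, star_op_mul, mul_one, mul_assoc (op u), Q.orth i j hij, mul_zero, zero_mul]
  sum_eq := by
    rw [← Finset.sum_mul, ← Finset.mul_sum, Q.sum_eq, mul_one, op_mul_star]

theorem conjPart_finer (u : nrm M A) {Q R : Part A.toStarSubalgebra}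
    (h : (conjPart u⁻¹ Q).Finer R) : Q.Finer (conjPart u R) := by
  intro i j
  have e : Q.e i * (op u * R.e j * star (op u)) =
      op u * ((star (op u) * Q.e i * op u) * R.e j) * star (op u) := by
    have : op u * ((star (op u) * Q.e i * op u) * R.e j) * star (op u) =
        (op u * star (op u)) * Q.e i * (op u * R.e j * star (op u)) := by noncomm_ring
    rw [this, op_mul_star, one_mul]
  have e2 : (star (op u) * Q.e i * op u) * R.e j = (conjPart u⁻¹ Q).e i * R.e j := by
    change _ = op u⁻¹ * Q.e i * star (op u⁻¹) * R.e j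
    rw [op_inv, star_star]
  change Q.e i * (op u * R.e j * star (op u)) = op u * R.e j * star (op u) ∨
    Q.e i * (op u * R.e j * star (op u)) = 0
  rw [e, e2]
  rcases h i j with h1 | h1
  · left
    rw [h1]
  · right
    rw [h1, mul_zero, zero_mul]

theorem tendsto_conjPart (u : nrm M A) : Tendsto (conjPart u)
    (Part.filter A.toStarSubalgebra) (Part.filter A.toStarSubalgebra) := by
  unfold Part.filter
  rw [tendsto_iInf]
  intro Q
  rw [tendsto_principal]
  have h := Part.eventually_finer (conjPart u⁻¹ Q)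
  unfold Part.filter at h
  filter_upwards [h] with R hR
  exact conjPart_finer u hR

/-- `E` is equivariant under the normalizer -/
theorem exp_cov (hA : SO.IsMASA A M) (hξ : IsCState M A ξ) (hE : IsTrExp M A ξ E) (u : nrm M A)
    {x : H →L[ℂ] H} (hx : x ∈ M) : E (op u * x * star (op u)) = op u * E x * star (op u) := by
  have hAs := SO.IsMASA.toStar hA
  have := Part.filter_neBot hAs.2.1
  refine inner_ext fun ζ η => ?_
  have h1 := (tendsto_part_E hA hξ hE (mul_mem (mul_mem (op_mem u) hx) (star_op_mem u)) ζ η).comp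
    (tendsto_conjPart u)
  have h2 := tendsto_part_E hA hξ hE hx (star (op u) ζ) (star (op u) η)
  have e : inner ℂ ζ ((op u * E x * star (op u)) η) =
      inner ℂ (star (op u) ζ) (E x (star (op u) η)) := by
    rw [star_apply_inner]
    rfl
  rw [e]
  refine tendsto_nhds_unique h1 (h2.congr fun Q => ?_)
  rw [Function.comp_apply, star_apply_inner]
  congr 1
  have h3 : (conjPart u Q).E (op u * x * star (op u)) = op u * Q.E x * star (op u) := by
    rw [Part.E_apply, Part.E_apply, Finset.mul_sum, Finset.sum_mul]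
    refine Finset.sum_congr rfl fun i _ => ?_
    change op u * Q.e i * star (op u) * (op u * x * star (op u)) *
      (op u * Q.e i * star (op u)) = op u * (Q.e i * x * Q.e i) * star (op u)
    have h4 : op u * Q.e i * star (op u) * (op u * x * star (op u)) *
        (op u * Q.e i * star (op u)) = op u * Q.e i * (star (op u) * op u) * x *
        (star (op u) * op u) * Q.e i * star (op u) := by noncomm_ring
    rw [h4, star_op_mul, mul_one, mul_one]
    noncomm_ring
  rw [h3]
  rfl

/-- `E` is equivariant under the normalizer -/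
theorem exp_cov' (hA : SO.IsMASA A M) (hξ : IsCState M A ξ) (hE : IsTrExp M A ξ E) (u : nrm M A)
    {x : H →L[ℂ] H} (hx : x ∈ M) : E (star (op u) * x * op u) = star (op u) * E x * op u := by
  have h := exp_cov hA hξ hE u⁻¹ hx
  rwa [op_inv, star_star] at h

end Vale.Agent.P078.W
end

section
/-! Fourier sums along the normalizer for `A`-central states. -/

namespace Vale.Agent.P078.W

open Filter Topology
open Vale.Agent.P078 Vale.Agent.P078.C Vale.Agent.P078.C.Dn Vale.Agent.P078.L2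
open scoped InnerProductSpace

variable {H : Type*} [NormedAddCommGroup H] [InnerProductSpace ℂ H] [CompleteSpace H]
variable {M A N : VonNeumannAlgebra H} {ξ : ℕ → H} {E : (H →L[ℂ] H) →ₗ[ℂ] (H →L[ℂ] H)}

/-- subtracting one Fourier term kills the coefficient -/
theorem E_fourier_self (hE : IsTrExp M A ξ E) (g : nrm M A)
    {z : H →L[ℂ] H} (hz : z ∈ M) :
    E (star (op g) * (z - op g * E (star (op g) * z))) = 0 := by
  have h1 : E (star (op g) * z) ∈ A := hE.mem _ (mul_mem (star_op_mem g) hz)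
  rw [mul_sub, ← mul_assoc, star_op_mul, one_mul, map_sub, hE.idem _ h1, sub_self]

/-- subtracting one Fourier term does not change the vanishing coefficients -/
theorem E_fourier (hA : SO.IsMASA A M) (hE : IsTrExp M A ξ E) (g h : nrm M A)
    {z : H →L[ℂ] H} (hz : z ∈ M) (h0 : E (star (op h) * z) = 0) :
    E (star (op h) * (z - op g * E (star (op g) * z))) = 0 := by
  have h1 : E (star (op g) * z) ∈ A := hE.mem _ (mul_mem (star_op_mem g) hz)
  obtain ⟨p, hp, -, e1, -, e2, -⟩ := exists_proj_E' hA hE (h⁻¹ * g)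
  have e3 : op (h⁻¹ * g) = star (op h) * op g := rfl
  rw [e3] at e1 e2
  have hb : E (star (op h) * op g) ∈ A := hE.mem _ (mul_mem (star_op_mem h) (op_mem g))
  have e4 : E (star (op h) * (op g * E (star (op g) * z))) = 0 := by
    rw [← mul_assoc, E_mul_right hA hE h1 (mul_mem (star_op_mem h) (op_mem g)),
      ← E_mul_left hA hE hb (mul_mem (star_op_mem g) hz), e1, ← e2]
    have e5 : p * (star (op h) * op g) * (star (op g) * z) = p * (star (op h) * z) := by
      have : p * (star (op h) * op g) * (star (op g) * z) =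
        p * (star (op h) * (op g * star (op g)) * z) := by noncomm_ring
      rw [this, op_mul_star, mul_one]
    rw [e5, E_mul_left hA hE hp (mul_mem (star_op_mem h) hz), h0, mul_zero]
  rw [mul_sub, map_sub, h0, e4, sub_zero]

/-- the span of `g A`, `g ∈ S` -/
def fsp (M A : VonNeumannAlgebra H) (S : Set (nrm M A)) : Submodule ℂ (H →L[ℂ] H) :=
  Submodule.span ℂ {x | ∃ g ∈ S, ∃ a ∈ A, x = op g * a}

theorem fsp_mono {S T : Set (nrm M A)} (h : S ⊆ T) : fsp M A S ≤ fsp M A T :=
  Submodule.span_mono fun _ ⟨g, hg, a, ha, e⟩ => ⟨g, h hg, a, ha, e⟩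

theorem fsp_nspan (hA : SO.IsMASA A M) {S : Set (nrm M A)} {x : H →L[ℂ] H}
    (hx : x ∈ fsp M A S) : x ∈ nspan M A := by
  unfold fsp at hx
  induction hx using Submodule.span_induction with
  | mem x h =>
    obtain ⟨g, -, a, ha, rfl⟩ := h
    exact nspan_mul (op_nspan g) (nspan_of_mem hA ha)
  | zero => exact zero_mem _
  | add x y _ _ hx hy => exact add_mem hx hy
  | smul c x _ hx => exact Submodule.smul_mem _ c hx

/-- the Fourier sum -/
theorem exists_fourier (hA : SO.IsMASA A M) (hE : IsTrExp M A ξ E) (F : Finset (nrm M A))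
    {y : H →L[ℂ] H} (hy : y ∈ M) :
    ∃ s ∈ fsp M A (F : Set (nrm M A)), ∀ h ∈ F, E (star (op h) * (y - s)) = 0 := by
  classical
  induction F using Finset.induction_on with
  | empty => exact ⟨0, zero_mem _, fun h hh => absurd hh (Finset.notMem_empty h)⟩
  | insert g F hg ih =>
    obtain ⟨s, hs, hs2⟩ := ih
    have hz : y - s ∈ M := sub_mem hy (nspan_le (fsp_nspan hA hs))
    refine ⟨s + op g * E (star (op g) * (y - s)), add_mem ?_ ?_, fun h hh => ?_⟩
    · exact fsp_mono (by exact_mod_cast Finset.subset_insert g F) hs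
    · exact Submodule.subset_span ⟨g, by simp, _, hE.mem _ (mul_mem (star_op_mem g) hz), rfl⟩
    · rw [← sub_sub]
      rcases Finset.mem_insert.1 hh with rfl | h'
      · exact E_fourier_self hE h hz
      · exact E_fourier hA hE g h hz (hs2 h h')

theorem exists_fsp {d : H →L[ℂ] H} (hd : d ∈ nspan M A) :
    ∃ F : Finset (nrm M A), (∀ g ∈ F, g⁻¹ ∈ F) ∧ d ∈ fsp M A (F : Set (nrm M A)) := by
  classical
  unfold nspan at hd
  induction hd using Submodule.span_induction with
  | mem x h =>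
    obtain ⟨u, rfl⟩ := h
    refine ⟨{u, u⁻¹}, fun g hg => ?_, Submodule.subset_span ⟨u, by simp, 1, one_mem A, ?_⟩⟩
    · rw [Finset.mem_insert, Finset.mem_singleton] at hg ⊢
      rcases hg with rfl | rfl
      · right; rfl
      · left; exact inv_inv u
    · rw [mul_one]
  | zero => exact ⟨∅, fun g hg => absurd hg (Finset.notMem_empty g), zero_mem _⟩
  | add x y _ _ hx hy =>
    obtain ⟨F, hF, hx⟩ := hx
    obtain ⟨G, hG, hy⟩ := hy
    refine ⟨F ∪ G, fun g hg => ?_, add_mem ?_ ?_⟩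
    · rw [Finset.mem_union] at hg ⊢
      rcases hg with h | h
      · exact Or.inl (hF g h)
      · exact Or.inr (hG g h)
    · exact fsp_mono (by exact_mod_cast Finset.subset_union_left) hx
    · exact fsp_mono (by exact_mod_cast Finset.subset_union_right) hy
  | smul c x _ hx =>
    obtain ⟨F, hF, hx⟩ := hx
    exact ⟨F, hF, Submodule.smul_mem _ c hx⟩

theorem fsp_star {F : Finset (nrm M A)} (hF : ∀ g ∈ F, g⁻¹ ∈ F) {x : H →L[ℂ] H}
    (hx : x ∈ fsp M A (F : Set (nrm M A))) : star x ∈ fsp M A (F : Set (nrm M A)) := by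
  unfold fsp at hx
  induction hx using Submodule.span_induction with
  | mem x h =>
    obtain ⟨g, hg, a, ha, rfl⟩ := h
    refine Submodule.subset_span ⟨g⁻¹, by exact_mod_cast hF g (by exact_mod_cast hg),
      op g * star a * star (op g), conj_mem g (star_mem ha), ?_⟩
    rw [op_inv, star_mul]
    have : star (op g) * (op g * star a * star (op g)) =
      (star (op g) * op g) * star a * star (op g) := by noncomm_ring
    rw [this, star_op_mul, one_mul]
  | zero => rw [star_zero]; exact zero_mem _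
  | add x y _ _ hx hy => rw [star_add]; exact add_mem hx hy
  | smul c x _ hx => rw [star_smul]; exact Submodule.smul_mem _ _ hx

/-- orthogonality on the left -/
theorem fsp_orth (hA : SO.IsMASA A M) (hξ : IsCState M A ξ) (hE : IsTrExp M A ξ E)
    {S : Set (nrm M A)} {z : H →L[ℂ] H} (hz : z ∈ M)
    (h0 : ∀ h ∈ S, E (star (op h) * z) = 0) {x : H →L[ℂ] H} (hx : x ∈ fsp M A S) :
    vtr ξ (star x * z) = 0 := by
  have ht := hξ.tr hA
  unfold fsp at hx
  induction hx using Submodule.span_induction with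
  | mem x h =>
    obtain ⟨g, hg, a, ha, rfl⟩ := h
    have hm : star (op g) * z ∈ M := mul_mem (star_op_mem g) hz
    rw [star_mul, mul_assoc, ← hE.tr _ (mul_mem (star_mem (hA.1 a ha)) hm),
      E_mul_left hA hE (star_mem ha) hm, h0 g hg, mul_zero, vtr_zero]
  | zero => rw [star_zero, zero_mul, vtr_zero]
  | add x y _ _ hx hy => rw [star_add, add_mul, vtr_add ht, hx, hy, add_zero]
  | smul c x _ hx => rw [star_smul, smul_mul_assoc, vtr_smul ht, hx, mul_zero]

/-- orthogonality on the right -/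
theorem fsp_orth' (hA : SO.IsMASA A M) (hξ : IsCState M A ξ) (hE : IsTrExp M A ξ E)
    {F : Finset (nrm M A)} (hF : ∀ g ∈ F, g⁻¹ ∈ F) {z : H →L[ℂ] H} (hz : z ∈ M)
    (h0 : ∀ h ∈ F, E (star (op h) * z) = 0) {x : H →L[ℂ] H}
    (hx : x ∈ fsp M A (F : Set (nrm M A))) :
    vtr ξ (z * x) = 0 := by
  have ht := hξ.tr hA
  unfold fsp at hx
  induction hx using Submodule.span_induction with
  | mem x h =>
    obtain ⟨g, hg, a, ha, rfl⟩ := h
    have hg' : g⁻¹ ∈ F := hF g (by exact_mod_cast hg)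
    have h1 := h0 _ hg'
    rw [op_inv, star_star] at h1
    have h2 := exp_cov' hA hξ hE g (mul_mem (op_mem g) hz)
    rw [h1, mul_zero, zero_mul] at h2
    have h3 : star (op g) * (op g * z) * op g = z * op g := by
      rw [← mul_assoc, star_op_mul, one_mul]
    rw [h3] at h2
    rw [← mul_assoc, ← hE.tr _ (mul_mem (mul_mem hz (op_mem g)) (hA.1 a ha)),
      E_mul_right hA hE ha (mul_mem hz (op_mem g)), h2, zero_mul, vtr_zero]
  | zero => rw [mul_zero, vtr_zero]
  | add x y _ _ hx hy => rw [mul_add, vtr_add ht, hx, hy, add_zero]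
  | smul c x _ hx => rw [mul_smul_comm, vtr_smul ht, hx, mul_zero]

/-- inner products in the Hilbert sum -/
theorem inner_amp_xvec (hξ : IsTrace A ξ) (x y : H →L[ℂ] H) :
    ⟪amp x (xvec hξ), amp y (xvec hξ)⟫_ℂ = vtr ξ (star x * y) := by
  rw [lp.inner_eq_tsum]
  unfold vtr
  refine tsum_congr fun n => ?_
  rw [amp_apply, amp_apply]
  change ⟪x (ξ n), y (ξ n)⟫_ℂ = ⟪ξ n, star x (y (ξ n))⟫_ℂ
  rw [← star_apply_inner (star x), star_star]

/-- a sum of two orthogonal vectors -/
theorem norm_le_of_orth {L : Type*} [NormedAddCommGroup L] [InnerProductSpace ℂ L] {u v w : L}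
    (h : ⟪u, v⟫_ℂ = 0) (hw : w = u + v) : ‖v‖ ≤ ‖w‖ := by
  have h1 := norm_add_sq_eq_norm_sq_add_norm_sq_of_inner_eq_zero u v h
  rw [hw]
  (by_contra nlg; linarith only [nlg, mul_nonneg (sub_nonneg.2 (norm_nonneg u)) (sub_nonneg.2 (norm_nonneg u)), mul_nonneg (le_of_lt (sub_pos.2 (not_le.1 nlg))) (sub_nonneg.2 (norm_nonneg (u + v))), mul_pos (sub_pos.2 (not_le.1 nlg)) (sub_pos.2 (not_le.1 nlg)), h1])

/-- the closed span of the normalizer in the Hilbert sum -/
noncomputable def Kx (M A : VonNeumannAlgebra H) (ω : Sp ℕ H) : Submodule ℂ (Sp ℕ H) :=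
  ((nspan M A).map (ampL ω)).topologicalClosure

/-- vectors which are symmetric over the span of the normalizer are symmetric over `M` -/
theorem key_swap (hA : SO.IsMASA A M) (hξ : IsCState M A ξ) (hE : IsTrExp M A ξ E)
    {ζ : Sp ℕ H} (hζ : ζ ∈ Kx M A (xvec (hξ.tr hA)))
    (h : ∀ d ∈ nspan M A, ⟪ζ, amp d (xvec (hξ.tr hA))⟫_ℂ = ⟪amp (star d) (xvec (hξ.tr hA)), ζ⟫_ℂ)
    {y : H →L[ℂ] H} (hy : y ∈ M) :
    ⟪ζ, amp y (xvec (hξ.tr hA))⟫_ℂ = ⟪amp (star y) (xvec (hξ.tr hA)), ζ⟫_ℂ := by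
  set ω := xvec (hξ.tr hA) with hω
  set C : ℝ := ‖amp y ω‖ + ‖amp (star y) ω‖ with hC
  have hC0 : 0 ≤ C := by (clear * -; positivity)
  rw [← sub_eq_zero, ← norm_le_zero_iff]
  refine le_of_forall_pos_le_add fun ε hε => ?_
  rw [zero_add]
  obtain ⟨_, ⟨d, hd, rfl⟩, hdist⟩ := Metric.mem_closure_iff.1 hζ (ε / (C + 1)) (by positivity)
  rw [dist_eq_norm, ampL_apply] at hdist
  obtain ⟨F, hF, hdF⟩ := exists_fsp (show d ∈ nspan M A from hd)
  obtain ⟨s, hs, hs0⟩ := exists_fourier hA hE F hy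
  have hsM : s ∈ M := nspan_le (fsp_nspan hA hs)
  set z := y - s with hz
  have hzM : z ∈ M := sub_mem hy hsM
  have o1 : ∀ x ∈ fsp M A (F : Set (nrm M A)), ⟪amp x ω, amp z ω⟫_ℂ = 0 := by
    intro x hx
    rw [hω, inner_amp_xvec]
    exact fsp_orth hA hξ hE hzM (fun h hh => hs0 h (by exact_mod_cast hh)) hx
  have o2 : ∀ x ∈ fsp M A (F : Set (nrm M A)), ⟪amp (star z) ω, amp x ω⟫_ℂ = 0 := by
    intro x hx
    rw [hω, inner_amp_xvec, star_star]
    exact fsp_orth' hA hξ hE hF hzM hs0 hx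
  have n1 : ‖amp z ω‖ ≤ ‖amp y ω‖ := by
    refine norm_le_of_orth (o1 s hs) ?_
    rw [← amp_add, hz, add_sub_cancel]
  have n2 : ‖amp (star z) ω‖ ≤ ‖amp (star y) ω‖ := by
    refine norm_le_of_orth (u := amp (star s) ω) ?_ ?_
    · rw [← inner_conj_symm, o2 _ (fsp_star hF hs), map_zero]
    · rw [← amp_add, hz, star_sub, add_sub_cancel]
  have e1 : ⟪ζ, amp y ω⟫_ℂ = ⟪ζ, amp s ω⟫_ℂ + ⟪ζ - amp d ω, amp z ω⟫_ℂ := by
    rw [inner_sub_left, o1 d hdF, sub_zero, ← inner_add_right, ← amp_add, hz, add_sub_cancel]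
  have e2 : ⟪amp (star y) ω, ζ⟫_ℂ = ⟪amp (star s) ω, ζ⟫_ℂ + ⟪amp (star z) ω, ζ - amp d ω⟫_ℂ := by
    rw [inner_sub_right, o2 d hdF, sub_zero, ← inner_add_left, ← amp_add, hz, star_sub,
      add_sub_cancel]
  have e3 : ⟪ζ, amp y ω⟫_ℂ - ⟪amp (star y) ω, ζ⟫_ℂ =
      ⟪ζ - amp d ω, amp z ω⟫_ℂ - ⟪amp (star z) ω, ζ - amp d ω⟫_ℂ := by
    rw [e1, e2, h s (fsp_nspan hA hs)]
    ring
  rw [e3]
  have b1 : ‖⟪ζ - amp d ω, amp z ω⟫_ℂ‖ ≤ ε / (C + 1) * ‖amp y ω‖ :=
    (norm_inner_le_norm _ _).trans (mul_le_mul hdist.le n1 (norm_nonneg _) (by (clear * - hε; positivity)))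
  have b2 : ‖⟪amp (star z) ω, ζ - amp d ω⟫_ℂ‖ ≤ ‖amp (star y) ω‖ * (ε / (C + 1)) :=
    (norm_inner_le_norm _ _).trans (mul_le_mul n2 hdist.le (norm_nonneg _) (norm_nonneg _))
  have b3 : ε / (C + 1) * C ≤ ε := by
    rw [div_mul_eq_mul_div, div_le_iff₀ (by (clear * -; positivity))]
    linarith only [hε]
  refine (norm_sub_le _ _).trans ((add_le_add b1 b2).trans (le_trans (le_of_eq ?_) b3))
  rw [hC]
  ring

end Vale.Agent.P078.W
end

section
/-! P078, Cartan inclusions of arbitrary type, operator side: the local system of a self-adjoint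
element of the span of the normalizer, without a trace. -/

set_option linter.unusedSectionVars false
set_option linter.unusedVariables false

namespace Vale.Agent.P078.W

open Vale.Agent.P078.SO Polynomial
open Vale.Agent.P078.C hiding free_cover fix_clopen fix_iff form_bound norm_val_E norm_val_sq
  sker_FB sker_gauge sker_range sker_upper sker_zd sker_herm sker_neg sker bpt cgr bpt_smul
  cgr_spec exists_bpt span_range val_E_eq_zero val_E_phase val_E_sesq exists_part
open scoped Classical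

variable {H : Type*} [NormedAddCommGroup H] [InnerProductSpace ℂ H] [CompleteSpace H]
variable {M A : VonNeumannAlgebra H} {ξ : ℕ → H} {E : (H →L[ℂ] H) →ₗ[ℂ] (H →L[ℂ] H)}
variable {X : Type*} [TopologicalSpace X] [MulAction (nrm M A) X]

/-- the expectation is covariant under the normalizer -/
def Cov (M A : VonNeumannAlgebra H) (E : (H →L[ℂ] H) →ₗ[ℂ] (H →L[ℂ] H)) : Prop :=
  ∀ (u : nrm M A) (x : H →L[ℂ] H), x ∈ M →
    E (star (op u) * x * op u) = star (op u) * E x * op u

/-- the complement of the support of `E u` is covered by a displaced projection and its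
translates -/
theorem free_cover (hA : SO.IsMASA A M) (hE : IsTrExp M A ξ E) (u : nrm M A)
    {p w : H →L[ℂ] H} (hp : p ∈ A) (hpp : IsStarProjection p) (hEp : E (op u) = op u * p)
    (hw : w ∈ A) (hwp : IsStarProjection w) (hwU : w * star (op u) * w = 0)
    (hmax : ∀ q ∈ A, IsStarProjection q → q * star (op u) * q = 0 → w * q = w → q = w) :
    (1 - p) * (1 - w) * (1 - star (op u) * w * op u) * (1 - op u * w * star (op u)) = 0 := by
  set U := op u with hU
  have hUU : star U * U = 1 := star_op_mul u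
  have hUU' : U * star U = 1 := op_mul_star u
  have hcA := hA.2.1
  have hw1 : star U * w * U ∈ A := conj_mem' u hw
  have hw2 : U * w * star U ∈ A := conj_mem u hw
  have hw1p : IsStarProjection (star U * w * U) := proj_conj u hwp
  have hw2p : IsStarProjection (U * w * star U) := by
    have := proj_conj u⁻¹ hwp
    rwa [op_inv, star_star] at this
  have h1 : (1 : H →L[ℂ] H) ∈ A := one_mem A
  set r := (1 - p) * (1 - w) * (1 - star U * w * U) * (1 - U * w * star U) with hr
  have hrA : r ∈ A := mul_mem (mul_mem (mul_mem (sub_mem h1 hp) (sub_mem h1 hw))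
    (sub_mem h1 hw1)) (sub_mem h1 hw2)
  have hrp : IsStarProjection r :=
    proj_mul hA (mul_mem (mul_mem (sub_mem h1 hp) (sub_mem h1 hw)) (sub_mem h1 hw1))
      (sub_mem h1 hw2)
      (proj_mul hA (mul_mem (sub_mem h1 hp) (sub_mem h1 hw)) (sub_mem h1 hw1)
        (proj_mul hA (sub_mem h1 hp) (sub_mem h1 hw) hpp.one_sub hwp.one_sub) hw1p.one_sub)
      hw2p.one_sub
  have hrr : r * r = r := hrp.isIdempotentElem
  -- r kills p, w, U* w U, U w U*
  have k1 : (1 - p) * p = 0 := by rw [sub_mul, one_mul, hpp.isIdempotentElem, sub_self]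
  have k2 : (1 - w) * w = 0 := by rw [sub_mul, one_mul, hwp.isIdempotentElem, sub_self]
  have k3 : (1 - star U * w * U) * (star U * w * U) = 0 := by
    rw [sub_mul, one_mul, hw1p.isIdempotentElem, sub_self]
  have k4 : (1 - U * w * star U) * (U * w * star U) = 0 := by
    rw [sub_mul, one_mul, hw2p.isIdempotentElem, sub_self]
  have kk : ∀ z ∈ A, ((1 - p) * z = 0 ∨ (1 - w) * z = 0 ∨ (1 - star U * w * U) * z = 0 ∨
      (1 - U * w * star U) * z = 0) → r * z = 0 := fun z hz h =>
    four_kill (hcA _ (sub_mem h1 hp) z hz) (hcA _ (sub_mem h1 hw) z hz)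
      (hcA _ (sub_mem h1 hw1) z hz) (hcA _ (sub_mem h1 hw2) z hz) h
  have hrw2 : r * (U * w * star U) = 0 := kk _ hw2 (Or.inr (Or.inr (Or.inr k4)))
  have hrw1 : r * (star U * w * U) = 0 := kk _ hw1 (Or.inr (Or.inr (Or.inl k3)))
  have hrw : r * w = 0 := kk _ hw (Or.inr (Or.inl k2))
  have hrp0 : r * p = 0 := kk _ hp (Or.inl k1)
  -- step 1
  have step1 : ∀ e ∈ A, IsStarProjection e → e * r = e → e * star U * e = 0 → e = 0 := by
    intro e he hep her heU
    have hew : e * w = 0 := by rw [← her, mul_assoc, hrw, mul_zero]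
    have hwe : w * e = 0 := by rw [hcA w hw e he, hew]
    have hq : IsStarProjection (w + e) := by
      refine ⟨?_, hwp.isSelfAdjoint.add hep.isSelfAdjoint⟩
      change (w + e) * (w + e) = w + e
      rw [add_mul, mul_add, mul_add, hwe, hew, hwp.isIdempotentElem, hep.isIdempotentElem]
      simp
    have h5 : e * star U * w = 0 := by
      have : e * star U * w = e * (star U * w * U) * star U := by
        have : e * (star U * w * U) * star U = e * star U * w * (U * star U) := by noncomm_ring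
        rw [this, hUU', mul_one]
      rw [this, ← her, mul_assoc e r, hrw1, mul_zero, zero_mul]
    have h6 : w * star U * e = 0 := by
      have : w * star U * e = star U * ((U * w * star U) * e) := by
        have : star U * ((U * w * star U) * e) = (star U * U) * w * star U * e := by noncomm_ring
        rw [this, hUU, one_mul]
      rw [this, hcA _ hw2 _ he, ← her, mul_assoc e r, hrw2, mul_zero, mul_zero]
    have hqU : (w + e) * star U * (w + e) = 0 := by
      have : (w + e) * star U * (w + e) = w * star U * w + e * star U * e + e * star U * w +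
        w * star U * e := by noncomm_ring
      rw [this, hwU, heU, h5, h6]; simp
    have := hmax (w + e) (add_mem hw he) hq hqU (by rw [mul_add, hwp.isIdempotentElem, hwe, add_zero])
    simpa using this
  -- step 2
  have step2 : ∀ e ∈ A, IsStarProjection e → e * r = e → e * (star U * e * U) = e := by
    intro e he hep her
    have he1 : star U * e * U ∈ A := conj_mem' u he
    have he1p : IsStarProjection (star U * e * U) := proj_conj u hep
    have h0 : e * (1 - star U * e * U) = 0 := by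
      have hc1 : (1 - star U * e * U) ∈ A := sub_mem h1 he1
      refine step1 _ (mul_mem he hc1) (proj_mul hA he hc1 hep he1p.one_sub) ?_ ?_
      · rw [mul_assoc, hcA _ hc1 _ hrA, ← mul_assoc, her]
      · -- e (1 - U*eU) U* e (1 - U*eU) = 0 : (1 - U*eU) U* e = U* e - U* e U U* e = 0
        have h2 : (1 - star U * e * U) * star U * e = 0 := by
          have : (1 - star U * e * U) * star U * e = star U * e - star U * e * (U * star U) * e := by
            noncomm_ring
          rw [this, hUU', mul_one, mul_assoc (star U) e e, hep.isIdempotentElem, sub_self]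
        have : e * (1 - star U * e * U) * star U * (e * (1 - star U * e * U)) =
            e * ((1 - star U * e * U) * star U * e) * (1 - star U * e * U) := by noncomm_ring
        rw [this, h2]; simp
    rw [mul_sub, mul_one, sub_eq_zero] at h0
    exact h0.symm
  -- step 3
  have hr1 : star U * r * U ∈ A := conj_mem' u hrA
  have hr1p : IsStarProjection (star U * r * U) := proj_conj u hrp
  have hr2 : r * (star U * r * U) = r := step2 r hrA hrp hrr
  -- the part of `U* r U` outside of `r` vanishes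
  have hg0 : (star U * r * U) * (1 - r) = 0 := by
    set g := (star U * r * U) * (1 - r) with hg
    have h1r : (1 - r) ∈ A := sub_mem h1 hrA
    have hgA : g ∈ A := mul_mem hr1 h1r
    have hgp : IsStarProjection g := proj_mul hA hr1 h1r hr1p hrp.one_sub
    have hrg : r * g = 0 := by
      rw [hg, hcA _ hr1 _ h1r, ← mul_assoc, mul_sub, mul_one, hrr, sub_self, zero_mul]
    have heA : U * g * star U ∈ A := conj_mem u hgA
    have hep : IsStarProjection (U * g * star U) := by
      have := proj_conj u⁻¹ hgp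
      rwa [op_inv, star_star] at this
    have her : (U * g * star U) * r = U * g * star U := by
      have e1 : g * (star U * r * U) = g := by
        rw [hg]
        calc (star U * r * U) * (1 - r) * (star U * r * U)
            = (star U * r * U) * ((star U * r * U) * (1 - r)) := by
              rw [mul_assoc, hcA _ h1r _ hr1]
          _ = (star U * r * U) * (1 - r) := by
              rw [← mul_assoc, hr1p.isIdempotentElem.eq]
      calc (U * g * star U) * r = U * (g * (star U * r * U)) * star U := by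
            have : U * (g * (star U * r * U)) * star U = U * g * star U * r * (U * star U) := by
              noncomm_ring
            rw [this, hUU', mul_one]
        _ = U * g * star U := by rw [e1]
    have h2 := step2 _ heA hep her
    have e2 : star U * (U * g * star U) * U = g := by
      have : star U * (U * g * star U) * U = (star U * U) * g * (star U * U) := by noncomm_ring
      rw [this, hUU, one_mul, mul_one]
    rw [e2] at h2
    -- `e g = e`, `e ≤ r`, `r g = 0`
    have h3 : U * g * star U = 0 := by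
      rw [← h2, ← her, mul_assoc, hrg, mul_zero]
    calc g = star U * (U * g * star U) * U := e2.symm
      _ = 0 := by rw [h3]; simp
  have hr3 : star U * r * U = r := by
    have h2 : (star U * r * U) * r = r := by rw [hcA _ hr1 _ hrA, hr2]
    rw [mul_sub, mul_one, sub_eq_zero, h2] at hg0
    exact hg0
  have step3 : ∀ e ∈ A, IsStarProjection e → e * r = e → e * U = U * e := by
    intro e he hep her
    have hre : r * e = e := by rw [hcA r hrA e he, her]
    have he1 : star U * e * U ∈ A := conj_mem' u he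
    have hf : (r - e) ∈ A := sub_mem hrA he
    have hfp : IsStarProjection (r - e) := by
      refine ⟨?_, hrp.isSelfAdjoint.sub hep.isSelfAdjoint⟩
      change (r - e) * (r - e) = r - e
      rw [sub_mul, mul_sub, mul_sub, hrr, hre, her, hep.isIdempotentElem.eq]
      abel
    have hfr : (r - e) * r = r - e := by rw [sub_mul, hrr, her]
    have h2 := step2 e he hep her
    have h3 := step2 _ hf hfp hfr
    -- `r (U* e U) = e`
    have hfe : (r - e) * (star U * e * U) = 0 := by
      have e1 : (star U * (r - e) * U) * (star U * e * U) = 0 := by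
        have : (star U * (r - e) * U) * (star U * e * U) =
            star U * (r - e) * (U * star U) * e * U := by noncomm_ring
        rw [this, hUU', mul_one]
        have e2 : (r - e) * e = 0 := by rw [sub_mul, hre, hep.isIdempotentElem.eq, sub_self]
        rw [mul_assoc (star U), e2]
        simp
      rw [← h3, mul_assoc, e1, mul_zero]
    have h4 : r * (star U * e * U) = e := by
      rw [sub_mul, h2, sub_eq_zero] at hfe
      exact hfe
    have h5 : r * (star U * e * U) = star U * e * U := by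
      calc r * (star U * e * U) = (star U * r * U) * (star U * e * U) := by rw [hr3]
        _ = star U * r * (U * star U) * e * U := by noncomm_ring
        _ = star U * (r * e) * U := by rw [hUU', mul_one]; noncomm_ring
        _ = star U * e * U := by rw [hre]
    have h6 : star U * e * U = e := by rw [← h5, h4]
    have h7 : U * (star U * e * U) = e * U := by
      have : U * (star U * e * U) = (U * star U) * e * U := by noncomm_ring
      rw [this, hUU', one_mul]
    rw [← h7, h6]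
  -- step 4
  have hrU : r * U = U * r := step3 r hrA hrp hrr
  have hUr : ∀ f ∈ A.toStarSubalgebra, IsStarProjection f → (U * r) * f = f * (U * r) := by
    intro f hf hfp
    have hf' : f ∈ A := hf
    have hrf : r * f = f * r := hcA r hrA f hf'
    have h5 := step3 (f * r) (mul_mem hf' hrA) (proj_mul hA hf' hrA hfp hrp)
      (by rw [mul_assoc, hrr])
    rw [mul_assoc U r f, hrf, ← h5, mul_assoc f r U, hrU]
  have hcomm := hA.toStar.comm_of_proj hUr
  have hUrA : U * r ∈ A := by
    refine hA.2.2 _ (mul_mem (op_mem u) (hA.1 r hrA)) fun a ha => (hcomm a ha).symm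
  have h6 : E (U * r) = U * r := hE.idem _ hUrA
  rw [E_mul_right hA hE hrA (op_mem u), hEp, mul_assoc, hcA p hp r hrA, hrp0, mul_zero] at h6
  have : r = star U * (U * r) := by rw [← mul_assoc, hUU, one_mul]
  rw [this, ← h6, mul_zero]

/-- fixed points in terms of the support projection -/
theorem fix_iff (hA : SO.IsMASA A M) (hE : IsTrExp M A ξ E)
    (𝒮 : Spec M A X) (u : nrm M A) {p : H →L[ℂ] H} (hp : p ∈ A) (hpp : IsStarProjection p)
    (hEp : E (op u) = op u * p) (hcov : ∀ a ∈ A, (star (op u) * a * op u) * p = a * p) (ω : X) :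
    u • ω = ω ↔ 𝒮.val ω p = 1 := by
  constructor
  · intro hω
    rcases 𝒮.val_proj ω hp hpp with h0 | h0
    · exfalso
      obtain ⟨w, hw, hwp, hwU, hmax⟩ := exists_max_disp hA (op u)
      have hcov' := free_cover hA hE u hp hpp hEp hw hwp hwU hmax
      have hw1 : star (op u) * w * op u ∈ A := conj_mem' u hw
      have hw2 : op u * w * star (op u) ∈ A := conj_mem u hw
      have h1 : (1 : H →L[ℂ] H) ∈ A := one_mem A
      have v1 : 𝒮.val ω (star (op u) * w * op u) = 𝒮.val ω w := by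
        rw [← 𝒮.act u ω w hw, hω]
      have v2 : 𝒮.val ω (op u * w * star (op u)) = 𝒮.val ω w := by
        have h2 : u⁻¹ • ω = ω := by rw [inv_smul_eq_iff]; exact hω.symm
        have h3 : 𝒮.val (u⁻¹ • ω) w = 𝒮.val ω (star (op u⁻¹) * w * op u⁻¹) := 𝒮.act u⁻¹ ω w hw
        rw [h2, op_inv, star_star] at h3
        exact h3.symm
      have h4 := congrArg (𝒮.val ω) hcov'
      rw [𝒮.val_zero, 𝒮.mul ω _ (mul_mem (mul_mem (sub_mem h1 hp) (sub_mem h1 hw)) (sub_mem h1 hw1))
        _ (sub_mem h1 hw2), 𝒮.mul ω _ (mul_mem (sub_mem h1 hp) (sub_mem h1 hw)) _ (sub_mem h1 hw1),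
        𝒮.mul ω _ (sub_mem h1 hp) _ (sub_mem h1 hw), 𝒮.val_sub ω h1 hp, 𝒮.val_sub ω h1 hw,
        𝒮.val_sub ω h1 hw1, 𝒮.val_sub ω h1 hw2, v1, v2, 𝒮.one, h0, sub_zero, one_mul] at h4
      rcases 𝒮.val_proj ω hw hwp with h5 | h5
      · rw [h5] at h4; norm_num at h4
      · -- w * (U* w U) = 0
        have h6 : w * (star (op u) * w * op u) = 0 := by
          have : w * (star (op u) * w * op u) = w * star (op u) * w * op u := by noncomm_ring
          rw [this, hwU, zero_mul]
        have h7 := congrArg (𝒮.val ω) h6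
        rw [𝒮.val_zero, 𝒮.mul ω _ hw _ hw1, v1, h5] at h7
        norm_num at h7
    · exact h0
  · intro h0
    refine 𝒮.sep _ _ fun a ha => ?_
    rw [𝒮.act u ω a ha]
    have h1 := congrArg (𝒮.val ω) (hcov a ha)
    rw [𝒮.mul ω _ (conj_mem' u ha) _ hp, 𝒮.mul ω _ ha _ hp, h0, mul_one, mul_one] at h1
    exact h1

/-- the fixed point set of `u` is clopen -/
theorem fix_clopen (hA : SO.IsMASA A M) (hE : IsTrExp M A ξ E)
    (𝒮 : Spec M A X) (u : nrm M A) : IsClopen {ω : X | u • ω = ω} := by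
  obtain ⟨p, hp, hpp, hEp, -, -, hcov⟩ := exists_proj_E' hA hE u
  have hc := 𝒮.cont p hp
  have e1 : {ω : X | u • ω = ω} = (fun ω => 𝒮.val ω p) ⁻¹' {1} := by
    ext ω
    exact fix_iff hA hE 𝒮 u hp hpp hEp hcov ω
  have e2 : {ω : X | u • ω = ω} = (fun ω => 𝒮.val ω p) ⁻¹' {0}ᶜ := by
    ext ω
    refine (fix_iff hA hE 𝒮 u hp hpp hEp hcov ω).trans ?_
    simp only [Set.mem_preimage, Set.mem_compl_iff, Set.mem_singleton_iff]
    constructor
    · intro h; rw [h]; exact one_ne_zero
    · intro h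
      exact (𝒮.val_proj ω hp hpp).resolve_left h
  refine ⟨?_, ?_⟩
  · rw [e1]; exact isClosed_singleton.preimage hc
  · rw [e2]; exact isClosed_singleton.isOpen_compl.preimage hc

theorem norm_val_sq (𝒮 : Spec M A X) (ω : X) {b : H →L[ℂ] H} (hb : b ∈ A) :
    ((‖𝒮.val ω b‖ ^ 2 : ℝ) : ℂ) = 𝒮.val ω (star b * b) := by
  rw [𝒮.mul ω _ (star_mem hb) _ hb, 𝒮.star ω b hb, Complex.star_def, mul_comm, Complex.mul_conj,
    Complex.normSq_eq_norm_sq]

/-- the value of `E (g* h)` at `ω` is nonzero iff `g ω = h ω`, and then of modulus one -/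
theorem val_E_eq_zero (hA : SO.IsMASA A M) (hE : IsTrExp M A ξ E)
    (𝒮 : Spec M A X) (g h : nrm M A) {ω : X} (hω : g • ω ≠ h • ω) :
    𝒮.val ω (E (star (op g) * op h)) = 0 := by
  obtain ⟨p, hp, hpp, hEp, hbb, -, hcov⟩ := exists_proj_E' hA hE (g⁻¹ * h)
  have h1 : star (op g) * op h = op (g⁻¹ * h) := rfl
  rw [h1]
  have h2 := norm_val_sq 𝒮 ω (hE.mem _ (op_mem (g⁻¹ * h)))
  rw [hbb] at h2
  have h3 : ¬ 𝒮.val ω p = 1 := by
    intro h3
    rw [← fix_iff hA hE 𝒮 (g⁻¹ * h) hp hpp hEp hcov ω, mul_smul, inv_smul_eq_iff] at h3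
    exact hω h3.symm
  rw [(𝒮.val_proj ω hp hpp).resolve_right h3] at h2
  have h4 : ‖𝒮.val ω (E (op (g⁻¹ * h)))‖ ^ 2 = 0 := by exact_mod_cast h2
  exact norm_eq_zero.1 (pow_eq_zero_iff (two_ne_zero)|>.1 h4)

theorem norm_val_E (hA : SO.IsMASA A M) (hE : IsTrExp M A ξ E)
    (𝒮 : Spec M A X) (g h : nrm M A) {ω : X} (hω : g • ω = h • ω) :
    ‖𝒮.val ω (E (star (op g) * op h))‖ = 1 := by
  obtain ⟨p, hp, hpp, hEp, hbb, -, hcov⟩ := exists_proj_E' hA hE (g⁻¹ * h)
  have h1 : star (op g) * op h = op (g⁻¹ * h) := rfl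
  rw [h1]
  have h2 := norm_val_sq 𝒮 ω (hE.mem _ (op_mem (g⁻¹ * h)))
  rw [hbb] at h2
  have h3 : 𝒮.val ω p = 1 := by
    rw [← fix_iff hA hE 𝒮 (g⁻¹ * h) hp hpp hEp hcov ω, mul_smul, inv_smul_eq_iff]
    exact hω.symm
  rw [h3] at h2
  have h4 : ‖𝒮.val ω (E (op (g⁻¹ * h)))‖ ^ 2 = 1 := by exact_mod_cast h2
  exact (pow_eq_one_iff_of_nonneg (norm_nonneg _) two_ne_zero).1 h4

/-- if `g ω = g' ω`, the values at `ω` for `g` and `g'` differ by a phase -/
theorem val_E_phase (hA : SO.IsMASA A M) (hE : IsTrExp M A ξ E)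
    (𝒮 : Spec M A X) (g g' : nrm M A) {ω : X} (hω : g • ω = g' • ω) {x : H →L[ℂ] H}
    (hx : x ∈ M) : 𝒮.val ω (E (star (op g) * x)) =
      𝒮.val ω (E (star (op g) * op g')) * 𝒮.val ω (E (star (op g') * x)) := by
  obtain ⟨p, hp, hpp, hEp, hbb, hpu, hcov⟩ := exists_proj_E' hA hE (g⁻¹ * g')
  set v := g⁻¹ * g' with hv
  have h1 : star (op g) * op g' = op v := rfl
  rw [h1]
  have h3 : 𝒮.val ω p = 1 := by
    rw [← fix_iff hA hE 𝒮 v hp hpp hEp hcov ω, hv, mul_smul, inv_smul_eq_iff]
    exact hω.symm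
  set y := star (op g') * x with hy
  have hyM : y ∈ M := mul_mem (star_op_mem g') hx
  have h4 : star (op g) * x = op v * y := by
    rw [hy, ← h1]
    have : star (op g) * op g' * (star (op g') * x) =
      star (op g) * (op g' * star (op g')) * x := by noncomm_ring
    rw [this, op_mul_star, mul_one]
  rw [h4]
  have h5 : p * E (op v * y) = E (op v) * E y := by
    rw [← E_mul_left hA hE hp (mul_mem (op_mem v) hyM), ← mul_assoc, hpu, ← hEp,
      E_mul_left hA hE (hE.mem _ (op_mem v)) hyM]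
  have h6 := congrArg (𝒮.val ω) h5
  rw [𝒮.mul ω _ hp _ (hE.mem _ (mul_mem (op_mem v) hyM)), h3, one_mul,
    𝒮.mul ω _ (hE.mem _ (op_mem v)) _ (hE.mem _ hyM)] at h6
  exact h6

/-- a locally constant colouring is a partition in `A` -/
theorem exists_part (hA : SO.IsMASA A M) (𝒮 : Spec M A X) {r : ℕ} (c : X → Fin r)
    (hc : IsLocallyConstant c) : ∃ P : Fin r → (H →L[ℂ] H), IsPart A P ∧
      ∀ i ω, 𝒮.val ω (P i) = if c ω = i then 1 else 0 := by
  have hf : ∀ i : Fin r, Continuous fun ω : X => if c ω = i then (1 : ℂ) else 0 := fun i =>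
    (hc.comp fun j => if j = i then (1 : ℂ) else 0).continuous
  choose P hP hval using fun i : Fin r => 𝒮.surj ⟨_, hf i⟩
  simp only [ContinuousMap.coe_mk] at hval
  have hinj : ∀ a ∈ A, ∀ b ∈ A, (∀ ω, 𝒮.val ω a = 𝒮.val ω b) → a = b := by
    intro a ha b hb h
    rw [← sub_eq_zero]
    refine 𝒮.inj _ (sub_mem ha hb) fun ω => ?_
    rw [𝒮.val_sub ω ha hb, h ω, sub_self]
  refine ⟨P, ⟨fun i => ⟨hP i, ⟨?_, ?_⟩⟩, fun i j hij => ?_, ?_⟩, fun i ω => hval i ω⟩
  · refine hinj _ (mul_mem (hP i) (hP i)) _ (hP i) fun ω => ?_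
    rw [𝒮.mul ω _ (hP i) _ (hP i), hval i ω]
    split_ifs <;> simp
  · refine hinj _ (star_mem (hP i)) _ (hP i) fun ω => ?_
    rw [𝒮.star ω _ (hP i), hval i ω]
    split_ifs <;> simp
  · refine hinj _ (mul_mem (hP i) (hP j)) _ (zero_mem A) fun ω => ?_
    rw [𝒮.mul ω _ (hP i) _ (hP j), hval i ω, hval j ω, 𝒮.val_zero]
    by_cases h1 : c ω = i
    · rw [if_pos h1, if_neg (by rw [h1]; exact hij), mul_zero]
    · rw [if_neg h1, zero_mul]
  · refine hinj _ (sum_mem fun i _ => hP i) _ (one_mem A) fun ω => ?_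
    rw [𝒮.val_sum _ _ (fun i _ => hP i), 𝒮.one]
    simp only [hval]
    simp

/-- finite propagation of elements of the span of the normalizer -/
theorem span_range (hA : SO.IsMASA A M) (hE : IsTrExp M A ξ E)
    (𝒮 : Spec M A X) {x : H →L[ℂ] H} (hx : x ∈ nspan M A) :
    x ∈ M ∧ ∃ S : Finset (nrm M A), ∀ g h : nrm M A, ∀ ω : X,
      𝒮.val ω (E (star (op g) * x * op h)) ≠ 0 → ∃ s ∈ S, g • ω = (s * h) • ω := by
  refine Submodule.span_induction (p := fun x _ => x ∈ M ∧ ∃ S : Finset (nrm M A),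
    ∀ g h : nrm M A, ∀ ω : X, 𝒮.val ω (E (star (op g) * x * op h)) ≠ 0 →
      ∃ s ∈ S, g • ω = (s * h) • ω) ?_ ?_ ?_ ?_ hx
  · rintro _ ⟨u, rfl⟩
    refine ⟨op_mem u, {u}, fun g h ω hne => ⟨u, Finset.mem_singleton_self u, ?_⟩⟩
    by_contra hcon
    apply hne
    have h1 : star (op g) * op u * op h = star (op g) * op (u * h) := by
      rw [op_mul, mul_assoc]
    rw [h1]
    exact val_E_eq_zero hA hE 𝒮 g (u * h) hcon
  · refine ⟨zero_mem M, ∅, fun g h ω hne => ?_⟩
    exfalso
    apply hne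
    rw [mul_zero, zero_mul, map_zero]
    exact 𝒮.val_zero ω
  · rintro x y - - ⟨hxM, S, hS⟩ ⟨hyM, T, hT⟩
    refine ⟨add_mem hxM hyM, S ∪ T, fun g h ω hne => ?_⟩
    have e1 : star (op g) * (x + y) * op h = star (op g) * x * op h + star (op g) * y * op h := by
      noncomm_ring
    rw [e1, map_add, 𝒮.add ω _ (hE.mem _ (mul_mem (mul_mem (star_op_mem g) hxM) (op_mem h))) _
      (hE.mem _ (mul_mem (mul_mem (star_op_mem g) hyM) (op_mem h)))] at hne
    by_cases h0 : 𝒮.val ω (E (star (op g) * x * op h)) = 0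
    · rw [h0, zero_add] at hne
      obtain ⟨s, hs, h⟩ := hT g h ω hne
      exact ⟨s, Finset.mem_union_right _ hs, h⟩
    · obtain ⟨s, hs, h⟩ := hS g h ω h0
      exact ⟨s, Finset.mem_union_left _ hs, h⟩
  · rintro c x - ⟨hxM, S, hS⟩
    refine ⟨M.toStarSubalgebra.smul_mem hxM c, S, fun g h ω hne => hS g h ω ?_⟩
    intro h0
    apply hne
    have e1 : star (op g) * (c • x) * op h = c • (star (op g) * x * op h) := by
      rw [mul_smul_comm, smul_mul_assoc]
    rw [e1, map_smul, 𝒮.smul ω _ _ (hE.mem _ (mul_mem (mul_mem (star_op_mem g) hxM) (op_mem h))),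
      h0, mul_zero]

/-- sesquilinear expansion -/
theorem val_E_sesq (hE : IsTrExp M A ξ E) (𝒮 : Spec M A X) (W : Finset X) (v : X → ℂ)
    (c : X → nrm M A) {T : H →L[ℂ] H} (hT : T ∈ M) (ω : X) :
    𝒮.val ω (E (star (∑ j ∈ W, v j • op (c j)) * T * (∑ j ∈ W, v j • op (c j)))) =
      ∑ i ∈ W, ∑ j ∈ W, star (v i) * 𝒮.val ω (E (star (op (c i)) * T * op (c j))) * v j := by
  have hm : ∀ i j, star (op (c i)) * T * op (c j) ∈ M := fun i j =>
    mul_mem (mul_mem (star_op_mem _) hT) (op_mem _)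
  have e1 : star (∑ j ∈ W, v j • op (c j)) * T * (∑ j ∈ W, v j • op (c j)) =
      ∑ i ∈ W, ∑ j ∈ W, (star (v i) * v j) • (star (op (c i)) * T * op (c j)) := by
    rw [star_sum, Finset.sum_mul, Finset.sum_mul]
    refine Finset.sum_congr rfl fun i _ => ?_
    rw [Finset.mul_sum]
    refine Finset.sum_congr rfl fun j _ => ?_
    rw [star_smul, smul_mul_assoc, smul_mul_assoc, mul_smul_comm, smul_smul]
  rw [e1, map_sum, 𝒮.val_sum]
  · refine Finset.sum_congr rfl fun i _ => ?_
    rw [map_sum, 𝒮.val_sum]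
    · refine Finset.sum_congr rfl fun j _ => ?_
      rw [map_smul, 𝒮.smul ω _ _ (hE.mem _ (hm i j))]
      ring
    · intro j _
      rw [map_smul]
      exact A.toStarSubalgebra.smul_mem (hE.mem _ (hm i j)) _
  · intro i _
    rw [map_sum]
    refine sum_mem fun j _ => ?_
    rw [map_smul]
    exact A.toStarSubalgebra.smul_mem (hE.mem _ (hm i j)) _

/-- the form bounds at one point -/
theorem form_bound (hA : SO.IsMASA A M) (hE : IsTrExp M A ξ E)
    (𝒮 : Spec M A X) {x : H →L[ℂ] H} (hx : x ∈ M) (W : Finset X) (v : X → ℂ)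
    (c : X → nrm M A) (o : X) (hc : ∀ i ∈ W, c i • o = i) {a : ℝ}
    (ha : x ≤ (a : ℂ) • (1 : H →L[ℂ] H)) :
    (∑ i ∈ W, ∑ j ∈ W, star (v i) * 𝒮.val o (E (star (op (c i)) * x * op (c j))) * v j).re ≤
      a * ∑ i ∈ W, ‖v i‖ ^ 2 := by
  set Z : H →L[ℂ] H := ∑ j ∈ W, v j • op (c j) with hZ
  have hZM : Z ∈ M := sum_mem fun j _ => M.toStarSubalgebra.smul_mem (op_mem _) _
  have h1 := val_E_sesq hE 𝒮 W v c hx o
  have h2 := val_E_sesq hE 𝒮 W v c (one_mem M) o
  rw [← hZ] at h1 h2
  have h3 : ∑ i ∈ W, ∑ j ∈ W, star (v i) * 𝒮.val o (E (star (op (c i)) * 1 * op (c j))) * v j =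
      ((∑ i ∈ W, ‖v i‖ ^ 2 : ℝ) : ℂ) := by
    rw [Complex.ofReal_sum]
    refine Finset.sum_congr rfl fun i hi => ?_
    rw [Finset.sum_eq_single i]
    · rw [mul_one, star_op_mul, hE.idem 1 (one_mem A), 𝒮.one, mul_one, Complex.star_def, mul_comm,
        Complex.mul_conj, Complex.normSq_eq_norm_sq]
    · intro j hj hij
      rw [mul_one, val_E_eq_zero hA hE 𝒮 (c i) (c j), mul_zero, zero_mul]
      rw [hc i hi, hc j hj]
      exact fun h => hij h.symm
    · exact fun h => absurd hi h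
  rw [h3] at h2
  have h4 : 0 ≤ star Z * ((a : ℂ) • (1 : H →L[ℂ] H) - x) * Z :=
    star_left_conjugate_nonneg (sub_nonneg.2 ha) Z
  have hMa : (a : ℂ) • (1 : H →L[ℂ] H) ∈ M := M.toStarSubalgebra.smul_mem (one_mem M) _
  have hM4 : star Z * ((a : ℂ) • (1 : H →L[ℂ] H) - x) * Z ∈ M :=
    mul_mem (mul_mem (star_mem hZM) (sub_mem hMa hx)) hZM
  have h5 := (𝒮.nonneg _ (hE.mem _ hM4) (hE.nonneg _ hM4 h4) o).1
  have h6 : star Z * ((a : ℂ) • (1 : H →L[ℂ] H) - x) * Z =
      (a : ℂ) • (star Z * 1 * Z) - star Z * x * Z := by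
    rw [mul_sub, sub_mul, mul_smul_comm, smul_mul_assoc]
  have hM1 : star Z * 1 * Z ∈ M := mul_mem (mul_mem (star_mem hZM) (one_mem M)) hZM
  have hM2 : star Z * x * Z ∈ M := mul_mem (mul_mem (star_mem hZM) hx) hZM
  rw [h6, map_sub, map_smul, 𝒮.val_sub o (A.toStarSubalgebra.smul_mem (hE.mem _ hM1) _)
    (hE.mem _ hM2), 𝒮.smul o _ _ (hE.mem _ hM1), h2, h1, Complex.sub_re, ← Complex.ofReal_mul,
    Complex.ofReal_re] at h5
  linarith

section kernel

variable (𝒮 : Spec M A X) (E) (x : H →L[ℂ] H)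

/-- base point of the orbit -/
noncomputable def bpt (M A : VonNeumannAlgebra H) {X : Type*} [MulAction (nrm M A) X] (v : X) : X :=
  (Quotient.mk (MulAction.orbitRel (nrm M A) X) v).out

omit [TopologicalSpace X] in
theorem bpt_smul (g : nrm M A) (v : X) : bpt M A (g • v) = bpt M A v := by
  unfold bpt
  have : (Quotient.mk (MulAction.orbitRel (nrm M A) X) (g • v)) =
      Quotient.mk (MulAction.orbitRel (nrm M A) X) v :=
    Quotient.sound (MulAction.orbitRel_apply.2 ⟨g, rfl⟩)
  rw [this]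

omit [TopologicalSpace X] in
theorem exists_bpt (v : X) : ∃ g : nrm M A, g • bpt M A v = v := by
  have h : (MulAction.orbitRel (nrm M A) X) (bpt M A v) v :=
    Quotient.exact (Quotient.out_eq (Quotient.mk (MulAction.orbitRel (nrm M A) X) v))
  have h2 := MulAction.orbitRel_apply.1 h
  have h3 : v ∈ MulAction.orbit (nrm M A) (bpt M A v) := MulAction.mem_orbit_symm.1 h2
  exact h3

/-- the group element moving the base point to `v` -/
noncomputable def cgr (M A : VonNeumannAlgebra H) {X : Type*} [MulAction (nrm M A) X] (v : X) :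
    nrm M A := (exists_bpt (M := M) (A := A) v).choose

omit [TopologicalSpace X] in
theorem cgr_spec (v : X) : cgr M A v • bpt M A v = v := (exists_bpt (M := M) (A := A) v).choose_spec

/-- the kernel -/
noncomputable def sker (v w : X) : ℂ :=
  if bpt M A v = bpt M A w then 𝒮.val (bpt M A v) (E (star (op (cgr M A v)) * x * op (cgr M A w)))
  else 0

end kernel

theorem sker_herm (hE : IsTrExp M A ξ E) (𝒮 : Spec M A X) {x : H →L[ℂ] H} (hx : x ∈ M)
    (hsa : IsSelfAdjoint x) : Herm (sker E 𝒮 x) := by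
  intro i j
  unfold sker
  by_cases h : bpt M A i = bpt M A j
  · rw [if_pos h, if_pos h.symm, h]
    have hm : star (op (cgr M A i)) * x * op (cgr M A j) ∈ M :=
      mul_mem (mul_mem (star_op_mem _) hx) (op_mem _)
    rw [← 𝒮.star _ _ (hE.mem _ hm), ← hE.star _ hm, star_mul, star_mul, star_star, hsa.star_eq,
      mul_assoc]
  · rw [if_neg h, if_neg (fun h' => h h'.symm), star_zero]

theorem sker_zd (hE : IsTrExp M A ξ E) (hC : Cov M A E) (𝒮 : Spec M A X)
    {x : H →L[ℂ] H} (hx : x ∈ M) (hx0 : E x = 0) : ZD (sker E 𝒮 x) := by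
  intro i
  unfold sker
  rw [if_pos rfl, hC _ _ hx, hx0, mul_zero, zero_mul, 𝒮.val_zero]

theorem sker_upper (hA : SO.IsMASA A M) (hE : IsTrExp M A ξ E)
    (𝒮 : Spec M A X) {x : H →L[ℂ] H} (hx : x ∈ M) {a : ℝ}
    (ha : x ≤ (a : ℂ) • (1 : H →L[ℂ] H)) (W : Finset X) (v : X → ℂ) :
    qf (sker E 𝒮 x) W v ≤ a * ∑ i ∈ W, ‖v i‖ ^ 2 := by
  unfold qf
  set O := W.image (bpt M A) with hO
  have hmaps : ∀ i ∈ W, bpt M A i ∈ O := fun i hi => Finset.mem_image_of_mem _ hi
  have e1 : ∑ i ∈ W, ∑ j ∈ W, star (v i) * sker E 𝒮 x i j * v j =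
      ∑ o ∈ O, ∑ i ∈ W.filter (fun i => bpt M A i = o), ∑ j ∈ W.filter (fun i => bpt M A i = o),
        star (v i) * 𝒮.val o (E (star (op (cgr M A i)) * x * op (cgr M A j))) * v j := by
    rw [← Finset.sum_fiberwise_of_maps_to hmaps]
    refine Finset.sum_congr rfl fun o _ => ?_
    refine Finset.sum_congr rfl fun i hi => ?_
    have hio : bpt M A i = o := (Finset.mem_filter.1 hi).2
    rw [Finset.sum_filter]
    refine Finset.sum_congr rfl fun j _ => ?_
    unfold sker
    rw [hio]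
    by_cases h : o = bpt M A j
    · rw [if_pos h, if_pos h.symm]
    · rw [if_neg h, if_neg (fun h' => h h'.symm), mul_zero, zero_mul]
  have e2 : ∑ i ∈ W, ‖v i‖ ^ 2 = ∑ o ∈ O, ∑ i ∈ W.filter (fun i => bpt M A i = o), ‖v i‖ ^ 2 :=
    (Finset.sum_fiberwise_of_maps_to hmaps _).symm
  rw [e1, e2, Complex.re_sum, Finset.mul_sum]
  refine Finset.sum_le_sum fun o _ => ?_
  refine form_bound hA hE 𝒮 hx _ v (cgr M A) o (fun i hi => ?_) ha
  rw [← (Finset.mem_filter.1 hi).2]
  exact cgr_spec i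

theorem sker_neg (hE : IsTrExp M A ξ E) (𝒮 : Spec M A X) {x : H →L[ℂ] H} (hx : x ∈ M) (v w : X) :
    sker E 𝒮 (-x) v w = - sker E 𝒮 x v w := by
  unfold sker
  split_ifs
  · have e1 : star (op (cgr M A v)) * (-x) * op (cgr M A w) =
      -(star (op (cgr M A v)) * x * op (cgr M A w)) := by noncomm_ring
    rw [e1, map_neg, 𝒮.val_neg _ (hE.mem _ (mul_mem (mul_mem (star_op_mem _) hx) (op_mem _)))]
  · simp

theorem sker_FB (hA : SO.IsMASA A M) (hE : IsTrExp M A ξ E)
    (𝒮 : Spec M A X) {x : H →L[ℂ] H} (hx : x ∈ M) {a b : ℝ}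
    (ha : x ≤ (a : ℂ) • (1 : H →L[ℂ] H)) (hb : -((b : ℂ) • (1 : H →L[ℂ] H)) ≤ x) :
    FB a b (sker E 𝒮 x) := by
  intro W v
  refine ⟨?_, sker_upper hA hE 𝒮 hx ha W v⟩
  have h1 := sker_upper hA hE 𝒮 (neg_mem hx) (a := b) (neg_le.1 hb) W v
  have h2 : qf (sker E 𝒮 (-x)) W v = - qf (sker E 𝒮 x) W v := by
    unfold qf
    rw [← Complex.neg_re, ← Finset.sum_neg_distrib]
    congr 1
    refine Finset.sum_congr rfl fun i _ => ?_
    rw [← Finset.sum_neg_distrib]
    refine Finset.sum_congr rfl fun j _ => ?_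
    rw [sker_neg hE 𝒮 hx]
    ring
  rw [h2] at h1
  linarith

theorem sker_gauge (hA : SO.IsMASA A M) (hE : IsTrExp M A ξ E) (hC : Cov M A E)
    (𝒮 : Spec M A X) {x : H →L[ℂ] H} (hx : x ∈ M) (hsa : IsSelfAdjoint x) (z : X) :
    ∃ u : nrm M A → ℂ, (∀ g, ‖u g‖ = 1) ∧ ∀ g h, sker E 𝒮 x (g • z) (h • z) =
      star (u g) * 𝒮.val z (E (star (op g) * x * op h)) * u h := by
  set o := bpt M A z with ho
  set φ : nrm M A → ℂ := fun g => 𝒮.val o (E (star (op (cgr M A (g • z))) * op (g * cgr M A z)))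
    with hφ
  have hpt : ∀ g : nrm M A, cgr M A (g • z) • o = (g * cgr M A z) • o := by
    intro g
    have h1 : cgr M A (g • z) • bpt M A (g • z) = g • z := cgr_spec _
    rw [bpt_smul] at h1
    rw [ho, h1, mul_smul, cgr_spec]
  refine ⟨fun g => star (φ g), fun g => ?_, fun g h => ?_⟩
  · rw [norm_star]
    exact norm_val_E hA hE 𝒮 _ _ (hpt g)
  · have h0 : bpt M A (g • z) = bpt M A (h • z) := by rw [bpt_smul, bpt_smul]
    unfold sker
    rw [if_pos h0, bpt_smul, ← ho]
    -- value at z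
    have hm : star (op g) * x * op h ∈ M := mul_mem (mul_mem (star_op_mem _) hx) (op_mem _)
    have e1 : 𝒮.val z (E (star (op g) * x * op h)) =
        𝒮.val o (E (star (op (g * cgr M A z)) * (x * op (h * cgr M A z)))) := by
      have e2 : z = cgr M A z • o := (cgr_spec z).symm
      conv_lhs => rw [e2]
      rw [𝒮.act _ _ _ (hE.mem _ hm)]
      change 𝒮.val o (star (op (cgr M A z)) * E (star (op g) * x * op h) * op (cgr M A z)) = _
      rw [← hC _ _ hm, op_mul, op_mul, star_mul]
      congr 2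
    -- phases
    have p1 := val_E_phase hA hE 𝒮 (cgr M A (g • z)) (g * cgr M A z) (hpt g)
      (x := x * op (cgr M A (h • z))) (mul_mem hx (op_mem _))
    have p2 := val_E_phase hA hE 𝒮 (cgr M A (h • z)) (h * cgr M A z) (hpt h)
      (x := x * op (g * cgr M A z)) (mul_mem hx (op_mem _))
    have hst : ∀ s t : nrm M A, 𝒮.val o (E (star (op s) * (x * op t))) =
        star (𝒮.val o (E (star (op t) * (x * op s)))) := by
      intro s t
      have hm : star (op t) * (x * op s) ∈ M :=
        mul_mem (star_op_mem _) (mul_mem hx (op_mem _))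
      rw [← 𝒮.star _ _ (hE.mem _ hm), ← hE.star _ hm, star_mul, star_mul, star_star, hsa.star_eq,
        mul_assoc]
    rw [mul_assoc (star (op (cgr M A (g • z)))) x, p1, hst (g * cgr M A z), p2, star_mul, ← hst, e1]
    simp only [star_star]
    ring

theorem sker_range (hA : SO.IsMASA A M) (hE : IsTrExp M A ξ E)
    (𝒮 : Spec M A X) {x : H →L[ℂ] H} {S : Finset (nrm M A)}
    (hS : ∀ g h : nrm M A, ∀ ω : X,
      𝒮.val ω (E (star (op g) * x * op h)) ≠ 0 → ∃ s ∈ S, g • ω = (s * h) • ω) (v w : X)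
    (h : sker E 𝒮 x v w ≠ 0) : ∃ g ∈ S, v = g • w := by
  unfold sker at h
  split_ifs at h with h1
  · obtain ⟨s, hs, h2⟩ := hS _ _ _ h
    refine ⟨s, hs, ?_⟩
    rw [cgr_spec, mul_smul, h1, cgr_spec] at h2
    exact h2
  · exact absurd rfl h


end Vale.Agent.P078.W
end

section
/-! P078, Cartan inclusions of arbitrary type, operator side: the powers of a pinched element, with
deleted points. -/

set_option linter.unusedSectionVars false
set_option linter.unusedVariables false

namespace Vale.Agent.P078.W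

open Vale.Agent.P078.SO Polynomial
open Vale.Agent.P078.C (Spec nrm nspan op op_mem op_mul op_inv op_one star_op_mem op_mul_star
  star_op_mul IsTrExp IsTrace IsPart pinch n2 vtr pev KK KK_add KK_smul KK_zero KK_sum KK_left
  nspan_le_M mom_star_op_mem Herm ZD qf yc pw locmom FB val_zero')
open scoped Classical

variable {H : Type*} [NormedAddCommGroup H] [InnerProductSpace ℂ H] [CompleteSpace H]
variable {M A : VonNeumannAlgebra H} {ξ : ℕ → H} {E : (H →L[ℂ] H) →ₗ[ℂ] (H →L[ℂ] H)}
variable {X : Type*} [TopologicalSpace X] [MulAction (nrm M A) X]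

/-- the pinched kernel, with deleted points (`none`) -/
def ycs {α : Type*} {r : ℕ} (y : α → α → ℂ) (s : α → Option (Fin r)) : α → α → ℂ :=
  fun i j => if s i = s j ∧ s i ≠ none then y i j else 0

theorem KK_mul (hA : SO.IsMASA A M) (hE : IsTrExp M A ξ E)
    (𝒮 : Spec M A X) {z : H →L[ℂ] H} (hz : z ∈ M) (W : Finset X) (γ : X → nrm M A) (ω : X)
    (hγ : ∀ u ∈ W, γ u • ω = u) (g h : nrm M A)
    (hsupp : ∀ γ' : nrm M A, γ' • ω ∉ W → KK 𝒮 E z γ' h ω = 0)
    {x : H →L[ℂ] H} (hx : x ∈ nspan M A) :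
    KK 𝒮 E (x * z) g h ω = ∑ u ∈ W, KK 𝒮 E x g (γ u) ω * KK 𝒮 E z (γ u) h ω := by
  have hspanM : ∀ w ∈ nspan M A, w ∈ M := fun w hw => nspan_le_M hw
  have hx' := hx
  unfold nspan at hx
  induction hx using Submodule.span_induction with
  | mem x hx =>
    obtain ⟨u₀, rfl⟩ := hx
    change KK 𝒮 E (op u₀ * z) g h ω = ∑ u ∈ W, KK 𝒮 E (op u₀) g (γ u) ω * KK 𝒮 E z (γ u) h ω
    have hg' : star (op (u₀⁻¹ * g)) = star (op g) * op u₀ := by
      rw [op_mul, op_inv, star_mul, star_star]
    have h1 : KK 𝒮 E (op u₀ * z) g h ω =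
        𝒮.val ω (E (star (op (u₀⁻¹ * g)) * (z * op h))) := by
      unfold KK
      rw [hg']
      simp only [mul_assoc]
    have h2 : ∀ u, KK 𝒮 E (op u₀) g (γ u) ω =
        𝒮.val ω (E (star (op (u₀⁻¹ * g)) * op (γ u))) := by
      intro u
      unfold KK
      rw [hg']
    by_cases hv : (u₀⁻¹ * g) • ω ∈ W
    · rw [Finset.sum_eq_single_of_mem _ hv]
      · rw [h1, h2, val_E_phase hA hE 𝒮 (u₀⁻¹ * g) (γ ((u₀⁻¹ * g) • ω)) (hγ _ hv).symm
          (mul_mem hz (op_mem h))]
        unfold KK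
        simp only [mul_assoc]
      · intro u hu hne
        rw [h2, val_E_eq_zero hA hE 𝒮 (u₀⁻¹ * g) (γ u) (by
          rw [hγ u hu]
          exact Ne.symm hne), zero_mul]
    · rw [Finset.sum_eq_zero]
      · rw [h1]
        have := hsupp _ hv
        unfold KK at this
        simpa only [mul_assoc] using this
      · intro u hu
        rw [h2, val_E_eq_zero hA hE 𝒮 (u₀⁻¹ * g) (γ u) (by
          rw [hγ u hu]
          rintro rfl
          exact hv hu), zero_mul]
  | zero =>
    rw [zero_mul, KK_zero hE]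
    simp only [KK_zero hE, zero_mul, Finset.sum_const_zero]
  | add v w hv hw ihv ihw =>
    have hv' : v ∈ M := hspanM v hv
    have hw' : w ∈ M := hspanM w hw
    rw [add_mul, KK_add hE 𝒮 (mul_mem hv' hz) (mul_mem hw' hz), ihv hv, ihw hw,
      ← Finset.sum_add_distrib]
    refine Finset.sum_congr rfl fun u _ => ?_
    rw [KK_add hE 𝒮 hv' hw', add_mul]
  | smul c v hv ihv =>
    have hv' : v ∈ M := hspanM v hv
    rw [smul_mul_assoc, KK_smul hE 𝒮 (mul_mem hv' hz), ihv hv, Finset.mul_sum]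
    refine Finset.sum_congr rfl fun u _ => ?_
    rw [KK_smul hE 𝒮 hv', mul_assoc]

/-- multiplication by the pinched element -/
theorem KK_pinch (hA : SO.IsMASA A M) (hE : IsTrExp M A ξ E)
    (𝒮 : Spec M A X) {z : H →L[ℂ] H} (hz : z ∈ M) (W : Finset X) (γ : X → nrm M A) (ω : X)
    (hγ : ∀ u ∈ W, γ u • ω = u) (g h : nrm M A)
    (hsupp : ∀ γ' : nrm M A, γ' • ω ∉ W → KK 𝒮 E z γ' h ω = 0)
    {x : H →L[ℂ] H} (hx : x ∈ nspan M A) {r : ℕ} (s : X → Option (Fin r))
    (P : Fin r → (H →L[ℂ] H)) (hP : ∀ i, P i ∈ A)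
    (hPc : ∀ i ω, 𝒮.val ω (P i) = if s ω = some i then 1 else 0) :
    KK 𝒮 E (pinch P x * z) g h ω =
      ∑ u ∈ W, (if s (g • ω) = s u ∧ s (g • ω) ≠ none then KK 𝒮 E x g (γ u) ω else 0) *
        KK 𝒮 E z (γ u) h ω := by
  have hPM : ∀ i, P i ∈ M := fun i => hA.1 _ (hP i)
  have hxM : x ∈ M := nspan_le_M hx
  have h1 : pinch P x * z = ∑ i, P i * (x * (P i * z)) := by
    unfold pinch
    rw [Finset.sum_mul]
    refine Finset.sum_congr rfl fun i _ => ?_
    simp only [mul_assoc]
  rw [h1, KK_sum hE 𝒮 _ fun i _ => mul_mem (hPM i) (mul_mem hxM (mul_mem (hPM i) hz))]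
  have h2 : ∀ i, KK 𝒮 E (P i * (x * (P i * z))) g h ω =
      ∑ u ∈ W, (if s (g • ω) = some i then 1 else 0) *
        (KK 𝒮 E x g (γ u) ω * ((if s u = some i then 1 else 0) * KK 𝒮 E z (γ u) h ω)) := by
    intro i
    rw [KK_left hA hE 𝒮 (hP i) (mul_mem hxM (mul_mem (hPM i) hz)), hPc,
      KK_mul hA hE 𝒮 (mul_mem (hPM i) hz) W γ ω hγ g h ?_ hx, Finset.mul_sum]
    · refine Finset.sum_congr rfl fun u hu => ?_
      rw [KK_left hA hE 𝒮 (hP i) hz, hPc, hγ u hu]
    · intro γ' hγ'
      rw [KK_left hA hE 𝒮 (hP i) hz, hsupp γ' hγ', mul_zero]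
  rw [Finset.sum_congr rfl fun i _ => h2 i, Finset.sum_comm]
  refine Finset.sum_congr rfl fun u hu => ?_
  rcases hs : s (g • ω) with _ | a
  · simp
  · rw [Finset.sum_eq_single_of_mem a (Finset.mem_univ _)]
    · rw [if_pos rfl, one_mul]
      by_cases h : s u = some a
      · rw [if_pos h, one_mul, if_pos ⟨h.symm, by simp⟩]
      · rw [if_neg h, zero_mul, mul_zero, if_neg (fun h' => h h'.1.symm), zero_mul]
    · intro i _ hi
      rw [if_neg (fun h => hi (Option.some_injective _ h).symm), zero_mul]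

theorem pinch_mem3 (hA : SO.IsMASA A M) {r : ℕ} {P : Fin r → (H →L[ℂ] H)} (hP : ∀ i, P i ∈ A)
    {x : H →L[ℂ] H} (hx : x ∈ M) : pinch P x ∈ M := by
  unfold pinch
  exact sum_mem fun i _ => mul_mem (mul_mem (hA.1 _ (hP i)) hx) (hA.1 _ (hP i))

theorem pinch_sa3 {r : ℕ} {P : Fin r → (H →L[ℂ] H)} (hP : ∀ i, IsStarProjection (P i))
    {x : H →L[ℂ] H} (hx : IsSelfAdjoint x) : IsSelfAdjoint (pinch P x) := by
  unfold pinch IsSelfAdjoint
  rw [star_sum]
  refine Finset.sum_congr rfl fun i _ => ?_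
  rw [star_mul, star_mul, (hP i).isSelfAdjoint.star_eq, hx.star_eq, mul_assoc]

/-- the powers of the pinched element are given by the powers of the local kernel -/
theorem pow_local (hA : SO.IsMASA A M) (hE : IsTrExp M A ξ E)
    (𝒮 : Spec M A X) {x : H →L[ℂ] H} (hx : x ∈ nspan M A)
    {y : X → X → ℂ} {ω : X}
    (hgauge : ∃ u : nrm M A → ℂ, (∀ g, ‖u g‖ = 1) ∧ ∀ g h, y (g • ω) (h • ω) =
      star (u g) * 𝒮.val ω (E (star (op g) * x * op h)) * u h)
    (B : ℕ → Finset X) (hB0 : ω ∈ B 0) (hBm : ∀ m n, m ≤ n → B m ⊆ B n)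
    (hBo : ∀ n, ∀ v ∈ B n, ∃ g : nrm M A, g • ω = v)
    (hBe : ∀ n, ∀ v ∈ B n, ∀ w, y w v ≠ 0 → w ∈ B (n + 1))
    {r : ℕ} (s : X → Option (Fin r)) (P : Fin r → (H →L[ℂ] H)) (hP : ∀ i, P i ∈ A)
    (hPc : ∀ i ω, 𝒮.val ω (P i) = if s ω = some i then 1 else 0) (N : ℕ) :
    ∀ n ≤ N, pw (ycs y s) (B N) n ω ω = 𝒮.val ω (E (pinch P x ^ n)) := by
  have hxM : x ∈ M := nspan_le_M hx
  have htM : pinch P x ∈ M := pinch_mem3 hA hP hxM
  obtain ⟨u, hu1, hu⟩ := hgauge
  have hu0 : ∀ g, u g ≠ 0 := by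
    intro g h0
    have := hu1 g
    rw [h0, norm_zero] at this
    exact zero_ne_one this
  have huu : ∀ g, u g * star (u g) = 1 := by
    intro g
    rw [Complex.star_def, Complex.mul_conj, Complex.normSq_eq_norm_sq, hu1]
    simp
  -- a section of the orbit map
  obtain ⟨γ, hγ1, hγ⟩ : ∃ γ : X → nrm M A, γ ω = 1 ∧ ∀ v, (∃ g : nrm M A, g • ω = v) →
      γ v • ω = v := by
    refine ⟨fun v => if v = ω then 1 else if h : ∃ g : nrm M A, g • ω = v then h.choose else 1,
      if_pos rfl, fun v hv => ?_⟩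
    by_cases h : v = ω
    · simp only [h, if_true, one_smul]
    · simp only [if_neg h, dif_pos hv]
      exact hv.choose_spec
  have hball : ∀ n, ∀ v ∈ B n, γ v • ω = v := fun n v hv => hγ v (hBo n v hv)
  -- support of the powers
  have hsupp : ∀ n, ∀ γ' : nrm M A, γ' • ω ∉ B n →
      KK 𝒮 E (pinch P x ^ n) γ' 1 ω = 0 := by
    intro n
    induction n with
    | zero =>
      intro γ' hγ'
      unfold KK
      rw [pow_zero, mul_one]
      refine val_E_eq_zero hA hE 𝒮 γ' 1 ?_
      intro h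
      apply hγ'
      rw [h, one_smul]
      exact hB0
    | succ n ih =>
      intro γ' hγ'
      rw [pow_succ', KK_pinch hA hE 𝒮 (pow_mem htM n) (B n) γ ω (hball n) γ' 1 ih hx s P
        hP hPc]
      refine Finset.sum_eq_zero fun v hv => ?_
      have h1 : KK 𝒮 E x γ' (γ v) ω = 0 := by
        by_contra hne
        apply hγ'
        have h2 : y (γ' • ω) v ≠ 0 := by
          rw [← hball n v hv, hu]
          exact mul_ne_zero (mul_ne_zero (star_ne_zero.2 (hu0 _)) hne) (hu0 _)
        exact hBe n v hv _ h2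
      rw [h1]
      simp
  -- comparison
  have hmain : ∀ n ≤ N, ∀ v ∈ B N, pw (ycs y s) (B N) n v ω =
      star (u (γ v)) * KK 𝒮 E (pinch P x ^ n) (γ v) 1 ω * u 1 := by
    intro n
    induction n with
    | zero =>
      intro _ v hv
      change (if v = ω then (1 : ℂ) else 0) = _
      by_cases h : v = ω
      · subst h
        rw [if_pos rfl, hγ1]
        unfold KK
        rw [pow_zero, op_one, star_one, mul_one, mul_one, hE.idem 1 (one_mem A), 𝒮.one, mul_one,
          mul_comm, huu]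
      · rw [if_neg h]
        have h1 : KK 𝒮 E (pinch P x ^ 0) (γ v) 1 ω = 0 := by
          unfold KK
          rw [pow_zero, mul_one]
          refine val_E_eq_zero hA hE 𝒮 (γ v) 1 ?_
          rw [hball N v hv, one_smul]
          exact h
        rw [h1, mul_zero, zero_mul]
    | succ n ih =>
      intro hn v hv
      have hsuppN : ∀ γ' : nrm M A, γ' • ω ∉ B N →
          KK 𝒮 E (pinch P x ^ n) γ' 1 ω = 0 := by
        intro γ' hγ'
        refine hsupp n γ' fun h => hγ' (hBm _ _ (by omega) h)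
      rw [pw, pow_succ', KK_pinch hA hE 𝒮 (pow_mem htM n) (B N) γ ω (hball N) (γ v) 1
        hsuppN hx s P hP hPc, Finset.mul_sum, Finset.sum_mul]
      refine Finset.sum_congr rfl fun w hw => ?_
      rw [ih (by omega) w hw, hball N v hv]
      have h1 : ycs y s v w = star (u (γ v)) *
          (if s v = s w ∧ s v ≠ none then KK 𝒮 E x (γ v) (γ w) ω else 0) * u (γ w) := by
        unfold ycs
        split_ifs
        · have h2 := hu (γ v) (γ w)
          rw [hball N v hv, hball N w hw] at h2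
          exact h2
        · simp
      rw [h1]
      have h3 := huu (γ w)
      linear_combination (star (u (γ v)) *
          (if s v = s w ∧ s v ≠ none then KK 𝒮 E x (γ v) (γ w) ω else 0) *
          KK 𝒮 E (pinch P x ^ n) (γ w) 1 ω * u 1) * h3
  intro n hn
  have h1 := hmain n hn ω (hBm 0 N (Nat.zero_le _) hB0)
  rw [h1, hγ1]
  unfold KK
  rw [op_one, star_one, one_mul, mul_one]
  have h2 := huu 1
  linear_combination (𝒮.val ω (E (pinch P x ^ n))) * h2

section Loc

variable {α : Type*} [DecidableEq α] {r : ℕ} {y : α → α → ℂ}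

theorem pw_ycs_none (s : α → Option (Fin r)) (W : Finset α) {v : α} (hv : s v = none) (n : ℕ)
    (w : α) : pw (ycs y s) W (n + 1) v w = 0 := by
  rw [C.pw_succ']
  refine Finset.sum_eq_zero fun u _ => ?_
  rw [ycs, if_neg (fun h => h.2 hv), zero_mul]

theorem pw_ycs (s : α → Option (Fin r)) (c : α → Fin r) (W : Finset α)
    (hc : ∀ v ∈ W, s v ≠ none → s v = some (c v)) (n : ℕ) :
    ∀ v ∈ W, s v ≠ none → ∀ w ∈ W, s w ≠ none → pw (ycs y s) W n v w =
      pw (yc y c) (W.filter fun v => s v ≠ none) n v w := by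
  induction n with
  | zero => intro v _ _ w _ _; rfl
  | succ n ih =>
    intro v hv hsv w hw hsw
    rw [C.pw_succ', C.pw_succ', Finset.sum_filter]
    refine Finset.sum_congr rfl fun u hu => ?_
    by_cases hsu : s u = none
    · rw [if_neg (by simpa using hsu), ycs, if_neg, zero_mul]
      rintro ⟨h1, h2⟩
      exact h2 (h1.trans hsu)
    · rw [if_pos hsu, ih u hu hsu w hw hsw]
      congr 1
      unfold ycs yc
      rw [hc v hv hsv, hc u hu hsu]
      by_cases h : c v = c u
      · rw [if_pos ⟨by rw [h], by simp⟩, if_pos h]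
      · rw [if_neg (fun h' => h (Option.some_injective _ h'.1)), if_neg h]

/-- the local moment of a polynomial which is nonpositive on `[-u, u]` -/
theorem ycs_mom_le (hy : Herm y) (s : α → Option (Fin r)) (c : α → Fin r) (W : Finset α)
    (hc : ∀ v ∈ W, s v ≠ none → s v = some (c v)) {u : ℝ} (hu : 0 ≤ u)
    (hform : ∀ v : α → ℂ, |qf (yc y c) (W.filter fun v => s v ≠ none) v| ≤
      u * ∑ i ∈ W.filter (fun v => s v ≠ none), ‖v i‖ ^ 2) (p : ℝ[X])
    (hp : ∀ t, |t| ≤ u → p.eval t ≤ 0) {v : α} (hv : v ∈ W) :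
    ∑ n ∈ Finset.range (p.natDegree + 1), p.coeff n * (pw (ycs y s) W n v v).re ≤ 0 := by
  by_cases hsv : s v = none
  · rw [Finset.sum_range_succ']
    have h1 : ∑ n ∈ Finset.range p.natDegree, p.coeff (n + 1) * (pw (ycs y s) W (n + 1) v v).re
        = 0 := by
      refine Finset.sum_eq_zero fun n _ => ?_
      rw [pw_ycs_none s W hsv]
      simp
    rw [h1, zero_add, C.pw_zero', if_pos rfl]
    have h2 := hp 0 (by simpa using hu)
    rw [← Polynomial.coeff_zero_eq_eval_zero] at h2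
    simpa using h2
  · have h1 : ∑ n ∈ Finset.range (p.natDegree + 1), p.coeff n * (pw (ycs y s) W n v v).re =
        locmom p y c (W.filter fun v => s v ≠ none) v := by
      unfold locmom
      refine Finset.sum_congr rfl fun n _ => ?_
      rw [pw_ycs s c W hc n v hv hsv v hv hsv]
    rw [h1]
    refine D.locmom_le hy c (Finset.mem_filter.2 ⟨hv, hsv⟩) (lo := -u) (hi := u) (fun v => ?_)
      (fun v => (abs_le.1 (hform v)).2) p (fun t ht => hp t (abs_le.2 ⟨ht.1, ht.2⟩))
    rw [neg_mul]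
    exact (abs_le.1 (hform v)).1

end Loc

end Vale.Agent.P078.W
end
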