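import Vale.Agent.P078.Bdl.W0
import Vale.Agent.P078.Bdl.T4
import Vale.Agent.P078.Bdl.Fast

set_option linter.all false
attribute [local instance] Vale.Agent.P078.Fast.a01 Vale.Agent.P078.Fast.a02
  Vale.Agent.P078.Fast.a03 Vale.Agent.P078.Fast.a04 Vale.Agent.P078.Fast.a05
  Vale.Agent.P078.Fast.a06 Vale.Agent.P078.Fast.a07 Vale.Agent.P078.Fast.a08
  Vale.Agent.P078.Fast.a09 Vale.Agent.P078.Fast.a10 Vale.Agent.P078.Fast.a11
  Vale.Agent.P078.Fast.a12 Vale.Agent.P078.Fast.a13 Vale.Agent.P078.Fast.a14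
  Vale.Agent.P078.Fast.a15 Vale.Agent.P078.Fast.a16 Vale.Agent.P078.Fast.a17
  Vale.Agent.P078.Fast.a18 Vale.Agent.P078.Fast.a19 Vale.Agent.P078.Fast.a20
  Vale.Agent.P078.Fast.a21 Vale.Agent.P078.Fast.a22 Vale.Agent.P078.Fast.a23
  Vale.Agent.P078.Fast.a24 Vale.Agent.P078.Fast.a25 Vale.Agent.P078.Fast.a26
  Vale.Agent.P078.Fast.a27 Vale.Agent.P078.Fast.a28 Vale.Agent.P078.Fast.a29
  Vale.Agent.P078.Fast.a30 Vale.Agent.P078.Fast.a31 Vale.Agent.P078.Fast.a32
  Vale.Agent.P078.Fast.a33 Vale.Agent.P078.Fast.a34 Vale.Agent.P078.Fast.a35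
  Vale.Agent.P078.Fast.a36 Vale.Agent.P078.Fast.a37 Vale.Agent.P078.Fast.a38
  Vale.Agent.P078.Fast.a39 Vale.Agent.P078.Fast.a40 Vale.Agent.P078.Fast.a41
  Vale.Agent.P078.Fast.a42 Vale.Agent.P078.Fast.a43 Vale.Agent.P078.Fast.a44
  Vale.Agent.P078.Fast.a45 Vale.Agent.P078.Fast.a46 Vale.Agent.P078.Fast.a47
  Vale.Agent.P078.Fast.a48 Vale.Agent.P078.Fast.a49 Vale.Agent.P078.Fast.a50
  Vale.Agent.P078.Fast.a51 Vale.Agent.P078.Fast.a52 Vale.Agent.P078.Fast.a53
  Vale.Agent.P078.Fast.a54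
attribute [local instance] Vale.Agent.P078.Fast.b01 Vale.Agent.P078.Fast.b02
  Vale.Agent.P078.Fast.b03 Vale.Agent.P078.Fast.b04 Vale.Agent.P078.Fast.b05
  Vale.Agent.P078.Fast.b06 Vale.Agent.P078.Fast.b07 Vale.Agent.P078.Fast.b08
  Vale.Agent.P078.Fast.b09 Vale.Agent.P078.Fast.b10 Vale.Agent.P078.Fast.b11

section
/-! P078, Cartan inclusions of arbitrary type: two-sided paving of the elements of the span of the
normalizer, by a random local equivariant rule; no trace. -/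

set_option linter.unusedSectionVars false
set_option linter.unusedVariables false

namespace Vale.Agent.P078.W

open Vale.Agent.P078.SO Polynomial
open Vale.Agent.P078.C (Spec nrm nspan op op_mem op_mul op_inv op_one star_op_mem op_mul_star
  star_op_mul IsTrExp IsTrace IsPart pinch n2 vtr pev Herm ZD qf yc pw locmom FB conj_mem conj_mem'
  E_mul_left E_mul_right vtr_nonneg vtr_sum vtr_smul vtr_add vtr_sub vtr_one vtr_mono n2_eq n2_nonneg
  n2_summable n2_le n2_neg n2_mul_le norm_sq_pinch KK KK_sum algebraMap_real_eq pev_eq_cfc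
  nspan_le_M)
open scoped Classical

universe u

variable {H : Type u} [NormedAddCommGroup H] [InnerProductSpace ℂ H] [CompleteSpace H]
variable {M A : VonNeumannAlgebra H} {ξ : ℕ → H} {E : (H →L[ℂ] H) →ₗ[ℂ] (H →L[ℂ] H)}

section sys

variable {X : Type*} [TopologicalSpace X] [MulAction (nrm M A) X]

/-- the system attached to `x` -/
theorem exists_sys3 (hA : SO.IsMASA A M) (hE : IsTrExp M A ξ E) (hC : Cov M A E)
    (𝒮 : Spec M A X) {x : H →L[ℂ] H} (hx : x ∈ nspan M A) (hsa : IsSelfAdjoint x)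
    (hx0 : E x = 0) {a b : ℝ} (ha : x ≤ (a : ℂ) • (1 : H →L[ℂ] H))
    (hb : -((b : ℂ) • (1 : H →L[ℂ] H)) ≤ x) :
    ∃ 𝔖 : T.Sys3 X (nrm M A), 𝔖.a = a ∧ 𝔖.b = b ∧
      (∀ g h ω, 𝔖.k g h ω = 𝒮.val ω (E (star (op g) * x * op h))) := by
  obtain ⟨hxM, S, hS⟩ := span_range hA hE 𝒮 hx
  refine ⟨{
    cont := 𝒮.contAct
    fixc := fix_clopen hA hE 𝒮
    S := insert 1 (S ∪ S.image fun g => g⁻¹)
    one_mem := Finset.mem_insert_self _ _
    inv_mem := fun g hg => ?_
    y := sker E 𝒮 x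
    herm := sker_herm hE 𝒮 hxM hsa
    zd := sker_zd hE hC 𝒮 hxM hx0
    range := fun v w h => ?_
    a := a
    b := b
    bound := sker_FB hA hE 𝒮 hxM ha hb
    k := fun g h ω => 𝒮.val ω (E (star (op g) * x * op h))
    k_cont := fun g h => 𝒮.cont _ (hE.mem _ (mul_mem (mul_mem (star_op_mem _) hxM) (op_mem _)))
    gauge := sker_gauge hA hE hC 𝒮 hxM hsa }, rfl, rfl, fun _ _ _ => rfl⟩
  · rcases Finset.mem_insert.1 hg with rfl | hg
    · rw [inv_one]; exact Finset.mem_insert_self _ _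
    · refine Finset.mem_insert_of_mem ?_
      rcases Finset.mem_union.1 hg with hg | hg
      · exact Finset.mem_union_right _ (Finset.mem_image_of_mem _ hg)
      · obtain ⟨s, hs, rfl⟩ := Finset.mem_image.1 hg
        rw [inv_inv]
        exact Finset.mem_union_left _ hs
  · obtain ⟨g, hg, h⟩ := sker_range hA hE 𝒮 hS v w h
    exact ⟨g, Finset.mem_insert_of_mem (Finset.mem_union_left _ hg), h⟩

theorem val_inj (𝒮 : Spec M A X) {a b : H →L[ℂ] H} (ha : a ∈ A) (hb : b ∈ A)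
    (h : ∀ ω, 𝒮.val ω a = 𝒮.val ω b) : a = b := by
  rw [← sub_eq_zero]
  refine 𝒮.inj _ (sub_mem ha hb) fun ω => ?_
  rw [𝒮.val_sub ω ha hb, h ω, sub_self]

/-- the projection of a clopen set -/
theorem exists_clopen_proj (𝒮 : Spec M A X) {p : X → Prop} (hp : IsClopen {x | p x}) :
    ∃ e ∈ A, IsStarProjection e ∧ ∀ ω, 𝒮.val ω e = if p ω then 1 else 0 := by
  have hf : Continuous fun ω : X => if p ω then (1 : ℂ) else 0 := by
    have h1 : IsLocallyConstant fun ω : X => if p ω then (1 : ℂ) else 0 := by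
      rw [IsLocallyConstant.iff_eventually_eq]
      intro x0
      by_cases h : p x0
      · filter_upwards [hp.isOpen.mem_nhds h] with x hx
        have hx' : p x := hx
        rw [if_pos h, if_pos hx']
      · filter_upwards [hp.isClosed.isOpen_compl.mem_nhds h] with x hx
        have hx' : ¬ p x := hx
        rw [if_neg h, if_neg hx']
    exact h1.continuous
  obtain ⟨e, he, hval⟩ := 𝒮.surj ⟨_, hf⟩
  simp only [ContinuousMap.coe_mk] at hval
  refine ⟨e, he, ⟨?_, ?_⟩, hval⟩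
  · refine val_inj 𝒮 (mul_mem he he) he fun ω => ?_
    rw [𝒮.mul ω _ he _ he, hval ω]
    split_ifs <;> simp
  · refine val_inj 𝒮 (star_mem he) he fun ω => ?_
    rw [𝒮.star ω _ he, hval ω]
    split_ifs <;> simp

/-- colours given by a local rule are locally constant -/
theorem rule3_lc {G : Type*} [Group G] {Y : Type*} [TopologicalSpace Y] [MulAction G Y]
    (hcont : ∀ g : G, Continuous fun x : Y => g • x) {r : ℕ} {β : Type*}
    {B : Finset G} {Φ : Y → (G → Fin r) → β} (hlc : ∀ σ, IsLocallyConstant fun x => Φ x σ)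
    (hloc : ∀ x (σ σ' : G → Fin r), (∀ g ∈ B, σ g = σ' g) → Φ x σ = Φ x σ')
    {U : Y → Fin r} (hU : IsLocallyConstant U) :
    IsLocallyConstant fun x => Φ x fun g => U (g • x) := by
  rw [IsLocallyConstant.iff_eventually_eq]
  intro x0
  have h1 : ∀ᶠ x in nhds x0, ∀ g ∈ B, U (g • x) = U (g • x0) := by
    refine (Filter.eventually_all_finset B).2 fun g _ => ?_
    exact (hU.comp_continuous (hcont g)).eventually_eq x0
  have h2 := (hlc fun g => U (g • x0)).eventually_eq x0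
  filter_upwards [h1, h2] with x hx1 hx2
  rw [hloc x _ _ hx1]
  exact hx2

end sys

/-- clamping an element whose separating polynomial is small in the state -/
theorem clamp_of_small3 (hξ : IsTrace A ξ) {S : H →L[ℂ] H} (hSsa : IsSelfAdjoint S) (hSM : S ∈ M)
    {a u γ : ℝ} (ha0 : 0 < a) (hu0 : 0 < u) (hSa : S ≤ (a : ℂ) • (1 : H →L[ℂ] H))
    (hSb : -((a : ℂ) • (1 : H →L[ℂ] H)) ≤ S) (hγ0 : 0 ≤ γ) (p : ℝ[X])
    (hp1 : ∀ t, -γ ≤ p.eval t) (hp2 : ∀ t, u ≤ |t| → 1 ≤ p.eval t)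
    (hval : (vtr ξ (pev p S)).re ≤ γ) :
    ∃ w ∈ M, IsSelfAdjoint w ∧
      -((u : ℂ) • (1 : H →L[ℂ] H)) ≤ w ∧ w ≤ (u : ℂ) • (1 : H →L[ℂ] H) ∧
      n2 ξ (S - w) ≤ a ^ 2 * (γ + γ) := by
  have hspa : ∀ t ∈ spectrum ℝ S, t ≤ a := by
    rw [← algebraMap_real_eq, le_algebraMap_iff_spectrum_le hSsa] at hSa
    exact hSa
  have hspb : ∀ t ∈ spectrum ℝ S, -a ≤ t := by
    have h1 : algebraMap ℝ (H →L[ℂ] H) (-a) ≤ S := by
      rw [algebraMap_real_eq]
      push_cast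
      rwa [neg_smul]
    rw [algebraMap_le_iff_le_spectrum hSsa] at h1
    exact h1
  have hcc : Continuous fun t : ℝ => max (-u) (min t u) :=
    continuous_const.max (continuous_id.min continuous_const)
  have hcont : ContinuousOn (fun t : ℝ => max (-u) (min t u)) (spectrum ℝ S) := hcc.continuousOn
  set w := cfc (fun t : ℝ => max (-u) (min t u)) S with hw
  have hwsa : IsSelfAdjoint w := cfc_predicate _ _
  have hwM : w ∈ M := mem_of_forall_commute M hSM fun y hy => by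
    have := hy.symm.cfc_real (fun t : ℝ => max (-u) (min t u))
    exact this.symm
  refine ⟨w, hwM, hwsa, ?_, ?_, ?_⟩
  · have h1 : algebraMap ℝ (H →L[ℂ] H) (-u) ≤ w := by
      rw [hw]
      exact algebraMap_le_cfc _ _ _ (fun t _ => le_max_left _ _) hcont hSsa
    rw [algebraMap_real_eq] at h1
    push_cast at h1
    rwa [neg_smul] at h1
  · have h1 : w ≤ algebraMap ℝ (H →L[ℂ] H) u := by
      rw [hw]
      exact cfc_le_algebraMap _ _ _ (fun t _ => max_le (by linarith only [hu0]) (min_le_right _ _)) hcont hSsa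
    rwa [algebraMap_real_eq] at h1
  · rw [n2_eq hξ]
    have hdiff : S - w = cfc (fun t : ℝ => t - max (-u) (min t u)) S := by
      rw [cfc_sub (fun t : ℝ => t) (fun t : ℝ => max (-u) (min t u)) S continuousOn_id hcont,
        cfc_id' ℝ S]
    have hcont2 : ContinuousOn (fun t : ℝ => t - max (-u) (min t u)) (spectrum ℝ S) :=
      continuousOn_id.sub hcont
    have hstar : star (S - w) = S - w := (hSsa.sub hwsa).star_eq
    have hsq : star (S - w) * (S - w) = cfc (fun t : ℝ =>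
        (t - max (-u) (min t u)) * (t - max (-u) (min t u))) S := by
      rw [hstar, hdiff, ← cfc_mul (fun t : ℝ => t - max (-u) (min t u))
        (fun t : ℝ => t - max (-u) (min t u)) S hcont2 hcont2]
    have hpcont : ContinuousOn (fun t : ℝ => p.eval t) (spectrum ℝ S) :=
      p.continuous.continuousOn
    obtain ⟨K, hK⟩ : ∃ K : ℝ, K = a ^ 2 := ⟨_, rfl⟩
    have hbd : star (S - w) * (S - w) ≤ ((K : ℝ) : ℂ) • (pev p S + ((γ : ℝ) : ℂ) •
        (1 : H →L[ℂ] H)) := by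
      have h1 : ((K : ℝ) : ℂ) • (pev p S + ((γ : ℝ) : ℂ) • (1 : H →L[ℂ] H)) =
          cfc (fun t : ℝ => K * (p.eval t + γ)) S := by
        rw [cfc_const_mul K (fun t : ℝ => p.eval t + γ) S
            (hpcont.add continuousOn_const),
          cfc_add S (fun t : ℝ => p.eval t) (fun _ : ℝ => γ) hpcont continuousOn_const,
          cfc_const γ S hSsa, ← pev_eq_cfc p hSsa, algebraMap_real_eq]
        ext v
        simp only [Complex.coe_smul, smul_add, add_apply, smul_apply, one_apply_eq_self]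
      rw [h1, hsq]
      refine cfc_mono ?_ (hcont2.mul hcont2)
        (continuousOn_const.mul (hpcont.add continuousOn_const))
      intro t ht
      have hta := hspa t ht
      have htb := hspb t ht
      have h2 := hp1 t
      have ha2 : 0 < a ^ 2 := by positivity
      rw [hK]
      by_cases htu : |t| ≤ u
      · obtain ⟨h3, h4⟩ := abs_le.1 htu
        rw [min_eq_left h4, max_eq_right h3, sub_self, mul_zero]
        exact mul_nonneg ha2.le (by linarith only [h2])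
      · push Not at htu
        have h3 := hp2 t htu.le
        have h4 : (t - max (-u) (min t u)) * (t - max (-u) (min t u)) ≤ a ^ 2 := by
          rcases le_or_gt 0 t with h0 | h0
          · rw [abs_of_nonneg h0] at htu
            rw [min_eq_right htu.le, max_eq_right (by linarith only [hu0])]
            linarith [mul_nonneg (sub_nonneg.2 hta) (sub_nonneg.2 hta), mul_nonneg (le_of_lt (sub_pos.2 htu)) (sub_nonneg.2 hta), mul_nonneg (le_of_lt (sub_pos.2 hu0)) (sub_nonneg.2 hta), mul_pos (sub_pos.2 hu0) (sub_pos.2 htu), mul_pos (sub_pos.2 hu0) (sub_pos.2 hu0)]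
          · rw [abs_of_neg h0] at htu
            rw [min_eq_left (by linarith only [hu0, htu]), max_eq_left (by linarith only [htu])]
            nlinarith only [hu0, htu, htb]
        calc (t - max (-u) (min t u)) * (t - max (-u) (min t u)) ≤ a ^ 2 * 1 := by linarith
          _ ≤ a ^ 2 * (p.eval t + γ) := by
            apply mul_le_mul_of_nonneg_left _ ha2.le
            linarith only [hγ0, h3]
    have h2 := vtr_mono hξ hbd
    refine h2.trans ?_
    rw [vtr_smul hξ, vtr_add hξ, vtr_smul hξ, vtr_one hξ, mul_one, Complex.re_ofReal_mul,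
      Complex.add_re, Complex.ofReal_re, hK]
    gcongr

section partial_part

variable {r : ℕ} {P : Fin r → (H →L[ℂ] H)}

/-- norm of a pinching with respect to orthogonal projections -/
theorem norm_sq_pinch3 (hP : ∀ i, IsStarProjection (P i)) (hPo : ∀ i j, i ≠ j → P i * P j = 0)
    (x : H →L[ℂ] H) (v : H) : ‖pinch P x v‖ ^ 2 = ∑ i, ‖(P i * x * P i) v‖ ^ 2 := by
  have h0 : pinch P x v = ∑ i, (P i * x * P i) v := by
    unfold pinch
    rw [sum_apply]
  rw [h0, ← inner_self_re, sum_inner, Complex.re_sum]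
  refine Finset.sum_congr rfl fun i _ => ?_
  rw [inner_sum, Finset.sum_eq_single i]
  · rw [inner_self_re]
  · intro j _ hj
    have h1 : inner ℂ ((P i * x * P i) v) ((P j * x * P j) v) =
        inner ℂ ((x * P i) v) (P i (P j ((x * P j) v))) := by
      rw [← proj_inner (hP i)]
      rfl
    rw [h1]
    have h2 : P i (P j ((x * P j) v)) = 0 := by
      have := DFunLike.congr_fun (hPo i j (Ne.symm hj)) ((x * P j) v)
      exact this
    rw [h2, inner_zero_right]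
  · intro h
    exact absurd (Finset.mem_univ i) h

end partial_part

/-! ### the deleted part -/

theorem n2_add_le (hξ : IsTrace A ξ) (x y : H →L[ℂ] H) :
    n2 ξ (x + y) ≤ 2 * n2 ξ x + 2 * n2 ξ y := by
  unfold n2
  rw [← tsum_mul_left, ← tsum_mul_left,
    ← ((n2_summable hξ x).mul_left 2).tsum_add ((n2_summable hξ y).mul_left 2)]
  refine Summable.tsum_le_tsum (fun n => ?_) (n2_summable hξ (x + y))
    (((n2_summable hξ x).mul_left 2).add ((n2_summable hξ y).mul_left 2))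
  rw [add_apply]
  have h1 := norm_add_le (x (ξ n)) (y (ξ n))
  have h2 : ‖x (ξ n) + y (ξ n)‖ ^ 2 ≤ (‖x (ξ n)‖ + ‖y (ξ n)‖) ^ 2 :=
    pow_le_pow_left₀ (norm_nonneg _) h1 2
  linarith only [sq_nonneg (‖x (ξ n)‖ - ‖y (ξ n)‖), h2]

theorem n2_smul (c : ℂ) (x : H →L[ℂ] H) : n2 ξ (c • x) = ‖c‖ ^ 2 * n2 ξ x := by
  unfold n2
  rw [← tsum_mul_left]
  refine tsum_congr fun n => ?_
  rw [smul_apply, norm_smul, mul_pow]

theorem pinch_add3 {r : ℕ} (P : Fin r → (H →L[ℂ] H)) (x y : H →L[ℂ] H) :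
    pinch P (x + y) = pinch P x + pinch P y := by
  unfold pinch
  rw [← Finset.sum_add_distrib]
  exact Finset.sum_congr rfl fun i _ => by noncomm_ring

theorem pinch_smul3 {r : ℕ} (P : Fin r → (H →L[ℂ] H)) (c : ℂ) (x : H →L[ℂ] H) :
    pinch P (c • x) = c • pinch P x := by
  unfold pinch
  rw [Finset.smul_sum]
  exact Finset.sum_congr rfl fun i _ => by rw [mul_smul_comm, smul_mul_assoc]

theorem pinch_one3 {r : ℕ} {P : Fin r → (H →L[ℂ] H)} (hP : IsPart A P) : pinch P 1 = 1 := by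
  have h1 : pinch P (1 : H →L[ℂ] H) = ∑ i, P i := by
    unfold pinch
    exact Finset.sum_congr rfl fun i _ => by rw [mul_one, (hP.1 i).2.isIdempotentElem.eq]
  rw [h1, hP.2.2]

theorem norm_pinch_le3 {r : ℕ} {P : Fin r → (H →L[ℂ] H)} (hP : IsPart A P) (x : H →L[ℂ] H) :
    ‖pinch P x‖ ≤ ‖x‖ := by
  refine ContinuousLinearMap.opNorm_le_bound _ (norm_nonneg _) fun v => ?_
  have h1 := norm_sq_pinch hP x v
  have h2 := norm_sq_pinch hP 1 v
  rw [pinch_one3 hP, one_apply_eq_self] at h2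
  have h3 : ∀ i, ‖(P i * x * P i) v‖ ^ 2 ≤ ‖x‖ ^ 2 * ‖(P i * 1 * P i) v‖ ^ 2 := by
    intro i
    have e : (P i * 1 * P i) v = P i v := by rw [mul_one, (hP.1 i).2.isIdempotentElem.eq]
    rw [e]
    have h4 : ‖(P i * x * P i) v‖ ≤ ‖x‖ * ‖P i v‖ :=
      (C.norm_proj_le (hP.1 i).2 (x (P i v))).trans (x.le_opNorm _)
    calc ‖(P i * x * P i) v‖ ^ 2 ≤ (‖x‖ * ‖P i v‖) ^ 2 := pow_le_pow_left₀ (norm_nonneg _) h4 2
      _ = _ := by ring
  have h5 : ‖pinch P x v‖ ^ 2 ≤ (‖x‖ * ‖v‖) ^ 2 := by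
    rw [h1]
    refine (Finset.sum_le_sum fun i _ => h3 i).trans ?_
    rw [← Finset.mul_sum, ← h2, mul_pow]
  exact (sq_le_sq₀ (norm_nonneg _) (by (clear * -; positivity))).1 h5

theorem norm_op_le (u : nrm M A) : ‖op u‖ ≤ 1 := by
  refine ContinuousLinearMap.opNorm_le_bound _ zero_le_one fun v => ?_
  have h1 : ‖op u v‖ ^ 2 = ‖v‖ ^ 2 := by
    have h2 := star_apply_inner (op u) (op u v) v
    have h3 : star (op u) (op u v) = v := DFunLike.congr_fun (star_op_mul u) v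
    rw [h3] at h2
    rw [← inner_self_re (op u v), ← inner_self_re v, h2]
  have h2 : ‖op u v‖ = ‖v‖ := by
    have := (sq_eq_sq₀ (norm_nonneg _) (norm_nonneg _)).1 h1
    exact this
  rw [h2, one_mul]

/-- the part of a pinched element which starts in `d` -/
theorem n2_del_pinch (hA : SO.IsMASA A M) (hξ : IsTrace A ξ) {x : H →L[ℂ] H}
    (hx : x ∈ nspan M A) :
    ∃ (K : ℝ) (S : Finset (nrm M A)), 0 ≤ K ∧ ∀ {r : ℕ} (P : Fin r → (H →L[ℂ] H)),
      IsPart A P → ∀ d ∈ A, IsStarProjection d →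
      n2 ξ (d * pinch P x) ≤ K * ∑ g ∈ S, n2 ξ (star (op g) * d * op g) := by
  unfold nspan at hx
  induction hx using Submodule.span_induction with
  | mem x hx =>
    obtain ⟨u, rfl⟩ := hx
    refine ⟨1, {u}, zero_le_one, fun {r} P hP d hd hdp => ?_⟩
    rw [Finset.sum_singleton, one_mul]
    have hd' : star (op u) * d * op u ∈ A := conj_mem' u hd
    have e1 : d * pinch P (op u) = pinch P (op u) * (star (op u) * d * op u) := by
      unfold pinch
      rw [Finset.mul_sum, Finset.sum_mul]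
      refine Finset.sum_congr rfl fun i _ => ?_
      have c1 := hA.2.1 _ (hP.1 i).1 _ hd'
      have c2 := hA.2.1 _ hd _ (hP.1 i).1
      calc d * (P i * op u * P i) = (d * P i) * op u * P i := by noncomm_ring
        _ = (P i * d) * op u * P i := by rw [c2]
        _ = P i * (op u * star (op u)) * d * op u * P i := by rw [op_mul_star, mul_one]
        _ = P i * op u * ((star (op u) * d * op u) * P i) := by noncomm_ring
        _ = P i * op u * (P i * (star (op u) * d * op u)) := by rw [c1]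
        _ = _ := by noncomm_ring
    change n2 ξ (d * pinch P (op u)) ≤ _
    rw [e1]
    refine (n2_mul_le hξ _ _).trans ?_
    have h1 : ‖pinch P (op u)‖ ≤ 1 := (norm_pinch_le3 hP _).trans (norm_op_le u)
    have h2 : ‖pinch P (op u)‖ ^ 2 ≤ 1 := by
      linarith only [mul_nonneg (sub_nonneg.2 h1) (sub_nonneg.2 (norm_nonneg (pinch P (op u)))), mul_nonneg (sub_nonneg.2 h1) (sub_nonneg.2 h1)]
    (clear hA hξ x hd hdp hd' e1; linarith only [mul_nonneg (sub_nonneg.2 h2) (sub_nonneg.2 (n2_nonneg ξ (star (op u) * d * op u)))])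
  | zero =>
    refine ⟨0, ∅, le_rfl, fun {r} P hP d hd hdp => ?_⟩
    have e1 : d * pinch P (0 : H →L[ℂ] H) = 0 := by
      unfold pinch
      simp only [mul_zero, zero_mul, Finset.sum_const_zero]
    rw [e1]
    simp only [n2, zero_apply, norm_zero, ne_eq, OfNat.ofNat_ne_zero, not_false_eq_true, zero_pow, tsum_zero, mul_apply_eq_comp, Finset.sum_empty, mul_zero, Std.le_refl]
  | add a b ha hb iha ihb =>
    obtain ⟨K, S, hK, h⟩ := iha
    obtain ⟨K', S', hK', h'⟩ := ihb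
    refine ⟨2 * K + 2 * K', S ∪ S', by (clear * - hK hK'; positivity), fun {r} P hP d hd hdp => ?_⟩
    rw [pinch_add3, mul_add]
    refine (n2_add_le hξ _ _).trans ?_
    have h1 := h P hP d hd hdp
    have h2 := h' P hP d hd hdp
    have h3 : ∑ g ∈ S, n2 ξ (star (op g) * d * op g) ≤
        ∑ g ∈ S ∪ S', n2 ξ (star (op g) * d * op g) :=
      Finset.sum_le_sum_of_subset_of_nonneg Finset.subset_union_left
        fun _ _ _ => n2_nonneg ξ _
    have h4 : ∑ g ∈ S', n2 ξ (star (op g) * d * op g) ≤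
        ∑ g ∈ S ∪ S', n2 ξ (star (op g) * d * op g) :=
      Finset.sum_le_sum_of_subset_of_nonneg Finset.subset_union_right
        fun _ _ _ => n2_nonneg ξ _
    have h5 := mul_le_mul_of_nonneg_left h3 hK
    have h6 := mul_le_mul_of_nonneg_left h4 hK'
    (clear hA hξ x ha hb; linarith)
  | smul c a ha iha =>
    obtain ⟨K, S, hK, h⟩ := iha
    refine ⟨‖c‖ ^ 2 * K, S, by (clear * - hK; positivity), fun {r} P hP d hd hdp => ?_⟩
    rw [pinch_smul3, mul_smul_comm, n2_smul, mul_assoc]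
    exact mul_le_mul_of_nonneg_left (h P hP d hd hdp) (by (clear * -; positivity))

end Vale.Agent.P078.W
end

section
/-! P078, Cartan inclusions of arbitrary type: the pinched element of one sample of the rule. -/

set_option linter.unusedSectionVars false
set_option linter.unusedVariables false

namespace Vale.Agent.P078.W

open Vale.Agent.P078.SO Polynomial
open Vale.Agent.P078.C (Spec nrm nspan op op_mem op_mul op_inv op_one star_op_mem op_mul_star
  star_op_mul IsTrExp IsTrace IsPart pinch n2 vtr pev Herm ZD qf yc pw locmom FB conj_mem conj_mem'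
  E_mul_left E_mul_right vtr_nonneg vtr_sum vtr_smul vtr_add vtr_sub vtr_one vtr_neg vtr_mono n2_eq
  n2_nonneg n2_summable n2_le n2_neg n2_mul_le norm_sq_pinch KK KK_sum algebraMap_real_eq
  pev_eq_cfc nspan_le_M)
open scoped Classical

universe u

variable {H : Type u} [NormedAddCommGroup H] [InnerProductSpace ℂ H] [CompleteSpace H]
variable {M A : VonNeumannAlgebra H} {ξ : ℕ → H} {E : (H →L[ℂ] H) →ₗ[ℂ] (H →L[ℂ] H)}
variable {X : Type*} [TopologicalSpace X] [MulAction (nrm M A) X]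

/-- the values of a polynomial of the pinched element (with deleted points) are nonpositive -/
theorem val_pev_le (hA : SO.IsMASA A M) (hE : IsTrExp M A ξ E)
    (𝒮 : Spec M A X) {x : H →L[ℂ] H} (hx : x ∈ nspan M A) (hsa : IsSelfAdjoint x)
    (𝔖 : T.Sys3 X (nrm M A))
    (hk : ∀ g h ω, 𝔖.k g h ω = 𝒮.val ω (E (star (op g) * x * op h)))
    {r : ℕ} [NeZero r] (s : X → Option (Fin r)) (P : Fin r → (H →L[ℂ] H)) (hP : ∀ i, P i ∈ A)
    (hPp : ∀ i, IsStarProjection (P i))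
    (hPc : ∀ i ω, 𝒮.val ω (P i) = if s ω = some i then 1 else 0) {u : ℝ} (hu : 0 ≤ u)
    (p : ℝ[X]) (hp : ∀ t, |t| ≤ u → p.eval t ≤ 0)
    (hform : ∀ x, ∀ W ⊆ 𝔖.ball p.natDegree x, ∀ c : X → Fin r, (∀ v ∈ W, s v = some (c v)) →
      ∀ v : X → ℂ, |qf (yc 𝔖.y c) W v| ≤ u * ∑ i ∈ W, ‖v i‖ ^ 2) (ω : X) :
    (𝒮.val ω (E (pev p (pinch P x)))).re ≤ 0 := by
  have hxM : x ∈ M := nspan_le_M hx
  have htM : pinch P x ∈ M := pinch_mem3 hA hP hxM
  have hpev : pev p (pinch P x) =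
      ∑ n ∈ Finset.range (p.natDegree + 1), (p.coeff n : ℂ) • pinch P x ^ n := by
    unfold pev
    rw [Polynomial.aeval_eq_sum_range' (n := p.natDegree + 1)]
    · refine Finset.sum_congr rfl fun n _ => ?_
      rw [Polynomial.coeff_map]
      rfl
    · exact Nat.lt_succ_of_le (Polynomial.natDegree_map_le)
  have hMn : ∀ n, (p.coeff n : ℂ) • pinch P x ^ n ∈ M := fun n =>
    M.toStarSubalgebra.smul_mem (pow_mem htM n) _
  have h1 : 𝒮.val ω (E (pev p (pinch P x))) =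
      ∑ n ∈ Finset.range (p.natDegree + 1), (p.coeff n : ℂ) * 𝒮.val ω (E (pinch P x ^ n)) := by
    have h2 := KK_sum hE 𝒮 (Finset.range (p.natDegree + 1)) (fun n _ => hMn n) 1 1 ω
    unfold KK at h2
    simp only [op_one, star_one, one_mul, mul_one] at h2
    rw [hpev, h2]
    refine Finset.sum_congr rfl fun n _ => ?_
    rw [map_smul, 𝒮.smul]
    exact hE.mem _ (pow_mem htM n)
  have hpow := pow_local hA hE 𝒮 hx (y := 𝔖.y) (ω := ω) (by
      obtain ⟨u, hu1, hu2⟩ := 𝔖.gauge ω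
      exact ⟨u, hu1, fun g h => by rw [hu2, hk]⟩)
    (fun n => 𝔖.ball n ω) (𝔖.mem_ball_self 0 ω) (fun m n h => T.Sys3.ball_mono h ω)
    (fun n v hv => by
      obtain ⟨g, -, hg⟩ := T.Sys3.mem_ball.1 hv
      exact ⟨g, hg.symm⟩)
    (fun n v hv w hw => T.Sys3.ball_trans hv (T.Sys3.ball_of_edge hw)) s P hP hPc p.natDegree
  have h2 : (𝒮.val ω (E (pev p (pinch P x)))).re =
      ∑ n ∈ Finset.range (p.natDegree + 1), p.coeff n *
        (pw (ycs 𝔖.y s) (𝔖.ball p.natDegree ω) n ω ω).re := by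
    rw [h1, Complex.re_sum]
    refine Finset.sum_congr rfl fun n hn => ?_
    rw [Complex.re_ofReal_mul, hpow n (Nat.lt_succ_iff.1 (Finset.mem_range.1 hn))]
  rw [h2]
  refine ycs_mom_le 𝔖.herm s (fun v => (s v).getD 0) (𝔖.ball p.natDegree ω) ?_ hu ?_ p hp
    (𝔖.mem_ball_self _ _)
  · intro v _ hv
    obtain ⟨a, ha⟩ := Option.ne_none_iff_exists'.1 hv
    rw [ha]
    rfl
  · intro v
    refine hform ω _ (Finset.filter_subset _ _) _ (fun v hv => ?_) v
    obtain ⟨a, ha⟩ := Option.ne_none_iff_exists'.1 (Finset.mem_filter.1 hv).2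
    rw [ha]
    rfl

/-- one sample of the rule -/
theorem sample (hA : SO.IsMASA A M) (hξ : IsTrace A ξ) (hE : IsTrExp M A ξ E)
    (𝒮 : Spec M A X) {x : H →L[ℂ] H} (hx : x ∈ nspan M A) (hsa : IsSelfAdjoint x)
    (ha : x ≤ (1 : ℂ) • (1 : H →L[ℂ] H)) (hb : -((1 : ℂ) • (1 : H →L[ℂ] H)) ≤ x)
    (𝔖 : T.Sys3 X (nrm M A))
    (hk : ∀ g h ω, 𝔖.k g h ω = 𝒮.val ω (E (star (op g) * x * op h)))
    {r : ℕ} [NeZero r] (s : X → Option (Fin r)) (P : Fin r → (H →L[ℂ] H)) (hP : IsPart A P)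
    (hPc : ∀ i ω, s ω ≠ none → 𝒮.val ω (P i) = if s ω = some i then 1 else 0)
    {d : H →L[ℂ] H} (hd : d ∈ A) (hdp : IsStarProjection d)
    (hdc : ∀ ω, 𝒮.val ω d = if s ω = none then 1 else 0) {u₀ u : ℝ} (hu₀ : 0 ≤ u₀) (hu : 0 < u)
    {γ : ℝ} (hγ : 0 ≤ γ) (p : ℝ[X]) (hp0 : ∀ t, |t| ≤ u₀ → p.eval t ≤ 0)
    (hp1 : ∀ t, -γ ≤ p.eval t) (hp2 : ∀ t, u ≤ |t| → 1 ≤ p.eval t)
    (hform : ∀ x, ∀ W ⊆ 𝔖.ball p.natDegree x, ∀ c : X → Fin r, (∀ v ∈ W, s v = some (c v)) →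
      ∀ v : X → ℂ, |qf (yc 𝔖.y c) W v| ≤ u₀ * ∑ i ∈ W, ‖v i‖ ^ 2) :
    ∃ w ∈ M, IsSelfAdjoint w ∧
      -((u : ℂ) • (1 : H →L[ℂ] H)) ≤ w ∧ w ≤ (u : ℂ) • (1 : H →L[ℂ] H) ∧
      n2 ξ (pinch P x - w) ≤ 4 * γ + 4 * n2 ξ (d * pinch P x) + 4 * n2 ξ d := by
  have hxM : x ∈ M := nspan_le_M hx
  have hdM : d ∈ M := hA.1 d hd
  have h1A : (1 : H →L[ℂ] H) ∈ A := one_mem A
  obtain ⟨e, he⟩ : ∃ e : H →L[ℂ] H, e = 1 - d := ⟨_, rfl⟩
  have heA : e ∈ A := he ▸ sub_mem h1A hd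
  have hep : IsStarProjection e := he ▸ hdp.one_sub
  have hcomm : ∀ i, P i * e = e * P i := fun i => hA.2.1 _ (hP.1 i).1 _ heA
  set P' : Fin r → (H →L[ℂ] H) := fun i => P i * e with hP'
  have hP'A : ∀ i, P' i ∈ A := fun i => mul_mem (hP.1 i).1 heA
  have hP'p : ∀ i, IsStarProjection (P' i) := fun i => C.proj_mul hA (hP.1 i).1 heA (hP.1 i).2 hep
  have hP'c : ∀ i ω, 𝒮.val ω (P' i) = if s ω = some i then 1 else 0 := by
    intro i ω
    rw [hP', 𝒮.mul ω _ (hP.1 i).1 _ heA, he, 𝒮.val_sub ω h1A hd, 𝒮.one, hdc]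
    by_cases h : s ω = none
    · rw [if_pos h, sub_self, mul_zero, if_neg (by rw [h]; simp)]
    · rw [if_neg h, sub_zero, mul_one, hPc i ω h]
  set S := pinch P x with hS
  set T := pinch P' x with hT
  have hSM : S ∈ M := C.pinch_mem hA hP hxM
  have hTS : T = e * S * e := by
    rw [hT, hS]
    unfold pinch
    rw [Finset.mul_sum, Finset.sum_mul]
    refine Finset.sum_congr rfl fun i _ => ?_
    calc P' i * x * P' i = (P i * e) * x * (P i * e) := rfl
      _ = (e * P i) * x * (P i * e) := by rw [hcomm]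
      _ = _ := by noncomm_ring
  have hTM : T ∈ M := pinch_mem3 hA hP'A hxM
  have hTsa : IsSelfAdjoint T := pinch_sa3 hP'p hsa
  have hes : star e = e := hep.isSelfAdjoint.star_eq
  have hee : e * e = e := hep.isIdempotentElem.eq
  have he1 : e ≤ (1 : H →L[ℂ] H) := by
    rw [← sub_nonneg, he, sub_sub_cancel]
    exact hdp.nonneg
  have hSa := C.pinch_le hP ha
  have hSb := C.pinch_ge hP hb
  rw [← hS] at hSa hSb
  rw [one_smul] at hSa hSb
  have hTa : T ≤ ((1 : ℝ) : ℂ) • (1 : H →L[ℂ] H) := by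
    rw [Complex.ofReal_one, one_smul]
    refine le_trans ?_ he1
    have h2 := star_left_conjugate_nonneg (sub_nonneg.2 hSa) e
    have h3 : star e * (1 - S) * e = e - T := by
      rw [hes, mul_sub, sub_mul, mul_one, hee, ← hTS]
    rw [h3, sub_nonneg] at h2
    exact h2
  have hTb : -(((1 : ℝ) : ℂ) • (1 : H →L[ℂ] H)) ≤ T := by
    rw [Complex.ofReal_one, one_smul]
    refine le_trans (neg_le_neg he1) ?_
    have h2 := star_left_conjugate_nonneg (sub_nonneg.2 hSb) e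
    have h3 : star e * (S - -1) * e = T - -e := by
      rw [hes, sub_neg_eq_add, mul_add, add_mul, mul_one, hee, ← hTS, sub_neg_eq_add]
    rw [h3, sub_nonneg] at h2
    exact h2
  have hval0 : (vtr ξ (pev p T)).re ≤ γ := by
    have hpM : pev p T ∈ M := by
      unfold pev
      rw [Polynomial.aeval_eq_sum_range]
      exact sum_mem fun n _ => M.toStarSubalgebra.smul_mem (pow_mem hTM n) _
    have hpsa : star (pev p T) = pev p T := by
      rw [pev_eq_cfc p hTsa]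
      exact (cfc_predicate _ _ : IsSelfAdjoint _).star_eq
    have hdA : E (pev p T) ∈ A := hE.mem _ hpM
    have hreal : ∀ ω, (𝒮.val ω (E (pev p T))).im = 0 := by
      intro ω
      have h1 := 𝒮.star ω _ hdA
      rw [← hE.star _ hpM, hpsa] at h1
      have h2 := congrArg Complex.im h1
      rw [Complex.star_def, Complex.conj_im] at h2
      linarith
    have hle : ∀ ω, (𝒮.val ω (E (pev p T))).re ≤ 0 :=
      val_pev_le hA hE 𝒮 hx hsa 𝔖 hk s P' hP'A hP'p hP'c hu₀ p hp0 hform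
    have hneg : 0 ≤ -E (pev p T) := by
      refine 𝒮.nonneg' _ (neg_mem hdA) fun ω => ?_
      rw [𝒮.val_neg ω hdA, Complex.neg_re, Complex.neg_im, hreal ω, neg_zero]
      exact ⟨by linarith [hle ω], rfl⟩
    have h1 := (vtr_nonneg hξ hneg).1
    rw [vtr_neg hξ, hE.tr _ hpM, Complex.neg_re] at h1
    linarith
  obtain ⟨w, hwM, hwsa, hw1, hw2, hw3⟩ := clamp_of_small3 hξ hTsa hTM (a := 1) one_pos hu hTa hTb
    hγ p hp1 hp2 hval0
  refine ⟨w, hwM, hwsa, hw1, hw2, ?_⟩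
  have hsplit : S - w = (T - w) + (d * S + e * S * d) := by
    rw [hTS, he]
    noncomm_ring
  have hSn : ‖S‖ ≤ 1 := by
    refine norm_le_of_rayleigh (pinch_sa3 (fun i => (hP.1 i).2) hsa) zero_le_one fun v => ?_
    have h3 := inner_le_of_le hSa v
    have h4 := inner_le_of_le hSb v
    have h5 : RCLike.re (inner ℂ (S v) v) = (inner ℂ v (S v)).re := by
      rw [← inner_conj_symm]
      exact RCLike.conj_re _
    rw [one_apply_eq_self, inner_self_re] at h3
    rw [neg_apply, inner_neg_right, Complex.neg_re, one_apply_eq_self, inner_self_re] at h4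
    rw [h5, abs_le]
    constructor <;> linarith only [h3, h4]
  have hen : ‖e‖ ≤ 1 := hep.norm_le
  have h3 : n2 ξ (e * S * d) ≤ n2 ξ d := by
    refine (n2_mul_le hξ _ _).trans ?_
    have h4 : ‖e * S‖ ≤ 1 := (norm_mul_le _ _).trans (mul_le_one₀ hen (norm_nonneg _) hSn)
    have h5 : ‖e * S‖ ^ 2 ≤ 1 := by linarith [mul_nonneg (sub_nonneg.2 h4) (sub_nonneg.2 (norm_nonneg (e * S))), mul_nonneg (sub_nonneg.2 h4) (sub_nonneg.2 h4)]
    linarith only [mul_nonneg (sub_nonneg.2 h5) (sub_nonneg.2 (n2_nonneg ξ d))]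
  rw [hsplit]
  have h4 := n2_add_le hξ (T - w) (d * S + e * S * d)
  have h5 := n2_add_le hξ (d * S) (e * S * d)
  linarith only [h5, h4, h3, hw3]

end Vale.Agent.P078.W
end

section
/-! P078, Cartan inclusions of arbitrary type: two-sided paving of the elements of the span of the
normalizer by the samples of a random local equivariant rule. -/

set_option linter.unusedSectionVars false
set_option linter.unusedVariables false

namespace Vale.Agent.P078.W

open Vale.Agent.P078.SO Polynomial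
open Vale.Agent.P078.D (IsRuleA exists_sepPoly)
open Vale.Agent.P078.C (Spec nrm nspan op op_mem op_mul op_inv op_one star_op_mem op_mul_star
  star_op_mul IsTrExp IsTrace IsPart pinch n2 vtr pev Herm ZD qf yc pw locmom FB conj_mem conj_mem'
  E_mul_left E_mul_right vtr_nonneg vtr_sum vtr_smul vtr_add vtr_sub vtr_one vtr_neg vtr_mono n2_eq
  n2_nonneg n2_summable n2_le n2_neg n2_mul_le norm_sq_pinch KK KK_sum algebraMap_real_eq
  pev_eq_cfc nspan_le_M proj_conj)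
open scoped Classical

universe u

variable {H : Type u} [NormedAddCommGroup H] [InnerProductSpace ℂ H] [CompleteSpace H]
variable {M A : VonNeumannAlgebra H} {ξ : ℕ → H} {E : (H →L[ℂ] H) →ₗ[ℂ] (H →L[ℂ] H)}

/-- a partial rule, completed by the source -/
theorem isRuleA_getD {X : Type*} [TopologicalSpace X] [MulAction (nrm M A) X] {r : ℕ} [NeZero r]
    {𝔖 : T.Sys3 X (nrm M A)} {R : ℕ} {Φ : X → (nrm M A → Fin r) → Option (Fin r)}
    (h : T.IsRule3 𝔖 R Φ) : IsRuleA (𝔖.ballG R) fun x τ => (Φ x τ).getD (τ 1) where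
  lc := fun τ => (h.lc τ).comp fun o => o.getD (τ 1)
  loc := fun x τ τ' hτ => by
    rw [h.loc x τ τ' hτ, hτ 1 (𝔖.one_mem_ballG R)]
  equiv := fun x τ a => by
    rw [h.equiv x τ a]
    cases Φ x τ with
    | none => rfl
    | some c => rfl

/-- average over the samples of the translates of the deleted part -/
theorem avg_del (hA : SO.IsMASA A M) (hξ : IsTrace A ξ) {X : Type*} [TopologicalSpace X]
    [MulAction (nrm M A) X] (𝒮 : Spec M A X) {Ω : Type} [Fintype Ω] {r : ℕ}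
    (s : Ω → X → Option (Fin r)) {δ : ℝ} (hδ : 0 ≤ δ)
    (hs : ∀ z, ((Finset.univ.filter fun ω => s ω z = none).card : ℝ) ≤ δ * Fintype.card Ω)
    (d : Ω → (H →L[ℂ] H)) (hd : ∀ ω, d ω ∈ A) (hdp : ∀ ω, IsStarProjection (d ω))
    (hdc : ∀ ω z, 𝒮.val z (d ω) = if s ω z = none then 1 else 0) (g : nrm M A) :
    ∑ ω, n2 ξ (star (op g) * d ω * op g) ≤ δ * Fintype.card Ω := by
  have hA' : ∀ ω, star (op g) * d ω * op g ∈ A := fun ω => conj_mem' g (hd ω)
  have h1 : ∀ ω, n2 ξ (star (op g) * d ω * op g) = (vtr ξ (star (op g) * d ω * op g)).re := by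
    intro ω
    have hp := proj_conj g (hdp ω)
    rw [n2_eq hξ, hp.isSelfAdjoint.star_eq, hp.isIdempotentElem.eq]
  rw [Finset.sum_congr rfl fun ω _ => h1 ω, ← Complex.re_sum, ← vtr_sum hξ]
  set Z : H →L[ℂ] H := ∑ ω, star (op g) * d ω * op g with hZ
  have hZA : Z ∈ A := sum_mem fun ω _ => hA' ω
  obtain ⟨C, hC⟩ : ∃ C : ℝ, C = δ * Fintype.card Ω := ⟨_, rfl⟩
  rw [← hC]
  have hval : ∀ z, 𝒮.val z Z = ((Finset.univ.filter fun ω => s ω (g • z) = none).card : ℂ) := by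
    intro z
    rw [hZ, 𝒮.val_sum _ _ fun ω _ => hA' ω, Finset.card_filter, Nat.cast_sum]
    refine Finset.sum_congr rfl fun ω _ => ?_
    have h2 := 𝒮.act g z (d ω) (hd ω)
    change _ = 𝒮.val z (star (op g) * d ω * op g) at h2
    rw [← h2, hdc]
    push_cast
    rfl
  have hCA : (C : ℂ) • (1 : H →L[ℂ] H) ∈ A := A.toStarSubalgebra.smul_mem (one_mem A) _
  have hpos : 0 ≤ (C : ℂ) • (1 : H →L[ℂ] H) - Z := by
    refine 𝒮.nonneg' _ (sub_mem hCA hZA) fun z => ?_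
    rw [𝒮.val_sub z hCA hZA, 𝒮.smul z _ _ (one_mem A), 𝒮.one, mul_one, hval]
    have h3 := hs (g • z)
    rw [Complex.sub_re, Complex.sub_im, Complex.ofReal_re, Complex.ofReal_im, Complex.natCast_re,
      Complex.natCast_im, sub_zero]
    exact ⟨by rw [hC]; linarith, rfl⟩
  have h4 := (vtr_nonneg hξ hpos).1
  rw [vtr_sub hξ, vtr_smul hξ, vtr_one hξ, mul_one, Complex.sub_re, Complex.ofReal_re] at h4
  linarith only [h4]

private theorem num_aux {K c δ N : ℝ} (hK : 0 ≤ K) (hc : 0 ≤ c) :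
    4 * (K * (c * (δ / (12 * (K * c + 1)) * N))) + 4 * (δ / (12 * (K * c + 1)) * N) =
      N * (δ / 3) := by
  have : (0 : ℝ) < K * c + 1 := by positivity
  field_simp
  ring

private theorem num_aux2 {r : ℕ} (hr : (18 : ℝ) ≤ r) :
    8 / (r : ℝ) ≤ (2 / 3 * Real.sqrt (18 / r)) ^ 2 := by
  have hr0 : (0 : ℝ) < r := by linarith
  rw [mul_pow, Real.sq_sqrt (by (clear * - hr; positivity))]
  apply le_of_eq
  field_simp
  norm_num

/-- two-sided paving of elements of the span of the normalizer, on average over the samples of a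
random rule -/
theorem two_sided_rule3_one (hA : SO.IsMASA A M) (hξ : IsTrace A ξ) (hE : IsTrExp M A ξ E)
    (hC : Cov M A E)
    {X : Type*} [TopologicalSpace X] [CompactSpace X] [T2Space X] [TotallyDisconnectedSpace X]
    [MulAction (nrm M A) X] (𝒮 : Spec M A X)
    {x : H →L[ℂ] H} (hx : x ∈ nspan M A) (hsa : IsSelfAdjoint x) (hx0 : E x = 0)
    (ha : x ≤ (1 : ℂ) • (1 : H →L[ℂ] H)) (hb : -((1 : ℂ) • (1 : H →L[ℂ] H)) ≤ x)
    {r : ℕ} [NeZero r] (hr : 18 ≤ r) {u : ℝ} (hu : 63 * Real.sqrt (18 / r) < u)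
    {δ : ℝ} (hδ : 0 < δ) :
    ∃ (B : Finset (nrm M A)) (Ω : Type) (_ : Fintype Ω) (_ : Nonempty Ω)
      (Φ : Ω → X → (nrm M A → Fin r) → Fin r), (∀ ω, IsRuleA B (Φ ω)) ∧
      ∀ U : X → Fin r, IsLocallyConstant U → ∀ P : Ω → Fin r → (H →L[ℂ] H),
        (∀ ω, IsPart A (P ω)) →
        (∀ ω i z, 𝒮.val z (P ω i) = if Φ ω z (fun g => U (g • z)) = i then 1 else 0) →
        ∃ w : Ω → (H →L[ℂ] H), (∀ ω, w ω ∈ M ∧ IsSelfAdjoint (w ω) ∧
          -((u : ℂ) • (1 : H →L[ℂ] H)) ≤ w ω ∧ w ω ≤ (u : ℂ) • (1 : H →L[ℂ] H)) ∧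
          ∑ ω, n2 ξ (pinch (P ω) x - w ω) ≤ δ * Fintype.card Ω := by
  have hr' : (18 : ℝ) ≤ r := by exact_mod_cast hr
  have hr0 : (0 : ℝ) < r := by linarith only [hr']
  obtain ⟨ζ, hζ⟩ : ∃ ζ, ζ = Real.sqrt (18 / r) := ⟨_, rfl⟩
  have hζ0 : 0 < ζ := by rw [hζ]; exact Real.sqrt_pos.2 (by positivity)
  have hζ1 : ζ ≤ 1 := by
    rw [hζ, Real.sqrt_le_iff, one_pow, div_le_one hr0]
    exact ⟨zero_le_one, hr'⟩
  have hζ2 : 8 / (r : ℝ) ≤ (2 / 3 * ζ) ^ 2 := by
    rw [hζ]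
    exact num_aux2 hr'
  rw [← hζ] at hu
  have hu0 : 0 < u := lt_trans (by (clear * - hζ0; positivity)) hu
  obtain ⟨p, hp0, hp1, hp2⟩ := exists_sepPoly (u := 63 * ζ) (v := u) (γ := δ / 12)
    (by positivity) hu (by positivity)
  obtain ⟨𝔖, h𝔖a, h𝔖b, hk⟩ := exists_sys3 hA hE hC 𝒮 hx hsa hx0 (a := 1) (b := 1)
    (by simpa only [Complex.ofReal_one, one_smul] using ha) (by simpa only [Complex.ofReal_one, one_smul] using hb)
  have hFB : FB 1 1 𝔖.y := by
    have := 𝔖.bound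
    rwa [h𝔖a, h𝔖b] at this
  obtain ⟨K, S, hK, hdel⟩ := n2_del_pinch hA hξ hx
  obtain ⟨δ', hδ'⟩ : ∃ δ', δ' = δ / (12 * (K * S.card + 1)) := ⟨_, rfl⟩
  have hδ'0 : 0 < δ' := by rw [hδ']; (clear * - hδ hK; positivity)
  obtain ⟨R, Ω, _, _, Φ, hΦ, hmain⟩ := T.main_sys 𝔖 hFB (r := r) (by omega) hζ0 hζ1
    (fun W => T.ini_of_pos_above 𝔖 hFB (by omega) hζ0 hζ2 (by omega) W) hδ'0 p.natDegree
  refine ⟨𝔖.ballG R, Ω, ‹_›, ‹_›, fun ω x τ => (Φ ω x τ).getD (τ 1),
    fun ω => isRuleA_getD (hΦ ω), fun U hU P hP hPc => ?_⟩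
  obtain ⟨hprob, hform⟩ := hmain U hU
  set s : Ω → X → Option (Fin r) := fun ω z => Φ ω z fun g => U (g • z) with hs
  have hslc : ∀ ω, IsLocallyConstant (s ω) := fun ω =>
    rule3_lc 𝔖.cont (hΦ ω).lc (hΦ ω).loc hU
  have hcl : ∀ ω, IsClopen {z | s ω z = none} := fun ω => (hslc ω).isClopen_fiber none
  choose d hd hdp hdc0 using fun ω => exists_clopen_proj 𝒮 (p := fun z => s ω z = none) (hcl ω)
  have hdc : ∀ ω z, 𝒮.val z (d ω) = if s ω z = none then 1 else 0 := by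
    intro ω z
    rw [hdc0 ω z]
    congr
  have hPs : ∀ ω i z, s ω z ≠ none → 𝒮.val z (P ω i) = if s ω z = some i then 1 else 0 := by
    intro ω i z hz
    rw [hPc ω i z]
    obtain ⟨a, ha⟩ := Option.ne_none_iff_exists'.1 hz
    have h1 : Φ ω z (fun g => U (g • z)) = some a := ha
    change (if (Φ ω z fun g => U (g • z)).getD (U ((1 : nrm M A) • z)) = i then (1 : ℂ) else 0) = _
    rw [ha, h1, Option.getD_some]
    by_cases h : a = i
    · rw [if_pos h, if_pos (by rw [h])]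
    · rw [if_neg h, if_neg (fun h' => h (Option.some_injective _ h'))]
  have hsample := fun ω => sample hA hξ hE 𝒮 hx hsa ha hb 𝔖 hk (s ω) (P ω) (hP ω) (hPs ω)
    (hd ω) (hdp ω) (hdc ω) (u₀ := 63 * ζ) (by positivity) hu0 (γ := δ / 12) (by positivity) p hp0
    hp1 hp2 (hform ω)
  choose w hwM hwsa hw1 hw2 hw3 using hsample
  refine ⟨w, fun ω => ⟨hwM ω, hwsa ω, hw1 ω, hw2 ω⟩, ?_⟩
  have havg := fun g => avg_del hA hξ 𝒮 s hδ'0.le hprob d hd hdp hdc g
  obtain ⟨N, hN⟩ : ∃ N : ℝ, N = Fintype.card Ω := ⟨_, rfl⟩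
  have hN0 : 0 ≤ N := by rw [hN]; positivity
  rw [← hN]
  simp only [← hN] at havg
  have h1 : ∑ ω, n2 ξ (d ω) ≤ δ' * N := by
    have := havg 1
    simpa only [ge_iff_le, op_one, star_one, one_mul, mul_one] using this
  have h2 : ∑ ω, n2 ξ (d ω * pinch (P ω) x) ≤ K * (S.card * (δ' * N)) := by
    calc ∑ ω, n2 ξ (d ω * pinch (P ω) x)
        ≤ ∑ ω, K * ∑ g ∈ S, n2 ξ (star (op g) * d ω * op g) :=
          Finset.sum_le_sum fun ω _ => hdel (P ω) (hP ω) (d ω) (hd ω) (hdp ω)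
      _ = K * ∑ g ∈ S, ∑ ω, n2 ξ (star (op g) * d ω * op g) := by
          rw [← Finset.mul_sum, Finset.sum_comm]
      _ ≤ K * ∑ g ∈ S, δ' * N :=
          mul_le_mul_of_nonneg_left (Finset.sum_le_sum fun g _ => havg g) hK
      _ = _ := by rw [Finset.sum_const, nsmul_eq_mul]
  have h3 : ∑ ω, n2 ξ (pinch (P ω) x - w ω) ≤
      N * (4 * (δ / 12)) + 4 * (K * (S.card * (δ' * N))) + 4 * (δ' * N) := by
    refine (Finset.sum_le_sum fun ω _ => hw3 ω).trans ?_
    rw [Finset.sum_add_distrib, Finset.sum_add_distrib, Finset.sum_const, nsmul_eq_mul,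
      Finset.card_univ, ← hN, ← Finset.mul_sum, ← Finset.mul_sum]
    linarith only [h2, h1]
  refine h3.trans ?_
  have h4 : 4 * (K * (S.card * (δ' * N))) + 4 * (δ' * N) = N * (δ / 3) := by
    rw [hδ']
    exact num_aux hK (Nat.cast_nonneg _)
  have h5 := mul_nonneg hN0 hδ.le
  linarith only [h5, h4]

theorem smul_nonneg3 {z : H →L[ℂ] H} (hz : 0 ≤ z) {c : ℝ} (hc : 0 ≤ c) : 0 ≤ (c : ℂ) • z := by
  have h1 := star_left_conjugate_nonneg hz (((Real.sqrt c : ℝ) : ℂ) • (1 : H →L[ℂ] H))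
  have h2 : star (((Real.sqrt c : ℝ) : ℂ) • (1 : H →L[ℂ] H)) * z *
      (((Real.sqrt c : ℝ) : ℂ) • (1 : H →L[ℂ] H)) = (c : ℂ) • z := by
    rw [star_smul, star_one, Complex.star_def, Complex.conj_ofReal, smul_mul_assoc, one_mul,
      mul_smul_comm, mul_one, smul_smul, ← Complex.ofReal_mul, Real.mul_self_sqrt hc]
  rwa [h2] at h1

theorem smul_le_smul3 {x z : H →L[ℂ] H} (h : x ≤ z) {c : ℝ} (hc : 0 ≤ c) :
    (c : ℂ) • x ≤ (c : ℂ) • z := by
  rw [← sub_nonneg, ← smul_sub]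
  exact smul_nonneg3 (sub_nonneg.2 h) hc

/-- two-sided paving of elements of the span of the normalizer, on average over the samples of a
random rule -/
theorem two_sided_rule3_order (hA : SO.IsMASA A M) (hξ : IsCState M A ξ) (hE : IsTrExp M A ξ E)
    {X : Type*} [TopologicalSpace X] [CompactSpace X] [T2Space X] [TotallyDisconnectedSpace X]
    [MulAction (nrm M A) X] (𝒮 : Spec M A X)
    {x : H →L[ℂ] H} (hx : x ∈ nspan M A) (hsa : IsSelfAdjoint x) (hx0 : E x = 0) {a : ℝ}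
    (ha0 : 0 < a) (ha : x ≤ (a : ℂ) • (1 : H →L[ℂ] H))
    (hb : -((a : ℂ) • (1 : H →L[ℂ] H)) ≤ x)
    {r : ℕ} [NeZero r] (hr : 18 ≤ r) {u : ℝ} (hu : 63 * Real.sqrt (18 / r) * a < u)
    {δ : ℝ} (hδ : 0 < δ) :
    ∃ (B : Finset (nrm M A)) (Ω : Type) (_ : Fintype Ω) (_ : Nonempty Ω)
      (Φ : Ω → X → (nrm M A → Fin r) → Fin r), (∀ ω, IsRuleA B (Φ ω)) ∧
      ∀ U : X → Fin r, IsLocallyConstant U → ∀ P : Ω → Fin r → (H →L[ℂ] H),
        (∀ ω, IsPart A (P ω)) →
        (∀ ω i z, 𝒮.val z (P ω i) = if Φ ω z (fun g => U (g • z)) = i then 1 else 0) →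
        ∃ w : Ω → (H →L[ℂ] H), (∀ ω, w ω ∈ M ∧ IsSelfAdjoint (w ω) ∧
          -((u : ℂ) • (1 : H →L[ℂ] H)) ≤ w ω ∧ w ω ≤ (u : ℂ) • (1 : H →L[ℂ] H)) ∧
          ∑ ω, n2 ξ (pinch (P ω) x - w ω) ≤ δ * Fintype.card Ω := by
  have ht := hξ.tr hA
  have hC : Cov M A E := fun v x hx => exp_cov' hA hξ hE v hx
  have hai : 0 ≤ a⁻¹ := by positivity
  obtain ⟨y, hy⟩ : ∃ y, y = ((a⁻¹ : ℝ) : ℂ) • x := ⟨_, rfl⟩
  have haa : ((a⁻¹ : ℝ) : ℂ) * (a : ℂ) = 1 := by
    rw [← Complex.ofReal_mul, inv_mul_cancel₀ ha0.ne', Complex.ofReal_one]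
  have haa' : (a : ℂ) * ((a⁻¹ : ℝ) : ℂ) = 1 := by rw [mul_comm]; exact haa
  have hxy : x = (a : ℂ) • y := by rw [hy, smul_smul, haa', one_smul]
  have hyn : y ∈ nspan M A := by rw [hy]; exact Submodule.smul_mem _ _ hx
  have hysa : IsSelfAdjoint y := by
    rw [hy, IsSelfAdjoint, star_smul, Complex.star_def, Complex.conj_ofReal, hsa.star_eq]
  have hy0 : E y = 0 := by rw [hy, map_smul, hx0, smul_zero]
  have hya : y ≤ (1 : ℂ) • (1 : H →L[ℂ] H) := by
    have h1 := smul_le_smul3 ha hai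
    rw [smul_smul, haa] at h1
    rwa [hy]
  have hyb : -((1 : ℂ) • (1 : H →L[ℂ] H)) ≤ y := by
    have h1 := smul_le_smul3 hb hai
    rw [smul_neg, smul_smul, haa] at h1
    rwa [hy]
  obtain ⟨B, Ω, hF, hN, Φ, hΦ, hmain⟩ := two_sided_rule3_one hA ht hE hC 𝒮 hyn hysa hy0 hya hyb hr
    (u := u / a) (by rw [lt_div_iff₀ ha0]; exact hu) (δ := δ / a ^ 2) (by positivity)
  refine ⟨B, Ω, hF, hN, Φ, hΦ, fun U hU P hP hPc => ?_⟩
  obtain ⟨w, hw, hsum⟩ := hmain U hU P hP hPc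
  refine ⟨fun ω => (a : ℂ) • w ω, fun ω => ⟨?_, ?_, ?_, ?_⟩, ?_⟩
  · exact M.toStarSubalgebra.smul_mem (hw ω).1 _
  · rw [IsSelfAdjoint, star_smul, Complex.star_def, Complex.conj_ofReal, (hw ω).2.1.star_eq]
  · have h1 := smul_le_smul3 (hw ω).2.2.1 ha0.le
    rw [smul_neg, smul_smul, ← Complex.ofReal_mul, mul_div_cancel₀ _ ha0.ne'] at h1
    exact h1
  · have h1 := smul_le_smul3 (hw ω).2.2.2 ha0.le
    rw [smul_smul, ← Complex.ofReal_mul, mul_div_cancel₀ _ ha0.ne'] at h1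
    exact h1
  · have h1 : ∀ ω, n2 ξ (pinch (P ω) x - (a : ℂ) • w ω) = a ^ 2 * n2 ξ (pinch (P ω) y - w ω) := by
      intro ω
      have h2 : pinch (P ω) x - (a : ℂ) • w ω = (a : ℂ) • (pinch (P ω) y - w ω) := by
        rw [smul_sub, ← pinch_smul3, ← hxy]
      rw [h2, n2_smul, Complex.norm_real, Real.norm_of_nonneg ha0.le]
    rw [Finset.sum_congr rfl fun ω _ => h1 ω, ← Finset.mul_sum]
    have h2 := mul_le_mul_of_nonneg_left hsum (sq_nonneg a)
    refine h2.trans (le_of_eq ?_)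
    (clear * - ha0 hN hδ; field_simp)

private theorem norm_le_of_le3 {w : H →L[ℂ] H} (hw : IsSelfAdjoint w) {u : ℝ} (hu : 0 ≤ u)
    (h1 : -((u : ℂ) • (1 : H →L[ℂ] H)) ≤ w) (h2 : w ≤ (u : ℂ) • (1 : H →L[ℂ] H)) : ‖w‖ ≤ u := by
  refine norm_le_of_rayleigh hw hu fun v => ?_
  have h3 := inner_le_of_le h2 v
  have h4 := inner_le_of_le h1 v
  have h5 : RCLike.re (inner ℂ (w v) v) = (inner ℂ v (w v)).re := by
    rw [← inner_conj_symm]
    exact RCLike.conj_re _
  have e1 : (inner ℂ v (((u : ℂ) • (1 : H →L[ℂ] H)) v)).re = u * ‖v‖ ^ 2 := by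
    rw [smul_apply, one_apply_eq_self, inner_smul_right, Complex.re_ofReal_mul, inner_self_re]
  rw [e1] at h3
  rw [neg_apply, inner_neg_right, Complex.neg_re, e1] at h4
  rw [h5, abs_le]
  constructor <;> linarith only [h3, h4]

private theorem le_of_norm_le3 {w : H →L[ℂ] H} (hw : IsSelfAdjoint w) {u : ℝ} (h : ‖w‖ ≤ u) :
    w ≤ (u : ℂ) • (1 : H →L[ℂ] H) := by
  rw [← algebraMap_real_eq]
  exact hw.le_algebraMap_norm_self.trans (by
    rw [algebraMap_real_eq, algebraMap_real_eq, ← sub_nonneg, ← sub_smul, ← Complex.ofReal_sub]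
    exact smul_nonneg3 zero_le_one (sub_nonneg.2 h))

/-- the two-sided paving by a finite family of rules -/
theorem two_sided_rule3 (hA : SO.IsMASA A M) (hξ : IsCState M A ξ) (hE : IsTrExp M A ξ E)
    {X : Type*} [TopologicalSpace X] [CompactSpace X] [T2Space X] [TotallyDisconnectedSpace X]
    [MulAction (nrm M A) X] (𝒮 : Spec M A X)
    {x : H →L[ℂ] H} (hx : x ∈ nspan M A) (hsa : IsSelfAdjoint x) (hx0 : E x = 0) {a : ℝ}
    (ha0 : 0 < a) (ha : ‖x‖ ≤ a) {r : ℕ} [NeZero r] (hr : 18 ≤ r) {u : ℝ}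
    (hu : 268 * a < u * Real.sqrt r) {δ : ℝ} (hδ : 0 < δ) :
    ∃ (Ω : Type) (_ : Fintype Ω) (_ : Nonempty Ω) (B : Finset (nrm M A))
      (Φ : Ω → X → (nrm M A → Fin r) → Fin r), (∀ ω, D.IsRuleA B (Φ ω)) ∧
      ∀ U : X → Fin r, IsLocallyConstant U → ∀ P : Ω → Fin r → (H →L[ℂ] H),
        (∀ ω, IsPart A (P ω)) →
        (∀ ω i v, 𝒮.val v (P ω i) = if Φ ω v (fun g => U (g • v)) = i then 1 else 0) →
        ∃ w : Ω → (H →L[ℂ] H), (∀ ω, w ω ∈ M ∧ IsSelfAdjoint (w ω) ∧ ‖w ω‖ ≤ u) ∧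
          ∑ ω, n2 ξ (pinch (P ω) x - w ω) ≤ δ * Fintype.card Ω := by
  have hr' : (18 : ℝ) ≤ r := by exact_mod_cast hr
  have hr0 : (0 : ℝ) < r := by linarith only [hr']
  obtain ⟨t, ht⟩ : ∃ t, t = Real.sqrt r := ⟨_, rfl⟩
  have ht0 : 0 < t := by rw [ht]; exact Real.sqrt_pos.2 hr0
  have hu0 : 0 < u := by
    rw [← ht] at hu
    have h1 : 0 < u * t := lt_trans (by (clear * - ha0; positivity)) hu
    exact (pos_iff_pos_of_mul_pos h1).2 ht0
  have hu' : 63 * Real.sqrt (18 / r) * a < u := by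
    rw [Real.sqrt_div' _ hr0.le, ← ht]
    rw [← ht] at hu
    have h18 : 63 * Real.sqrt 18 ≤ 268 := by
      have h1 : Real.sqrt 18 ≤ 268 / 63 := by
        rw [Real.sqrt_le_iff]
        norm_num
      linarith only [h1]
    have h2 : 63 * (Real.sqrt 18 / t) * a = (63 * Real.sqrt 18) * a / t := by ring
    rw [h2, div_lt_iff₀ ht0]
    exact lt_of_le_of_lt (mul_le_mul_of_nonneg_right h18 ha0.le) hu
  have hb : -((a : ℂ) • (1 : H →L[ℂ] H)) ≤ x := by
    rw [neg_le]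
    exact le_of_norm_le3 hsa.neg (by rwa [norm_neg])
  obtain ⟨B, Ω, hF, hN, Φ, hΦ, hmain⟩ := two_sided_rule3_order hA hξ hE 𝒮 hx hsa hx0 ha0
    (le_of_norm_le3 hsa ha) hb hr hu' hδ
  refine ⟨Ω, hF, hN, B, Φ, hΦ, fun U hU P hP hPc => ?_⟩
  obtain ⟨w, hw, hsum⟩ := hmain U hU P hP hPc
  exact ⟨w, fun ω => ⟨(hw ω).1, (hw ω).2.1,
    norm_le_of_le3 (hw ω).2.1 hu0.le (hw ω).2.2.1 (hw ω).2.2.2⟩, hsum⟩

end Vale.Agent.P078.W
end
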