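import Vale.Agent.P078.Bdl.W0
import Vale.Agent.P078.Bdl.B18
import Vale.Agent.P078.Bdl.Fast

set_option linter.all false
attribute [local instance] Vale.Agent.P078.Fast.a01 Vale.Agent.P078.Fast.a02
  Vale.Agent.P078.Fast.a03 Vale.Agent.P078.Fast.a04 Vale.Agent.P078.Fast.a05
  Vale.Agent.P078.Fast.a06 Vale.Agent.P078.Fast.a07 Vale.Agent.P078.Fast.a08
  Vale.Agent.P078.Fast.a09 Vale.Agent.P078.Fast.a10 Vale.Agent.P078.Fast.a11
  Vale.Agent.P078.Fast.a12 Vale.Agent.P078.Fast.a13 Vale.Agent.P078.Fast.a14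
  Vale.Agent.P078.Fast.a15 Vale.Agent.P078.Fast.a16 Vale.Agent.P078.Fast.a17
  Vale.Agent.P078.Fast.a18 Vale.Agent.P078.Fast.a19 Vale.Agent.P078.Fast.a20
  Vale.Agent.P078.Fast.a21 Vale.Agent.P078.Fast.a22 Vale.Agent.P078.Fast.a23
  Vale.Agent.P078.Fast.a24 Vale.Agent.P078.Fast.a25 Vale.Agent.P078.Fast.a26
  Vale.Agent.P078.Fast.a27 Vale.Agent.P078.Fast.a28 Vale.Agent.P078.Fast.a29
  Vale.Agent.P078.Fast.a30 Vale.Agent.P078.Fast.a31 Vale.Agent.P078.Fast.a32
  Vale.Agent.P078.Fast.a33 Vale.Agent.P078.Fast.a34 Vale.Agent.P078.Fast.a35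
  Vale.Agent.P078.Fast.a36 Vale.Agent.P078.Fast.a37 Vale.Agent.P078.Fast.a38
  Vale.Agent.P078.Fast.a39 Vale.Agent.P078.Fast.a40 Vale.Agent.P078.Fast.a41
  Vale.Agent.P078.Fast.a42 Vale.Agent.P078.Fast.a43 Vale.Agent.P078.Fast.a44
  Vale.Agent.P078.Fast.a45 Vale.Agent.P078.Fast.a46 Vale.Agent.P078.Fast.a47
  Vale.Agent.P078.Fast.a48 Vale.Agent.P078.Fast.a49 Vale.Agent.P078.Fast.a50
  Vale.Agent.P078.Fast.a51 Vale.Agent.P078.Fast.a52 Vale.Agent.P078.Fast.a53
  Vale.Agent.P078.Fast.a54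
attribute [local instance] Vale.Agent.P078.Fast.b01 Vale.Agent.P078.Fast.b02
  Vale.Agent.P078.Fast.b03 Vale.Agent.P078.Fast.b04 Vale.Agent.P078.Fast.b05
  Vale.Agent.P078.Fast.b06 Vale.Agent.P078.Fast.b07 Vale.Agent.P078.Fast.b08
  Vale.Agent.P078.Fast.b09 Vale.Agent.P078.Fast.b10 Vale.Agent.P078.Fast.b11

section
/-! The expectation onto the algebra generated by the normalizer, for `A`-central states. -/

namespace Vale.Agent.P078.W

open Filter Topology
open Vale.Agent.P078 Vale.Agent.P078.C Vale.Agent.P078.C.Dn Vale.Agent.P078.L2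
open scoped InnerProductSpace

variable {H : Type*} [NormedAddCommGroup H] [InnerProductSpace ℂ H] [CompleteSpace H]
variable {M A N : VonNeumannAlgebra H} {ξ : ℕ → H} {E : (H →L[ℂ] H) →ₗ[ℂ] (H →L[ℂ] H)}

instance Kx_complete (ω : Sp ℕ H) : CompleteSpace (Kx M A ω) :=
  (Submodule.isClosed_topologicalClosure _).completeSpace_coe

theorem amp_mem_Kx {ω : Sp ℕ H} {d : H →L[ℂ] H} (hd : d ∈ nspan M A) : amp d ω ∈ Kx M A ω :=
  Submodule.le_topologicalClosure _ ⟨d, hd, rfl⟩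

theorem self_mem_Kx (ω : Sp ℕ H) : ω ∈ Kx M A ω := by
  have h := amp_mem_Kx (M := M) (A := A) (ω := ω) nspan_one
  rwa [amp_one] at h

theorem Kx_inv {ω : Sp ℕ H} {d : H →L[ℂ] H} (hd : d ∈ nspan M A) {v : Sp ℕ H}
    (hv : v ∈ Kx M A ω) : amp d v ∈ Kx M A ω := by
  refine map_mem_closure (amp d).continuous hv ?_
  rintro _ ⟨b, hb, rfl⟩
  exact ⟨d * b, nspan_mul hd hb, amp_mul d b ω⟩

theorem Kx_comm {ω : Sp ℕ H} {d : H →L[ℂ] H} (hd : d ∈ nspan M A) (v : Sp ℕ H) :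
    amp d ((Kx M A ω).starProjection v) = (Kx M A ω).starProjection (amp d v) := by
  refine commute_starProjection' (Kx M A ω) (y := amp d) (z := amp (star d)) (fun u w => ?_)
    (fun w hw => Kx_inv hd hw) (fun w hw => Kx_inv (nspan_star hd) hw) v
  rw [inner_amp]

/-- closed conditions on `K` can be checked on the span of the normalizer -/
theorem Kx_induction {ω : Sp ℕ H} {p : Sp ℕ H → Prop} (hp : IsClosed {v | p v})
    (h : ∀ d ∈ nspan M A, p (amp d ω)) {v : Sp ℕ H} (hv : v ∈ Kx M A ω) : p v := by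
  have h1 : closure ((nspan M A).map (ampL ω) : Set (Sp ℕ H)) ⊆ {v | p v} := by
    refine closure_minimal ?_ hp
    rintro _ ⟨d, hd, rfl⟩
    exact h d hd
  exact h1 hv

/-- the intertwiners -/
def Itw (N : VonNeumannAlgebra H) : Submodule ℂ (Sp ℕ H →L[ℂ] H) where
  carrier := {W | ∀ y ∈ N, ∀ v, W (amp y v) = y (W v)}
  add_mem' := fun {V W} hV hW y hy v => by
    rw [add_apply, add_apply, map_add, hV y hy, hW y hy]
  zero_mem' := fun y _ v => by simp
  smul_mem' := fun c W hW y hy v => by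
    rw [smul_apply, smul_apply, map_smul, hW y hy]

theorem Itw_eval (N : VonNeumannAlgebra H) (n : ℕ) :
    (lp.evalCLM ℂ (fun _ : ℕ => H) 2 n : Sp ℕ H →L[ℂ] H) ∈ Itw N := fun _ _ _ => rfl

theorem Itw_comp {y : H →L[ℂ] H} (hy : y ∈ N.commutant) {W : Sp ℕ H →L[ℂ] H} (hW : W ∈ Itw N) :
    y.comp W ∈ Itw N := by
  intro z hz v
  rw [ContinuousLinearMap.comp_apply, ContinuousLinearMap.comp_apply, hW z hz]
  exact DFunLike.congr_fun (commutant_comm hz hy) (W v)

theorem Itw_adj {W : Sp ℕ H →L[ℂ] H} (hW : W ∈ Itw N) {y : H →L[ℂ] H} (hy : y ∈ N) (v : H) :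
    W.adjoint (y v) = amp y (W.adjoint v) := by
  refine ext_inner_right ℂ fun w => ?_
  rw [ContinuousLinearMap.adjoint_inner_left, ← inner_conj_symm (amp y _), inner_amp,
    inner_conj_symm, ContinuousLinearMap.adjoint_inner_left, hW _ (star_mem hy),
    ← star_apply_inner (star y), star_star]

/-- a bounded operator commuting with a positive one -/
theorem norm_sq_le_of_commute {L : Type*} [NormedAddCommGroup L] [InnerProductSpace ℂ L]
    [CompleteSpace L] {S T : L →L[ℂ] L} (hS : 0 ≤ S) (hc : Commute S T) (v : L) :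
    (⟪T v, S (T v)⟫_ℂ).re ≤ ‖T‖ ^ 2 * (⟪v, S v⟫_ℂ).re := by
  obtain ⟨R, hR⟩ : ∃ R, R = CFC.sqrt S := ⟨_, rfl⟩
  have hRR : R * R = S := by rw [hR]; exact CFC.sqrt_mul_sqrt_self _ hS
  have hRs : star R = R := by
    rw [hR]; exact (IsSelfAdjoint.of_nonneg (CFC.sqrt_nonneg S)).star_eq
  have hRT : R * T = T * R := by
    rw [hR, CFC.sqrt]
    exact (hc.cfcₙ_nnreal _)
  have h1 : ∀ w : L, (⟪w, S w⟫_ℂ).re = ‖R w‖ ^ 2 := by
    intro w
    have h2 := star_apply_inner R w (R w)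
    rw [hRs] at h2
    rw [← hRR]
    change (⟪w, R (R w)⟫_ℂ).re = _
    rw [← inner_self_re, h2]
  rw [h1, h1, ← mul_pow]
  refine pow_le_pow_left₀ (norm_nonneg _) ?_ 2
  have h3 : R (T v) = T (R v) := DFunLike.congr_fun hRT v
  rw [h3]
  exact T.le_opNorm _

section Main

variable (hA : SO.IsMASA A M) (hξ : IsCState M A ξ)

/-- the main commutation relation -/
theorem itw_main (hE : IsTrExp M A ξ E)
    (hG : ∀ d ∈ nspan M A, d ∈ N) {x : H →L[ℂ] H} (hx : x ∈ M) (hsa : IsSelfAdjoint x)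
    {W : Sp ℕ H →L[ℂ] H} (hW : W ∈ Itw N) :
    ‖W ((Kx M A (xvec (hξ.tr hA))).starProjection (amp x (xvec (hξ.tr hA))))‖ ≤
      ‖x‖ * ‖W (xvec (hξ.tr hA))‖ ∧
    ⟪W ((Kx M A (xvec (hξ.tr hA))).starProjection (amp x (xvec (hξ.tr hA)))),
      W (xvec (hξ.tr hA))⟫_ℂ =
    ⟪W (xvec (hξ.tr hA)),
      W ((Kx M A (xvec (hξ.tr hA))).starProjection (amp x (xvec (hξ.tr hA))))⟫_ℂ := by
  obtain ⟨ω, hω⟩ : ∃ ω, ω = xvec (hξ.tr hA) := ⟨_, rfl⟩
  have hswap : ∀ ζ ∈ Kx M A ω, (∀ d ∈ nspan M A, ⟪ζ, amp d ω⟫_ℂ = ⟪amp (star d) ω, ζ⟫_ℂ) →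
      ∀ y ∈ M, ⟪ζ, amp y ω⟫_ℂ = ⟪amp (star y) ω, ζ⟫_ℂ := by
    intro ζ hζ h y hy
    rw [hω] at hζ h ⊢
    exact key_swap hA hξ hE hζ h hy
  rw [← hω]
  clear hω
  obtain ⟨P, hP⟩ : ∃ P, P = (Kx M A ω).starProjection := ⟨_, rfl⟩
  have hPK : ∀ v ∈ Kx M A ω, P v = v := fun v hv => by
    rw [hP]; exact Submodule.starProjection_eq_self_iff.2 hv
  have hPm : ∀ v, P v ∈ Kx M A ω := fun v => by
    rw [hP]; exact Submodule.starProjection_apply_mem _ v
  have hPs : ∀ u v, ⟪P u, v⟫_ℂ = ⟪u, P v⟫_ℂ := fun u v => by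
    rw [hP]; exact Submodule.inner_starProjection_left_eq_right _ u v
  have hPc : ∀ d ∈ nspan M A, ∀ v, amp d (P v) = P (amp d v) := fun d hd v => by
    rw [hP]; exact Kx_comm hd v
  have hPn : ∀ v, ‖P v‖ ≤ ‖v‖ := fun v => by
    rw [hP]; exact Submodule.norm_starProjection_apply_le _ v
  rw [← hP]
  clear hP
  have hωK : ω ∈ Kx M A ω := self_mem_Kx ω
  obtain ⟨S, hS⟩ : ∃ S : Sp ℕ H →L[ℂ] Sp ℕ H, ∀ v, S v = P (W.adjoint (W (P v))) :=
    ⟨P.comp (W.adjoint.comp (W.comp P)), fun _ => rfl⟩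
  obtain ⟨T, hT⟩ : ∃ T : Sp ℕ H →L[ℂ] Sp ℕ H, ∀ v, T v = P (amp x (P v)) :=
    ⟨P.comp ((amp x).comp P), fun _ => rfl⟩
  have hSs : ∀ u v, ⟪S u, v⟫_ℂ = ⟪u, S v⟫_ℂ := by
    intro u v
    rw [hS, hS, hPs, ContinuousLinearMap.adjoint_inner_left, ← hPs,
      ContinuousLinearMap.adjoint_inner_right]
  have hTs : ∀ u v, ⟪T u, v⟫_ℂ = ⟪u, T v⟫_ℂ := by
    intro u v
    rw [hT, hT, hPs, ← hPs u, inner_amp x (P v) (P u), hsa.star_eq]
  have hS0 : 0 ≤ S := by
    refine nonneg_of_inner ?_ fun v => ?_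
    · rw [ContinuousLinearMap.isSelfAdjoint_iff_isSymmetric]
      exact fun u v => hSs u v
    · rw [hS, ← hPs, ContinuousLinearMap.adjoint_inner_right, inner_self_re]
      (clear * -; positivity)
  obtain ⟨ζ, hζ⟩ : ∃ ζ, ζ = P (W.adjoint (W ω)) := ⟨_, rfl⟩
  have hSd : ∀ b ∈ nspan M A, S (amp b ω) = amp b ζ := by
    intro b hb
    rw [hS, hPK _ (amp_mem_Kx hb), hW b (hG b hb), Itw_adj hW (hG b hb), hζ, hPc b hb]
  have hζK : ζ ∈ Kx M A ω := by rw [hζ]; exact hPm _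
  have hζs : ∀ d ∈ nspan M A, ⟪ζ, amp d ω⟫_ℂ = ⟪amp (star d) ω, ζ⟫_ℂ := by
    intro d hd
    rw [hζ, hPs, ← hPs (amp (star d) ω), hPK _ (amp_mem_Kx hd),
      hPK _ (amp_mem_Kx (nspan_star hd)), ContinuousLinearMap.adjoint_inner_left,
      ContinuousLinearMap.adjoint_inner_right, hW d (hG d hd), hW _ (star_mem (hG d hd)),
      star_apply_inner]
  have hcomm0 : ∀ b ∈ nspan M A, ∀ c ∈ nspan M A,
      ⟪T (S (amp b ω)), amp c ω⟫_ℂ = ⟪S (T (amp b ω)), amp c ω⟫_ℂ := by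
    intro b hb c hc
    have h1 := hswap ζ hζK hζs (star b * x * c) (mul_mem (mul_mem (star_mem (nspan_le hb)) hx)
      (nspan_le hc))
    have e1 : ⟪T (S (amp b ω)), amp c ω⟫_ℂ = ⟪ζ, amp (star b * x * c) ω⟫_ℂ := by
      rw [hSd b hb, hT, hPs, hPK _ (amp_mem_Kx hc), hPK _ (Kx_inv hb hζK), amp_mul, amp_mul,
        inner_amp (star b), star_star, inner_amp x _ (amp b ζ), hsa.star_eq]
    have e2 : ⟪S (T (amp b ω)), amp c ω⟫_ℂ = ⟪amp (star (star b * x * c)) ω, ζ⟫_ℂ := by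
      rw [hSs, hSd c hc, hT, hPs, hPK _ (Kx_inv hc hζK), hPK _ (amp_mem_Kx hb), inner_amp,
        star_mul, star_mul, star_star, hsa.star_eq, amp_mul, amp_mul]
    rw [e1, e2, h1]
  have hcomm1 : ∀ u ∈ Kx M A ω, ∀ v ∈ Kx M A ω, ⟪T (S u), v⟫_ℂ = ⟪S (T u), v⟫_ℂ := by
    intro u hu v hv
    refine Kx_induction (p := fun u => ⟪T (S u), v⟫_ℂ = ⟪S (T u), v⟫_ℂ)
      (isClosed_eq (by (clear * -; fun_prop)) (by (clear * -; fun_prop))) (fun b hb => ?_) hu
    exact Kx_induction (p := fun v => ⟪T (S (amp b ω)), v⟫_ℂ = ⟪S (T (amp b ω)), v⟫_ℂ)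
      (isClosed_eq (by fun_prop) (by fun_prop)) (fun c hc => hcomm0 b hb c hc) hv
  have hPP : ∀ v, P (P v) = P v := fun v => hPK _ (hPm v)
  have hcomm : Commute S T := by
    ext u : 1
    refine ext_inner_right ℂ fun v => ?_
    change ⟪S (T u), v⟫_ℂ = ⟪T (S u), v⟫_ℂ
    have h1 := hcomm1 (P u) (hPm u) (P v) (hPm v)
    have h2 : ∀ u, T (P u) = T u := fun u => by rw [hT, hT, hPP]
    have h3 : ∀ u, S (P u) = S u := fun u => by rw [hS, hS, hPP]
    have h4 : ∀ u, P (T u) = T u := fun u => by rw [hT, hPP]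
    have h5 : ∀ u, P (S u) = S u := fun u => by rw [hS, hPP]
    rw [h2, h3, ← hPs, ← hPs, h4, h5] at h1
    exact h1.symm
  have hTω : P (amp x ω) = T ω := by rw [hT, hPK ω hωK]
  have hTn : ‖T‖ ≤ ‖x‖ := by
    refine T.opNorm_le_bound (norm_nonneg _) fun v => ?_
    rw [hT]
    exact (hPn _).trans ((norm_amp_le x _).trans
      (mul_le_mul_of_nonneg_left (hPn v) (norm_nonneg _)))
  have hPT : P (T ω) = T ω := by rw [hT, hPP]
  rw [hTω]
  constructor
  · have h1 := norm_sq_le_of_commute hS0 hcomm ω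
    have e1 : (⟪T ω, S (T ω)⟫_ℂ).re = ‖W (T ω)‖ ^ 2 := by
      rw [hS, ← hPs, hPT, ContinuousLinearMap.adjoint_inner_right, inner_self_re]
    have e2 : (⟪ω, S ω⟫_ℂ).re = ‖W ω‖ ^ 2 := by
      rw [hS, ← hPs, hPK ω hωK, ContinuousLinearMap.adjoint_inner_right, inner_self_re]
    rw [e1, e2, ← mul_pow] at h1
    have h2 := (sq_le_sq₀ (norm_nonneg _) (by (clear * -; positivity))).mp h1
    exact h2.trans (mul_le_mul_of_nonneg_right hTn (norm_nonneg _))
  · have e1 : ⟪W (T ω), W ω⟫_ℂ = ⟪T ω, S ω⟫_ℂ := by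
      rw [hS, ← hPs, hPT, hPK ω hωK, ContinuousLinearMap.adjoint_inner_right]
    have e2 : ⟪W ω, W (T ω)⟫_ℂ = ⟪S ω, T ω⟫_ℂ := by
      rw [hS, hPs, hPT, hPK ω hωK, ContinuousLinearMap.adjoint_inner_left]
    rw [e1, e2, hTs, hSs]
    congr 1
    exact (DFunLike.congr_fun hcomm.eq ω).symm

/-- the evaluation of intertwiners at a vector -/
noncomputable def itwEval (N : VonNeumannAlgebra H) (v : Sp ℕ H) : Itw N →ₗ[ℂ] H where
  toFun W := (W : Sp ℕ H →L[ℂ] H) v
  map_add' _ _ := rfl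
  map_smul' _ _ := rfl

/-- the orbit of the cyclic vector under the intertwiners is dense -/
theorem itw_dense (hN : ∀ x ∈ N, x ∈ M) : DenseRange (itwEval N (xvec (hξ.tr hA))) := by
  obtain ⟨S, hS⟩ : ∃ S : Submodule ℂ H, S = LinearMap.range (itwEval N (xvec (hξ.tr hA))) :=
    ⟨_, rfl⟩
  obtain ⟨K, hK⟩ : ∃ K : Submodule ℂ H, K = S.topologicalClosure := ⟨_, rfl⟩
  have hKc : IsClosed (K : Set H) := by
    rw [hK]
    exact S.isClosed_topologicalClosure
  have : CompleteSpace K := hKc.completeSpace_coe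
  have hinv : ∀ y ∈ N.commutant, ∀ v ∈ K, y v ∈ K := by
    intro y hy v hv
    rw [hK] at hv ⊢
    refine map_mem_closure y.continuous hv fun w hw => ?_
    rw [SetLike.mem_coe, hS] at hw ⊢
    obtain ⟨W, rfl⟩ := hw
    exact ⟨⟨y.comp W, Itw_comp hy W.2⟩, rfl⟩
  have hpN : K.starProjection ∈ N := by
    refine mem_of_commute fun y hy => ?_
    exact commute_starProjection K (hinv y hy) (hinv _ (star_mem hy))
  have hξK : ∀ n, ξ n ∈ K := by
    intro n
    rw [hK]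
    refine S.le_topologicalClosure ?_
    rw [hS]
    exact ⟨⟨_, Itw_eval N n⟩, rfl⟩
  have h1 : (1 : H →L[ℂ] H) - K.starProjection = 0 := by
    refine hξ.faithful _ (sub_mem (one_mem M) (hN _ hpN)) fun n => ?_
    rw [sub_apply, one_apply_eq_self,
      (Submodule.starProjection_eq_self_iff).2 (hξK n), sub_self]
  intro v
  have h2 := DFunLike.congr_fun h1 v
  rw [sub_apply, one_apply_eq_self] at h2
  have h3 : v ∈ K := by
    rw [← Submodule.starProjection_eq_self_iff]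
    exact (sub_eq_zero.1 h2).symm
  rw [hK, hS] at h3
  exact h3

include hA hξ in
/-- Selfadjoint elements of `M` have an expectation in every von Neumann algebra between the
normalizer and `M`. -/
theorem exists_expN3 (hE : IsTrExp M A ξ E) (hN : ∀ y ∈ N, y ∈ M)
    (hG : ∀ u : nrm M A, op u ∈ N) {x : H →L[ℂ] H} (hx : x ∈ M) (hsa : IsSelfAdjoint x) :
    ∃ z ∈ N, IsSelfAdjoint z ∧ ‖z‖ ≤ ‖x‖ ∧
      ∀ g h : nrm M A, E (star (op g) * (x - z) * op h) = 0 := by
  have ht := hξ.tr hA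
  have hG' : ∀ d ∈ nspan M A, d ∈ N := by
    intro d hd
    unfold nspan at hd
    induction hd using Submodule.span_induction with
    | mem x h => obtain ⟨u, rfl⟩ := h; exact hG u
    | zero => exact zero_mem N
    | add x y _ _ hx hy => exact add_mem hx hy
    | smul c x _ hx => exact N.toStarSubalgebra.smul_mem hx c
  have hmain := fun W : Itw N => itw_main hA hξ hE hG' hx hsa W.2
  have hdense := itw_dense hA hξ hN
  obtain ⟨η, hη⟩ : ∃ η, η = (Kx M A (xvec (hξ.tr hA))).starProjection (amp x (xvec (hξ.tr hA))) :=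
    ⟨_, rfl⟩
  rw [← hη] at hmain
  have hb : ∀ W : Itw N, ‖itwEval N η W‖ ≤ ‖x‖ * ‖itwEval N (xvec (hξ.tr hA)) W‖ :=
    fun W => (hmain W).1
  obtain ⟨z, hz⟩ : ∃ z : H →L[ℂ] H, z = (itwEval N η).extendOfNorm (itwEval N (xvec (hξ.tr hA))) :=
    ⟨_, rfl⟩
  have hze : ∀ W : Itw N, z (itwEval N (xvec (hξ.tr hA)) W) = itwEval N η W := fun W => by
    rw [hz]; exact LinearMap.extendOfNorm_eq hdense ⟨_, hb⟩ W
  have hzn : ‖z‖ ≤ ‖x‖ := by
    rw [hz]; exact LinearMap.opNorm_extendOfNorm_le hdense (norm_nonneg _) hb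
  have hzN : z ∈ N := by
    refine mem_of_commute fun y hy => ?_
    ext v
    refine hdense.induction_on (p := fun v => (y * z) v = (z * y) v) v
      (isClosed_eq (by (clear * -; continuity)) (by (clear * -; fun_prop))) fun W => ?_
    change y (z _) = z (y _)
    rw [hze]
    exact (hze ⟨y.comp W, Itw_comp hy W.2⟩).symm
  have hzsa : IsSelfAdjoint z := by
    rw [ContinuousLinearMap.isSelfAdjoint_iff_isSymmetric]
    refine (LinearMap.isSymmetric_iff_inner_map_self_real _).2 fun v => ?_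
    refine hdense.induction_on (p := fun v => (starRingEnd ℂ) ⟪z v, v⟫_ℂ = ⟪z v, v⟫_ℂ) v
      (isClosed_eq (by (clear * -; fun_prop)) (by fun_prop)) fun W => ?_
    rw [hze, inner_conj_symm]
    exact (hmain W).2.symm
  have hzη : amp z (xvec (hξ.tr hA)) = η := by
    apply lp.ext
    funext n
    exact hze ⟨_, Itw_eval N n⟩
  have hzM : z ∈ M := hN z hzN
  have hxz : x - z ∈ M := sub_mem hx hzM
  have hleft : ∀ k : nrm M A, E (op k * (x - z)) = 0 := by
    intro k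
    have hk : op k * (x - z) ∈ M := mul_mem (op_mem k) hxz
    refine (hE.uniq _ hk 0 (zero_mem A) fun a ha => ?_).symm
    have haM : a ∈ M := hA.1 a ha
    rw [zero_mul, vtr_zero, ← hξ.central a ha _ hk, ← mul_assoc]
    have e1 : a * op k = star (star (a * op k)) := (star_star _).symm
    have h1 : star (a * op k) ∈ nspan M A :=
      nspan_star (nspan_mul (nspan_of_mem hA ha) (op_nspan k))
    rw [e1, ← inner_amp_xvec (hξ.tr hA), amp_sub, hzη, hη]
    exact (Submodule.mem_orthogonal _ _).1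
      ((Kx M A (xvec (hξ.tr hA))).sub_starProjection_mem_orthogonal _) _ (amp_mem_Kx h1)
  refine ⟨z, hzN, hzsa, hzn, fun g h => ?_⟩
  have h1 := exp_cov' hA hξ hE h (mul_mem (op_mem (h * g⁻¹)) hxz)
  rw [hleft, mul_zero, zero_mul] at h1
  rw [← h1]
  congr 1
  have e1 : op (h * g⁻¹) = op h * star (op g) := rfl
  rw [e1]
  have e2 : star (op h) * (op h * star (op g) * (x - z)) * op h =
    (star (op h) * op h) * (star (op g) * (x - z) * op h) := by noncomm_ring
  rw [e2, star_op_mul, one_mul]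

end Main

end Vale.Agent.P078.W
end

section
/-! Approximation of elements of the algebra generated by the normalizer by elements of the span of
the normalizer, for `A`-central states. -/

namespace Vale.Agent.P078.W

open Filter Topology
open Vale.Agent.P078 Vale.Agent.P078.C Vale.Agent.P078.C.Dn Vale.Agent.P078.L2
open scoped InnerProductSpace

variable {H : Type*} [NormedAddCommGroup H] [InnerProductSpace ℂ H] [CompleteSpace H]
variable {M A N : VonNeumannAlgebra H} {ξ : ℕ → H} {E : (H →L[ℂ] H) →ₗ[ℂ] (H →L[ℂ] H)}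

theorem isMASA_self (hA : SO.IsMASA A M) : SO.IsMASA A A :=
  ⟨fun _ h => h, hA.2.1, fun _ h _ => h⟩

/-- the state norm of a bounded operator is controlled by finitely many vectors -/
theorem nn_small (hξ : IsTrace A ξ) {C δ : ℝ} (hδ : 0 < δ) :
    ∃ (F : Finset ℕ) (κ : ℝ), 0 < κ ∧ ∀ T : H →L[ℂ] H, ‖T‖ ≤ C →
      (∀ n ∈ F, ‖T (ξ n)‖ ≤ κ) → nn ξ T ≤ δ := by
  obtain ⟨F, hF⟩ : ∃ s : Finset ℕ,
      ∑' n, ‖ξ n‖ ^ 2 - ∑ n ∈ s, ‖ξ n‖ ^ 2 ≤ δ ^ 2 / (2 * (C ^ 2 + 1)) := by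
    have h1 := hξ.summable.hasSum
    rw [HasSum, Metric.tendsto_nhds] at h1
    obtain ⟨s, hs⟩ := (h1 (δ ^ 2 / (2 * (C ^ 2 + 1))) (by positivity)).exists
    refine ⟨s, ?_⟩
    rw [dist_eq_norm, Real.norm_eq_abs, abs_lt] at hs
    linarith only [hs]
  obtain ⟨κ, hκ, hκ2⟩ : ∃ κ : ℝ, 0 < κ ∧ (F.card : ℝ) * κ ^ 2 ≤ δ ^ 2 / 2 := by
    refine ⟨δ / (2 * (F.card + 1)), by (clear * - hδ; positivity), ?_⟩
    have h8 : (0 : ℝ) ≤ F.card := Nat.cast_nonneg _
    rw [div_pow, mul_div_assoc', div_le_div_iff₀ (by (clear * -; positivity)) (by norm_num)]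
    nlinarith only [mul_nonneg (mul_nonneg h8 h8) (sq_nonneg δ)]
  refine ⟨F, κ, hκ, fun T hT hTF => ?_⟩
  refine Real.sqrt_le_iff.2 ⟨hδ.le, ?_⟩
  have hs := n2_summable hξ T
  unfold n2
  rw [← hs.sum_add_tsum_subtype_compl F]
  have h1 : ∑ n ∈ F, ‖T (ξ n)‖ ^ 2 ≤ δ ^ 2 / 2 := by
    refine le_trans ?_ hκ2
    rw [← nsmul_eq_mul, ← Finset.sum_const]
    exact Finset.sum_le_sum fun n hn => pow_le_pow_left₀ (norm_nonneg _) (hTF n hn) 2
  have h2 : ∑' n : { n // n ∉ F }, ‖T (ξ n)‖ ^ 2 ≤ δ ^ 2 / 2 := by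
    have h3 : ∑' n : { n // n ∉ F }, ‖T (ξ n)‖ ^ 2 ≤
        ∑' n : { n // n ∉ F }, C ^ 2 * ‖ξ n‖ ^ 2 := by
      refine Summable.tsum_le_tsum (fun n => ?_) (hs.subtype _)
        ((hξ.summable.mul_left (C ^ 2)).subtype _)
      rw [← mul_pow]
      exact pow_le_pow_left₀ (norm_nonneg _) (T.le_of_opNorm_le hT _) 2
    have h4 := hξ.summable.sum_add_tsum_subtype_compl F
    rw [tsum_mul_left] at h3
    have h5 : ∑' n : { n // n ∉ F }, ‖ξ n‖ ^ 2 ≤ δ ^ 2 / (2 * (C ^ 2 + 1)) := by linarith only [hF, h4]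
    have h6 : C ^ 2 * (∑' n : { n // n ∉ F }, ‖ξ n‖ ^ 2) ≤
        C ^ 2 * (δ ^ 2 / (2 * (C ^ 2 + 1))) := mul_le_mul_of_nonneg_left h5 (by (clear * -; positivity))
    have h7 : C ^ 2 * (δ ^ 2 / (2 * (C ^ 2 + 1))) ≤ δ ^ 2 / 2 := by
      rw [mul_div_assoc', div_le_div_iff₀ (by positivity) (by norm_num)]
      nlinarith only []
    linarith only [h3, h6, h7]
  linarith only [h1, h2]

/-- the difference of Cayley type functions -/
theorem ff_key {y z z' : H →L[ℂ] H} (hzs : IsSelfAdjoint z) (hzs' : IsSelfAdjoint z')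
    (hy : y * (1 + z * z) = (2 : ℂ) • z) :
    cfc ff z' - y = (2 : ℂ) • (cfc rr z' * ((z' - z) * cfc rr z))
      - (1 / 2 : ℂ) • (cfc ff z' * ((z' - z) * y)) := by
  set R : H →L[ℂ] H := cfc rr z with hR
  set R' : H →L[ℂ] H := cfc rr z' with hR'
  obtain ⟨a1, a2, a3, a4⟩ := ff_identities hzs
  obtain ⟨b1, b2, b3, b4⟩ := ff_identities hzs'
  rw [← hR] at a1 a2 a3 a4
  rw [← hR'] at b1 b2 b3 b4
  have hyR : y = (2 : ℂ) • (z * R) := by
    calc y = y * ((1 + z * z) * R) := by rw [a1, mul_one]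
      _ = (y * (1 + z * z)) * R := by rw [mul_assoc]
      _ = (2 : ℂ) • (z * R) := by rw [hy, smul_mul_assoc]
  have c1 : cfc ff z' - y = R' * ((1 + z' * z') * (cfc ff z' - y) * (1 + z * z)) * R := by
    have d1 : R' * ((1 + z' * z') * (cfc ff z' - y) * (1 + z * z)) * R
        = (R' * (1 + z' * z')) * (cfc ff z' - y) * ((1 + z * z) * R) := by
      simp only [mul_assoc]
    rw [d1, b2, a1, one_mul, mul_one]
  have c2 : (1 + z' * z') * (cfc ff z' - y) * (1 + z * z)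
      = (2 : ℂ) • ((z' - z) - z' * (z' - z) * z) := by
    have d1 : (1 + z' * z') * cfc ff z' = (2 : ℂ) • z' := by
      have d2 : (1 + z' * z') * z' = z' * (1 + z' * z') := by noncomm_ring
      rw [b3, mul_smul_comm, ← mul_assoc, d2, mul_assoc, b1, mul_one]
    have d3 : (1 + z' * z') * (cfc ff z' - y) * (1 + z * z)
        = ((1 + z' * z') * cfc ff z') * (1 + z * z)
          - (1 + z' * z') * (y * (1 + z * z)) := by noncomm_ring
    rw [d3, d1, hy, smul_mul_assoc, mul_smul_comm, ← smul_sub]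
    congr 1
    noncomm_ring
  rw [c1, c2, hyR]
  conv_rhs => rw [b4]
  simp only [mul_smul_comm, smul_mul_assoc, smul_smul, mul_sub, sub_mul, smul_sub]
  norm_num
  simp only [mul_assoc]

theorem ff_apply_le {y z z' : H →L[ℂ] H} (hzs : IsSelfAdjoint z) (hzs' : IsSelfAdjoint z')
    (hy : y * (1 + z * z) = (2 : ℂ) • z) {v : H} {δ : ℝ}
    (h1 : ‖z' (cfc rr z v) - z (cfc rr z v)‖ ≤ δ) (h2 : ‖z' (y v) - z (y v)‖ ≤ δ) :
    ‖(cfc ff z' - y) v‖ ≤ 3 * δ := by
  have hδ : 0 ≤ δ := (norm_nonneg _).trans h1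
  rw [ff_key hzs hzs' hy]
  have hRb : ∀ t : ℝ, |rr t| ≤ 1 := by
    intro t
    rw [rr, abs_of_nonneg (by positivity)]
    exact inv_le_one_of_one_le₀ (by (clear * -; linarith only [sq_nonneg t]))
  have hRn' : ‖cfc rr z'‖ ≤ 1 := norm_cfc_le' zero_le_one hRb
  have hfn' : ‖cfc ff z'‖ ≤ 1 := norm_cfc_le' zero_le_one abs_ff_le
  have e : ((2 : ℂ) • (cfc rr z' * ((z' - z) * cfc rr z))
      - (1 / 2 : ℂ) • (cfc ff z' * ((z' - z) * y))) v =
      (2 : ℂ) • cfc rr z' (z' (cfc rr z v) - z (cfc rr z v)) -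
      (1 / 2 : ℂ) • cfc ff z' (z' (y v) - z (y v)) := rfl
  rw [e]
  refine (norm_sub_le _ _).trans ?_
  rw [norm_smul, norm_smul]
  have t1 : ‖(2 : ℂ)‖ = 2 := by norm_num
  have t2 : ‖(1 / 2 : ℂ)‖ = 1 / 2 := by norm_num
  rw [t1, t2]
  have s1 : ‖cfc rr z' (z' (cfc rr z v) - z (cfc rr z v))‖ ≤ 1 * δ :=
    (ContinuousLinearMap.le_opNorm _ _).trans (mul_le_mul hRn' h1 (norm_nonneg _) zero_le_one)
  have s2 : ‖cfc ff z' (z' (y v) - z (y v))‖ ≤ 1 * δ :=
    (ContinuousLinearMap.le_opNorm _ _).trans (mul_le_mul hfn' h2 (norm_nonneg _) zero_le_one)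
  (clear hzs hzs' hy e t1 t2; linarith)

/-- Kaplansky density on finitely many vectors, self-adjoint contractions -/
theorem kap3_sym (hA : IsCartan A N) {y : H →L[ℂ] H} (hy : y ∈ N)
    (hsa : IsSelfAdjoint y) (h1 : ‖y‖ ≤ 1) (F : Finset H) {δ : ℝ} (hδ : 0 < δ) :
    ∃ y' ∈ nspan N A, IsSelfAdjoint y' ∧ ‖y'‖ ≤ 1 + δ ∧ ∀ v ∈ F, ‖(y' - y) v‖ ≤ δ := by
  classical
  obtain ⟨g, hg⟩ := exists_z hsa h1
  set z : H →L[ℂ] H := cfc g y with hz
  have hzN : z ∈ N := cfc_mem_M N hy g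
  have hzs : IsSelfAdjoint z := cfc_predicate g y
  obtain ⟨z', hz', hzs', hzz⟩ := nspan_dense hA hzN hzs
    (F.image (fun v => cfc rr z v) ∪ F.image (fun v => y v)) (show 0 < δ / 6 by (clear * - hδ; positivity))
  set κ : ℝ := δ / (2 * (1 + ∑ v ∈ F, ‖v‖)) with hκ
  have hS : 0 ≤ ∑ v ∈ F, ‖v‖ := Finset.sum_nonneg fun _ _ => norm_nonneg _
  have hκ0 : 0 < κ := by (clear * - hδ; positivity)
  have hκδ : κ ≤ δ := by
    rw [hκ]
    exact div_le_self hδ.le (by linarith only [hS])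
  obtain ⟨p, hp⟩ := exists_polynomial_near_of_continuousOn (-‖z'‖) ‖z'‖ ff
    continuous_ff.continuousOn κ hκ0
  have h3 : ‖Polynomial.aeval z' p - cfc ff z'‖ ≤ κ := by
    rw [← cfc_polynomial p z' hzs',
      ← cfc_sub (fun t => p.eval t) ff z' (Polynomial.continuous p).continuousOn
        continuous_ff.continuousOn]
    refine norm_cfc_le (by (clear * - hδ; positivity)) fun t ht => ?_
    rw [Real.norm_eq_abs]
    refine (hp t ?_).le
    have h5 := spectrum.norm_le_norm_mul_of_mem ht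
    have h6 : ‖(1 : H →L[ℂ] H)‖ ≤ 1 := ContinuousLinearMap.norm_id_le
    rw [Real.norm_eq_abs] at h5
    have h7 : |t| ≤ ‖z'‖ := by linarith only [mul_nonneg (sub_nonneg.2 h6) (sub_nonneg.2 (norm_nonneg z')), h5]
    exact abs_le.1 h7
  refine ⟨Polynomial.aeval z' p, aeval_nspan hz' p, ?_, ?_, ?_⟩
  · rw [← cfc_polynomial p z' hzs']
    exact cfc_predicate _ _
  · have h4 : ‖cfc ff z'‖ ≤ 1 := norm_cfc_le' zero_le_one abs_ff_le
    have h5 : Polynomial.aeval z' p = (Polynomial.aeval z' p - cfc ff z') + cfc ff z' := by abel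
    rw [h5]
    refine (norm_add_le _ _).trans ?_
    linarith only [h4, h3, hκδ]
  · intro v hv
    have e1 : (Polynomial.aeval z' p - y) v =
        (Polynomial.aeval z' p - cfc ff z') v + (cfc ff z' - y) v := by
      rw [← add_apply]
      congr 1
      abel
    have h4 : ‖(cfc ff z' - y) v‖ ≤ 3 * (δ / 6) := by
      refine ff_apply_le hzs hzs' hg ?_ ?_
      · exact (hzz _ (Finset.mem_union_left _ (Finset.mem_image_of_mem _ hv))).le
      · exact (hzz _ (Finset.mem_union_right _ (Finset.mem_image_of_mem _ hv))).le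
    have h5 : ‖(Polynomial.aeval z' p - cfc ff z') v‖ ≤ κ * ‖v‖ :=
      ContinuousLinearMap.le_of_opNorm_le _ h3 v
    have h6 : κ * ‖v‖ ≤ δ / 2 := by
      have h7 : ‖v‖ ≤ 1 + ∑ v ∈ F, ‖v‖ := by
        have := Finset.single_le_sum (f := fun v : H => ‖v‖) (fun _ _ => norm_nonneg _) hv
        linarith only [this]
      calc κ * ‖v‖ ≤ κ * (1 + ∑ v ∈ F, ‖v‖) := mul_le_mul_of_nonneg_left h7 hκ0.le
        _ = δ / 2 := by rw [hκ]; (clear * - hδ; field_simp)
    rw [e1]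
    refine (norm_add_le _ _).trans ?_
    linarith only [h6, h5, h4]

/-- the expectation does not increase the norm of the state -/
theorem n2_E_le' (hA : SO.IsMASA A M) (hξ : IsCState M A ξ) (hE : IsTrExp M A ξ E)
    {y : H →L[ℂ] H} (hy : y ∈ M) : n2 ξ (E y) ≤ n2 ξ y := by
  have ht := hξ.tr hA
  have hEy : E y ∈ A := hE.mem y hy
  have hEyM : E y ∈ M := hA.1 _ hEy
  have h0 : 0 ≤ n2 ξ (y - E y) := n2_nonneg _ _
  have e1 : vtr ξ (star y * E y) = vtr ξ (star (E y) * E y) := by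
    rw [← hE.tr _ (mul_mem (star_mem hy) hEyM), E_mul_right hA hE hEy (star_mem hy), hE.star y hy]
  have e2 : vtr ξ (star (E y) * y) = vtr ξ (star (E y) * E y) := by
    rw [← hE.tr _ (mul_mem (star_mem hEyM) hy), E_mul_left hA hE (star_mem hEy) hy]
  rw [n2_eq ht] at h0 ⊢
  rw [n2_eq ht]
  have e3 : star (y - E y) * (y - E y)
      = (star y * y - star y * E y) - (star (E y) * y - star (E y) * E y) := by
    rw [star_sub, sub_mul, mul_sub, mul_sub]
  rw [e3, C.vtr_sub ht, C.vtr_sub ht, C.vtr_sub ht, e1, e2] at h0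
  simp only [Complex.sub_re] at h0
  linarith

/-- right multiplication by elements of `A`, norm version -/
theorem nn_mul_A (hA : SO.IsMASA A M) (hξ : IsCState M A ξ) {x a : H →L[ℂ] H}
    (hx : x ∈ M) (ha : a ∈ A) : nn ξ (x * a) ≤ nn ξ x * ‖a‖ := by
  rw [nn, nn, ← Real.sqrt_sq (norm_nonneg a), ← Real.sqrt_mul (n2_nonneg ξ x)]
  exact Real.sqrt_le_sqrt (hξ.n2_mul_le hA hx ha)

theorem n2_proj (ht : IsTrace A ξ) {q : H →L[ℂ] H} (hq : IsStarProjection q) :
    n2 ξ q = (vtr ξ q).re := by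
  rw [n2_eq ht, hq.isSelfAdjoint.star_eq, hq.isIdempotentElem]

/-- Approximation of self-adjoint contractions of expectation zero. -/
theorem cartan_approx3 (hA : IsCartan A N) (hξ : IsCState N A ξ) (hE : IsTrExp N A ξ E)
    {x : H →L[ℂ] H} (hx : x ∈ N) (hsa : IsSelfAdjoint x) (h1 : ‖x‖ ≤ 1) (h0 : E x = 0)
    {δ : ℝ} (hδ : 0 < δ) :
    ∃ y ∈ nspan N A, IsSelfAdjoint y ∧ ‖y‖ ≤ 1 ∧ E y = 0 ∧ n2 ξ (y - x) ≤ δ := by
  classical
  have hM := hA.1
  have ht := hξ.tr hM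
  have hδ' : 0 < Real.sqrt δ := Real.sqrt_pos.2 hδ
  obtain ⟨s, hs⟩ : ∃ s : ℝ, s = min 1 (Real.sqrt δ) / 10 := ⟨_, rfl⟩
  have hs0 : 0 < s := by rw [hs]; positivity
  have hs1 : 10 * s ≤ 1 := by
    rw [hs, mul_div_cancel₀ _ (by norm_num)]; exact min_le_left _ _
  have hs2 : 10 * s ≤ Real.sqrt δ := by
    rw [hs, mul_div_cancel₀ _ (by norm_num)]; exact min_le_right _ _
  -- smallness of `(1 - e) x`
  obtain ⟨F1, κ1, hκ1, hF1⟩ := nn_small ht (C := 1) hs0
  obtain ⟨κ2, hκ2, hF2⟩ := vec_small ht (F1.image fun n => x (ξ n)) hκ1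
  -- the approximation
  obtain ⟨κ, hκ⟩ : ∃ κ : ℝ, κ = min s (Real.sqrt κ2) * s := ⟨_, rfl⟩
  have hκ0 : 0 < κ := by
    have := Real.sqrt_pos.2 hκ2
    rw [hκ]; (clear * - hs0 hκ2; positivity)
  have hκs : κ / s ≤ s := by
    rw [hκ, mul_div_cancel_right₀ _ hs0.ne']; exact min_le_left _ _
  have hκs2 : κ / s ≤ Real.sqrt κ2 := by
    rw [hκ, mul_div_cancel_right₀ _ hs0.ne']; exact min_le_right _ _
  have hκ1s : κ ≤ s := by
    rw [div_le_iff₀ hs0] at hκs
    nlinarith only [hκs, hs1, hs0]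
  obtain ⟨F3, κ3, hκ3, hF3⟩ := nn_small ht (C := 3) hκ0
  obtain ⟨x0, hx0, hx0s, hx0n, hx0F⟩ := kap3_sym hA hx hsa h1 (F3.image ξ) (lt_min hκ0 hκ3)
  have hx0M : x0 ∈ N := nspan_le hx0
  have hx01 : ‖x0‖ ≤ 1 + κ := hx0n.trans (by gcongr; exact min_le_left _ _)
  have hn0 : nn ξ (x0 - x) ≤ κ := by
    refine hF3 _ ?_ fun n hn => ?_
    · refine (norm_sub_le _ _).trans ?_
      linarith only [hs0, hs1, hκ1s, h1, hx01]
    · exact (hx0F _ (Finset.mem_image_of_mem _ hn)).trans (min_le_right _ _)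
  obtain ⟨d, hd⟩ : ∃ d, d = E x0 := ⟨_, rfl⟩
  have hdA : d ∈ A := by rw [hd]; exact hE.mem _ hx0M
  have hdM : d ∈ N := hM.1 _ hdA
  have hds : IsSelfAdjoint d := by
    have := hE.star _ hx0M
    rw [hx0s.star_eq] at this
    rw [hd]
    exact this.symm
  have hdn : nn ξ d ≤ κ := by
    have e : d = E (x0 - x) := by rw [map_sub, h0, sub_zero, hd]
    rw [e]
    exact (Real.sqrt_le_sqrt (n2_E_le' hM hξ hE (sub_mem hx0M hx))).trans hn0
  obtain ⟨e, heA, hep, hed, hen⟩ := exists_cut ht (isMASA_self hM) hdA hs0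
  have heM : e ∈ N := hM.1 _ heA
  have hes : star e = e := hep.isSelfAdjoint
  have henorm : ‖e‖ ≤ 1 := by
    refine ContinuousLinearMap.opNorm_le_bound _ zero_le_one fun v => ?_
    rw [one_mul]
    exact norm_proj_le hep v
  have h1e : ‖(1 - e : H →L[ℂ] H)‖ ≤ 1 := by
    refine ContinuousLinearMap.opNorm_le_bound _ zero_le_one fun v => ?_
    rw [one_mul]
    exact norm_proj_le hep.one_sub v
  have hen' : nn ξ (1 - e) ≤ κ / s := hen.trans (by (clear * - hdn hs0; gcongr))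
  -- the compressed element
  obtain ⟨y, hy⟩ : ∃ y, y = e * (x0 - d) * e := ⟨_, rfl⟩
  have hyn : y ∈ nspan N A := by
    rw [hy]
    exact nspan_mul (nspan_mul (nspan_of_mem hM heA) (sub_mem hx0 (nspan_of_mem hM hdA)))
      (nspan_of_mem hM heA)
  have hys : IsSelfAdjoint y := by
    rw [hy, IsSelfAdjoint, star_mul, star_mul, hes, (hx0s.sub hds).star_eq, mul_assoc]
  have hyE : E y = 0 := by
    rw [hy, hE.bimod e heA e heA _ (sub_mem hx0M hdM), map_sub, hE.idem d hdA, ← hd, sub_self,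
      mul_zero, zero_mul]
  have hde : ‖d * e‖ ≤ s := by
    refine ContinuousLinearMap.opNorm_le_bound _ hs0.le fun v => ?_
    exact (hed v).trans (mul_le_mul_of_nonneg_left (norm_proj_le hep v) hs0.le)
  have hyn1 : ‖y‖ ≤ 1 + 2 * s := by
    have e1 : y = e * x0 * e - e * (d * e) := by rw [hy]; noncomm_ring
    rw [e1]
    refine (norm_sub_le _ _).trans ?_
    have a1 : ‖e * x0 * e‖ ≤ 1 * (1 + κ) * 1 :=
      (norm_mul_le _ _).trans (mul_le_mul ((norm_mul_le _ _).trans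
        (mul_le_mul henorm hx01 (norm_nonneg _) zero_le_one)) henorm (norm_nonneg _)
        (by (clear * - hκ0; positivity)))
    have a2 : ‖e * (d * e)‖ ≤ 1 * s :=
      (norm_mul_le _ _).trans (mul_le_mul henorm hde (norm_nonneg _) zero_le_one)
    linarith only [a1, a2, hκ1s]
  have hyx : nn ξ (y - x) ≤ 4 * s := by
    have e1 : y - x = (e * ((x0 - x) * e) - e * (d * e)) - ((1 - e) * x + e * (x * (1 - e))) := by
      rw [hy]; noncomm_ring
    have a1 : nn ξ (e * ((x0 - x) * e)) ≤ 1 * (κ * 1) :=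
      (nn_mul ht _ _).trans (mul_le_mul henorm ((nn_mul_A hM hξ (sub_mem hx0M hx) heA).trans
        (mul_le_mul hn0 henorm (norm_nonneg _) hκ0.le)) (nn_nonneg _) zero_le_one)
    have a2 : nn ξ (e * (d * e)) ≤ 1 * (κ * 1) :=
      (nn_mul ht _ _).trans (mul_le_mul henorm ((nn_mul_A hM hξ hdM heA).trans
        (mul_le_mul hdn henorm (norm_nonneg _) hκ0.le)) (nn_nonneg _) zero_le_one)
    have a3 : nn ξ (e * (x * (1 - e))) ≤ 1 * (1 * (κ / s)) :=
      (nn_mul ht _ _).trans (mul_le_mul henorm ((nn_mul ht _ _).trans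
        (mul_le_mul h1 hen' (nn_nonneg _) zero_le_one)) (nn_nonneg _) zero_le_one)
    have a4 : nn ξ ((1 - e) * x) ≤ s := by
      refine hF1 _ ((norm_mul_le _ _).trans ?_) fun n hn => ?_
      · calc ‖(1 - e : H →L[ℂ] H)‖ * ‖x‖ ≤ 1 * 1 :=
            mul_le_mul h1e h1 (norm_nonneg _) zero_le_one
          _ = 1 := one_mul 1
      · have b1 : (vtr ξ (1 - e)).re ≤ κ2 := by
          rw [← n2_proj ht hep.one_sub, ← nn_sq]
          calc nn ξ (1 - e) ^ 2 ≤ Real.sqrt κ2 ^ 2 :=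
                pow_le_pow_left₀ (nn_nonneg _) (hen'.trans hκs2) 2
            _ = κ2 := Real.sq_sqrt hκ2.le
        exact (hF2 e heA hep b1 _ (Finset.mem_image_of_mem _ hn)).le
    rw [e1]
    have b1 := nn_sub ht (e * ((x0 - x) * e)) (e * (d * e))
    have b2 := nn_add ht ((1 - e) * x) (e * (x * (1 - e)))
    have b3 := nn_sub ht (e * ((x0 - x) * e) - e * (d * e)) ((1 - e) * x + e * (x * (1 - e)))
    linarith only [hκ1s, hκs, b3, b2, b1, a4, a3, a2, a1]
  -- scaling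
  obtain ⟨c, hc⟩ : ∃ c : ℝ, c = (1 + 2 * s)⁻¹ := ⟨_, rfl⟩
  have hc0 : 0 < c := by rw [hc]; (clear * - hs0; positivity)
  have hcc : c * (1 + 2 * s) = 1 := by rw [hc]; exact inv_mul_cancel₀ (by (clear * - hs0; positivity))
  have hc1 : c ≤ 1 := by nlinarith only [hcc, hs0]
  refine ⟨((c : ℝ) : ℂ) • y, Submodule.smul_mem _ _ hyn, ?_, ?_, ?_, ?_⟩
  · rw [IsSelfAdjoint, star_smul, hys.star_eq, Complex.star_def, Complex.conj_ofReal]
  · rw [norm_smul, Complex.norm_real, Real.norm_of_nonneg hc0.le, ← hcc]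
    exact mul_le_mul_of_nonneg_left hyn1 hc0.le
  · rw [map_smul, hyE, smul_zero]
  · have e1 : ((c : ℝ) : ℂ) • y - x = ((c : ℝ) : ℂ) • (y - x) - ((1 - c : ℝ) : ℂ) • x := by
      push_cast
      module
    have a1 : nn ξ (((c : ℝ) : ℂ) • (y - x)) ≤ 1 * (4 * s) := by
      rw [nn_smul, Complex.norm_real, Real.norm_of_nonneg hc0.le]
      exact mul_le_mul hc1 hyx (nn_nonneg _) zero_le_one
    have a2 : nn ξ (((1 - c : ℝ) : ℂ) • x) ≤ 2 * s * 1 := by
      rw [nn_smul, Complex.norm_real, Real.norm_of_nonneg (by linarith only [hc1])]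
      refine mul_le_mul ?_ ((nn_le ht x).trans h1) (nn_nonneg _) (by positivity)
      nlinarith only [hcc, hc1, hs0]
    have a3 := nn_sub ht (((c : ℝ) : ℂ) • (y - x)) (((1 - c : ℝ) : ℂ) • x)
    rw [e1, ← nn_sq]
    calc nn ξ (((c : ℝ) : ℂ) • (y - x) - ((1 - c : ℝ) : ℂ) • x) ^ 2 ≤ Real.sqrt δ ^ 2 :=
          pow_le_pow_left₀ (nn_nonneg _) (by linarith only [a1, a2, a3, hs2, hs0]) 2
      _ = δ := Real.sq_sqrt hδ.le

/-! ### the algebra generated by the normalizer -/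

theorem IsCState.sub (hξ : IsCState M A ξ) (hN : ∀ x ∈ N, x ∈ M) : IsCState N A ξ :=
  ⟨hξ.summable, hξ.norm_one, fun a ha x hx => hξ.central a ha x (hN x hx),
    fun x hx h => hξ.faithful x (hN x hx) h⟩

theorem isCState_nAlg (hξ : IsCState M A ξ) : IsCState (G.nAlg M A) A ξ :=
  hξ.sub fun _ h => G.nAlg_le h

theorem isTrExp_nAlg (hE : IsTrExp M A ξ E) : IsTrExp (G.nAlg M A) A ξ E :=
  G.isTrExp_sub hE fun _ h => G.nAlg_le h

theorem nspan_nAlg : nspan (G.nAlg M A) A = nspan M A := by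
  apply le_antisymm
  · refine Submodule.span_le.2 ?_
    rintro _ ⟨u, rfl⟩
    exact Submodule.subset_span ⟨⟨u.1, G.nAlg_le u.2.1, u.2.2.1, u.2.2.2⟩, rfl⟩
  · refine Submodule.span_le.2 ?_
    rintro _ ⟨u, rfl⟩
    exact Submodule.subset_span ⟨⟨u.1, G.op_mem_nAlg u, u.2.2.1, u.2.2.2⟩, rfl⟩

/-- the expectation onto the algebra generated by the normalizer -/
theorem exists_expN3_nAlg (hA : SO.IsMASA A M) (hξ : IsCState M A ξ) (hE : IsTrExp M A ξ E)
    {x : H →L[ℂ] H} (hx : x ∈ M) (hsa : IsSelfAdjoint x) :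
    ∃ z ∈ G.nAlg M A, IsSelfAdjoint z ∧ ‖z‖ ≤ ‖x‖ ∧
      ∀ g h : nrm M A, E (star (op g) * (x - z) * op h) = 0 :=
  exists_expN3 hA hξ hE (fun _ h => G.nAlg_le h) (fun u => G.op_mem_nAlg u) hx hsa

/-- Approximation of self-adjoint contractions of expectation zero in the algebra generated by the
normalizer. -/
theorem nAlg_approx3 (hA : SO.IsMASA A M) (hξ : IsCState M A ξ) (hE : IsTrExp M A ξ E)
    {x : H →L[ℂ] H} (hx : x ∈ G.nAlg M A) (hsa : IsSelfAdjoint x) (h1 : ‖x‖ ≤ 1) (h0 : E x = 0)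
    {δ : ℝ} (hδ : 0 < δ) :
    ∃ y ∈ nspan M A, IsSelfAdjoint y ∧ ‖y‖ ≤ 1 ∧ E y = 0 ∧ n2 ξ (y - x) ≤ δ := by
  have h := cartan_approx3 (G.isCartan_nAlg hA) (isCState_nAlg hξ) (isTrExp_nAlg hE) hx hsa h1 h0 hδ
  rwa [nspan_nAlg] at h

/-- a self-adjoint element of `M` is approximated, up to its mixing part, by elements of the span
of the normalizer -/
theorem exists_split (hA : SO.IsMASA A M) (hξ : IsCState M A ξ) (hE : IsTrExp M A ξ E)
    {x : H →L[ℂ] H} (hx : x ∈ M) (hxs : IsSelfAdjoint x) (hx1 : ‖x‖ ≤ 1) (hEx : E x = 0)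
    {d : ℝ} (hd : 0 < d) :
    ∃ x' z : H →L[ℂ] H, x' ∈ nspan M A ∧ IsSelfAdjoint x' ∧ ‖x'‖ ≤ 1 + d ∧ E x' = 0 ∧
      z ∈ M ∧ IsSelfAdjoint z ∧ ‖z‖ ≤ 1 ∧ n2 ξ (x' - z) ≤ d ∧
      ∀ g h : nrm M A, E (star (op g) * (x - z) * op h) = 0 := by
  obtain ⟨z, hz, hzs, hzn, hzo⟩ := exists_expN3_nAlg hA hξ hE hx hxs
  have hz0 : E z = 0 := by
    have h := hzo 1 1
    rw [op_one, star_one, one_mul, mul_one, map_sub, hEx, zero_sub, neg_eq_zero] at h
    exact h
  obtain ⟨y, hy, hys, hyn, hy0, hyz⟩ := nAlg_approx3 hA hξ hE hz hzs (hzn.trans hx1) hz0 hd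
  exact ⟨y, z, hy, hys, hyn.trans (by linarith only [hd]), hy0, G.nAlg_le hz, hzs, hzn.trans hx1, hyz, hzo⟩

end Vale.Agent.P078.W
end

section
/-! Corner algebras: passage from `pMp`, acting on `pH`, back to `M`. -/

namespace Vale.Agent.P078.WG

open Vale.Agent.P078
open Filter Topology
open ContinuousLinearMap (adjoint)

universe u

section corner

variable {H K : Type u} [NormedAddCommGroup H] [InnerProductSpace ℂ H] [CompleteSpace H]
variable [NormedAddCommGroup K] [InnerProductSpace ℂ K] [CompleteSpace K]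
variable {M A : VonNeumannAlgebra H} {i : K →L[ℂ] H} {p : H →L[ℂ] H}

/-- compression to `K` -/
noncomputable def dn (i : K →L[ℂ] H) (x : H →L[ℂ] H) : K →L[ℂ] K :=
  (adjoint i).comp (x.comp i)

/-- extension from `K` to `H` -/
noncomputable def up (i : K →L[ℂ] H) (x : K →L[ℂ] K) : H →L[ℂ] H :=
  i.comp (x.comp (adjoint i))

/-- `i` is an isometry with range projection `p` -/
structure Iso (i : K →L[ℂ] H) (p : H →L[ℂ] H) : Prop where
  iso : ∀ v, adjoint i (i v) = v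
  ran : ∀ v, i (adjoint i v) = p v

theorem exists_iso {p : H →L[ℂ] H} (hp : IsStarProjection p) :
    ∃ (K : Type u) (_ : NormedAddCommGroup K) (_ : InnerProductSpace ℂ K) (_ : CompleteSpace K)
      (i : K →L[ℂ] H), Iso i p := by
  obtain ⟨h1, h2⟩ := isStarProjection_iff_eq_starProjection_range.1 hp
  have hc : CompleteSpace p.range := by
    have : IsClosed (p.range : Set H) := by
      rw [← Submodule.orthogonal_orthogonal p.range]
      exact Submodule.isClosed_orthogonal _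
    exact this.completeSpace_coe
  refine ⟨p.range, inferInstance, inferInstance, hc, p.range.subtypeL, ⟨fun v => ?_, fun v => ?_⟩⟩
  · rw [Submodule.adjoint_subtypeL]
    simp only [Submodule.coe_subtypeL, Submodule.subtype_apply, Submodule.orthogonalProjectionOnto_mem_subspace_eq_self]
  · rw [Submodule.adjoint_subtypeL]
    conv_rhs => rw [h2]
    rfl

namespace Iso

variable (hi : Iso i p)
include hi

theorem up_mul (x y : K →L[ℂ] K) : up i (x * y) = up i x * up i y := by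
  ext v
  change i (x (y (adjoint i v))) = i (x (adjoint i (i (y (adjoint i v)))))
  rw [hi.iso]

omit hi in
theorem up_star (x : K →L[ℂ] K) : up i (star x) = star (up i x) := by
  refine (inner_ext fun ζ η => ?_).symm
  rw [← star_apply_inner, star_star]
  change inner ℂ (i (x (adjoint i ζ))) η = inner ℂ ζ (i ((star x) (adjoint i η)))
  rw [← ContinuousLinearMap.adjoint_inner_right i, ← star_star x, star_apply_inner, star_star,
    ContinuousLinearMap.adjoint_inner_left]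

omit hi in
theorem up_add (x y : K →L[ℂ] K) : up i (x + y) = up i x + up i y := by
  ext v
  change i (x (adjoint i v) + y (adjoint i v)) = _
  rw [map_add]
  rfl

omit hi in
theorem up_sub (x y : K →L[ℂ] K) : up i (x - y) = up i x - up i y := by
  ext v
  change i (x (adjoint i v) - y (adjoint i v)) = _
  rw [map_sub]
  rfl

omit hi in
theorem up_sum {α : Type*} (s : Finset α) (x : α → (K →L[ℂ] K)) :
    up i (∑ j ∈ s, x j) = ∑ j ∈ s, up i (x j) := by
  ext v
  change i ((∑ j ∈ s, x j) (adjoint i v)) = _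
  rw [sum_apply, sum_apply, map_sum]
  rfl

theorem up_one : up i (1 : K →L[ℂ] K) = p := by
  ext v
  exact hi.ran v

theorem norm_up_le (x : K →L[ℂ] K) : ‖up i x‖ ≤ ‖x‖ := by
  have h1 : ∀ v, ‖i v‖ = ‖v‖ := by
    intro v
    have h2 : ‖i v‖ ^ 2 = ‖v‖ ^ 2 := by
      rw [← inner_self_re (i v), ← ContinuousLinearMap.adjoint_inner_right, hi.iso,
        inner_self_re]
    exact (sq_eq_sq₀ (norm_nonneg _) (norm_nonneg _)).1 h2
  have h3 : ∀ v, ‖adjoint i v‖ ≤ ‖v‖ := by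
    intro v
    have h4 : ‖adjoint i v‖ ^ 2 ≤ ‖adjoint i v‖ * ‖v‖ := by
      calc ‖adjoint i v‖ ^ 2 = (inner ℂ (adjoint i v) (adjoint i v)).re := by
            rw [← inner_self_re]
        _ = (inner ℂ (i (adjoint i v)) v).re := by
            rw [ContinuousLinearMap.adjoint_inner_right]
        _ ≤ ‖inner ℂ (i (adjoint i v)) v‖ := Complex.re_le_norm _
        _ ≤ ‖i (adjoint i v)‖ * ‖v‖ := norm_inner_le_norm _ _
        _ = ‖adjoint i v‖ * ‖v‖ := by rw [h1]
    rcases (norm_nonneg (adjoint i v)).eq_or_lt with h5 | h5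
    · rw [← h5]; exact norm_nonneg _
    · rw [pow_two] at h4
      exact le_of_mul_le_mul_left h4 h5
  refine ContinuousLinearMap.opNorm_le_bound _ (norm_nonneg _) fun v => ?_
  change ‖i (x (adjoint i v))‖ ≤ _
  rw [h1]
  exact (x.le_opNorm _).trans (mul_le_mul_of_nonneg_left (h3 v) (norm_nonneg _))

theorem norm_apply (v : K) : ‖i v‖ = ‖v‖ := by
  have h2 : ‖i v‖ ^ 2 = ‖v‖ ^ 2 := by
    rw [← inner_self_re (i v), ← ContinuousLinearMap.adjoint_inner_right, hi.iso,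
      inner_self_re]
  exact (sq_eq_sq₀ (norm_nonneg _) (norm_nonneg _)).1 h2

theorem norm_adjoint_le (v : H) : ‖adjoint i v‖ ≤ ‖v‖ := by
  have h4 : ‖adjoint i v‖ ^ 2 ≤ ‖adjoint i v‖ * ‖v‖ := by
    calc ‖adjoint i v‖ ^ 2 = (inner ℂ (adjoint i v) (adjoint i v)).re := by
          rw [← inner_self_re]
      _ = (inner ℂ (i (adjoint i v)) v).re := by
          rw [ContinuousLinearMap.adjoint_inner_right]
      _ ≤ ‖inner ℂ (i (adjoint i v)) v‖ := Complex.re_le_norm _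
      _ ≤ ‖i (adjoint i v)‖ * ‖v‖ := norm_inner_le_norm _ _
      _ = ‖adjoint i v‖ * ‖v‖ := by rw [hi.norm_apply]
  rcases (norm_nonneg (adjoint i v)).eq_or_lt with h5 | h5
  · rw [← h5]; exact norm_nonneg _
  · rw [pow_two] at h4
    exact le_of_mul_le_mul_left h4 h5

theorem norm_dn_le (x : H →L[ℂ] H) : ‖dn i x‖ ≤ ‖x‖ := by
  refine ContinuousLinearMap.opNorm_le_bound _ (norm_nonneg _) fun v => ?_
  change ‖adjoint i (x (i v))‖ ≤ _
  refine (hi.norm_adjoint_le _).trans ((x.le_opNorm _).trans ?_)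
  rw [hi.norm_apply]

theorem dn_up (x : K →L[ℂ] K) : dn i (up i x) = x := by
  ext v
  change adjoint i (i (x (adjoint i (i v)))) = x v
  rw [hi.iso, hi.iso]

theorem up_dn (x : H →L[ℂ] H) : up i (dn i x) = p * x * p := by
  ext v
  change i (adjoint i (x (i (adjoint i v)))) = p (x (p v))
  rw [hi.ran, hi.ran]

theorem adjoint_p (v : H) : adjoint i (p v) = adjoint i v := by
  rw [← hi.ran, hi.iso]

theorem p_apply (v : K) : p (i v) = i v := by
  rw [← hi.ran, hi.iso]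

theorem proj : IsStarProjection p := by
  refine ⟨?_, ?_⟩
  · ext v
    change p (p v) = p v
    rw [← hi.ran v, hi.p_apply]
  · refine (inner_ext fun ζ η => ?_)
    rw [← star_apply_inner, star_star, ← hi.ran, ← hi.ran,
      ← ContinuousLinearMap.adjoint_inner_right i, ContinuousLinearMap.adjoint_inner_left i]

theorem up_injective {x y : K →L[ℂ] K} (h : up i x = up i y) : x = y := by
  rw [← hi.dn_up x, h, hi.dn_up]

omit hi in
theorem dn_star (x : H →L[ℂ] H) : dn i (star x) = star (dn i x) := by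
  refine (inner_ext fun ζ η => ?_).symm
  rw [← star_apply_inner, star_star]
  change inner ℂ (adjoint i (x (i ζ))) η = inner ℂ ζ (adjoint i ((star x) (i η)))
  rw [ContinuousLinearMap.adjoint_inner_right, ContinuousLinearMap.adjoint_inner_left,
    ← star_apply_inner, star_star]

end Iso

/-- generators of the commutant of the corner algebra -/
def cset (M : VonNeumannAlgebra H) (i : K →L[ℂ] H) : Set (K →L[ℂ] K) :=
  {T | ∃ y ∈ M.commutant, T = dn i y}

/-- the corner algebra -/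
noncomputable def cAlg (M : VonNeumannAlgebra H) (i : K →L[ℂ] H) : VonNeumannAlgebra K where
  toStarSubalgebra := StarSubalgebra.centralizer ℂ (cset M i)
  centralizer_centralizer' := by
    change Set.centralizer (Set.centralizer (Set.centralizer _)) = Set.centralizer _
    rw [Set.centralizer_centralizer_centralizer]

theorem mem_cAlg (hi : Iso i p) (hp : p ∈ M) {x : K →L[ℂ] K} : x ∈ cAlg M i ↔ up i x ∈ M := by
  constructor
  · intro h
    refine mem_of_commute fun y hy => ?_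
    have h1 : dn i y * x = x * dn i y := h (dn i y) (Or.inl ⟨y, hy, rfl⟩)
    have hyp : ∀ v, y (p v) = p (y v) := fun v => DFunLike.congr_fun (commutant_comm hp hy) v
    ext v
    change y (i (x (adjoint i v))) = i (x (adjoint i (y v)))
    have h2 := DFunLike.congr_fun h1 (adjoint i v)
    have h3 : adjoint i (y (i (x (adjoint i v)))) = x (adjoint i (y (i (adjoint i v)))) := h2
    rw [hi.ran, hyp, hi.adjoint_p] at h3
    rw [← h3, hi.ran, ← hyp, hi.p_apply]
  · intro h T hT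
    have key : ∀ y ∈ M.commutant, dn i y * x = x * dn i y := by
      intro y hy
      have hyp : ∀ v, y (p v) = p (y v) := fun v => DFunLike.congr_fun (commutant_comm hp hy) v
      ext v
      change adjoint i (y (i (x v))) = x (adjoint i (y (i v)))
      have h1 := DFunLike.congr_fun (commutant_comm h hy) (i v)
      have h2 : y (i (x (adjoint i (i v)))) = i (x (adjoint i (y (i v)))) := h1
      rw [hi.iso] at h2
      rw [h2, hi.iso]
    rcases hT with ⟨y, hy, rfl⟩ | hT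
    · exact key y hy
    · obtain ⟨y, hy, hTy⟩ := hT
      have h1 : T = dn i (star y) := by
        rw [Iso.dn_star, ← hTy, star_star]
      rw [h1]
      exact key _ (star_mem hy)

theorem dn_mem (hi : Iso i p) (hp : p ∈ M) {x : H →L[ℂ] H} (hx : x ∈ M) : dn i x ∈ cAlg M i := by
  rw [mem_cAlg hi hp, hi.up_dn]
  exact mul_mem (mul_mem hp hx) hp

theorem isMASA_cAlg (hA : SO.IsMASA A M) (hi : Iso i p) (hp : p ∈ A) :
    SO.IsMASA (cAlg A i) (cAlg M i) := by
  have hpM := hA.1 p hp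
  refine ⟨fun x hx => ?_, fun x hx y hy => ?_, fun x hx h => ?_⟩
  · rw [mem_cAlg hi hpM]
    exact hA.1 _ ((mem_cAlg hi hp).1 hx)
  · apply hi.up_injective
    rw [hi.up_mul, hi.up_mul]
    exact hA.2.1 _ ((mem_cAlg hi hp).1 hx) _ ((mem_cAlg hi hp).1 hy)
  · rw [mem_cAlg hi hp]
    refine hA.2.2 _ ((mem_cAlg hi hpM).1 hx) fun a ha => ?_
    have h1 := congrArg (up i) (h (dn i a) (dn_mem hi hp ha))
    rw [hi.up_mul, hi.up_mul, hi.up_dn] at h1
    have hux : up i x = up i x * p := by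
      conv_rhs => rw [← hi.up_one]
      rw [← hi.up_mul, mul_one]
    have hux' : up i x = p * up i x := by
      conv_rhs => rw [← hi.up_one]
      rw [← hi.up_mul, one_mul]
    have hpp := hi.proj.isIdempotentElem.eq
    have hap : a * p = p * a := hA.2.1 a ha p hp
    have e1 : p * a * p * up i x = a * up i x := by
      calc p * a * p * up i x = (a * p) * p * up i x := by rw [hap]
        _ = a * (p * p) * up i x := by noncomm_ring
        _ = a * (p * up i x) := by rw [hpp, mul_assoc]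
        _ = a * up i x := by rw [← hux']
    have e2 : up i x * (p * a * p) = up i x * a := by
      calc up i x * (p * a * p) = up i x * (p * (a * p)) := by noncomm_ring
        _ = up i x * (p * (p * a)) := by rw [hap]
        _ = up i x * (p * p) * a := by noncomm_ring
        _ = up i x * a := by rw [hpp, ← hux]
    rw [e1, e2] at h1
    exact h1


end corner

end Vale.Agent.P078.WG
end

section
/-! Completion of a space with a positive semidefinite form. -/

namespace Vale.Agent.P078.WG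

open Filter Topology UniformSpace

universe u

/-- completion of a space with a positive semidefinite form, with the extension of bounded maps -/
theorem exists_compl {V : Type u} [AddCommGroup V] [Module ℂ V]
    (c : PreInnerProductSpace.Core ℂ V) :
    ∃ (L : Type u) (_ : NormedAddCommGroup L) (_ : InnerProductSpace ℂ L) (_ : CompleteSpace L)
      (Λ : V →ₗ[ℂ] L), (∀ x y, inner ℂ (Λ x) (Λ y) = c.inner x y) ∧ DenseRange Λ ∧
      ∀ (T : V →ₗ[ℂ] V) (C : ℝ), (∀ v, ‖Λ (T v)‖ ≤ C * ‖Λ v‖) →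
        ∃ S : L →L[ℂ] L, ∀ v, S (Λ v) = Λ (T v) := by
  letI : SeminormedAddCommGroup V := InnerProductSpace.Core.toSeminormedAddCommGroup (c := c)
  letI : InnerProductSpace ℂ V := InnerProductSpace.ofCore c
  refine ⟨Completion V, inferInstance, inferInstance, inferInstance,
    (Completion.toComplL : V →L[ℂ] Completion V).toLinearMap, fun x y => ?_, ?_, ?_⟩
  · exact Completion.inner_coe x y
  · exact Completion.denseRange_coe
  · intro T C hT
    have hT' : ∀ v : V, ‖T v‖ ≤ C * ‖v‖ := by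
      intro v
      have h := hT v
      have e1 : ‖((T v : V) : Completion V)‖ = ‖T v‖ := Completion.norm_coe _
      have e2 : ‖((v : V) : Completion V)‖ = ‖v‖ := Completion.norm_coe _
      rw [← e1, ← e2]
      exact h
    refine ⟨(T.mkContinuous C hT').completion, fun v => ?_⟩
    exact ContinuousLinearMap.completion_apply_coe _ v

end Vale.Agent.P078.WG
end

section
/-! The GNS representation of a positive functional on a von Neumann algebra. -/

set_option linter.unusedSectionVars false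

namespace Vale.Agent.P078.WG

open Filter Topology
open Vale.Agent.P078

universe u

variable {H : Type u} [NormedAddCommGroup H] [InnerProductSpace ℂ H] [CompleteSpace H]
variable {M : VonNeumannAlgebra H} {ψ : (H →L[ℂ] H) →ₗ[ℂ] ℂ}

/-- the elements of `M` as a subspace -/
def vsub (M : VonNeumannAlgebra H) : Submodule ℂ (H →L[ℂ] H) where
  carrier := {x | x ∈ M}
  add_mem' := fun {a b} (ha : a ∈ M) (hb : b ∈ M) => (add_mem ha hb : a + b ∈ M)
  zero_mem' := zero_mem M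
  smul_mem' := fun c _ hx => M.toStarSubalgebra.smul_mem hx c

/-- a GNS representation of `ψ` -/
structure IsGns (M : VonNeumannAlgebra H) (ψ : (H →L[ℂ] H) →ₗ[ℂ] ℂ) {L : Type u}
    [NormedAddCommGroup L] [InnerProductSpace ℂ L] [CompleteSpace L] (Λ : (H →L[ℂ] H) → L)
    (π : (H →L[ℂ] H) → (L →L[ℂ] L)) : Prop where
  inn : ∀ x ∈ M, ∀ y ∈ M, inner ℂ (Λ x) (Λ y) = ψ (star x * y)
  dense : ∀ v : L, ∀ δ : ℝ, 0 < δ → ∃ x ∈ M, ‖v - Λ x‖ < δ
  act : ∀ x ∈ M, ∀ y ∈ M, π x (Λ y) = Λ (x * y)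

theorem vsub_mem (a : vsub M) : a.1 ∈ M := a.2

theorem left_bound (hψ : PosOn M ψ) {x v : H →L[ℂ] H} (hx : x ∈ M) (hv : v ∈ M) :
    (ψ (star (x * v) * (x * v))).re ≤ ‖x‖ ^ 2 * (ψ (star v * v)).re := by
  have h1 : star (x * v) * (x * v) ≤ ((‖x‖ ^ 2 : ℝ) : ℂ) • (star v * v) := by
    have h2 : star x * x ≤ algebraMap ℝ (H →L[ℂ] H) (‖x‖ ^ 2) := by
      have h3 := (IsSelfAdjoint.star_mul_self x).le_algebraMap_norm_self
      rwa [CStarRing.norm_star_mul_self, ← sq] at h3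
    have h3 := star_left_conjugate_le_conjugate h2 v
    have e1 : star v * (star x * x) * v = star (x * v) * (x * v) := by
      rw [star_mul]; noncomm_ring
    have e2 : star v * algebraMap ℝ (H →L[ℂ] H) (‖x‖ ^ 2) * v =
        ((‖x‖ ^ 2 : ℝ) : ℂ) • (star v * v) := by
      have e3 : algebraMap ℝ (H →L[ℂ] H) (‖x‖ ^ 2) =
          ((‖x‖ ^ 2 : ℝ) : ℂ) • (1 : H →L[ℂ] H) := by
        rw [Algebra.algebraMap_eq_smul_one]
        ext w
        rw [smul_apply, one_apply_eq_self]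
        exact (Complex.coe_smul _ _).symm
      rw [e3, mul_smul_comm, smul_mul_assoc, mul_one]
    rw [e1, e2] at h3
    exact h3
  have h4 := hψ.mono (mul_mem (star_mem (mul_mem hx hv)) (mul_mem hx hv))
    (M.toStarSubalgebra.smul_mem (mul_mem (star_mem hv) hv) _) h1
  rw [map_smul, smul_eq_mul, Complex.re_ofReal_mul] at h4
  exact h4

theorem exists_gns (hψ : PosOn M ψ) : ∃ (L : Type u) (_ : NormedAddCommGroup L)
    (_ : InnerProductSpace ℂ L) (_ : CompleteSpace L) (Λ : (H →L[ℂ] H) → L)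
    (π : (H →L[ℂ] H) → (L →L[ℂ] L)), IsGns M ψ Λ π := by
  classical
  let c : PreInnerProductSpace.Core ℂ (vsub M) :=
    { inner := fun a b => ψ (star a.1 * b.1)
      conj_inner_symm := fun a b => by
        have h := hψ.map_star (mul_mem (star_mem (vsub_mem b)) (vsub_mem a))
        rw [star_mul, star_star] at h
        exact h.symm
      re_inner_nonneg := fun a =>
        (hψ _ (mul_mem (star_mem (vsub_mem a)) (vsub_mem a)) (star_mul_self_nonneg _)).1
      add_left := fun a b d => by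
        change ψ (star (a.1 + b.1) * d.1) = ψ (star a.1 * d.1) + ψ (star b.1 * d.1)
        rw [star_add, add_mul, map_add]
      smul_left := fun a b r => by
        change ψ (star (r • a.1) * b.1) = (starRingEnd ℂ) r * ψ (star a.1 * b.1)
        rw [star_smul, smul_mul_assoc, map_smul, smul_eq_mul]
        rfl }
  obtain ⟨L, i1, i2, i3, Λ, hin, hd, hext⟩ := exists_compl c
  have hin' : ∀ a b : vsub M, inner ℂ (Λ a) (Λ b) = ψ (star a.1 * b.1) := hin
  have hno : ∀ a : vsub M, ‖Λ a‖ ^ 2 = (ψ (star a.1 * a.1)).re := by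
    intro a
    rw [← hin' a a, inner_self_re]
  let T : vsub M → (vsub M →ₗ[ℂ] vsub M) := fun x =>
    { toFun := fun v => ⟨x.1 * v.1, (mul_mem (vsub_mem x) (vsub_mem v) : x.1 * v.1 ∈ M)⟩
      map_add' := fun a b => Subtype.ext (mul_add _ _ _)
      map_smul' := fun r a => Subtype.ext (mul_smul_comm _ _ _) }
  have hT : ∀ x : vsub M, ∃ S : L →L[ℂ] L, ∀ v, S (Λ v) = Λ (T x v) := by
    intro x
    refine hext (T x) ‖x.1‖ fun v => ?_
    refine (sq_le_sq₀ (norm_nonneg _) (by (clear hin hd hext hin' hno T; positivity))).1 ?_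
    rw [mul_pow, hno, hno]
    exact left_bound hψ (vsub_mem x) (vsub_mem v)
  choose S hS using hT
  refine ⟨L, i1, i2, i3, fun x => if hx : x ∈ M then Λ ⟨x, hx⟩ else 0,
    fun x => if hx : x ∈ M then S ⟨x, hx⟩ else 0, ?_, ?_, ?_⟩
  · intro x hx y hy
    simp only [dif_pos hx, dif_pos hy]
    exact hin' _ _
  · intro v δ hδ
    obtain ⟨a, ha⟩ := Metric.denseRange_iff.1 hd v δ hδ
    refine ⟨a.1, vsub_mem a, ?_⟩
    rw [dif_pos (vsub_mem a), ← dist_eq_norm]
    exact ha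
  · intro x hx y hy
    simp only [dif_pos hx, dif_pos hy, dif_pos (mul_mem hx hy)]
    exact hS ⟨x, hx⟩ ⟨y, hy⟩

namespace IsGns

variable {L : Type u} [NormedAddCommGroup L] [InnerProductSpace ℂ L] [CompleteSpace L]
variable {Λ : (H →L[ℂ] H) → L} {π : (H →L[ℂ] H) → (L →L[ℂ] L)} (h : IsGns M ψ Λ π)

include h

theorem mat {x a b : H →L[ℂ] H} (hx : x ∈ M) (ha : a ∈ M) (hb : b ∈ M) :
    inner ℂ (Λ a) (π x (Λ b)) = ψ (star a * x * b) := by
  rw [h.act x hx b hb, h.inn a ha _ (mul_mem hx hb), mul_assoc]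

theorem norm_sq {x : H →L[ℂ] H} (hx : x ∈ M) : ‖Λ x‖ ^ 2 = (ψ (star x * x)).re := by
  rw [← h.inn x hx x hx, inner_self_re]

/-- vectors are determined by the inner products with the dense subspace -/
theorem vec_ext {u v : L} (huv : ∀ a ∈ M, inner ℂ (Λ a) u = inner ℂ (Λ a) v) : u = v := by
  rw [← sub_eq_zero, ← norm_le_zero_iff]
  refine le_of_forall_pos_le_add fun δ hδ => ?_
  obtain ⟨w, hw⟩ : ∃ w, w = u - v := ⟨_, rfl⟩
  rw [← hw, zero_add]
  obtain ⟨a, ha, had⟩ := h.dense w δ hδ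
  have h1 : inner ℂ (Λ a) w = 0 := by
    rw [hw, inner_sub_right, huv a ha, sub_self]
  have h2 : ‖w‖ ^ 2 ≤ δ * ‖w‖ := by
    have h3 : inner ℂ w w = inner ℂ (w - Λ a) w := by rw [inner_sub_left, h1, sub_zero]
    calc ‖w‖ ^ 2 = ‖inner ℂ w w‖ := by
          rw [inner_self_eq_norm_sq_to_K]; simp
      _ = ‖inner ℂ (w - Λ a) w‖ := by rw [h3]
      _ ≤ ‖w - Λ a‖ * ‖w‖ := norm_inner_le_norm _ _
      _ ≤ δ * ‖w‖ := by (clear * - had; gcongr)
  rcases (norm_nonneg w).eq_or_lt with h4 | h4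
  · rw [← h4]; exact hδ.le
  · rw [sq] at h2
    exact le_of_mul_le_mul_right h2 h4

/-- a closed property which holds on the dense subspace holds everywhere -/
theorem op_ext {S T : L →L[ℂ] L} (hST : ∀ b ∈ M, S (Λ b) = T (Λ b)) : S = T := by
  ext v
  rw [← sub_eq_zero, ← norm_le_zero_iff]
  refine le_of_forall_pos_le_add fun δ hδ => ?_
  rw [zero_add]
  obtain ⟨b, hb, hbd⟩ := h.dense v (δ / (‖S‖ + ‖T‖ + 1)) (by positivity)
  have e : S v - T v = S (v - Λ b) - T (v - Λ b) := by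
    rw [map_sub, map_sub, hST b hb]; abel
  rw [e]
  have h1 := S.le_opNorm (v - Λ b)
  have h2 := T.le_opNorm (v - Λ b)
  have h3 : ‖S (v - Λ b) - T (v - Λ b)‖ ≤ (‖S‖ + ‖T‖) * ‖v - Λ b‖ := by
    refine (norm_sub_le _ _).trans ?_
    linarith only [h1, h2]
  refine h3.trans ?_
  calc (‖S‖ + ‖T‖) * ‖v - Λ b‖ ≤ (‖S‖ + ‖T‖ + 1) * (δ / (‖S‖ + ‖T‖ + 1)) :=
        mul_le_mul (by linarith only []) hbd.le (norm_nonneg _) (by (clear * -; positivity))
    _ = δ := by field_simp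

theorem op_ext' {S T : L →L[ℂ] L}
    (hST : ∀ a ∈ M, ∀ b ∈ M, inner ℂ (Λ a) (S (Λ b)) = inner ℂ (Λ a) (T (Λ b))) : S = T :=
  h.op_ext fun b hb => h.vec_ext fun a ha => hST a ha b hb

theorem map_add {x y : H →L[ℂ] H} (hx : x ∈ M) (hy : y ∈ M) : π (x + y) = π x + π y := by
  refine h.op_ext' fun a ha b hb => ?_
  rw [add_apply, inner_add_right, h.mat hx ha hb, h.mat hy ha hb, h.mat (add_mem hx hy) ha hb,
    mul_add, add_mul, _root_.map_add]

theorem map_smul (c : ℂ) {x : H →L[ℂ] H} (hx : x ∈ M) : π (c • x) = c • π x := by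
  refine h.op_ext' fun a ha b hb => ?_
  rw [smul_apply, inner_smul_right, h.mat hx ha hb,
    h.mat (M.toStarSubalgebra.smul_mem hx c) ha hb, mul_smul_comm, smul_mul_assoc,
    _root_.map_smul, smul_eq_mul]

theorem map_mul {x y : H →L[ℂ] H} (hx : x ∈ M) (hy : y ∈ M) : π (x * y) = π x * π y := by
  refine h.op_ext fun b hb => ?_
  change _ = π x (π y (Λ b))
  rw [h.act y hy b hb, h.act x hx _ (mul_mem hy hb), h.act _ (mul_mem hx hy) b hb, mul_assoc]

theorem map_one : π 1 = 1 := by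
  refine h.op_ext fun b hb => ?_
  rw [h.act 1 (one_mem M) b hb, one_mul]
  rfl

theorem map_zero : π 0 = 0 := by
  have := h.map_smul 0 (zero_mem M)
  rw [zero_smul, zero_smul] at this
  exact this

theorem map_star {x : H →L[ℂ] H} (hx : x ∈ M) : π (star x) = star (π x) := by
  refine h.op_ext' fun a ha b hb => ?_
  have h1 : inner ℂ (Λ a) (star (π x) (Λ b)) = inner ℂ (π x (Λ a)) (Λ b) := by
    have := star_apply_inner (star (π x)) (Λ a) (Λ b)
    rw [star_star] at this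
    exact this.symm
  rw [h1, h.act x hx a ha, h.inn _ (mul_mem hx ha) b hb, h.mat (star_mem hx) ha hb, star_mul]

theorem map_sub {x y : H →L[ℂ] H} (hx : x ∈ M) (hy : y ∈ M) : π (x - y) = π x - π y := by
  have h1 := h.map_add (sub_mem hx hy) hy
  rw [sub_add_cancel] at h1
  rw [h1]; abel

theorem map_sum {ι : Type*} (s : Finset ι) {f : ι → (H →L[ℂ] H)} (hf : ∀ i, f i ∈ M) :
    π (∑ i ∈ s, f i) = ∑ i ∈ s, π (f i) := by
  classical
  induction s using Finset.induction_on with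
  | empty => rw [Finset.sum_empty, Finset.sum_empty, h.map_zero]
  | insert a s ha ih =>
    rw [Finset.sum_insert ha, Finset.sum_insert ha, h.map_add (hf a) (sum_mem fun i _ => hf i),
      ih]

theorem norm_le (hψ : PosOn M ψ) {x : H →L[ℂ] H} (hx : x ∈ M) : ‖π x‖ ≤ ‖x‖ := by
  refine ContinuousLinearMap.opNorm_le_bound _ (norm_nonneg _) fun v => ?_
  refine le_of_forall_pos_le_add fun δ hδ => ?_
  obtain ⟨b, hb, hbd⟩ := h.dense v (δ / (‖π x‖ + ‖x‖ + 1)) (by positivity)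
  have h1 : ‖π x (Λ b)‖ ≤ ‖x‖ * ‖Λ b‖ := by
    refine (sq_le_sq₀ (norm_nonneg _) (by (clear * -; positivity))).1 ?_
    rw [h.act x hx b hb, mul_pow, h.norm_sq (mul_mem hx hb), h.norm_sq hb]
    exact left_bound hψ hx hb
  have h2 : π x v = π x (v - Λ b) + π x (Λ b) := by rw [← _root_.map_add, sub_add_cancel]
  have h3 := (π x).le_opNorm (v - Λ b)
  have h4 : ‖Λ b‖ ≤ ‖v‖ + ‖v - Λ b‖ := by
    have : Λ b = v - (v - Λ b) := by abel
    rw [this]
    refine (norm_sub_le _ _).trans ?_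
    rw [← this]
  have h5 : (‖π x‖ + ‖x‖) * ‖v - Λ b‖ ≤ δ := by
    calc (‖π x‖ + ‖x‖) * ‖v - Λ b‖ ≤ (‖π x‖ + ‖x‖ + 1) * (δ / (‖π x‖ + ‖x‖ + 1)) :=
          mul_le_mul (by linarith only []) hbd.le (norm_nonneg _) (by (clear * -; positivity))
      _ = δ := by field_simp
  have h6 : ‖π x v‖ ≤ ‖π x (v - Λ b)‖ + ‖π x (Λ b)‖ := by
    rw [h2]; exact norm_add_le _ _
  have h7 := mul_le_mul_of_nonneg_left h4 (norm_nonneg x)
  linarith

/-- the representation is isometric if `ψ` is faithful -/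
theorem norm_eq (hψ : PosOn M ψ) (hf : ∀ x ∈ M, ψ (star x * x) = 0 → x = 0)
    {x : H →L[ℂ] H} (hx : x ∈ M) : ‖π x‖ = ‖x‖ := by
  refine le_antisymm (h.norm_le hψ hx) ?_
  by_contra hlt
  push Not at hlt
  have hlt2 : ‖π x‖ ^ 2 < ‖x‖ ^ 2 := pow_lt_pow_left₀ hlt (norm_nonneg _) two_ne_zero
  obtain ⟨t, ht1, ht2⟩ := exists_between hlt2
  obtain ⟨g, hgM, hgp, hgle, -, -, hg2⟩ := Vale.Agent.P078.L.exists_spec (mul_mem (star_mem hx) hx)
    (star_mul_self_nonneg x) t
  have ht0 : 0 ≤ t := (sq_nonneg _).trans ht1.le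
  have hg0 : g ≠ 0 := by
    intro hg
    have h1 : ‖x‖ ≤ Real.sqrt t := by
      refine ContinuousLinearMap.opNorm_le_bound _ (Real.sqrt_nonneg _) fun ζ => ?_
      have h2 := hg2 ζ (by rw [hg]; rfl)
      have h3 : (inner ℂ ζ ((star x * x) ζ)).re = ‖x ζ‖ ^ 2 := by
        have h1 : (star x * x) ζ = star x (x ζ) := rfl
        rw [h1, ← inner_conj_symm, star_apply_inner, inner_conj_symm, inner_self_re]
      rw [h3] at h2
      refine (sq_le_sq₀ (norm_nonneg _) (by (clear * -; positivity))).1 ?_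
      rw [mul_pow, Real.sq_sqrt ht0]
      exact h2
    have h2 : ‖x‖ ^ 2 ≤ t := by
      calc ‖x‖ ^ 2 ≤ Real.sqrt t ^ 2 := pow_le_pow_left₀ (norm_nonneg _) h1 2
        _ = t := Real.sq_sqrt ht0
    linarith only [ht2, h2]
  have hgg : g * g = g := hgp.isIdempotentElem.eq
  have hgs : star g = g := hgp.isSelfAdjoint.star_eq
  have hgψ : 0 < (ψ g).re := by
    have h1 := hψ g hgM hgp.nonneg
    rcases h1.1.eq_or_lt with h2 | h2
    · exfalso
      refine hg0 (hf g hgM ?_)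
      rw [hgs, hgg]
      exact Complex.ext (by rw [Complex.zero_re]; exact h2.symm) (by rw [Complex.zero_im]; exact h1.2)
    · exact h2
  have h1 : ‖Λ g‖ ^ 2 = (ψ g).re := by rw [h.norm_sq hgM, hgs, hgg]
  have h2 : ‖π x (Λ g)‖ ^ 2 = (ψ (g * (star x * x) * g)).re := by
    rw [h.act x hx g hgM, h.norm_sq (mul_mem hx hgM), star_mul, hgs,
      show g * star x * (x * g) = g * (star x * x) * g by noncomm_ring]
  have h3 : t * (ψ g).re ≤ (ψ (g * (star x * x) * g)).re := by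
    have h4 : (t : ℂ) • g ≤ g * (star x * x) * g := by
      have h5 := conj_mono' hgp hgle
      have e : g * ((t : ℂ) • g) * g = (t : ℂ) • g := by
        rw [mul_smul_comm, hgg, smul_mul_assoc, hgg]
      rw [e] at h5
      exact h5
    have h5 := hψ.mono (M.toStarSubalgebra.smul_mem hgM _)
      (mul_mem (mul_mem hgM (mul_mem (star_mem hx) hx)) hgM) h4
    rwa [_root_.map_smul, smul_eq_mul, Complex.re_ofReal_mul] at h5
  have h4 : ‖π x (Λ g)‖ ^ 2 ≤ ‖π x‖ ^ 2 * ‖Λ g‖ ^ 2 := by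
    rw [← mul_pow]
    exact pow_le_pow_left₀ (norm_nonneg _) ((π x).le_opNorm _) 2
  rw [h2, h1] at h4
  (clear Λ h hlt hlt2 h1 h2; linarith only [mul_pos (sub_pos.2 ht1) (sub_pos.2 hgψ), h4, h3])

theorem inj (hψ : PosOn M ψ) (hf : ∀ x ∈ M, ψ (star x * x) = 0 → x = 0)
    {x y : H →L[ℂ] H} (hx : x ∈ M) (hy : y ∈ M) (hxy : π x = π y) : x = y := by
  have h1 := h.norm_eq hψ hf (sub_mem hx hy)
  rw [h.map_sub hx hy, hxy, sub_self, norm_zero] at h1
  exact sub_eq_zero.1 (norm_eq_zero.1 h1.symm)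

end IsGns

end Vale.Agent.P078.WG
end

section
/-! The image of a von Neumann algebra in the GNS representation of a faithful normal
functional is a von Neumann algebra. -/

set_option linter.unusedSectionVars false

namespace Vale.Agent.P078.WG

open Filter Topology
open Vale.Agent.P078

universe u

variable {H : Type u} [NormedAddCommGroup H] [InnerProductSpace ℂ H] [CompleteSpace H]
variable {M N : VonNeumannAlgebra H} {ψ : (H →L[ℂ] H) →ₗ[ℂ] ℂ}
variable {L : Type u} [NormedAddCommGroup L] [InnerProductSpace ℂ L] [CompleteSpace L]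
variable {Λ : (H →L[ℂ] H) → L} {π : (H →L[ℂ] H) → (L →L[ℂ] L)}

theorem cfc_mem' {y : H →L[ℂ] H} (hy : y ∈ N) (f : ℝ → ℝ) : cfc f y ∈ N := by
  refine mem_of_commute fun S hS => ?_
  have h1 : Commute y S := (commutant_comm hy hS).symm
  exact (Commute.cfc_real h1 f).eq.symm

/-- the image as a star subalgebra -/
def IsGns.alg (h : IsGns M ψ Λ π) (hNM : ∀ x ∈ N, x ∈ M) : StarSubalgebra ℂ (L →L[ℂ] L) where
  carrier := {T | ∃ x ∈ N, T = π x}
  mul_mem' := by
    rintro _ _ ⟨x, hx, rfl⟩ ⟨y, hy, rfl⟩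
    exact ⟨x * y, mul_mem hx hy, (h.map_mul (hNM x hx) (hNM y hy)).symm⟩
  one_mem' := ⟨1, one_mem N, h.map_one.symm⟩
  add_mem' := by
    rintro _ _ ⟨x, hx, rfl⟩ ⟨y, hy, rfl⟩
    exact ⟨x + y, add_mem hx hy, (h.map_add (hNM x hx) (hNM y hy)).symm⟩
  zero_mem' := ⟨0, zero_mem N, h.map_zero.symm⟩
  algebraMap_mem' := fun c => ⟨c • 1, N.toStarSubalgebra.smul_mem (one_mem N) c, by
    rw [h.map_smul c (one_mem M), h.map_one, Algebra.algebraMap_eq_smul_one]⟩
  star_mem' := by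
    rintro _ ⟨x, hx, rfl⟩
    exact ⟨star x, star_mem hx, (h.map_star (hNM x hx)).symm⟩

theorem IsGns.mem_alg (h : IsGns M ψ Λ π) (hNM : ∀ x ∈ N, x ∈ M) {T : L →L[ℂ] L} :
    T ∈ h.alg hNM ↔ ∃ x ∈ N, T = π x := Iff.rfl

theorem IsGns.cfc_mem_alg (h : IsGns M ψ Λ π) (hψ : PosOn M ψ)
    (hf : ∀ x ∈ M, ψ (star x * x) = 0 → x = 0) (hNM : ∀ x ∈ N, x ∈ M) {y : L →L[ℂ] L}
    (hy : y ∈ h.alg hNM) (hys : IsSelfAdjoint y) :
    cfc Vale.Agent.P078.L.fK y ∈ h.alg hNM := by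
  obtain ⟨x, hxN, rfl⟩ := hy
  have hxM := hNM x hxN
  have hxs : IsSelfAdjoint x := by
    refine h.inj hψ hf (star_mem hxM) hxM ?_
    rw [h.map_star hxM, hys.star_eq]
  obtain ⟨R, hR⟩ : ∃ R, R = cfc Vale.Agent.P078.L.rK x := ⟨_, rfl⟩
  obtain ⟨R', hR'⟩ : ∃ R', R' = cfc Vale.Agent.P078.L.rK (π x) := ⟨_, rfl⟩
  have hRN : R ∈ N := by rw [hR]; exact cfc_mem' hxN _
  have hRM := hNM R hRN
  obtain ⟨h1, -, -, -, -, -⟩ := Vale.Agent.P078.L.cfc_rK hxs
  obtain ⟨-, h4, -, h6, -, -⟩ := Vale.Agent.P078.L.cfc_rK hys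
  rw [← hR] at h1
  rw [← hR'] at h4 h6
  have h7 : π R * (1 + π x * π x) = 1 := by
    rw [← h.map_mul hxM hxM, ← h.map_one, ← h.map_add (one_mem M) (mul_mem hxM hxM),
      ← h.map_mul hRM (add_mem (one_mem M) (mul_mem hxM hxM)), h1]
  have h8 : π R = R' := by
    calc π R = π R * ((1 + π x * π x) * R') := by rw [h4, mul_one]
      _ = (π R * (1 + π x * π x)) * R' := by rw [mul_assoc]
      _ = R' := by rw [h7, one_mul]
  rw [h6, ← h8, ← h.map_mul hRM hxM, two_smul, ← h.map_add (mul_mem hRM hxM) (mul_mem hRM hxM)]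
  exact ⟨_, add_mem (mul_mem hRN hxN) (mul_mem hRN hxN), rfl⟩

theorem IsGns.image_sa (h : IsGns M ψ Λ π) (hψ : PosOn M ψ) (hw : WCont M ψ)
    (hf : ∀ x ∈ M, ψ (star x * x) = 0 → x = 0) (hNM : ∀ x ∈ N, x ∈ M) {T : L →L[ℂ] L}
    (hTs : IsSelfAdjoint T) (hT1 : ‖T‖ ≤ 1)
    (hT : ∀ S : L →L[ℂ] L, (∀ y ∈ h.alg hNM, S * y = y * S) → S * T = T * S) :
    ∃ x ∈ N, T = π x := by
  classical
  have hex : ∀ i : Finset L × ℕ, ∃ x ∈ N, ‖x‖ ≤ 1 ∧
      ∀ ζ ∈ i.1, ‖(T - π x) ζ‖ < 1 / ((i.2 : ℝ) + 1) := by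
    intro i
    obtain ⟨y, ⟨x, hxN, rfl⟩, hys, hy1, hy⟩ := Vale.Agent.P078.L.kaplansky (h.alg hNM)
      (fun y hy hys => h.cfc_mem_alg hψ hf hNM hy hys) hTs hT hT1 i.1
      (δ := 1 / ((i.2 : ℝ) + 1)) (by positivity)
    refine ⟨x, hxN, ?_, hy⟩
    rw [← h.norm_eq hψ hf (hNM x hxN)]
    exact hy1
  choose x hxN hx1 hx using hex
  obtain ⟨U, hU⟩ : ∃ U : Ultrafilter (Finset L × ℕ), U = Ultrafilter.of atTop := ⟨_, rfl⟩
  have hUle : (U : Filter (Finset L × ℕ)) ≤ atTop := by rw [hU]; exact Ultrafilter.of_le _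
  obtain ⟨X, hX1, hX⟩ := exists_wot_limit U x 1 (Eventually.of_forall hx1) zero_le_one
  have hXN : X ∈ N := mem_of_tendsto' (Eventually.of_forall hxN) hX
  refine ⟨X, hXN, h.op_ext' fun a ha b hb => ?_⟩
  rw [h.mat (hNM X hXN) ha hb]
  have h1 : Tendsto (fun i => ψ (star a * x i * b)) U (𝓝 (ψ (star a * X * b))) := by
    have h2 := ((hw.mul_right hb).mul_left (star_mem ha)) 1 X
      ((U : Filter (Finset L × ℕ)).map x) (hNM X hXN) ?_ ?_
    · rw [tendsto_map'_iff] at h2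
      exact h2
    · rw [eventually_map]
      exact Eventually.of_forall fun i => ⟨hNM _ (hxN i), hx1 i⟩
    · intro ξ η
      rw [tendsto_map'_iff]
      exact hX ξ η
  have h2 : Tendsto (fun i => inner ℂ (Λ a) (π (x i) (Λ b))) U
      (𝓝 (inner ℂ (Λ a) (T (Λ b)))) := by
    have h3 : Tendsto (fun i => π (x i) (Λ b)) atTop (𝓝 (T (Λ b))) := by
      rw [Metric.tendsto_nhds]
      intro ε hε
      obtain ⟨n, hn⟩ := exists_nat_one_div_lt hε
      filter_upwards [eventually_ge_atTop (({Λ b} : Finset L), n)] with i hi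
      obtain ⟨hi1, hi2⟩ := Prod.mk_le_mk.1 (show (({Λ b} : Finset L), n) ≤ (i.1, i.2) from hi)
      have h5 : 1 / ((i.2 : ℝ) + 1) ≤ 1 / ((n : ℝ) + 1) := by
        have : (n : ℝ) ≤ i.2 := by exact_mod_cast hi2
        (clear * - this; gcongr)
      have h6 := hx i (Λ b) (hi1 (Finset.mem_singleton_self _))
      rw [dist_comm, dist_eq_norm]
      rw [sub_apply] at h6
      linarith only [hn, h5, h6]
    exact (tendsto_const_nhds.inner (𝕜 := ℂ) h3).mono_left hUle
  refine tendsto_nhds_unique h2 (h1.congr fun i => ?_)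
  rw [h.mat (hNM _ (hxN i)) ha hb]

/-- the image of a von Neumann algebra is a von Neumann algebra -/
theorem IsGns.exists_image (h : IsGns M ψ Λ π) (hψ : PosOn M ψ) (hw : WCont M ψ)
    (hf : ∀ x ∈ M, ψ (star x * x) = 0 → x = 0) (hNM : ∀ x ∈ N, x ∈ M) :
    ∃ N' : VonNeumannAlgebra L, ∀ T : L →L[ℂ] L, T ∈ N' ↔ ∃ x ∈ N, T = π x := by
  have key : ∀ T : L →L[ℂ] L,
      (∀ S : L →L[ℂ] L, (∀ y ∈ h.alg hNM, S * y = y * S) → S * T = T * S) →
      T ∈ h.alg hNM := by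
    -- self-adjoint elements
    have hsa : ∀ T : L →L[ℂ] L, IsSelfAdjoint T →
        (∀ S : L →L[ℂ] L, (∀ y ∈ h.alg hNM, S * y = y * S) → S * T = T * S) →
        T ∈ h.alg hNM := by
      intro T hTs hT
      by_cases hT0 : T = 0
      · rw [hT0]; exact zero_mem _
      have hTn : 0 < ‖T‖ := norm_pos_iff.2 hT0
      obtain ⟨x, hx, hxT⟩ := h.image_sa hψ hw hf hNM (T := ((‖T‖⁻¹ : ℝ) : ℂ) • T)
        (by rw [IsSelfAdjoint, star_smul, hTs.star_eq, Complex.star_def, Complex.conj_ofReal])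
        (by
          rw [norm_smul, Complex.norm_real, Real.norm_of_nonneg (by positivity),
            inv_mul_cancel₀ hTn.ne'])
        (fun S hS => by rw [mul_smul_comm, smul_mul_assoc, hT S hS])
      have e : T = ((‖T‖ : ℝ) : ℂ) • (((‖T‖⁻¹ : ℝ) : ℂ) • T) := by
        rw [smul_smul, ← Complex.ofReal_mul, mul_inv_cancel₀ hTn.ne', Complex.ofReal_one,
          one_smul]
      rw [e, hxT]
      exact (h.alg hNM).smul_mem ⟨x, hx, rfl⟩ _
    intro T hT
    have hT' : ∀ S : L →L[ℂ] L, (∀ y ∈ h.alg hNM, S * y = y * S) → S * star T = star T * S := by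
      intro S hS
      have h1 := hT (star S) (fun y hy => by
        have := congrArg star (hS (star y) (star_mem hy))
        rw [star_mul, star_mul, star_star] at this
        exact this.symm)
      have h2 := congrArg star h1
      rw [star_mul, star_mul, star_star] at h2
      exact h2.symm
    have h1 := hsa (T + star T) (IsSelfAdjoint.add_star_self T) (fun S hS => by
      rw [mul_add, add_mul, hT S hS, hT' S hS])
    have h2 := hsa (Complex.I • (T - star T)) (by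
      rw [IsSelfAdjoint, star_smul, star_sub, star_star, Complex.star_def, Complex.conj_I,
        neg_smul, ← smul_neg, neg_sub]) (fun S hS => by
      rw [mul_smul_comm, smul_mul_assoc, mul_sub, sub_mul, hT S hS, hT' S hS])
    have e : T = (2⁻¹ : ℂ) • ((T + star T) + (-Complex.I) • (Complex.I • (T - star T))) := by
      rw [smul_smul]
      simp only [neg_mul, Complex.I_mul_I, neg_neg, one_smul]
      rw [add_add_sub_cancel, ← two_smul ℂ T, smul_smul]
      norm_num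
    rw [e]
    exact (h.alg hNM).smul_mem (add_mem h1 ((h.alg hNM).smul_mem h2 _)) _
  refine ⟨⟨h.alg hNM, ?_⟩, fun T => h.mem_alg hNM⟩
  refine Set.Subset.antisymm ?_ ?_
  · intro T hT
    refine key T fun S hS => ?_
    rw [Set.mem_centralizer_iff] at hT
    refine hT S ?_
    rw [Set.mem_centralizer_iff]
    exact fun y hy => (hS y hy).symm
  · exact Set.subset_centralizer_centralizer

end Vale.Agent.P078.WG
end

section
/-! A faithful normal functional commuting with `A` becomes a vector state in its GNS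
representation. -/

set_option linter.unusedSectionVars false

namespace Vale.Agent.P078.WG

open Filter Topology
open Vale.Agent.P078 Vale.Agent.P078.C Vale.Agent.P078.W

universe u

variable {H : Type u} [NormedAddCommGroup H] [InnerProductSpace ℂ H] [CompleteSpace H]
variable {M A : VonNeumannAlgebra H} {ψ : (H →L[ℂ] H) →ₗ[ℂ] ℂ}
variable {L : Type u} [NormedAddCommGroup L] [InnerProductSpace ℂ L] [CompleteSpace L]
variable {Λ : (H →L[ℂ] H) → L} {π : (H →L[ℂ] H) → (L →L[ℂ] L)}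

/-- a functional commuting with the projections of `A` commutes with `A` -/
theorem central_all (hA : SO.IsMASA A M)
    (hψ : Vale.Agent.P078.CentralNormal M A.toStarSubalgebra ψ) {a x : H →L[ℂ] H}
    (ha : a ∈ A) (hx : x ∈ M) : ψ (a * x) = ψ (x * a) := by
  have hAs := SO.IsMASA.toStar hA
  have := Part.filter_neBot hAs.2.1
  obtain ⟨E, hlim, hnorm, hmem, -, -, hbi, -, hcomm⟩ := exists_limit_expectation' hAs
    (Ultrafilter.of (Part.filter A.toStarSubalgebra)) (Ultrafilter.of_le _)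
  have key : ∀ y ∈ M, ψ (E y) = ψ y := by
    intro y hy
    have hEy : E y ∈ M := hA.1 _ (hmem y hy)
    have h1 := hψ.wcont ‖y‖ (E y) (Filter.map (fun Q : Part A.toStarSubalgebra => Q.E y)
      (Ultrafilter.of (Part.filter A.toStarSubalgebra) : Filter _)) hEy ?_ ?_
    · refine tendsto_nhds_unique h1 ?_
      rw [tendsto_map'_iff]
      refine tendsto_const_nhds.congr fun Q => ?_
      exact (hψ.E_eq hAs.1 Q hy).symm
    · rw [eventually_map]
      exact Eventually.of_forall fun Q => ⟨Q.E_mem hAs.1 hy, Q.norm_E_le y⟩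
    · intro u v
      rw [tendsto_map'_iff]
      exact hlim y u v
  have haM := hA.1 a ha
  rw [← key _ (mul_mem haM hx), ← key _ (mul_mem hx haM), (hbi a ha x).1, (hbi a ha x).2,
    hcomm x a ha]

/-- the cyclic vector as a sequence -/
noncomputable def cyc (Λ : (H →L[ℂ] H) → L) : ℕ → L := fun n => if n = 0 then Λ 1 else 0

theorem vtr_cyc (T : L →L[ℂ] L) : vtr (cyc Λ) T = inner ℂ (Λ 1) (T (Λ 1)) := by
  unfold vtr
  rw [tsum_eq_single 0]
  · simp only [cyc, ↓reduceIte]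
  · intro n hn
    simp [cyc, hn]

theorem n2_cyc (T : L →L[ℂ] L) : n2 (cyc Λ) T = ‖T (Λ 1)‖ ^ 2 := by
  unfold n2
  rw [tsum_eq_single 0]
  · simp only [cyc, ↓reduceIte]
  · intro n hn
    simp [cyc, hn]

theorem IsGns.isMASA (h : IsGns M ψ Λ π) (hψ : PosOn M ψ)
    (hf : ∀ x ∈ M, ψ (star x * x) = 0 → x = 0) (hA : SO.IsMASA A M) {M' A' : VonNeumannAlgebra L}
    (hM' : ∀ T, T ∈ M' ↔ ∃ x ∈ M, T = π x) (hA' : ∀ T, T ∈ A' ↔ ∃ x ∈ A, T = π x) :
    SO.IsMASA A' M' := by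
  refine ⟨fun T hT => ?_, fun S hS T hT => ?_, fun T hT hc => ?_⟩
  · obtain ⟨x, hx, rfl⟩ := (hA' T).1 hT
    exact (hM' _).2 ⟨x, hA.1 x hx, rfl⟩
  · obtain ⟨x, hx, rfl⟩ := (hA' S).1 hS
    obtain ⟨y, hy, rfl⟩ := (hA' T).1 hT
    rw [← h.map_mul (hA.1 x hx) (hA.1 y hy), ← h.map_mul (hA.1 y hy) (hA.1 x hx),
      hA.2.1 x hx y hy]
  · obtain ⟨x, hx, rfl⟩ := (hM' T).1 hT
    refine (hA' _).2 ⟨x, hA.2.2 x hx fun a ha => ?_, rfl⟩
    have haM := hA.1 a ha
    refine h.inj hψ hf (mul_mem haM hx) (mul_mem hx haM) ?_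
    rw [h.map_mul haM hx, h.map_mul hx haM]
    exact hc _ ((hA' _).2 ⟨a, ha, rfl⟩)

theorem IsGns.isCState (h : IsGns M ψ Λ π) (hA : SO.IsMASA A M)
    (hψ : Vale.Agent.P078.CentralNormal M A.toStarSubalgebra ψ) (h1 : ψ 1 = 1)
    (hf : ∀ x ∈ M, ψ (star x * x) = 0 → x = 0) {M' A' : VonNeumannAlgebra L}
    (hM' : ∀ T, T ∈ M' ↔ ∃ x ∈ M, T = π x) (hA' : ∀ T, T ∈ A' ↔ ∃ x ∈ A, T = π x) :
    IsCState M' A' (cyc Λ) := by
  have hpos : PosOn M ψ := hψ.nonneg
  have hn1 : ‖Λ 1‖ ^ 2 = 1 := by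
    rw [h.norm_sq (one_mem M), star_one, one_mul, h1, Complex.one_re]
  have hs : (fun n => ‖cyc Λ n‖ ^ 2) = fun n => if n = 0 then (1 : ℝ) else 0 := by
    funext n
    by_cases hn : n = 0
    · simp [cyc, hn, hn1]
    · simp [cyc, hn]
  refine ⟨?_, ?_, fun a ha x hx => ?_, fun x hx h0 => ?_⟩
  · rw [hs]
    exact summable_of_ne_finset_zero (s := {0}) fun n hn => by
      rw [Finset.mem_singleton] at hn
      simp [hn]
  · rw [hs, tsum_ite_eq]
  · obtain ⟨a, haA, rfl⟩ := (hA' a).1 ha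
    obtain ⟨x, hxM, rfl⟩ := (hM' x).1 hx
    have haM := hA.1 a haA
    rw [vtr_cyc, vtr_cyc, ← h.map_mul haM hxM, ← h.map_mul hxM haM,
      h.mat (mul_mem haM hxM) (one_mem M) (one_mem M),
      h.mat (mul_mem hxM haM) (one_mem M) (one_mem M), star_one, one_mul, one_mul, mul_one,
      mul_one, central_all hA hψ haA hxM]
  · obtain ⟨x, hxM, rfl⟩ := (hM' x).1 hx
    have h2 : π x (Λ 1) = 0 := by simpa only [cyc, ↓reduceIte] using h0 0
    have h3 : (ψ (star x * x)).re = 0 := by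
      rw [h.act x hxM 1 (one_mem M), mul_one] at h2
      rw [← h.norm_sq hxM, h2, norm_zero]
      norm_num
    have h4 := (hpos _ (mul_mem (star_mem hxM) hxM) (star_mul_self_nonneg x)).2
    rw [hf x hxM (Complex.ext h3 h4), h.map_zero]

end Vale.Agent.P078.WG
end

section
/-! Paving for a functional commuting with `A`, from paving for central vector states. -/

set_option linter.unusedSectionVars false

namespace Vale.Agent.P078.WG

open Filter Topology
open Vale.Agent.P078 Vale.Agent.P078.C Vale.Agent.P078.G Vale.Agent.P078.W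

universe u

/-- paving for central states -/
def CPave (C : ℝ) : Prop :=
  ∀ (K : Type u) [NormedAddCommGroup K] [InnerProductSpace ℂ K] [CompleteSpace K]
    (N B : VonNeumannAlgebra K) (ξ : ℕ → K) (E : (K →L[ℂ] K) →ₗ[ℂ] (K →L[ℂ] K)),
    SO.IsMASA B N → IsCState N B ξ → IsTrExp N B ξ E →
    ∀ ε : ℝ, 0 < ε → ε < 1 → ∀ x ∈ N, IsSelfAdjoint x → ‖x‖ ≤ 1 → E x = 0 →
    ∀ δ : ℝ, 0 < δ → ∃ (r : ℕ) (P : Fin r → (K →L[ℂ] K)), (r : ℝ) ≤ C / ε ^ 2 ∧ IsPart B P ∧
      ∃ w ∈ N, ‖w‖ ≤ ε ∧ n2 ξ (pinch P x - w) ≤ δ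

variable {H : Type u} [NormedAddCommGroup H] [InnerProductSpace ℂ H] [CompleteSpace H]
variable {M A : VonNeumannAlgebra H} {ψ : (H →L[ℂ] H) →ₗ[ℂ] ℂ}

theorem cvec {C : ℝ} (hC : CPave.{u} C) (hA : SO.IsMASA A M) {ξ : ℕ → H} (hξ : IsCState M A ξ)
    {ε : ℝ} (hε : 0 < ε) (hε1 : ε < 1) {R : ℕ} (hR : 16 * C / ε ^ 2 ≤ (R : ℝ))
    {x : H →L[ℂ] H} (hx : x ∈ M) (hxs : IsSelfAdjoint x) {κ : ℝ} (hκ : 0 < κ) :
    ∃ P : Fin R → (H →L[ℂ] H), IsPart A P ∧ ∃ a ∈ A, IsSelfAdjoint a ∧ ‖a‖ ≤ ‖x‖ ∧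
      ∃ w ∈ M, ‖w‖ ≤ ε / 2 * ‖x‖ ∧ n2 ξ (pinch P x - a - w) ≤ κ := by
  obtain ⟨E, hE⟩ := exists_cexp hA hξ
  have hExA := hE.mem x hx
  have hExM := hA.1 _ hExA
  have hExs : IsSelfAdjoint (E x) := by rw [IsSelfAdjoint, ← hE.star x hx, hxs.star_eq]
  have hExn := norm_exp_le hE hx hxs
  -- the scale
  obtain ⟨N, hN, hN1, hN2⟩ : ∃ N : ℝ, 0 < N ∧ ‖x - E x‖ ≤ N ∧ (x ≠ 0 → N = 2 * ‖x‖) := by
    by_cases h0 : x = 0
    · refine ⟨1, one_pos, ?_, fun h => absurd h0 h⟩
      rw [h0, map_zero, sub_zero, norm_zero]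
      exact zero_le_one
    · refine ⟨2 * ‖x‖, by positivity, ?_, fun _ => rfl⟩
      have := norm_sub_le x (E x)
      linarith only [hExn, this]
  obtain ⟨y, hy⟩ : ∃ y, y = ((N⁻¹ : ℝ) : ℂ) • (x - E x) := ⟨_, rfl⟩
  have hyM : y ∈ M := by rw [hy]; exact M.toStarSubalgebra.smul_mem (sub_mem hx hExM) _
  have hys : IsSelfAdjoint y := by
    rw [hy, IsSelfAdjoint, star_smul, (hxs.sub hExs).star_eq]
    simp only [Complex.ofReal_inv, star_inv₀, RCLike.star_def, Complex.conj_ofReal]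
  have hyn : ‖y‖ ≤ 1 := by
    rw [hy, norm_smul, Complex.norm_real, Real.norm_of_nonneg (by (clear * - hN; positivity)),
      inv_mul_le_iff₀ hN]
    linarith only [hN1]
  have hEy : E y = 0 := by
    rw [hy, map_smul, map_sub, hE.idem _ hExA, sub_self, smul_zero]
  have hNy : x - E x = ((N : ℝ) : ℂ) • y := by
    rw [hy, smul_smul, ← Complex.ofReal_mul, mul_inv_cancel₀ hN.ne', Complex.ofReal_one, one_smul]
  obtain ⟨r, P, hr, hP, w, hwM, hwn, hn⟩ := hC H M A ξ E hA hξ hE (ε / 4) (by positivity)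
    (by linarith only [hε1]) y hyM hys hyn hEy (κ / N ^ 2) (by (clear * - hκ hN; positivity))
  have hrR : r ≤ R := by
    have h : (r : ℝ) ≤ R := by
      refine hr.trans (le_trans (le_of_eq ?_) hR)
      field_simp
      norm_num
    exact_mod_cast h
  obtain ⟨P', hP', hpin⟩ := exists_pad hrR hP
  have e1 : pinch P' x - E x = ((N : ℝ) : ℂ) • pinch P y := by
    have e2 : pinch P' x - E x = pinch P' x - pinch P' (E x) := by
      rw [pinch_of_mem hA hP' hExA]
    rw [e2, ← Vale.Agent.P078.G.pinch_sub, hNy, pinch_smul, hpin]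
  by_cases h0 : x = 0
  · refine ⟨P', hP', E x, hExA, hExs, hExn, 0, zero_mem M, by simp only [norm_zero, h0, mul_zero, Std.le_refl], ?_⟩
    have e3 : pinch P' x - E x - 0 = 0 := by
      rw [h0]; simp only [pinch, mul_zero, zero_mul, Finset.sum_const_zero, map_zero, sub_self]
    rw [e3]
    simpa only [n2, zero_apply, norm_zero, ne_eq, OfNat.ofNat_ne_zero, not_false_eq_true, zero_pow, tsum_zero,     ge_iff_le] using hκ.le
  · refine ⟨P', hP', E x, hExA, hExs, hExn, ((N : ℝ) : ℂ) • w,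
      M.toStarSubalgebra.smul_mem hwM _, ?_, ?_⟩
    · rw [norm_smul, Complex.norm_real, Real.norm_of_nonneg hN.le, hN2 h0]
      have := norm_nonneg x
      nlinarith only [hwn, this]
    · have e4 : n2 ξ (((N : ℝ) : ℂ) • (pinch P y - w)) = N ^ 2 * n2 ξ (pinch P y - w) := by
        unfold n2
        rw [← tsum_mul_left]
        refine tsum_congr fun n => ?_
        rw [smul_apply, norm_smul, Complex.norm_real, Real.norm_of_nonneg hN.le, mul_pow]
      rw [e1, ← smul_sub, e4]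
      calc N ^ 2 * n2 ξ (pinch P y - w) ≤ N ^ 2 * (κ / N ^ 2) := by (clear * - hn hN; gcongr)
        _ = κ := by (clear * - hN hκ; field_simp)

/-- paving up to an operator which is small for a faithful functional commuting with `A` -/
theorem gns_pave {C : ℝ} (hC : CPave.{u} C) (hA : SO.IsMASA A M)
    (hψ : Vale.Agent.P078.CentralNormal M A.toStarSubalgebra ψ) (h0 : ψ 1 ≠ 0)
    (hf : ∀ x ∈ M, ψ (star x * x) = 0 → x = 0)
    {ε : ℝ} (hε : 0 < ε) (hε1 : ε < 1) {R : ℕ} (hR : 16 * C / ε ^ 2 ≤ (R : ℝ))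
    {x : H →L[ℂ] H} (hx : x ∈ M) (hxs : IsSelfAdjoint x) {κ : ℝ} (hκ : 0 < κ) :
    ∃ P : Fin R → (H →L[ℂ] H), IsPart A P ∧ ∃ a ∈ A, IsSelfAdjoint a ∧ ‖a‖ ≤ ‖x‖ ∧
      ∃ w ∈ M, ‖w‖ ≤ ε / 2 * ‖x‖ ∧
        (ψ (star (pinch P x - a - w) * (pinch P x - a - w))).re ≤ κ := by
  have hpos0 : PosOn M ψ := hψ.nonneg
  have h1' := hpos0 1 (one_mem M) zero_le_one
  obtain ⟨s, hs⟩ : ∃ s : ℝ, s = (ψ 1).re := ⟨_, rfl⟩
  have hψs : ψ 1 = ((s : ℝ) : ℂ) := Complex.ext (by simp only [hs, Complex.ofReal_re]) (by simpa only [Complex.ofReal_im] using h1'.2)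
  have hs0 : 0 < s := by
    rcases (hs ▸ h1'.1 : (0 : ℝ) ≤ s).eq_or_lt with h | h
    · exfalso; exact h0 (by rw [hψs, ← h, Complex.ofReal_zero])
    · exact h
  obtain ⟨φ, hφ⟩ : ∃ φ : (H →L[ℂ] H) →ₗ[ℂ] ℂ, φ = ((s⁻¹ : ℝ) : ℂ) • ψ := ⟨_, rfl⟩
  have happ : ∀ y, φ y = ((s⁻¹ : ℝ) : ℂ) * ψ y := fun y => by rw [hφ]; rfl
  have hre : ∀ y, (φ y).re = s⁻¹ * (ψ y).re := fun y => by rw [happ, Complex.re_ofReal_mul]
  have him : ∀ y, (φ y).im = s⁻¹ * (ψ y).im := fun y => by rw [happ, Complex.im_ofReal_mul]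
  have hφc : Vale.Agent.P078.CentralNormal M A.toStarSubalgebra φ := by
    refine ⟨fun y hy hy0 => ?_, fun e he hep y hy => ?_, ?_⟩
    · have := hψ.nonneg y hy hy0
      rw [hre, him, this.2, mul_zero]
      exact ⟨mul_nonneg (by (clear * - hs0; positivity)) this.1, rfl⟩
    · rw [happ, happ, hψ.central e he hep y hy]
    · exact (hψ.wcont.const_mul _).congr fun y _ => (happ y).symm
  have hφpos : PosOn M φ := hφc.nonneg
  have hφ1 : φ 1 = 1 := by
    rw [happ, hψs, ← Complex.ofReal_mul, inv_mul_cancel₀ hs0.ne', Complex.ofReal_one]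
  have hφf : ∀ y ∈ M, φ (star y * y) = 0 → y = 0 := by
    intro y hy h
    rw [happ, mul_eq_zero] at h
    rcases h with h | h
    · exact absurd (Complex.ofReal_eq_zero.1 h) (inv_pos.2 hs0).ne'
    · exact hf y hy h
  obtain ⟨L, _, _, _, Λ, π, hG⟩ := exists_gns hφpos
  obtain ⟨M', hM'⟩ := hG.exists_image hφpos hφc.wcont hφf (N := M) fun _ h => h
  obtain ⟨A', hA'⟩ := hG.exists_image hφpos hφc.wcont hφf (N := A) hA.1
  have hMA' := hG.isMASA hφpos hφf hA hM' hA'
  have hcs := hG.isCState hA hφc hφ1 hφf hM' hA'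
  have hinj := fun {x y : H →L[ℂ] H} (hx : x ∈ M) (hy : y ∈ M) (h : π x = π y) =>
    hG.inj hφpos hφf hx hy h
  have hnorm := fun {x : H →L[ℂ] H} (hx : x ∈ M) => hG.norm_eq hφpos hφf hx
  obtain ⟨P', hP', a', ha'A, ha's, ha'n, w', hw'M, hw'n, hn⟩ := cvec hC hMA' hcs hε hε1 hR
    ((hM' _).2 ⟨x, hx, rfl⟩) (by rw [IsSelfAdjoint, ← hG.map_star hx, hxs.star_eq])
    (κ := κ / s) (by (clear * - hκ hs0; positivity))
  have hex : ∀ i, ∃ e ∈ A, P' i = π e := fun i => (hA' _).1 (hP'.1 i).1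
  choose P hPA hPπ using hex
  have hPM : ∀ i, P i ∈ M := fun i => hA.1 _ (hPA i)
  obtain ⟨a, haA, rfl⟩ := (hA' _).1 ha'A
  obtain ⟨w, hwM, rfl⟩ := (hM' _).1 hw'M
  have haM := hA.1 a haA
  have hproj : ∀ i, IsStarProjection (P i) := by
    intro i
    have h1 := (hP'.1 i).2
    rw [hPπ i] at h1
    refine ⟨?_, ?_⟩
    · change P i * P i = P i
      refine hinj (mul_mem (hPM i) (hPM i)) (hPM i) ?_
      rw [hG.map_mul (hPM i) (hPM i)]
      exact h1.isIdempotentElem.eq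
    · refine hinj (star_mem (hPM i)) (hPM i) ?_
      rw [hG.map_star (hPM i)]
      exact h1.isSelfAdjoint.star_eq
  have hPart : IsPart A P := by
    refine ⟨fun i => ⟨hPA i, hproj i⟩, fun i j hij => ?_, ?_⟩
    · refine hinj (mul_mem (hPM i) (hPM j)) (zero_mem M) ?_
      rw [hG.map_mul (hPM i) (hPM j), ← hPπ, ← hPπ, hP'.2.1 i j hij, hG.map_zero]
    · refine hinj (sum_mem fun i _ => hPM i) (one_mem M) ?_
      rw [hG.map_sum _ hPM, hG.map_one, ← hP'.2.2]
      exact Finset.sum_congr rfl fun i _ => (hPπ i).symm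
  have hpinM : pinch P x ∈ M := sum_mem fun i _ => mul_mem (mul_mem (hPM i) hx) (hPM i)
  have hpin : pinch P' (π x) = π (pinch P x) := by
    unfold pinch
    rw [hG.map_sum _ fun i => mul_mem (mul_mem (hPM i) hx) (hPM i)]
    refine Finset.sum_congr rfl fun i _ => ?_
    rw [hG.map_mul (mul_mem (hPM i) hx) (hPM i), hG.map_mul (hPM i) hx, hPπ]
  refine ⟨P, hPart, a, haA, ?_, ?_, w, hwM, ?_, ?_⟩
  · refine hinj (star_mem haM) haM ?_
    rw [hG.map_star haM]
    exact ha's.star_eq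
  · rw [← hnorm haM, ← hnorm hx]; exact ha'n
  · rw [← hnorm hwM, ← hnorm hx]; exact hw'n
  · have h2 : pinch P x - a - w ∈ M := sub_mem (sub_mem hpinM haM) hwM
    have h3 : pinch P' (π x) - π a - π w = π (pinch P x - a - w) := by
      rw [hG.map_sub (sub_mem hpinM haM) hwM, hG.map_sub hpinM haM, hpin]
    rw [h3, n2_cyc, hG.act _ h2 1 (one_mem M), mul_one, hG.norm_sq h2, hre,
      inv_mul_eq_div, div_le_div_iff_of_pos_right hs0] at hn
    exact hn

end Vale.Agent.P078.WG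
end

section
/-! The support of a functional commuting with `A` in the expected corner. -/

set_option linter.unusedSectionVars false

namespace Vale.Agent.P078.WG

open Filter Topology
open Vale.Agent.P078 Vale.Agent.P078.C Vale.Agent.P078.W
open ContinuousLinearMap (adjoint)

universe u

variable {H : Type u} [NormedAddCommGroup H] [InnerProductSpace ℂ H] [CompleteSpace H]
variable {M A : VonNeumannAlgebra H} {ψ : (H →L[ℂ] H) →ₗ[ℂ] ℂ} {p z : H →L[ℂ] H}

/-- an expectation onto `A` preserved by all normal functionals commuting with `A` -/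
theorem exists_limE (hA : SO.IsMASA A M) : ∃ E : (H →L[ℂ] H) →ₗ[ℂ] (H →L[ℂ] H),
    (∀ x ∈ M, E x ∈ A) ∧ (∀ x, 0 ≤ x → 0 ≤ E x) ∧
    (∀ a ∈ A, ∀ x, E (a * x) = a * E x ∧ E (x * a) = E x * a) ∧
    ∀ φ : (H →L[ℂ] H) →ₗ[ℂ] ℂ, Vale.Agent.P078.CentralNormal M A.toStarSubalgebra φ →
      ∀ y ∈ M, φ (E y) = φ y := by
  have hAs := SO.IsMASA.toStar hA
  have := Part.filter_neBot hAs.2.1
  obtain ⟨E, hlim, hnorm, hmem, hpos, -, hbi, -, hcomm⟩ := exists_limit_expectation' hAs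
    (Ultrafilter.of (Part.filter A.toStarSubalgebra)) (Ultrafilter.of_le _)
  refine ⟨E, hmem, hpos, hbi, fun φ hφ y hy => ?_⟩
  have hEy : E y ∈ M := hA.1 _ (hmem y hy)
  have h1 := hφ.wcont ‖y‖ (E y) (Filter.map (fun Q : Part A.toStarSubalgebra => Q.E y)
    (Ultrafilter.of (Part.filter A.toStarSubalgebra) : Filter _)) hEy ?_ ?_
  · refine tendsto_nhds_unique h1 ?_
    rw [tendsto_map'_iff]
    refine tendsto_const_nhds.congr fun Q => ?_
    exact (hφ.E_eq hAs.1 Q hy).symm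
  · rw [eventually_map]
    exact Eventually.of_forall fun Q => ⟨Q.E_mem hAs.1 hy, Q.norm_E_le y⟩
  · intro u v
    rw [tendsto_map'_iff]
    exact hlim y u v

theorem spec_mul_zero {x g y : H →L[ℂ] H} (hgp : IsStarProjection g) {t : ℝ} (ht : 0 < t)
    (hc : ∀ y : H →L[ℂ] H, y * x = x * y → y * g = g * y)
    (hg1 : ∀ ζ, g ζ = ζ → t * ‖ζ‖ ^ 2 ≤ (inner ℂ ζ (x ζ)).re) (hxy : x * y = 0)
    (hyx : y * x = 0) : y * g = 0 := by
  have hyg : y * g = g * y := hc y (by rw [hxy, hyx])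
  ext v
  have h1 : g ((y * g) v) = (y * g) v := by
    have h2 := DFunLike.congr_fun hyg (g v)
    have h3 : y (g (g v)) = g (y (g v)) := h2
    change g (y (g v)) = y (g v)
    rw [← h3, proj_apply_apply hgp]
  have h2 := hg1 _ h1
  have h3 : x ((y * g) v) = 0 := DFunLike.congr_fun hxy (g v)
  rw [h3, inner_zero_right, Complex.zero_re] at h2
  have h4 : ‖(y * g) v‖ = 0 := by
    by_contra hne
    have : 0 < ‖(y * g) v‖ := lt_of_le_of_ne (norm_nonneg _) (Ne.symm hne)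
    have := mul_pos ht (pow_pos this 2)
    linarith only [h2, this]
  rw [zero_apply]
  exact norm_eq_zero.1 h4

/-- a maximal null projection of `A` below `z` -/
theorem exists_max_null (hA : SO.IsMASA A M) (_hz : z ∈ A) (hzp : IsStarProjection z)
    (hψ : Vale.Agent.P078.CentralNormal M A.toStarSubalgebra ψ) :
    ∃ m ∈ A, IsStarProjection m ∧ z * m = m ∧ ψ m = 0 ∧
      ∀ g ∈ A, IsStarProjection g → z * g = g → ψ g = 0 → m ≤ g → g ≤ m := by
  obtain ⟨S, hS⟩ : ∃ S : Set (H →L[ℂ] H),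
    S = {g | g ∈ A ∧ IsStarProjection g ∧ z * g = g ∧ ψ g = 0} := ⟨_, rfl⟩
  obtain ⟨m, hm⟩ := zorn_le₀ S (fun c hcS hc => by
    rcases c.eq_empty_or_nonempty with h0 | hne
    · refine ⟨0, ?_, fun x hx => ?_⟩
      · rw [hS]
        exact ⟨zero_mem A, IsStarProjection.zero _, mul_zero z, map_zero ψ⟩
      · rw [h0] at hx; exact absurd hx (Set.notMem_empty _)
    · have hD : ∀ g ∈ c, g ∈ A ∧ IsStarProjection g := fun g hg => by
        have := hcS hg
        rw [hS] at this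
        exact ⟨this.1, this.2.1⟩
      obtain ⟨g, hgA, hgp, hlub, -⟩ := exists_sup_proj (M := A) hne hc.directedOn hD
      refine ⟨g, ?_, fun x hx => hlub.1 hx⟩
      rw [hS]
      refine ⟨hgA, hgp, ?_, ?_⟩
      · refine (IsStarProjection.le_iff_mul_eq_right hgp hzp).1 (hlub.2 fun e he => ?_)
        have := hcS he
        rw [hS] at this
        exact (IsStarProjection.le_iff_mul_eq_right this.2.1 hzp).2 this.2.2.1
      · obtain ⟨l, hl1, hl2, ⟨R, hl3⟩, -, hl5⟩ := tendsto_of_isLUB hne hc.directedOn hlub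
        have h1 := hψ.wcont R g l (hA.1 g hgA) (by
          filter_upwards [hl2, hl3] with d hd hd'
          exact ⟨hA.1 d (hD d hd).1, hd'⟩) hl5
        have h2 : Tendsto ψ l (𝓝 0) := by
          refine tendsto_const_nhds.congr' ?_
          filter_upwards [hl2] with d hd
          have := hcS hd
          rw [hS] at this
          exact this.2.2.2.symm
        exact tendsto_nhds_unique h1 h2)
  have hmS := hm.prop
  rw [hS] at hmS
  refine ⟨m, hmS.1, hmS.2.1, hmS.2.2.1, hmS.2.2.2, fun g hg hgp hgz hgn hle => hm.le_of_ge ?_ hle⟩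
  rw [hS]
  exact ⟨hg, hgp, hgz, hgn⟩

/-- the support of `ψ` in the expected corner -/
theorem exists_support (hA : SO.IsMASA A M) (hz : z ∈ A) (hzp : IsStarProjection z)
    {E : (H →L[ℂ] H) →ₗ[ℂ] (H →L[ℂ] H)} (hE : SO.IsNormalExpectation M A z E)
    (hψ : Vale.Agent.P078.CentralNormal M A.toStarSubalgebra ψ) :
    ∃ p ∈ A, IsStarProjection p ∧ z * p = p ∧ ψ (z - p) = 0 ∧
      ∀ x ∈ M, p * x * p = x → ψ (star x * x) = 0 → x = 0 := by
  have hpos : PosOn M ψ := hψ.nonneg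
  obtain ⟨m, hmA, hmp, hzm, hψm, hmax⟩ := exists_max_null hA hz hzp hψ
  obtain ⟨E', hE'mem, hE'pos, hE'bi, hE'ψ⟩ := exists_limE hA
  have hzz : z * z = z := hzp.isIdempotentElem.eq
  have hmm : m * m = m := hmp.isIdempotentElem.eq
  have hmz : m * z = m := by rw [hA.2.1 m hmA z hz, hzm]
  have hpA : z - m ∈ A := sub_mem hz hmA
  have hpM := hA.1 _ hpA
  have hpp : (z - m) * (z - m) = z - m := by
    rw [mul_sub, sub_mul, sub_mul, hzz, hmz, hzm, hmm]; abel
  have hpproj : IsStarProjection (z - m) := ⟨hpp, hzp.isSelfAdjoint.sub hmp.isSelfAdjoint⟩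
  refine ⟨z - m, hpA, hpproj, ?_, ?_, fun x hx hpx hx0 => ?_⟩
  · rw [mul_sub, hzz, hzm]
  · rw [sub_sub_cancel, hψm]
  · obtain ⟨p, hp⟩ : ∃ p, p = z - m := ⟨_, rfl⟩
    rw [← hp] at hpA hpM hpp hpproj hpx
    have hzp1 : z * p = p := by rw [hp, mul_sub, hzz, hzm]
    have hpz : p * z = p := by rw [hA.2.1 p hpA z hz, hzp1]
    have hxp : x * p = x := by rw [← hpx, mul_assoc, hpp]
    have hpx' : p * star x = star x := by
      have := congrArg star hxp
      rwa [star_mul, hpproj.isSelfAdjoint.star_eq] at this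
    have hxx : star x * x ∈ M := mul_mem (star_mem hx) hx
    have hxx1 : p * (star x * x) = star x * x := by rw [← mul_assoc, hpx']
    have hxx2 : star x * x * p = star x * x := by rw [mul_assoc, hxp]
    obtain ⟨a, ha⟩ : ∃ a, a = E' (star x * x) := ⟨_, rfl⟩
    have haA : a ∈ A := by rw [ha]; exact hE'mem _ hxx
    have ha0 : 0 ≤ a := by rw [ha]; exact hE'pos _ (star_mul_self_nonneg x)
    have hpa : p * a = a := by rw [ha, ← (hE'bi p hpA _).1, hxx1]
    have hap : a * p = a := by rw [ha, ← (hE'bi p hpA _).2, hxx2]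
    have hψa : ψ a = 0 := by rw [ha, hE'ψ ψ hψ _ hxx, hx0]
    have hazero : a = 0 := by
      refine Vale.Agent.P078.L.eq_zero_of_spec haA ha0 fun t ht g hg hgp hle hcg hg1 => ?_
      have hg0 : (1 - p) * g = 0 := by
        refine spec_mul_zero hgp ht hcg hg1 ?_ ?_
        · rw [mul_sub, mul_one, hap, sub_self]
        · rw [sub_mul, one_mul, hpa, sub_self]
      have hpg : p * g = g := by
        rw [sub_mul, one_mul, sub_eq_zero] at hg0
        exact hg0.symm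
      have hgM := hA.1 g hg
      have hψg : ψ g = 0 := by
        have h1 := hpos g hgM hgp.nonneg
        have h2 := hpos.mono (M.toStarSubalgebra.smul_mem hgM _) (hA.1 a haA) hle
        rw [map_smul, smul_eq_mul, Complex.re_ofReal_mul, hψa, Complex.zero_re] at h2
        have h3 : (ψ g).re = 0 := by
          refine le_antisymm ?_ h1.1
          by_contra hcon
          push Not at hcon
          have := mul_pos ht hcon
          linarith only [h2, this]
        exact Complex.ext h3 h1.2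
      have hmp' : m * p = 0 := by rw [hp, mul_sub, hmz, hmm, sub_self]
      have hmg : m * g = 0 := by rw [← hpg, ← mul_assoc, hmp', zero_mul]
      have hgm : g * m = 0 := by rw [hA.2.1 g hg m hmA, hmg]
      have hsum : IsStarProjection (m + g) := by
        refine ⟨?_, hmp.isSelfAdjoint.add hgp.isSelfAdjoint⟩
        change (m + g) * (m + g) = m + g
        rw [mul_add, add_mul, add_mul, hmm, hmg, hgm, hgp.isIdempotentElem.eq]
        abel
      have h1 := hmax (m + g) (add_mem hmA hg) hsum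
        (by rw [mul_add, hzm, ← hpg, ← mul_assoc, hzp1, hpg])
        (by rw [map_add, hψm, hψg, add_zero]) (le_add_of_nonneg_right hgp.nonneg)
      have h2 : g ≤ 0 := by
        have := sub_nonneg.2 h1
        rw [sub_add_cancel_left] at this
        exact neg_nonneg.1 this
      exact le_antisymm h2 hgp.nonneg
    have hnul : Vale.Agent.P078.L.Nul M A.toStarSubalgebra (star x * x) := by
      intro φ hφ
      rw [← hE'ψ φ hφ _ hxx, ← ha, hazero, map_zero]
    have h1 := Vale.Agent.P078.L.faithful_of_expected (SO.IsMASA.toStar hA) hz hzp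
      (SO.isNormalExpectation_iff.1 hE) hxx (star_mul_self_nonneg x) (by
        rw [← hxx1, ← mul_assoc, hzp1, hxx1, ← hxx2, mul_assoc (star x * x), hpz]) hnul
    exact CStarRing.star_mul_self_eq_zero_iff _ |>.1 h1

/-- the restriction of a functional to a corner -/
noncomputable def corner {K : Type u} [NormedAddCommGroup K] [InnerProductSpace ℂ K]
    [CompleteSpace K] (ψ : (H →L[ℂ] H) →ₗ[ℂ] ℂ) (i : K →L[ℂ] H) : (K →L[ℂ] K) →ₗ[ℂ] ℂ where
  toFun y := ψ (up i y)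
  map_add' x y := by rw [Iso.up_add, map_add]
  map_smul' c x := by
    have h : up i (c • x) = c • up i x := by
      ext v
      change i (c • x (adjoint i v)) = c • i (x (adjoint i v))
      rw [map_smul]
    rw [h, map_smul]
    rfl

theorem corner_apply {K : Type u} [NormedAddCommGroup K] [InnerProductSpace ℂ K]
    [CompleteSpace K] (i : K →L[ℂ] H) (y : K →L[ℂ] K) : corner ψ i y = ψ (up i y) := rfl

theorem corner_central (hA : SO.IsMASA A M)
    (hψ : Vale.Agent.P078.CentralNormal M A.toStarSubalgebra ψ)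
    {K : Type u} [NormedAddCommGroup K] [InnerProductSpace ℂ K] [CompleteSpace K]
    {i : K →L[ℂ] H} (hi : Iso i p) (hp : p ∈ A) :
    Vale.Agent.P078.CentralNormal (cAlg M i) (cAlg A i).toStarSubalgebra (corner ψ i) := by
  have hpM := hA.1 p hp
  refine ⟨fun y hy hy0 => ?_, fun e he hep y hy => ?_, ?_⟩
  · refine hψ.nonneg _ ((mem_cAlg hi hpM).1 hy) ?_
    refine nonneg_of_inner ?_ fun ζ => ?_
    · rw [IsSelfAdjoint, ← Iso.up_star, (IsSelfAdjoint.of_nonneg hy0).star_eq]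
    · change 0 ≤ (inner ℂ ζ (i (y (adjoint i ζ)))).re
      rw [← ContinuousLinearMap.adjoint_inner_left]
      exact inner_nonneg_of_nonneg hy0 _
  · rw [corner_apply, corner_apply, hi.up_mul, hi.up_mul]
    refine hψ.central _ ((mem_cAlg hi hp).1 he) ?_ _ ((mem_cAlg hi hpM).1 hy)
    refine ⟨?_, ?_⟩
    · change up i e * up i e = up i e
      rw [← hi.up_mul, hep.isIdempotentElem.eq]
    · rw [IsSelfAdjoint, ← Iso.up_star, hep.isSelfAdjoint.star_eq]
  · intro R x l hx hl hlim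
    have h1 := hψ.wcont R (up i x) (l.map (up i)) ((mem_cAlg hi hpM).1 hx) ?_ ?_
    · rw [tendsto_map'_iff] at h1
      exact h1
    · rw [eventually_map]
      filter_upwards [hl] with y hy
      exact ⟨(mem_cAlg hi hpM).1 hy.1, (hi.norm_up_le y).trans hy.2⟩
    · intro ξ η
      rw [tendsto_map'_iff]
      have h2 := hlim (adjoint i ξ) (adjoint i η)
      have e : ∀ y : K →L[ℂ] K, inner ℂ (adjoint i ξ) (y (adjoint i η)) =
          inner ℂ ξ (up i y η) := fun y => by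
        rw [ContinuousLinearMap.adjoint_inner_left]; rfl
      rw [e] at h2
      refine h2.congr fun y => ?_
      rw [Function.comp_apply, e]

end Vale.Agent.P078.WG
end

section
/-! So-paving for all maximal abelian subalgebras, from paving for central vector states. -/

set_option linter.unusedSectionVars false

namespace Vale.Agent.P078.WG

open Filter Topology
open Vale.Agent.P078 Vale.Agent.P078.C Vale.Agent.P078.W
open ContinuousLinearMap (adjoint)

universe u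

variable {H : Type u} [NormedAddCommGroup H] [InnerProductSpace ℂ H] [CompleteSpace H]
variable {M A : VonNeumannAlgebra H} {ψ : (H →L[ℂ] H) →ₗ[ℂ] ℂ} {p z : H →L[ℂ] H}

/-- extension of a partition of `p` to a partition of `z` -/
theorem extend_part (hA : SO.IsMASA A M) (hz : z ∈ A) (hzp : IsStarProjection z) (hpA : p ∈ A)
    (hpp : IsStarProjection p) (hzp' : z * p = p) {r : ℕ} (hr : 1 ≤ r)
    {P : Fin r → (H →L[ℂ] H)} (hP1 : ∀ i, P i ∈ A ∧ IsStarProjection (P i))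
    (hP2 : ∀ i j, i ≠ j → P i * P j = 0) (hP3 : ∑ i, P i = p) :
    ∃ P' : Fin r → (H →L[ℂ] H), (∀ i, P' i ∈ A ∧ IsStarProjection (P' i)) ∧
      (∀ i j, i ≠ j → P' i * P' j = 0) ∧ ∑ i, P' i = z ∧
      ∀ q : H →L[ℂ] H, p * q = q → q * p = q → ∀ i, q * P' i = q * P i ∧ P' i * q = P i * q := by
  have hpp2 : p * p = p := hpp.isIdempotentElem.eq
  have hpz : p * z = p := by rw [hA.2.1 p hpA z hz, hzp']
  have hpP : ∀ i, p * P i = P i := by
    intro i
    rw [← hP3, Finset.sum_mul, Finset.sum_eq_single i]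
    · exact (hP1 i).2.isIdempotentElem.eq
    · intro j _ hj
      exact hP2 j i hj
    · intro hi
      exact absurd (Finset.mem_univ i) hi
  have hPp : ∀ i, P i * p = P i := by
    intro i
    rw [hA.2.1 _ (hP1 i).1 p hpA, hpP]
  have hPz : ∀ i, P i * (z - p) = 0 := by
    intro i
    rw [← hPp i, mul_assoc, mul_sub, hpz, hpp2, sub_self, mul_zero]
  have hzP : ∀ i, (z - p) * P i = 0 := by
    intro i
    rw [← hpP i, ← mul_assoc, sub_mul, hzp', hpp2, sub_self, zero_mul]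
  have hzz : z * z = z := hzp.isIdempotentElem.eq
  obtain ⟨i₀, hi₀⟩ : ∃ i₀ : Fin r, (i₀ : ℕ) = 0 := ⟨⟨0, hr⟩, rfl⟩
  have hzmp : (z - p) * (z - p) = z - p := by
    rw [mul_sub, sub_mul, sub_mul, hzz, hpz, hzp', hpp2]
    abel
  refine ⟨fun i => P i + if i = i₀ then z - p else 0, fun i => ⟨?_, ?_⟩, fun i j hij => ?_, ?_,
    fun q hpq hqp' i => ⟨?_, ?_⟩⟩
  · refine add_mem (hP1 i).1 ?_
    split_ifs
    · exact sub_mem hz hpA
    · exact zero_mem A
  · change IsStarProjection (P i + if i = i₀ then z - p else 0)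
    split_ifs with hi
    · refine ⟨?_, (hP1 i).2.isSelfAdjoint.add (hzp.isSelfAdjoint.sub hpp.isSelfAdjoint)⟩
      change (P i + (z - p)) * (P i + (z - p)) = _
      rw [mul_add, add_mul, add_mul, (hP1 i).2.isIdempotentElem.eq, hPz, hzP, hzmp]
      abel
    · rw [add_zero]
      exact (hP1 i).2
  · change (P i + if i = i₀ then z - p else 0) * (P j + if j = i₀ then z - p else 0) = 0
    rw [mul_add, add_mul, add_mul, hP2 i j hij]
    split_ifs with h1 h2 h2
    · exact absurd (h1.trans h2.symm) hij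
    · simp [hzP]
    · simp [hPz]
    · simp
  · change ∑ i, (P i + if i = i₀ then z - p else 0) = z
    rw [Finset.sum_add_distrib, hP3, Finset.sum_ite_eq' Finset.univ i₀,
      if_pos (Finset.mem_univ _)]
    abel
  · change q * (P i + if i = i₀ then z - p else 0) = q * P i
    rw [mul_add]
    split_ifs
    · rw [← hqp', mul_assoc q p (z - p), mul_sub, hpz, hpp2, sub_self, mul_zero, add_zero]
    · rw [mul_zero, add_zero]
  · change (P i + if i = i₀ then z - p else 0) * q = P i * q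
    rw [add_mul]
    split_ifs
    · rw [← hpq, ← mul_assoc (z - p) p q, sub_mul, hzp', hpp2, sub_self, zero_mul, add_zero]
    · rw [zero_mul, add_zero]

/-- paving in the corner of the support of `ψ`, up to an operator which is small for `ψ` -/
theorem corner_pave {C : ℝ} (hC : CPave.{u} C) (hA : SO.IsMASA A M)
    (hψ : Vale.Agent.P078.CentralNormal M A.toStarSubalgebra ψ) (hpA : p ∈ A)
    (hpp : IsStarProjection p) (hp0 : p ≠ 0)
    (hf : ∀ x ∈ M, p * x * p = x → ψ (star x * x) = 0 → x = 0)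
    {ε : ℝ} (hε : 0 < ε) (hε1 : ε < 1) {R : ℕ} (hR : 16 * C / ε ^ 2 ≤ (R : ℝ))
    {x : H →L[ℂ] H} (hx : x ∈ M) (hxs : IsSelfAdjoint x) {κ : ℝ} (hκ : 0 < κ) :
    ∃ P : Fin R → (H →L[ℂ] H), (∀ i, P i ∈ A ∧ IsStarProjection (P i)) ∧
      (∀ i j, i ≠ j → P i * P j = 0) ∧ ∑ i, P i = p ∧
      ∃ a ∈ A, p * a = a ∧ IsSelfAdjoint a ∧ ‖a‖ ≤ ‖x‖ ∧
      ∃ w ∈ M, w * p = w ∧ ‖w‖ ≤ ε / 2 * ‖x‖ ∧
        (ψ (star (∑ i, P i * x * P i - a - w) * (∑ i, P i * x * P i - a - w))).re ≤ κ := by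
  have hpM := hA.1 p hpA
  obtain ⟨K, _, _, _, i, hi⟩ := exists_iso hpp
  have hupf : ∀ y : K →L[ℂ] K, p * up i y * p = up i y := by
    intro y
    rw [← hi.up_one, ← hi.up_mul, ← hi.up_mul, one_mul, mul_one]
  have hzero : up i (0 : K →L[ℂ] K) = 0 := by
    ext v
    exact map_zero i
  have hfK : ∀ y ∈ cAlg M i, corner ψ i (star y * y) = 0 → y = 0 := by
    intro y hy h
    rw [corner_apply, hi.up_mul, Iso.up_star] at h
    have h1 := hf _ ((mem_cAlg hi hpM).1 hy) (hupf y) h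
    rw [← hzero] at h1
    exact hi.up_injective h1
  have h1K : corner ψ i 1 ≠ 0 := by
    intro h
    have h1 : (1 : K →L[ℂ] K) = 0 := hfK 1 (one_mem _) (by rw [star_one, one_mul, h])
    apply hp0
    rw [← hi.up_one, h1, hzero]
  have hdx := hi.norm_dn_le x
  obtain ⟨P, ⟨hP1, hP2, hP3⟩, a, haA, has, han, w, hwM, hwn, hG⟩ :=
    gns_pave hC (isMASA_cAlg hA hi hpA) (corner_central hA hψ hi hpA) h1K hfK hε hε1 hR
      (dn_mem hi hpM hx) (by rw [IsSelfAdjoint, ← Iso.dn_star, hxs.star_eq]) hκ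
  have hstar : ∀ y : K →L[ℂ] K, IsSelfAdjoint y → IsSelfAdjoint (up i y) := by
    intro y hy
    rw [IsSelfAdjoint, ← Iso.up_star, hy.star_eq]
  have hproj : ∀ y : K →L[ℂ] K, IsStarProjection y → IsStarProjection (up i y) := by
    intro y hy
    refine ⟨?_, hstar y hy.isSelfAdjoint⟩
    change up i y * up i y = up i y
    rw [← hi.up_mul, hy.isIdempotentElem.eq]
  have hup1 : ∀ y : K →L[ℂ] K, p * up i y = up i y := by
    intro y
    conv_lhs => rw [← hi.up_one]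
    rw [← hi.up_mul, one_mul]
  have hup2 : ∀ y : K →L[ℂ] K, up i y * p = up i y := by
    intro y
    conv_lhs => rw [← hi.up_one]
    rw [← hi.up_mul, mul_one]
  have hpin : ∀ y : K →L[ℂ] K, up i y * x * up i y = up i (y * dn i x * y) := by
    intro y
    rw [hi.up_mul, hi.up_mul, hi.up_dn]
    calc up i y * x * up i y = (up i y * p) * x * (p * up i y) := by rw [hup1, hup2]
      _ = _ := by noncomm_ring
  refine ⟨fun j => up i (P j), fun j => ⟨(mem_cAlg hi hpA).1 (hP1 j).1,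
    hproj _ (hP1 j).2⟩, fun j k hjk => ?_, ?_, up i a, (mem_cAlg hi hpA).1 haA, hup1 a,
    hstar a has, (hi.norm_up_le a).trans (han.trans hdx), up i w, (mem_cAlg hi hpM).1 hwM,
    hup2 w, (hi.norm_up_le w).trans (hwn.trans ?_), ?_⟩
  · rw [← hi.up_mul, hP2 j k hjk, hzero]
  · rw [← Iso.up_sum, hP3, hi.up_one]
  · exact mul_le_mul_of_nonneg_left hdx (by (clear * - hε; positivity))
  · have h1 : ∑ j, up i (P j) * x * up i (P j) - up i a - up i w =
        up i (pinch P (dn i x) - a - w) := by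
      rw [Iso.up_sub, Iso.up_sub]
      unfold pinch
      rw [Iso.up_sum]
      simp only [hpin]
    rw [h1, ← Iso.up_star, ← hi.up_mul]
    exact hG

/-- so-paving in the expected corner -/
theorem sopavable {C : ℝ} (hC : CPave.{u} C) (hA : SO.IsMASA A M) (hz : z ∈ A)
    (hzp : IsStarProjection z) {E : (H →L[ℂ] H) →ₗ[ℂ] (H →L[ℂ] H)}
    (hE : SO.IsNormalExpectation M A z E) {ε : ℝ} (hε : 0 < ε) (hε1 : ε < 1) {R : ℕ}
    (hR : 16 * C / ε ^ 2 ≤ (R : ℝ)) (hR1 : 1 ≤ R) {x : H →L[ℂ] H} (hx : x ∈ M)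
    (hxs : IsSelfAdjoint x) : SO.SOPavable M A z x ε R := by
  classical
  intro F hF δ hδ
  have hA' := SO.IsMASA.toStar hA
  have hzM := hA.1 z hz
  have hzz : z * z = z := hzp.isIdempotentElem.eq
  by_cases hx0 : x = 0
  · -- trivial case
    obtain ⟨P', h1, h2, h3, -⟩ := extend_part hA hz hzp (p := 0) (zero_mem A)
      (IsStarProjection.zero _) (mul_zero z) hR1 (P := fun _ => 0)
      (fun _ => ⟨zero_mem A, IsStarProjection.zero _⟩) (fun _ _ _ => mul_zero _) (by simp only [Finset.sum_const_zero])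
    refine ⟨P', 0, z, h1, h2, h3, zero_mem A, mul_zero _, IsSelfAdjoint.zero _, by simp only [norm_zero, norm_nonneg], hzM,
      hzz, hzp, fun ξ hξ => ?_, ?_⟩
    · rw [hF ξ hξ, sub_self, norm_zero]
      exact hδ
    · rw [hx0]; simp only [mul_zero, zero_mul, Finset.sum_const_zero, sub_self, norm_zero, Std.le_refl]
  have hxn : 0 < ‖x‖ := norm_pos_iff.2 hx0
  obtain ⟨c, hc⟩ : ∃ c : ℝ, c = ε / 2 * ‖x‖ := ⟨_, rfl⟩
  have hc0 : 0 < c := by rw [hc]; (clear * - hε hx0; positivity)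
  obtain ⟨ψ, hψ, κ, hκ, hctrl⟩ := Vale.Agent.P078.L.exists_control hA' hz hzp
    (SO.isNormalExpectation_iff.1 hE) F (δ := δ / 2) (by positivity)
  have hpos : PosOn M ψ := hψ.nonneg
  obtain ⟨p, hpA, hpp, hzp', hψp, hf⟩ := exists_support hA hz hzp hE hψ
  have hpM := hA.1 p hpA
  have hpp2 : p * p = p := hpp.isIdempotentElem.eq
  have hpz : p * z = p := by rw [hA.2.1 p hpA z hz, hzp']
  have hzmp : IsStarProjection (z - p) := by
    refine ⟨?_, hzp.isSelfAdjoint.sub hpp.isSelfAdjoint⟩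
    change (z - p) * (z - p) = z - p
    rw [mul_sub, sub_mul, sub_mul, hzz, hpz, hzp', hpp2]
    abel
  have hpF : ∀ ξ ∈ F, ‖ξ - p ξ‖ < δ / 2 := by
    intro ξ hξ
    have h1 := hctrl (z - p) (sub_mem hzM hpM) hzmp (by rw [mul_sub, hzz, hzp'])
      (by rw [hψp, Complex.zero_re]; exact hκ.le) ξ hξ
    rw [sub_apply, hF ξ hξ] at h1
    exact h1
  by_cases hp0 : p = 0
  · obtain ⟨P', h1, h2, h3, -⟩ := extend_part hA hz hzp (p := 0) (zero_mem A)
      (IsStarProjection.zero _) (mul_zero z) hR1 (P := fun _ => 0)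
      (fun _ => ⟨zero_mem A, IsStarProjection.zero _⟩) (fun _ _ _ => mul_zero _) (by simp only [Finset.sum_const_zero])
    refine ⟨P', 0, 0, h1, h2, h3, zero_mem A, mul_zero _, IsSelfAdjoint.zero _, by simp only [norm_zero, norm_nonneg],
      zero_mem M, mul_zero z, IsStarProjection.zero _, fun ξ hξ => ?_, ?_⟩
    · have h4 := hpF ξ hξ
      rw [hp0] at h4
      linarith only [h4, hδ]
    · simp only [zero_mul, norm_zero]
      positivity
  obtain ⟨P, hP1, hP2, hP3, a, haA, hpa, has, han, w, hwM, hwp, hwn, hTψ⟩ :=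
    corner_pave hC hA hψ hpA hpp hp0 hf hε hε1 hR hx hxs (κ := κ * c ^ 2) (by (clear * - hκ hc0; positivity))
  obtain ⟨z₀, hz₀⟩ : ∃ z₀, z₀ = ∑ i, P i * x * P i - a - w := ⟨_, rfl⟩
  rw [← hz₀] at hTψ
  have hPM : ∀ i, P i ∈ M := fun i => hA.1 _ (hP1 i).1
  have haM := hA.1 a haA
  have hz₀M : z₀ ∈ M := by
    rw [hz₀]
    exact sub_mem (sub_mem (sum_mem fun i _ => mul_mem (mul_mem (hPM i) hx) (hPM i)) haM) hwM
  have hpP : ∀ i, p * P i = P i := by
    intro i
    rw [← hP3, Finset.sum_mul, Finset.sum_eq_single i]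
    · exact (hP1 i).2.isIdempotentElem.eq
    · intro j _ hj
      exact hP2 j i hj
    · intro hi
      exact absurd (Finset.mem_univ i) hi
  have hPp : ∀ i, P i * p = P i := by
    intro i
    rw [hA.2.1 _ (hP1 i).1 p hpA, hpP]
  have hsplit : ∑ i, P i * x * P i - a = w + z₀ := by
    rw [hz₀]
    abel
  have hz₀p : z₀ * p = z₀ := by
    have hap : a * p = a := by rw [hA.2.1 a haA p hpA, hpa]
    rw [hz₀, sub_mul, sub_mul, Finset.sum_mul, hap, hwp]
    simp only [mul_assoc, hPp]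
  -- the spectral projection
  obtain ⟨g, hgM, hgp, hgle, hgc, hg1, hg2⟩ := Vale.Agent.P078.L.exists_spec
    (mul_mem (star_mem hz₀M) hz₀M) (star_mul_self_nonneg z₀) (c ^ 2)
  have hin : ∀ ζ : H, (inner ℂ ζ ((star z₀ * z₀) ζ)).re = ‖z₀ ζ‖ ^ 2 := by
    intro ζ
    have h1 : (star z₀ * z₀) ζ = star z₀ (z₀ ζ) := rfl
    rw [h1, ← inner_conj_symm, star_apply_inner, inner_conj_symm, inner_self_re]
  have hgψ : (ψ g).re ≤ κ := by
    have h1 := hpos.mono (M.toStarSubalgebra.smul_mem hgM _)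
      (mul_mem (star_mem hz₀M) hz₀M) hgle
    rw [map_smul, smul_eq_mul, Complex.re_ofReal_mul] at h1
    have h2 : c ^ 2 * (ψ g).re ≤ c ^ 2 * κ := by linarith only [h1, hTψ]
    exact le_of_mul_le_mul_left h2 (by positivity)
  have hz₀p' : z₀ * (1 - p) = 0 := by rw [mul_sub, mul_one, hz₀p, sub_self]
  have hgp0 : (1 - p) * g = 0 := by
    refine spec_mul_zero hgp (t := c ^ 2) (by (clear * - hc0; positivity)) hgc hg1 ?_ ?_
    · rw [mul_assoc, hz₀p', mul_zero]
    · have := congrArg star hz₀p'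
      rw [star_mul, hpp.one_sub.isSelfAdjoint.star_eq, star_zero] at this
      rw [← mul_assoc, this, zero_mul]
  have hpg : p * g = g := by
    rw [sub_mul, one_mul, sub_eq_zero] at hgp0
    exact hgp0.symm
  have hgp' : g * p = g := by
    have := congrArg star hpg
    rwa [star_mul, hpp.isSelfAdjoint.star_eq, hgp.isSelfAdjoint.star_eq] at this
  have hzg : z * g = g := by rw [← hpg, ← mul_assoc, hzp']
  have hgg : g * g = g := hgp.isIdempotentElem.eq
  have hgF := hctrl g hgM hgp hzg hgψ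
  have hqp : IsStarProjection (p - g) := by
    refine ⟨?_, hpp.isSelfAdjoint.sub hgp.isSelfAdjoint⟩
    change (p - g) * (p - g) = p - g
    rw [mul_sub, sub_mul, sub_mul, hpp2, hgp', hpg, hgg]
    abel
  have hpq : p * (p - g) = p - g := by rw [mul_sub, hpp2, hpg]
  have hqp' : (p - g) * p = p - g := by rw [sub_mul, hpp2, hgp']
  obtain ⟨P', h1, h2, h3, h4⟩ := extend_part hA hz hzp hpA hpp hzp' hR1 hP1 hP2 hP3
  refine ⟨P', a, p - g, h1, h2, h3, haA, ?_, has, han, sub_mem hpM hgM, ?_, hqp,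
    fun ξ hξ => ?_, ?_⟩
  · rw [← hpa, ← mul_assoc, hzp']
  · rw [mul_sub, hzp', hzg]
  · have e1 : ξ - (p - g) ξ = (ξ - p ξ) + g ξ := by
      rw [sub_apply]; abel
    rw [e1]
    refine (norm_add_le _ _).trans_lt ?_
    have := hpF ξ hξ
    have := hgF ξ hξ
    (clear C hC E hE hε1 hR hR1 hxs hδ hA' hxn hf hp0 has han hwn hsplit hg2 hin hgp' hgg hqp hpq hqp' P' h1 h2 h3 h4 e1; linarith)
  · obtain ⟨q, hq⟩ : ∃ q, q = p - g := ⟨_, rfl⟩
    rw [← hq] at hpq hqp' hqp ⊢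
    have e1 : q * (∑ i, P' i * x * P' i - a) * q = q * (∑ i, P i * x * P i - a) * q := by
      rw [mul_sub, mul_sub, sub_mul, sub_mul, Finset.mul_sum, Finset.mul_sum, Finset.sum_mul,
        Finset.sum_mul]
      congr 1
      refine Finset.sum_congr rfl fun i _ => ?_
      obtain ⟨h5, h6⟩ := h4 q hpq hqp' i
      calc q * (P' i * x * P' i) * q = (q * P' i) * x * (P' i * q) := by noncomm_ring
        _ = (q * P i) * x * (P i * q) := by rw [h5, h6]
        _ = _ := by noncomm_ring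
    have hqn : ‖q‖ ≤ 1 := hqp.norm_le
    have hz₀q : ‖z₀ * q‖ ≤ c := by
      refine ContinuousLinearMap.opNorm_le_bound _ hc0.le fun ζ => ?_
      have h5 : g (q ζ) = 0 := by
        have : g * q = 0 := by rw [hq, mul_sub, hgp', hgg, sub_self]
        exact DFunLike.congr_fun this ζ
      have h6 := hg2 _ h5
      rw [hin] at h6
      have h7 : ‖q ζ‖ ≤ ‖ζ‖ := norm_proj_le hqp ζ
      have h8 : ‖z₀ (q ζ)‖ ^ 2 ≤ (c * ‖ζ‖) ^ 2 := by
        calc ‖z₀ (q ζ)‖ ^ 2 ≤ c ^ 2 * ‖q ζ‖ ^ 2 := h6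
          _ ≤ c ^ 2 * ‖ζ‖ ^ 2 := by (clear * - h7 hc0; gcongr)
          _ = (c * ‖ζ‖) ^ 2 := by ring
      exact (sq_le_sq₀ (norm_nonneg _) (by (clear * - hc0; positivity))).1 h8
    have e2 : q * (∑ i, P i * x * P i - a) * q = q * w * q + q * (z₀ * q) := by
      rw [hsplit]
      noncomm_ring
    rw [e1, e2]
    refine (norm_add_le _ _).trans ?_
    have h5 : ‖q * (z₀ * q)‖ ≤ c := by
      refine (norm_mul_le _ _).trans ?_
      calc ‖q‖ * ‖z₀ * q‖ ≤ 1 * c := by (clear * - hqn hz₀q; gcongr)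
        _ = c := one_mul _
    have h6 : ‖q * w * q‖ ≤ ε / 2 * ‖x‖ := by
      refine (norm_mul_le _ _).trans ?_
      calc ‖q * w‖ * ‖q‖ ≤ (‖q‖ * ‖w‖) * ‖q‖ := by gcongr; exact norm_mul_le _ _
        _ ≤ (1 * (ε / 2 * ‖x‖)) * 1 := by
          (clear * - hqn hwn hε hx0; gcongr)
        _ = ε / 2 * ‖x‖ := by ring
    rw [hc] at h5
    linarith only [h5, h6]

open Vale.Agent.P078.SO (IsLargestExpected nPave)

/-- **so-paving for all maximal abelian subalgebras of all von Neumann algebras**, from paving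
for central vector states -/
theorem nPave_le_all {C : ℝ} (hC : CPave.{u} C) (hC0 : 0 < C) (hA : SO.IsMASA A M) {ε : ℝ}
    (hε : 0 < ε) (hε1 : ε < 1) :
    SO.pavingNumber M A 1 ε ≤ (⌈(16 * C + 2) / ε ^ 2⌉₊ : ℕ∞) := by
  obtain ⟨z, ⟨⟨hzA, hzp, E, hE⟩, hmax⟩, hr⟩ := (SO.growth hA).1
  have h1 := (hr ε hε).1
  have h2 : SO.pavingNumber M A z ε ≤ (⌈16 * C / ε ^ 2⌉₊ : ℕ∞) := by
    have h1 : 1 ≤ ⌈16 * C / ε ^ 2⌉₊ := by
      rw [Nat.one_le_iff_ne_zero, ← Nat.pos_iff_ne_zero, Nat.ceil_pos]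
      (clear * - hC0 hε; positivity)
    exact iInf₂_le (f := fun (r : ℕ) (_ : r ∈ {r : ℕ | 1 ≤ r ∧ ∀ x ∈ M, IsSelfAdjoint x →
      z * x * z = x → SO.SOPavable M A z x ε r}) => (r : ℕ∞)) _
      ⟨h1, fun x hx hxs _ => sopavable hC hA hzA hzp hE hε hε1 (Nat.le_ceil _) h1 hx hxs⟩
  refine h1.trans ((add_le_add_left h2 _).trans ?_)
  rw [← Nat.cast_add, Nat.cast_le]
  have h3 : (⌊1 / ε⌋₊ : ℝ) ≤ 1 / ε := Nat.floor_le (by positivity)
  have h4 : 1 / ε + 1 ≤ 2 / ε ^ 2 := by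
    have h5 : ε ^ 2 ≤ 1 := pow_le_one₀ hε.le hε1.le
    rw [le_div_iff₀ (by positivity), add_mul, one_div, one_mul]
    have h7 : ε⁻¹ * ε ^ 2 = ε := by field_simp
    rw [h7]
    linarith only [hε1, h5]
  rw [← Nat.ceil_add_natCast (by (clear * - hC0 hε; positivity))]
  refine Nat.ceil_le_ceil ?_
  push_cast
  have e1 : (16 * C + 2) / ε ^ 2 = 16 * C / ε ^ 2 + 2 / ε ^ 2 := by ring
  rw [e1]
  linarith only [h3, h4]

end Vale.Agent.P078.WG
end
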