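import Vale.Agent.P078.Bdl.W0
import Vale.Agent.P078.Bdl.B17
import Vale.Agent.P078.Bdl.Fast

set_option linter.all false
attribute [local instance] Vale.Agent.P078.Fast.a01 Vale.Agent.P078.Fast.a02
  Vale.Agent.P078.Fast.a03 Vale.Agent.P078.Fast.a04 Vale.Agent.P078.Fast.a05
  Vale.Agent.P078.Fast.a06 Vale.Agent.P078.Fast.a07 Vale.Agent.P078.Fast.a08
  Vale.Agent.P078.Fast.a09 Vale.Agent.P078.Fast.a10 Vale.Agent.P078.Fast.a11
  Vale.Agent.P078.Fast.a12 Vale.Agent.P078.Fast.a13 Vale.Agent.P078.Fast.a14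
  Vale.Agent.P078.Fast.a15 Vale.Agent.P078.Fast.a16 Vale.Agent.P078.Fast.a17
  Vale.Agent.P078.Fast.a18 Vale.Agent.P078.Fast.a19 Vale.Agent.P078.Fast.a20
  Vale.Agent.P078.Fast.a21 Vale.Agent.P078.Fast.a22 Vale.Agent.P078.Fast.a23
  Vale.Agent.P078.Fast.a24 Vale.Agent.P078.Fast.a25 Vale.Agent.P078.Fast.a26
  Vale.Agent.P078.Fast.a27 Vale.Agent.P078.Fast.a28 Vale.Agent.P078.Fast.a29
  Vale.Agent.P078.Fast.a30 Vale.Agent.P078.Fast.a31 Vale.Agent.P078.Fast.a32
  Vale.Agent.P078.Fast.a33 Vale.Agent.P078.Fast.a34 Vale.Agent.P078.Fast.a35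
  Vale.Agent.P078.Fast.a36 Vale.Agent.P078.Fast.a37 Vale.Agent.P078.Fast.a38
  Vale.Agent.P078.Fast.a39 Vale.Agent.P078.Fast.a40 Vale.Agent.P078.Fast.a41
  Vale.Agent.P078.Fast.a42 Vale.Agent.P078.Fast.a43 Vale.Agent.P078.Fast.a44
  Vale.Agent.P078.Fast.a45 Vale.Agent.P078.Fast.a46 Vale.Agent.P078.Fast.a47
  Vale.Agent.P078.Fast.a48 Vale.Agent.P078.Fast.a49 Vale.Agent.P078.Fast.a50
  Vale.Agent.P078.Fast.a51 Vale.Agent.P078.Fast.a52 Vale.Agent.P078.Fast.a53
  Vale.Agent.P078.Fast.a54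
attribute [local instance] Vale.Agent.P078.Fast.b01 Vale.Agent.P078.Fast.b02
  Vale.Agent.P078.Fast.b03 Vale.Agent.P078.Fast.b04 Vale.Agent.P078.Fast.b05
  Vale.Agent.P078.Fast.b06 Vale.Agent.P078.Fast.b07 Vale.Agent.P078.Fast.b08
  Vale.Agent.P078.Fast.b09 Vale.Agent.P078.Fast.b10 Vale.Agent.P078.Fast.b11

section
/-! G3: bounded elements which are small for the state stay small after right multiplication by a
fixed element. -/

namespace Vale.Agent.P078.W

open Filter Topology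
open Vale.Agent.P078 Vale.Agent.P078.C

variable {H : Type*} [NormedAddCommGroup H] [InnerProductSpace ℂ H] [CompleteSpace H]
variable {M A : VonNeumannAlgebra H} {ξ : ℕ → H}

/-- right multiplication by a fixed element is continuous at `0` on the unit ball -/
theorem uni_right (hA : SO.IsMASA A M) (hξ : IsCState M A ξ) {y : H →L[ℂ] H} (hy : y ∈ M)
    {η : ℝ} (hη : 0 < η) :
    ∃ ε : ℝ, 0 < ε ∧ ∀ x ∈ M, ‖x‖ ≤ 1 → n2 ξ x ≤ ε → n2 ξ (x * y) ≤ η := by
  by_contra hcon
  push Not at hcon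
  have ht := hξ.tr hA
  choose x hxM hx1 hxs hxl using fun k : ℕ => hcon (1 / ((k : ℝ) + 1)) (by (clear * -; positivity))
  have hTM : ∀ k, star (x k) * x k ∈ M := fun k => mul_mem (star_mem (hxM k)) (hxM k)
  have hT1 : ∀ k, ‖star (x k) * x k‖ ≤ 1 := by
    intro k
    rw [CStarRing.norm_star_mul_self]
    exact mul_le_one₀ (hx1 k) (norm_nonneg _) (hx1 k)
  obtain ⟨v, -, hv⟩ := exists_wot_limit (hyperfilter ℕ) (fun k => star (x k) * x k) 1
    (Eventually.of_forall hT1) zero_le_one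
  have hvM : v ∈ M := mem_of_tendsto' (Eventually.of_forall hTM) hv
  have hv0 : 0 ≤ v := nonneg_of_tendsto (Eventually.of_forall fun k => star_mul_self_nonneg _) hv
  have hle : (hyperfilter ℕ : Filter ℕ) ≤ atTop := by
    rw [← Nat.cofinite_eq_atTop]
    exact hyperfilter_le_cofinite
  have hw := hξ.wcont hA
  -- the limit along the ultrafilter
  have key : ∀ f : (H →L[ℂ] H) → ℂ, WCont M f →
      Tendsto (fun k => f (star (x k) * x k)) (hyperfilter ℕ : Filter ℕ) (𝓝 (f v)) := by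
    intro f hf
    have h1 := hf 1 v (Filter.map (fun k : ℕ => star (x k) * x k) (hyperfilter ℕ : Filter ℕ)) hvM
      (by
        rw [eventually_map]
        exact Eventually.of_forall fun k => ⟨hTM k, hT1 k⟩)
      (by
        intro a b
        rw [tendsto_map'_iff]
        exact hv a b)
    rw [tendsto_map'_iff] at h1
    exact h1
  have hv1 : (vtr ξ v).re = 0 := by
    have h1 := (Complex.continuous_re.tendsto _).comp (key _ hw)
    refine tendsto_nhds_unique h1 ?_
    have h2 : Tendsto (fun k : ℕ => 1 / ((k : ℝ) + 1)) (hyperfilter ℕ : Filter ℕ) (𝓝 0) :=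
      tendsto_one_div_add_atTop_nhds_zero_nat.mono_left hle
    refine squeeze_zero (fun k => ?_) (fun k => ?_) h2
    · exact (vtr_nonneg ht (star_mul_self_nonneg (x k))).1
    · rw [Function.comp_apply, ← n2_eq ht]
      exact hxs k
  have hv2 : v = 0 := by
    set s := CFC.sqrt v with hs
    have hss : s * s = v := CFC.sqrt_mul_sqrt_self _ hv0
    have hsM : s ∈ M := F.sqrt_mem M hvM
    have hst : star s = s := (IsSelfAdjoint.of_nonneg (CFC.sqrt_nonneg _)).star_eq
    have h1 : n2 ξ s = 0 := by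
      rw [n2_eq ht, hst, hss]
      exact hv1
    have h2 := hξ.eq_zero hA hsM h1
    rw [← hss, h2, mul_zero]
  have h3 := (Complex.continuous_re.tendsto _).comp
    (key _ ((hw.mul_left (star_mem hy)).mul_right hy))
  rw [hv2, zero_mul, mul_zero, vtr_zero, Complex.zero_re] at h3
  have h4 : η ≤ 0 := by
    refine ge_of_tendsto h3 (Eventually.of_forall fun k => ?_)
    have e : star y * (star (x k) * x k * y) = star (x k * y) * (x k * y) := by
      rw [star_mul, mul_assoc, mul_assoc]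
    rw [Function.comp_apply, e, ← n2_eq ht]
    exact (hxl k).le
  exact absurd hη (not_lt.2 h4)

private theorem norm_e_le {A : VonNeumannAlgebra H} (Q : Part A.toStarSubalgebra) (a : Q.ι) :
    ‖Q.e a‖ ≤ 1 :=
  ContinuousLinearMap.opNorm_le_bound _ zero_le_one fun u => by
    rw [one_mul]
    exact Vale.Agent.P078.norm_proj_le (Q.proj a) u

/-- words in the pinchings of `y` -/
theorem word_small3 (hA : SO.IsMASA A M) (hξ : IsCState M A ξ) {y : H →L[ℂ] H} (hy : y ∈ M)
    (hy1 : ‖y‖ ≤ 1) (n : ℕ) {η : ℝ} (hη : 0 < η) :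
    ∃ ε : ℝ, 0 < ε ∧ ∀ (Q : Part A.toStarSubalgebra) (a : Q.ι), ∀ x ∈ M, ‖x‖ ≤ 1 →
      n2 ξ x ≤ ε → n2 ξ (x * (Q.e a * Q.E y ^ n)) ≤ η := by
  have hstep : ∀ (Q : Part A.toStarSubalgebra) (a : Q.ι), ∀ x ∈ M, ‖x‖ ≤ 1 →
      x * Q.e a ∈ M ∧ ‖x * Q.e a‖ ≤ 1 ∧ n2 ξ (x * Q.e a) ≤ n2 ξ x := by
    intro Q a x hx hx1
    refine ⟨mul_mem hx (hA.1 _ (Q.mem a)), ?_, ?_⟩
    · exact (norm_mul_le _ _).trans (mul_le_one₀ hx1 (norm_nonneg _) (norm_e_le Q a))
    · refine (hξ.n2_mul_le hA hx (Q.mem a)).trans ?_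
      refine mul_le_of_le_one_right (n2_nonneg _ _) ?_
      exact pow_le_one₀ (norm_nonneg _) (norm_e_le Q a)
  induction n with
  | zero =>
    refine ⟨η, hη, fun Q a x hx hx1 hn => ?_⟩
    rw [pow_zero, mul_one]
    exact (hstep Q a x hx hx1).2.2.trans hn
  | succ n ih =>
    obtain ⟨ε', hε', h'⟩ := ih
    obtain ⟨ε, hε, h⟩ := uni_right hA hξ hy hε'
    refine ⟨ε, hε, fun Q a x hx hx1 hn => ?_⟩
    obtain ⟨h1, h2, h3⟩ := hstep Q a x hx hx1
    have e : x * (Q.e a * Q.E y ^ (n + 1)) = x * Q.e a * y * (Q.e a * Q.E y ^ n) := by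
      rw [pow_succ', ← mul_assoc (Q.e a), Q.e_mul_E]
      simp only [mul_assoc]
    rw [e]
    refine h' Q a _ (mul_mem h1 hy) ?_ (h _ h1 h2 (h3.trans hn))
    exact (norm_mul_le _ _).trans (mul_le_one₀ h2 (norm_nonneg _) hy1)

end Vale.Agent.P078.W
end

section
/-! G3: block-diagonal parts converge to the expectation in the norm of the state; truncation. -/

namespace Vale.Agent.P078.W

open Filter Topology
open Vale.Agent.P078 Vale.Agent.P078.C

variable {H : Type*} [NormedAddCommGroup H] [InnerProductSpace ℂ H] [CompleteSpace H]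
variable {M A : VonNeumannAlgebra H} {ξ : ℕ → H} {E : (H →L[ℂ] H) →ₗ[ℂ] (H →L[ℂ] H)}

/-- limits of monotone families indexed by partitions -/
theorem net_lim3 (hξ : IsTrace A ξ) (hA : SO.IsMASA A M) (V : Part A.toStarSubalgebra → (H →L[ℂ] H))
    {C : ℝ} (hC0 : 0 ≤ C) (hV : ∀ Q, V Q ∈ M) (hC : ∀ Q, ‖V Q‖ ≤ C)
    (hmono : ∀ Q Q' : Part A.toStarSubalgebra, Q.Finer Q' → n2 ξ (V Q - V Q') ≤ n2 ξ (V Q) - n2 ξ (V Q')) :
    ∃ v ∈ M, ‖v‖ ≤ C ∧
      (∀ ε : ℝ, 0 < ε → ∃ Q : Part A.toStarSubalgebra, ∀ Q', Q.Finer Q' → n2 ξ (V Q' - v) ≤ ε) ∧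
      ∃ U : Ultrafilter (Part A.toStarSubalgebra),
        (U : Filter _) ≤ Part.filter A.toStarSubalgebra ∧
        ∀ ζ η : H, Tendsto (fun Q => inner ℂ ζ (V Q η)) U (𝓝 (inner ℂ ζ (v η))) := by
  have hAs := SO.IsMASA.toStar hA
  have := Part.filter_neBot hAs.2.1
  obtain ⟨U, hU⟩ : ∃ U : Ultrafilter (Part A.toStarSubalgebra),
      (U : Filter _) ≤ Part.filter A.toStarSubalgebra := ⟨Ultrafilter.of _, Ultrafilter.of_le _⟩
  obtain ⟨v, hv1, hv2⟩ := exists_wot_limit U V C (Eventually.of_forall hC) hC0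
  refine ⟨v, mem_of_tendsto' (Eventually.of_forall hV) hv2, hv1, ?_, U, hU, hv2⟩
  intro ε hε
  have hne : Nonempty (Part A.toStarSubalgebra) := ⟨Part.trivialPart _⟩
  have hbdd : BddBelow (Set.range fun Q => n2 ξ (V Q)) :=
    ⟨0, by rintro _ ⟨Q, rfl⟩; exact n2_nonneg _ _⟩
  obtain ⟨Q0, hQ0⟩ := exists_lt_of_ciInf_lt
    (show ⨅ Q, n2 ξ (V Q) < (⨅ Q, n2 ξ (V Q)) + ε by (clear hξ C hC0 hV hC hmono U hU v hv1 hv2 hbdd; linarith))
  refine ⟨Q0, fun Q' hQ' => ?_⟩
  have h1 : n2 ξ (V Q') ≤ n2 ξ (V Q0) := by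
    (clear hξ C hC0 hV hC U hU v hv1 hv2 ε hε hbdd hQ0; linarith [hmono Q0 Q' hQ', n2_nonneg ξ (V Q0 - V Q')])
  refine F.n2_le_of_tendsto hξ (l := (U : Filter _)) (T := fun Q'' => V Q' - V Q'') ?_ ?_
  · filter_upwards [hU (Part.eventually_finer Q')] with Q'' hQ''
    have h2 := hmono Q' Q'' hQ''
    have h3 := ciInf_le hbdd Q''
    linarith
  · intro ζ η
    simp only [sub_apply, inner_sub_right]
    exact tendsto_const_nhds.sub (hv2 ζ η)

/-- the block-diagonal part is an orthogonal projection for the norm of the state -/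
theorem n2_sub_part_E3 (hA : SO.IsMASA A M) (hξ : IsCState M A ξ) (Q : Part A.toStarSubalgebra)
    {x : H →L[ℂ] H} (hx : x ∈ M) : n2 ξ (x - Q.E x) = n2 ξ x - n2 ξ (Q.E x) := by
  have ht := hξ.tr hA
  have hAs := SO.IsMASA.toStar hA
  have hEx : Q.E x ∈ M := Q.E_mem hAs.1 hx
  have hstar : star (Q.E x) = Q.E (star x) := by
    rw [Part.E_apply, Part.E_apply, star_sum]
    refine Finset.sum_congr rfl fun i _ => ?_
    rw [star_mul, star_mul, (Q.proj i).isSelfAdjoint.star_eq, mul_assoc]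
  have h1 : vtr ξ (star (Q.E x) * Q.E x) = vtr ξ (star (Q.E x) * x) := by
    rw [← hξ.vtr_part_E hA Q (mul_mem (star_mem hEx) hx)]
    congr 1
    rw [Part.E_apply Q (star (Q.E x) * x), Part.E_apply Q x, Finset.mul_sum]
    refine Finset.sum_congr rfl fun i _ => ?_
    rw [← Part.E_apply Q x, hstar, ← mul_assoc, ← mul_assoc, ← mul_assoc]
    rw [Q.e_mul_E, Q.E_mul_e]
  have h2 : vtr ξ (star x * Q.E x) = star (vtr ξ (star (Q.E x) * x)) := by
    rw [← vtr_star ht, star_mul, star_star]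
  have e : star (x - Q.E x) * (x - Q.E x) =
      star x * x - star x * Q.E x - (star (Q.E x) * x - star (Q.E x) * Q.E x) := by
    rw [star_sub, sub_mul, mul_sub, mul_sub]
  rw [n2_eq ht, n2_eq ht, n2_eq ht, e, vtr_sub ht, vtr_sub ht, vtr_sub ht, h2, h1, sub_self,
    sub_zero, Complex.sub_re, Complex.star_def, Complex.conj_re]

/-- block-diagonal parts converge to the expectation -/
theorem pinch_lim3 (hA : SO.IsMASA A M) (hξ : IsCState M A ξ) (hE : IsTrExp M A ξ E)
    {x : H →L[ℂ] H} (hx : x ∈ M) {ε : ℝ} (hε : 0 < ε) :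
    ∃ Q : Part A.toStarSubalgebra, ∀ Q', Q.Finer Q' → n2 ξ (Q'.E x - E x) ≤ ε := by
  have ht := hξ.tr hA
  have hAs := SO.IsMASA.toStar hA
  obtain ⟨v, hvM, hvn, hv, U, hU, hlim⟩ := net_lim3 ht hA (fun Q => Q.E x) (norm_nonneg x)
    (fun Q => Q.E_mem hAs.1 hx) (fun Q => Q.norm_E_le x) (fun Q Q' h => by
      rw [← F.part_E_E hAs.2.1 h x, n2_sub_part_E3 hA hξ Q' (Q.E_mem hAs.1 hx)])
  have hcomm : ∀ a ∈ A.toStarSubalgebra, v * a = a * v := by
    refine hAs.comm_of_proj (y := v) ?_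
    intro e he hp
    refine (commute_of_tendsto (l := (U : Filter (Part A.toStarSubalgebra)))
      (T := fun Q : Part A.toStarSubalgebra => Q.E x) ?_ hlim).symm
    have h1 := hU (Part.eventually_finer (Part.two e he hp))
    filter_upwards [h1] with Q hQ
    exact Part.comm_E_of_finer hAs.2.1 hQ true x
  have hvA : v ∈ A := hA.2.2 v hvM fun a ha => (hcomm a ha).symm
  have hvE : v = E x := by
    refine hE.uniq x hx v hvA fun a ha => ?_
    have hb : WCont M fun y => vtr ξ (y * a) := (hξ.wcont hA).mul_right (hA.1 a ha)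
    have h1 := hb ‖x‖ v (Filter.map (fun Q : Part A.toStarSubalgebra => Q.E x) (U : Filter _)) hvM
      (by
        rw [eventually_map]
        exact Eventually.of_forall fun Q => ⟨Q.E_mem hAs.1 hx, Q.norm_E_le x⟩)
      (by
        intro a b
        rw [tendsto_map'_iff]
        exact hlim a b)
    rw [tendsto_map'_iff] at h1
    refine (tendsto_nhds_unique h1 (tendsto_const_nhds.congr fun Q => ?_)).symm
    have h2 : Part.E Q (x * a) = Q.E x * a := by
      rw [Part.E_apply, Part.E_apply, Finset.sum_mul]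
      refine Finset.sum_congr rfl fun i _ => ?_
      rw [← mul_assoc, mul_assoc (Q.e i * x), hAs.2.1 _ ha _ (Q.mem i), ← mul_assoc]
    rw [Function.comp_apply, ← h2, hξ.vtr_part_E hA Q (mul_mem hx (hA.1 a ha))]
  rw [← hvE]
  exact hv ε hε

/-- truncation in the `4`-norm, without traciality (take `ξ` a trace on `A`) -/
theorem exists_trunc3 (hξ : IsTrace A ξ) {x : H →L[ℂ] H} (hx : x ∈ M) {κ : ℝ} (hκ : 0 < κ) :
    ∃ x' x'' : H →L[ℂ] H, x' ∈ M ∧ x'' ∈ M ∧ x = x' + x'' ∧ ‖x'‖ ≤ κ ∧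
      star x'' * x'' ≤ star x * x ∧ n2 ξ x'' ≤ F.n4 ξ x / κ ^ 2 := by
  set a : H →L[ℂ] H := star x * x with ha
  have ha0 : 0 ≤ a := star_mul_self_nonneg x
  have hasa : IsSelfAdjoint a := IsSelfAdjoint.of_nonneg ha0
  have haM : a ∈ M := mul_mem (star_mem hx) hx
  have hspec : ∀ t ∈ spectrum ℝ a, 0 ≤ t := fun t ht => spectrum_nonneg_of_nonneg ha0 ht
  set g : ℝ → ℝ := fun t => κ ^ 2 / (κ ^ 2 + t) with hg
  have hden : ∀ t ∈ spectrum ℝ a, κ ^ 2 + t ≠ 0 := by
    intro t ht
    have := hspec t ht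
    (clear * - hκ this; positivity)
  have hgc : ContinuousOn g (spectrum ℝ a) :=
    ContinuousOn.div continuousOn_const (by fun_prop) hden
  set G : H →L[ℂ] H := cfc g a with hG
  have hGM : G ∈ M := F.cfc_mem M haM g
  have hGsa : IsSelfAdjoint G := cfc_predicate g a
  -- norm of the truncated part
  have e1 : star (x * G) * (x * G) = cfc (fun t => g t * (t * g t)) a := by
    rw [star_mul, hGsa.star_eq]
    have h1 : G * star x * (x * G) = G * (a * G) := by rw [ha]; simp only [mul_assoc]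
    rw [h1, cfc_mul g (fun t => t * g t) a hgc (continuousOn_id.mul hgc),
      cfc_mul (fun t => t) g a continuousOn_id hgc, cfc_id' ℝ a]
  have e2 : x - x * G = x * (1 - G) := by rw [mul_sub, mul_one]
  have h1G : (1 : H →L[ℂ] H) - G = cfc (fun t => 1 - g t) a := by
    rw [cfc_sub (fun _ => (1 : ℝ)) g a continuousOn_const hgc, cfc_const_one ℝ a]
  have h1gc : ContinuousOn (fun t => 1 - g t) (spectrum ℝ a) := continuousOn_const.sub hgc
  have e3 : star (x * (1 - G)) * (x * (1 - G)) =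
      cfc (fun t => (1 - g t) * (t * (1 - g t))) a := by
    have hs : IsSelfAdjoint (1 - G) := (IsSelfAdjoint.one _).sub hGsa
    rw [star_mul, hs.star_eq]
    have h1 : (1 - G) * star x * (x * (1 - G)) = (1 - G) * (a * (1 - G)) := by
      rw [ha]; simp only [mul_assoc]
    rw [h1, h1G, cfc_mul (fun t => 1 - g t) (fun t => t * (1 - g t)) a h1gc
      (continuousOn_id.mul h1gc), cfc_mul (fun t => t) (fun t => 1 - g t) a continuousOn_id h1gc,
      cfc_id' ℝ a]
  refine ⟨x * G, x - x * G, mul_mem hx hGM, sub_mem hx (mul_mem hx hGM), by abel, ?_, ?_, ?_⟩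
  · have h1 : ‖x * G‖ * ‖x * G‖ ≤ κ * κ := by
      rw [← CStarRing.norm_star_mul_self, e1]
      refine norm_cfc_le (by (clear * - hκ; positivity)) fun t ht => ?_
      have ht0 := hspec t ht
      have hp : 0 < κ ^ 2 + t := by (clear * - hκ ht0; positivity)
      rw [Real.norm_eq_abs, abs_of_nonneg (by simp only [hg]; (clear * - hκ ht0; positivity))]
      simp only [hg]
      rw [show κ ^ 2 / (κ ^ 2 + t) * (t * (κ ^ 2 / (κ ^ 2 + t))) =
        (κ ^ 2 * κ ^ 2 * t) / ((κ ^ 2 + t) * (κ ^ 2 + t)) by (clear * - hκ ht0; field_simp), div_le_iff₀ (by (clear * - hκ ht0; positivity))]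
      have h2 : κ ^ 2 * t ≤ (κ ^ 2 + t) * (κ ^ 2 + t) := by nlinarith only [sq_nonneg t]
      linarith only [mul_nonneg (sq_nonneg (κ : ℝ)) (sub_nonneg.2 h2)]
    exact abs_le_of_sq_le_sq' (by linarith) hκ.le |>.2
  · rw [e2, e3]
    calc cfc (fun t => (1 - g t) * (t * (1 - g t))) a ≤ cfc (fun t : ℝ => t) a := by
          refine cfc_mono (fun t ht => ?_) (h1gc.mul (continuousOn_id.mul h1gc)) (by fun_prop)
          have ht0 := hspec t ht
          have hp : 0 < κ ^ 2 + t := by (clear * - hκ ht0; positivity)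
          have h6 : 1 - g t = t / (κ ^ 2 + t) := by
            simp only [hg]; field_simp; ring
          have h7 : 0 ≤ t / (κ ^ 2 + t) := by (clear * - ht0 hκ; positivity)
          have h8 : t / (κ ^ 2 + t) ≤ 1 := by
            rw [div_le_one hp]
            nlinarith only []
          rw [h6]
          have h9 : t * (t / (κ ^ 2 + t)) ≤ t * 1 := mul_le_mul_of_nonneg_left h8 ht0
          have h10 : t / (κ ^ 2 + t) * (t * (t / (κ ^ 2 + t))) ≤ 1 * (t * 1) :=
            mul_le_mul h8 h9 (by (clear * - ht0 hκ; positivity)) (by norm_num)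
          linarith only [h10]
      _ = a := cfc_id' ℝ a
  · rw [e2, n2_eq hξ, e3]
    unfold F.n4
    rw [n2_eq hξ]
    have e4 : star (star x * x) * (star x * x) = cfc (fun t : ℝ => t * t) a := by
      rw [← ha, hasa.star_eq, cfc_mul (fun t : ℝ => t) (fun t => t) a continuousOn_id
        continuousOn_id, cfc_id' ℝ a]
    rw [e4]
    have h5 : cfc (fun t => (1 - g t) * (t * (1 - g t))) a ≤
        cfc (fun t : ℝ => (κ ^ 2)⁻¹ * (t * t)) a := by
      refine cfc_mono (fun t ht => ?_) (h1gc.mul (continuousOn_id.mul h1gc)) (by fun_prop)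
      have ht0 := hspec t ht
      have hp : 0 < κ ^ 2 + t := by (clear * - hκ ht0; positivity)
      have h6 : 1 - g t = t / (κ ^ 2 + t) := by
        simp only [hg]; field_simp; ring
      rw [h6]
      rw [show t / (κ ^ 2 + t) * (t * (t / (κ ^ 2 + t))) = (t * t * t) /
        ((κ ^ 2 + t) * (κ ^ 2 + t)) by (clear * - hκ ht0; field_simp), inv_mul_eq_div,
        div_le_div_iff₀ (by (clear * - hκ ht0; positivity)) (by positivity)]
      have h2 : κ ^ 2 * t ≤ (κ ^ 2 + t) * (κ ^ 2 + t) := by nlinarith only [sq_nonneg t]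
      linarith only [mul_nonneg (mul_self_nonneg (t : ℝ)) (sub_nonneg.2 h2)]
    have h7 := (vtr_nonneg hξ (sub_nonneg.2 h5)).1
    rw [vtr_sub hξ, Complex.sub_re, cfc_const_mul ((κ ^ 2)⁻¹) (fun t : ℝ => t * t) a] at h7
    have h8 : ((κ ^ 2)⁻¹ • cfc (fun t : ℝ => t * t) a : H →L[ℂ] H) =
        (((κ ^ 2)⁻¹ : ℝ) : ℂ) • cfc (fun t : ℝ => t * t) a := by
      rw [Complex.coe_smul]
    rw [h8, vtr_smul hξ, Complex.re_ofReal_mul] at h7
    rw [div_eq_inv_mul]
    linarith only [h7]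

end Vale.Agent.P078.W
end

section
/-! G3: an element normalizing `A` on both sides is seen by the unitary normalizer. -/

namespace Vale.Agent.P078.W

open Filter Topology
open Vale.Agent.P078 Vale.Agent.P078.C

universe u

variable {H : Type u} [NormedAddCommGroup H] [InnerProductSpace ℂ H] [CompleteSpace H]
variable {M A : VonNeumannAlgebra H} {ξ : ℕ → H} {E : (H →L[ℂ] H) →ₗ[ℂ] (H →L[ℂ] H)}

/-- a nonzero partial isometry normalizing `A` is in `A`, or has a nonzero restriction which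
extends to a unitary normalizer -/
theorem gn_restrict3 (hA : SO.IsMASA A M) {v : H →L[ℂ] H} (hv : v ∈ M) (hv0 : v ≠ 0)
    (hd : star v * v ∈ A) (he : v * star v ∈ A) (hdp : IsStarProjection (star v * v))
    (h1 : ∀ a ∈ A, v * a * star v ∈ A) (h2 : ∀ a ∈ A, star v * a * v ∈ A) :
    v ∈ A ∨ ∃ s ∈ A, IsStarProjection s ∧ v * s ≠ 0 ∧ ∃ u : nrm M A, op u * s = v * s := by
  obtain ⟨d, hdd⟩ : ∃ d : H →L[ℂ] H, d = star v * v := ⟨_, rfl⟩
  rw [← hdd] at hd hdp
  have hdi : d * d = d := hdp.isIdempotentElem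
  -- `v d = v`
  have hvd : v * d = v := by
    have h3 : star (v * d - v) * (v * d - v) = 0 := by
      rw [star_sub, star_mul, hdp.isSelfAdjoint.star_eq, sub_mul, mul_sub, mul_sub]
      have e1 : d * star v * (v * d) = d := by
        rw [mul_assoc, ← mul_assoc (star v), ← hdd, hdi, hdi]
      have e2 : d * star v * v = d := by rw [mul_assoc, ← hdd, hdi]
      have e3 : star v * (v * d) = d := by rw [← mul_assoc, ← hdd, hdi]
      rw [e1, e2, e3, ← hdd]
      abel
    have h4 := (CStarRing.star_mul_self_eq_zero_iff (v * d - v)).1 h3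
    exact sub_eq_zero.1 h4
  -- properties of `th`
  have hthp : ∀ p ∈ A, IsStarProjection p → p * d = p → IsStarProjection (v * p * star v) := by
    intro p hp hpp hpd
    refine ⟨?_, ?_⟩
    · change v * p * star v * (v * p * star v) = v * p * star v
      calc v * p * star v * (v * p * star v) = v * (p * (star v * v)) * p * star v := by
            simp only [mul_assoc]
        _ = v * (p * p) * star v := by rw [← hdd, hpd]; simp only [mul_assoc]
        _ = v * p * star v := by rw [hpp.isIdempotentElem]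
    · rw [IsSelfAdjoint, star_mul, star_mul, star_star, hpp.isSelfAdjoint.star_eq, mul_assoc]
  by_cases hcase : ∀ p ∈ A, IsStarProjection p → p * d = p → p * (v * p * star v) = p
  · -- Case 1
    have hth : ∀ p ∈ A, IsStarProjection p → p * d = p → v * p * star v = p := by
      intro p hp hpp hpd
      have hq := hthp p hp hpp hpd
      have hqA : v * p * star v ∈ A := h1 p hp
      obtain ⟨q, hqq⟩ : ∃ q : H →L[ℂ] H, q = v * p * star v := ⟨_, rfl⟩
      rw [← hqq] at hq hqA ⊢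
      have hpi : p * p = p := hpp.isIdempotentElem
      have hqi : q * q = q := hq.isIdempotentElem
      have hdp' : d * p = p := by rw [hA.2.1 d hd p hp, hpd]
      have e1 : p * q = p := by rw [hqq]; exact hcase p hp hpp hpd
      have e2 : q * p = p := by rw [hA.2.1 q hqA p hp, e1]
      obtain ⟨r, hr⟩ : ∃ r : H →L[ℂ] H, r = q - p := ⟨_, rfl⟩
      have hrA : r ∈ A := by rw [hr]; exact sub_mem hqA hp
      have hrr : r * r = r := by
        rw [hr, sub_mul, mul_sub, mul_sub, hqi, hpi, e1, e2]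
        abel
      have hrs : star r = r := by
        rw [hr, star_sub, hq.isSelfAdjoint.star_eq, hpp.isSelfAdjoint.star_eq]
      have hqr : q * r = r := by rw [hr, mul_sub, hqi, e2]
      have hrq : r * q = r := by rw [hr, sub_mul, hqi, e1]
      have hpr : p * r = 0 := by rw [hr, mul_sub, e1, hpi, sub_self]
      have heq : v * star v * q = q := by
        rw [hqq]
        calc v * star v * (v * p * star v) = v * ((star v * v) * p) * star v := by
              simp only [mul_assoc]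
          _ = v * p * star v := by rw [← hdd, hdp']
      have hqe : q * (v * star v) = q := by
        rw [hqq]
        calc v * p * star v * (v * star v) = v * (p * (star v * v)) * star v := by
              simp only [mul_assoc]
          _ = v * p * star v := by rw [← hdd, hpd]
      have her : v * star v * r = r := by
        rw [← hqr, ← mul_assoc, heq]
      have hre : r * (v * star v) = r := by
        rw [← hrq, mul_assoc, hqe]
      obtain ⟨r', hr'⟩ : ∃ r' : H →L[ℂ] H, r' = star v * r * v := ⟨_, rfl⟩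
      have hr'A : r' ∈ A := by rw [hr']; exact h2 r hrA
      have hr'i : r' * r' = r' := by
        calc r' * r' = star v * (r * (v * star v) * r) * v := by
              rw [hr']; simp only [mul_assoc]
          _ = r' := by rw [hre, hrr, hr']
      have hr's : star r' = r' := by
        rw [hr', star_mul, star_mul, star_star, hrs, mul_assoc]
      have hvqv : star v * q * v = p := by
        calc star v * q * v = (star v * v) * p * (star v * v) := by
              rw [hqq]; simp only [mul_assoc]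
          _ = p := by rw [← hdd, hdp', hpd]
      have hpr' : p * r' = r' := by
        calc p * r' = star v * (q * (v * star v) * r) * v := by
              rw [← hvqv, hr']; simp only [mul_assoc]
          _ = r' := by rw [hqe, hqr, hr']
      have hr'p : r' * p = r' := by rw [hA.2.1 r' hr'A p hp, hpr']
      have hr'd : r' * d = r' := by
        calc r' * d = r' * p * d := by rw [hr'p]
          _ = r' * (p * d) := by rw [mul_assoc]
          _ = r' := by rw [hpd, hr'p]
      have hvr : v * r' * star v = r := by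
        calc v * r' * star v = v * star v * r * (v * star v) := by
              rw [hr']; simp only [mul_assoc]
          _ = r := by rw [her, hre]
      have h3 := hcase r' hr'A ⟨hr'i, hr's⟩ hr'd
      rw [hvr] at h3
      have hr0 : r' = 0 := by
        calc r' = r' * r := h3.symm
          _ = r' * p * r := by rw [hr'p]
          _ = 0 := by rw [mul_assoc, hpr, mul_zero]
      have : r = 0 := by rw [← hvr, hr0, mul_zero, zero_mul]
      rw [hr] at this
      exact sub_eq_zero.1 this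
    have hvp : ∀ p ∈ A, IsStarProjection p → p * d = p → v * p = p * v := by
      intro p hp hpp hpd
      have e1 := hth p hp hpp hpd
      calc v * p = v * (p * d) := by rw [hpd]
        _ = v * p * star v * v := by rw [hdd]; simp only [mul_assoc]
        _ = p * v := by rw [e1]
    have hdv : d * v = v := by rw [← hvp d hd hdp hdi, hvd]
    have hcom : ∀ p ∈ A, IsStarProjection p → v * p = p * v := by
      intro p hp hpp
      have hcd : d * p = p * d := hA.2.1 d hd p hp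
      have hpd : IsStarProjection (p * d) := by
        refine ⟨?_, ?_⟩
        · change p * d * (p * d) = p * d
          calc p * d * (p * d) = p * (d * p) * d := by simp only [mul_assoc]
            _ = (p * p) * (d * d) := by rw [hcd]; simp only [mul_assoc]
            _ = p * d := by rw [hpp.isIdempotentElem, hdi]
        · rw [IsSelfAdjoint, star_mul, hpp.isSelfAdjoint.star_eq, hdp.isSelfAdjoint.star_eq, hcd]
      have e1 := hvp (p * d) (mul_mem hp hd) hpd (by rw [mul_assoc, hdi])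
      calc v * p = v * d * p := by rw [hvd]
        _ = v * (p * d) := by rw [mul_assoc, hcd]
        _ = p * (d * v) := by rw [e1, mul_assoc]
        _ = p * v := by rw [hdv]
    exact Or.inl (F.mem_masa_of_proj hA hv hcom)
  · -- Case 2
    push Not at hcase
    obtain ⟨p, hp, hpp, hpd, hne⟩ := hcase
    have hq := hthp p hp hpp hpd
    have hqA : v * p * star v ∈ A := h1 p hp
    obtain ⟨q, hqq⟩ : ∃ q : H →L[ℂ] H, q = v * p * star v := ⟨_, rfl⟩
    rw [← hqq] at hq hqA hne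
    have hpq : p * q = q * p := hA.2.1 p hp q hqA
    have hpi : p * p = p := hpp.isIdempotentElem
    have hqi : q * q = q := hq.isIdempotentElem
    obtain ⟨s, hs⟩ : ∃ s : H →L[ℂ] H, s = p - p * q := ⟨_, rfl⟩
    have hsA : s ∈ A := by rw [hs]; exact sub_mem hp (mul_mem hp hqA)
    have hs0 : s ≠ 0 := by
      rw [hs]
      intro h
      exact hne (sub_eq_zero.1 h).symm
    have hsp : IsStarProjection s := by
      refine ⟨?_, ?_⟩
      · change s * s = s
        rw [hs, sub_mul, mul_sub, mul_sub, hpi]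
        have e1 : p * q * p = p * q := by rw [mul_assoc, ← hpq, ← mul_assoc, hpi]
        have e2 : p * (p * q) = p * q := by rw [← mul_assoc, hpi]
        have e3 : p * q * (p * q) = p * q := by rw [← mul_assoc, e1, mul_assoc, hqi]
        rw [e1, e2, e3]
        abel
      · rw [IsSelfAdjoint, hs, star_sub, star_mul, hpp.isSelfAdjoint.star_eq,
          hq.isSelfAdjoint.star_eq, hpq]
    have hsd : s * d = s := by
      have : p * q * d = p * q := by
        rw [mul_assoc, hA.2.1 q hqA d hd, ← mul_assoc, hpd]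
      rw [hs, sub_mul, hpd, this]
    have hps : p * s = s := by rw [hs, mul_sub, hpi, ← mul_assoc, hpi]
    have hsq : s * q = 0 := by rw [hs, sub_mul, mul_assoc, hqi, sub_self]
    have htp := hthp s hsA hsp hsd
    have htA : v * s * star v ∈ A := h1 s hsA
    obtain ⟨t, htt⟩ : ∃ t : H →L[ℂ] H, t = v * s * star v := ⟨_, rfl⟩
    have hqt : q * t = t := by
      calc q * t = v * (p * (star v * v)) * s * star v := by
            rw [hqq, htt]; simp only [mul_assoc]
        _ = v * (p * s) * star v := by rw [← hdd, hpd]; simp only [mul_assoc]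
        _ = t := by rw [hps, htt]
    rw [← htt] at htp htA
    have hst : s * t = 0 := by rw [← hqt, ← mul_assoc, hsq, zero_mul]
    have hds : d * s = s := by rw [hA.2.1 d hd s hsA, hsd]
    have hss : s * s = s := hsp.isIdempotentElem
    have hsm := hA.1 s hsA
    have hwst : star (v * s) = s * star v := by rw [star_mul, hsp.isSelfAdjoint.star_eq]
    have k1 : star (v * s) * (v * s) = s := by
      rw [hwst, mul_assoc, ← mul_assoc (star v), ← hdd, hds, hss]
    have k2 : v * s * star (v * s) = t := by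
      rw [hwst, ← mul_assoc, mul_assoc v, hss, htt]
    have k3 : v * s * s = v * s := by rw [mul_assoc, hss]
    have k4 : t * (v * s) = v * s := by
      rw [← k2, mul_assoc, k1, k3]
    obtain ⟨u, hu⟩ := F.gn_swap hA (mul_mem hv hsm) hsA htA hsp htp k1 k2 hst k3 k4 (by
        intro a ha
        have : v * s * a * star (v * s) = v * (s * a * s) * star v := by
          rw [hwst]; simp only [mul_assoc]
        rw [this]
        exact h1 _ (mul_mem (mul_mem hsA ha) hsA)) (by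
        intro a ha
        have : star (v * s) * a * (v * s) = s * (star v * a * v) * s := by
          rw [hwst]; simp only [mul_assoc]
        rw [this]
        exact mul_mem (mul_mem hsA (h2 a ha)) hsA)
    refine Or.inr ⟨s, hsA, hsp, ?_, u, hu⟩
    intro h
    rw [h, mul_zero] at k1
    exact hs0 k1.symm

/-- a nonzero element normalizing `A` on both sides is not orthogonal to the normalizer -/
theorem exists_nrm_of_normalizing (hA : SO.IsMASA A M) (hξ : IsCState M A ξ)
    (hE : IsTrExp M A ξ E) {x : H →L[ℂ] H} (hx : x ∈ M) (hx0 : x ≠ 0)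
    (h1 : ∀ p ∈ A, IsStarProjection p → ∃ p' ∈ A, IsStarProjection p' ∧ x * p = p' * x)
    (h2 : ∀ p ∈ A, IsStarProjection p → ∃ p' ∈ A, IsStarProjection p' ∧ p * x = x * p') :
    ∃ u : nrm M A, E (op u * x) ≠ 0 := by
  have hne : Nontrivial H := by
    by_contra hcon
    rw [not_nontrivial_iff_subsingleton] at hcon
    exact hx0 (ContinuousLinearMap.ext fun ζ => Subsingleton.elim _ _)
  have hsx : star x ∈ M := star_mem hx
  have hin1 : ∀ b ∈ A, star x * b * x ∈ A := by
    intro b hb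
    refine F.mem_masa_of_proj hA (mul_mem (mul_mem hsx (hA.1 b hb)) hx) fun p hp hpp => ?_
    obtain ⟨p', hp', hpp', h⟩ := h1 p hp hpp
    have h3 : p * star x = star x * p' := by
      have := congrArg star h
      rwa [star_mul, star_mul, hpp.isSelfAdjoint.star_eq, hpp'.isSelfAdjoint.star_eq] at this
    calc star x * b * x * p = star x * (b * p') * x := by
          rw [mul_assoc _ x p, h]; simp only [mul_assoc]
      _ = star x * p' * b * x := by rw [hA.2.1 b hb p' hp']; simp only [mul_assoc]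
      _ = p * (star x * b * x) := by rw [← h3]; simp only [mul_assoc]
  have hin2 : ∀ b ∈ A, x * b * star x ∈ A := by
    intro b hb
    refine F.mem_masa_of_proj hA (mul_mem (mul_mem hx (hA.1 b hb)) hsx) fun p hp hpp => ?_
    obtain ⟨p', hp', hpp', h⟩ := h2 p hp hpp
    have h3 : star x * p = p' * star x := by
      have := congrArg star h
      rwa [star_mul, star_mul, hpp.isSelfAdjoint.star_eq, hpp'.isSelfAdjoint.star_eq] at this
    calc x * b * star x * p = x * (b * p') * star x := by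
          rw [mul_assoc _ (star x) p, h3]; simp only [mul_assoc]
      _ = x * p' * b * star x := by rw [hA.2.1 b hb p' hp']; simp only [mul_assoc]
      _ = p * (x * b * star x) := by rw [← h]; simp only [mul_assoc]
  obtain ⟨k, hk⟩ : ∃ k : H →L[ℂ] H, k = star x * x := ⟨_, rfl⟩
  have hkA : k ∈ A := by
    have := hin1 1 (one_mem A)
    rwa [mul_one, ← hk] at this
  have hk0 : 0 ≤ k := by rw [hk]; exact star_mul_self_nonneg x
  have hk1 : k ≠ 0 := by
    intro h
    rw [hk] at h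
    exact hx0 ((CStarRing.star_mul_self_eq_zero_iff x).1 h)
  obtain ⟨p, hpA, a, haA, hpp, hp0, hsa, hak⟩ := F.exists_inv_proj hA hne hkA hk0 hk1
  have haM := hA.1 a haA
  have hvs : star (x * a) = a * star x := by rw [star_mul, hsa]
  have hvv : star (x * a) * (x * a) = p := by
    rw [hvs, ← hak, hk]; simp only [mul_assoc]
  have hv0 : x * a ≠ 0 := by
    intro h
    rw [h, mul_zero] at hvv
    exact hp0 hvv.symm
  have hmain := gn_restrict3 hA (v := x * a) (mul_mem hx haM)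
    hv0
    (by rw [hvv]; exact hpA)
    (by
      have : x * a * star (x * a) = x * (a * a) * star x := by rw [hvs]; simp only [mul_assoc]
      rw [this]
      exact hin2 _ (mul_mem haA haA))
    (by rw [hvv]; exact hpp)
    (by
      intro b hb
      have : x * a * b * star (x * a) = x * (a * b * a) * star x := by
        rw [hvs]; simp only [mul_assoc]
      rw [this]
      exact hin2 _ (mul_mem (mul_mem haA hb) haA))
    (by
      intro b hb
      have : star (x * a) * b * (x * a) = a * (star x * b * x) * a := by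
        rw [hvs]; simp only [mul_assoc]
      rw [this]
      exact mul_mem (mul_mem haA (hin1 b hb)) haA)
  rcases hmain with hvA | ⟨s, hsA, hsp, hvs0, u, hu⟩
  · refine ⟨1, ?_⟩
    intro h
    have e0 : op (1 : nrm M A) * x = x := by
      change (1 : H →L[ℂ] H) * x = x
      rw [one_mul]
    rw [e0] at h
    have e1 : E (x * a) = E x * a := by
      have := hE.bimod 1 (one_mem A) a haA x hx
      rwa [one_mul, one_mul] at this
    rw [h, zero_mul, hE.idem _ hvA] at e1
    exact hv0 e1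
  · refine ⟨u⁻¹, ?_⟩
    intro h
    rw [op_inv] at h
    have hsM := hA.1 s hsA
    have hux : star (op u) * x ∈ M := mul_mem (star_op_mem u) hx
    have e1 : star (op u) * x * (a * s) = s := by
      calc star (op u) * x * (a * s) = star (op u) * (x * a * s) := by simp only [mul_assoc]
        _ = star (op u) * op u * s := by rw [← hu, mul_assoc]
        _ = s := by rw [star_op_mul, one_mul]
    have e2 : E (star (op u) * x * (a * s)) = E (star (op u) * x) * (a * s) := by
      have := hE.bimod 1 (one_mem A) (a * s) (mul_mem haA hsA) _ hux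
      rwa [one_mul, one_mul] at this
    rw [e1, h, zero_mul, hE.idem _ hsA] at e2
    exact hvs0 (by rw [e2, mul_zero])

end Vale.Agent.P078.W
end

section
/-! G3: the votes for a central state (copies of `F.Mj.exists_sinf`, `F.Mj.exists_vote`). -/

set_option linter.unusedSectionVars false

namespace Vale.Agent.P078.W

open Filter Topology
open Vale.Agent.P078 Vale.Agent.P078.C Vale.Agent.P078.F Vale.Agent.P078.F.Mj

universe u

variable {H : Type u} [NormedAddCommGroup H] [InnerProductSpace ℂ H] [CompleteSpace H]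
variable {M A : VonNeumannAlgebra H} {ξ : ℕ → H} {E : (H →L[ℂ] H) →ₗ[ℂ] (H →L[ℂ] H)}

/-- the trace of the sum of squares -/
private theorem vtr_sQ3 (hA : SO.IsMASA A M) (ht : IsTrace A ξ) (hE : IsTrExp M A ξ E)
    {b : H →L[ℂ] H} (hb : b ∈ M) (Q : Part A.toStarSubalgebra) :
    (vtr ξ (sQ E b Q)).re = ∑ j, n2 ξ (E (b * Q.e j * star b)) := by
  unfold sQ
  rw [vtr_sum ht, Complex.re_sum]
  refine Finset.sum_congr rfl fun j _ => ?_
  rw [n2_eq ht, (sa_E hA hE hb (Q.mem j) (proj_nonneg (Q.proj j))).star_eq]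

/-- existence and properties of the limit of the sums of squares -/
theorem exists_sinf3 (hA : SO.IsMASA A M) (hξ : IsCState M A ξ) (hE : IsTrExp M A ξ E)
    {b : H →L[ℂ] H} (hb : b ∈ M) (hb1 : ‖b‖ ≤ 1) {c : ℝ}
    (hbc : ∀ Q : Part A.toStarSubalgebra, c ≤ ∑ j, n2 ξ (E (b * Q.e j * star b)))
    {X : Type*} [TopologicalSpace X] [MulAction (nrm M A) X] (S : Spec M A X) :
    ∃ s ∈ A, 0 ≤ s ∧ (∀ Q : Part A.toStarSubalgebra, s ≤ sQ E b Q) ∧ c ≤ (vtr ξ s).re ∧
      ∀ ε : ℝ, 0 < ε → ∃ Q : Part A.toStarSubalgebra, (vtr ξ (sQ E b Q - s)).re ≤ ε := by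
  have hAA : SO.IsMASA A A := ⟨fun x hx => hx, hA.2.1, fun x hx _ => hx⟩
  have ht : IsTrace A ξ := hξ.tr hA
  have hnorm : ∀ Q : Part A.toStarSubalgebra, ‖sQ E b Q‖ ≤ ‖(1 : H →L[ℂ] H)‖ := fun Q =>
    CStarAlgebra.norm_le_norm_of_nonneg_of_le (sQ_nonneg S hA hE hb Q) (sQ_le_one S hA hE hb hb1 Q)
  obtain ⟨s, hs, -, hlim, U, hU, hwot⟩ := net_lim ht hAA (fun Q => sQ E b Q) (norm_nonneg _)
    (fun Q => sQ_mem hA hE hb Q) hnorm (by
      intro Q Q' hQ
      have h1 := n2_sub ht (sQ E b Q) (sQ E b Q')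
      have h2 := vtr_mul_nonneg ht (sQ_mem hA hE hb Q')
        (sub_mem (sQ_mem hA hE hb Q) (sQ_mem hA hE hb Q')) (sQ_nonneg S hA hE hb Q')
        (sub_nonneg.2 (sQ_anti S hA hE hb hQ))
      rw [mul_sub, vtr_sub ht, Complex.sub_re] at h2
      rw [(sQ_sa hA hE hb Q').star_eq] at h1
      have h3 : n2 ξ (sQ E b Q') = (vtr ξ (sQ E b Q' * sQ E b Q')).re := by
        rw [n2_eq ht, (sQ_sa hA hE hb Q').star_eq]
      rw [← h3] at h2
      (clear hA hξ hE hb hb1 c hbc S hAA ht hnorm hQ h3; linarith))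
  have hle : ∀ Q : Part A.toStarSubalgebra, s ≤ sQ E b Q := by
    intro Q
    rw [← sub_nonneg]
    refine nonneg_of_tendsto (l := (U : Filter (Part A.toStarSubalgebra)))
      (T := fun Q' => sQ E b Q - sQ E b Q') ?_ ?_
    · filter_upwards [hU (Part.eventually_finer Q)] with Q' hQ'
      exact sub_nonneg.2 (sQ_anti S hA hE hb hQ')
    · intro ζ η
      simp only [sub_apply, inner_sub_right]
      exact tendsto_const_nhds.sub (hwot ζ η)
  have h0 : 0 ≤ s := nonneg_of_tendsto (Eventually.of_forall fun Q => sQ_nonneg S hA hE hb Q) hwot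
  have hsmall : ∀ ε : ℝ, 0 < ε → ∃ Q : Part A.toStarSubalgebra,
      (vtr ξ (sQ E b Q - s)).re ≤ ε := by
    intro ε hε
    obtain ⟨Q, hQ⟩ := hlim (ε ^ 2) (by positivity)
    refine ⟨Q, ?_⟩
    have h1 := (sq_vtr_le ht _).trans (hQ Q (Part.Finer.refl Q))
    exact abs_le_of_sq_le_sq' h1 hε.le |>.2
  refine ⟨s, hs, h0, hle, ?_, hsmall⟩
  refine le_of_forall_pos_le_add fun ε hε => ?_
  obtain ⟨Q, hQ⟩ := hsmall ε hε
  rw [vtr_sub ht, Complex.sub_re, vtr_sQ3 hA ht hE hb] at hQ
  (clear hA hξ hE hb hb1 S hAA ht hnorm hs hlim U hU hwot hle h0 hsmall hε; linarith [hbc Q])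

/-- existence of a vote -/
theorem exists_vote3 {X : Type*} [TopologicalSpace X] [MulAction (nrm M A) X] [CompactSpace X]
    [T2Space X] [TotallyDisconnectedSpace X]
    (hA : SO.IsMASA A M) (hξ : IsCState M A ξ) (hE : IsTrExp M A ξ E)
    {b : H →L[ℂ] H} (hb : b ∈ M) (hb1 : ‖b‖ ≤ 1) {c : ℝ} (hc : 0 < c)
    (hbc : ∀ Q : Part A.toStarSubalgebra, c ≤ ∑ j, n2 ξ (E (b * Q.e j * star b)))
    (S : Spec M A X) : ∃ (f : H →L[ℂ] H) (K : Set X), Vote S E b f K (c / 2) ∧ K.Nonempty := by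
  obtain ⟨s, hs, hs0, hsle, hsc, hsmall⟩ := exists_sinf3 hA hξ hE hb hb1 hbc S
  have ht : IsTrace A ξ := hξ.tr hA
  obtain ⟨k1, hk1⟩ : ∃ k1 : ℝ, k1 = c ^ 2 / 100 := ⟨_, rfl⟩
  have hk1pos : 0 < k1 := by rw [hk1]; positivity
  obtain ⟨Q0, hQ0⟩ := hsmall (k1 * c / 4) (by (clear * - hk1pos hc; positivity))
  have hmemD : sQ E b Q0 - s ∈ A := sub_mem (sQ_mem hA hE hb Q0) hs
  have hssa : IsSelfAdjoint s := IsSelfAdjoint.of_nonneg hs0
  have hDsa : IsSelfAdjoint (sQ E b Q0 - s) := (sQ_sa hA hE hb Q0).sub hssa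
  have hD0 : ∀ w, 0 ≤ (S.val w (sQ E b Q0 - s)).re := fun w =>
    (S.nonneg _ hmemD (sub_nonneg.2 (hsle Q0)) w).1
  -- the good point
  obtain ⟨w0, hw1, hw2⟩ : ∃ w0, c / 2 < (S.val w0 s).re ∧
      (S.val w0 (sQ E b Q0 - s)).re < k1 := by
    by_contra hcon
    push Not at hcon
    have hA1 : ((c / 2 : ℝ) : ℂ) • (1 : H →L[ℂ] H) ∈ A := smul_mem' _ (one_mem A)
    have hA2 : ((1 / k1 : ℝ) : ℂ) • (sQ E b Q0 - s) ∈ A := smul_mem' _ hmemD
    have hsm : ∀ (r : ℝ) (x : H →L[ℂ] H), IsSelfAdjoint x → IsSelfAdjoint ((r : ℂ) • x) := by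
      intro r x hx
      rw [IsSelfAdjoint, star_smul, Complex.star_def, Complex.conj_ofReal, hx.star_eq]
    have hle : s ≤ ((c / 2 : ℝ) : ℂ) • (1 : H →L[ℂ] H) + ((1 / k1 : ℝ) : ℂ) • (sQ E b Q0 - s) := by
      refine le_of_val S hs (add_mem hA1 hA2) hssa
        ((hsm _ _ (IsSelfAdjoint.one _)).add (hsm _ _ hDsa)) fun w => ?_
      rw [S.add w _ hA1 _ hA2, S.smul w _ _ (one_mem A), S.smul w _ _ hmemD, S.one, mul_one,
        Complex.add_re, Complex.ofReal_re, Complex.re_ofReal_mul]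
      by_cases hw : c / 2 < (S.val w s).re
      · have h1 := hcon w hw
        have h2 : (S.val w s).re ≤ 1 :=
          (val_le S hs (sQ_mem hA hE hb Q0) (hsle Q0) w).trans
            (val_sQ_le_one S hA hE hb hb1 Q0 w)
        have h3 : 1 ≤ 1 / k1 * (S.val w (sQ E b Q0 - s)).re := by
          rw [one_div, ← div_eq_inv_mul, le_div_iff₀ hk1pos, one_mul]
          exact h1
        (clear hξ hbc hs0 hsc hsmall ht hQ0 hmemD hssa hDsa hD0 hA1 hA2 hsm; linarith only [h3, h2, hc])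
      · have h3 : 0 ≤ 1 / k1 * (S.val w (sQ E b Q0 - s)).re := mul_nonneg (by (clear * - hk1pos; positivity)) (hD0 w)
        (clear hξ hb1 hbc hs0 hsc hsmall ht hQ0 hssa hDsa hcon hA1 hA2 hsm; linarith)
    have h4 := (vtr_nonneg ht (sub_nonneg.2 hle)).1
    rw [vtr_sub ht, vtr_add ht, vtr_smul ht, vtr_smul ht, vtr_one ht, mul_one, Complex.sub_re,
      Complex.add_re, Complex.ofReal_re, Complex.re_ofReal_mul] at h4
    have h5 : 1 / k1 * (vtr ξ (sQ E b Q0 - s)).re ≤ c / 4 := by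
      rw [one_div, ← div_eq_inv_mul, div_le_iff₀ hk1pos]
      (clear hA hξ hE hb hb1 hc hbc S hs hs0 hsle hsc hsmall ht hk1 hk1pos hmemD hssa hDsa hD0 hcon hA1 hA2 hsm hle h4; linarith only [hQ0])
    linarith only [h5, h4, hsc, hc]
  -- a heavy block
  obtain ⟨l, hl⟩ : ∃ l, c / 2 < hh S E b (Q0.e l) w0 := by
    by_contra hcon
    push Not at hcon
    have h1 : (S.val w0 s).re ≤ (S.val w0 (sQ E b Q0)).re :=
      val_le S hs (sQ_mem hA hE hb Q0) (hsle Q0) w0
    rw [val_sQ S hA hE hb] at h1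
    have h2 : ∑ j, hh S E b (Q0.e j) w0 ^ 2 ≤ ∑ j, c / 2 * hh S E b (Q0.e j) w0 := by
      refine Finset.sum_le_sum fun j _ => ?_
      rw [sq]
      exact mul_le_mul_of_nonneg_right (hcon j) (hh_proj_nonneg S hA hE hb (Q0.mem j) (Q0.proj j) w0)
    rw [← Finset.mul_sum, sum_hh S hA hE hb] at h2
    have h3 := hh_one_le S hA hE hb hb1 w0
    have h4 : c / 2 * hh S E b 1 w0 ≤ c / 2 * 1 := mul_le_mul_of_nonneg_left h3 (by positivity)
    (clear hξ hbc hs hs0 hsle hsc hsmall ht k1 hk1 hk1pos hQ0 hmemD hssa hDsa hD0 hw2 hcon; linarith)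
  -- the neighbourhood
  have hopen : IsOpen ({w | c / 2 < hh S E b (Q0.e l) w} ∩
      {w | (S.val w (sQ E b Q0 - s)).re < k1}) :=
    (isOpen_lt continuous_const (hh_cont S hA hE hb (Q0.mem l))).inter
      (isOpen_lt (Complex.continuous_re.comp (S.cont _ hmemD)) continuous_const)
  obtain ⟨K, hK, hw0K, hKsub⟩ := compact_exists_isClopen_in_isOpen hopen ⟨hl, hw2⟩
  refine ⟨Q0.e l, K, ⟨by positivity, Q0.mem l, Q0.proj l, hK, fun w hw => (hKsub hw).1.le, ?_⟩,
    ⟨w0, hw0K⟩⟩
  intro w hw R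
  obtain ⟨hw3, hw4⟩ := hKsub hw
  rw [Set.mem_ofPred_eq] at hw3 hw4
  have hAc : ∀ x ∈ A.toStarSubalgebra, ∀ y ∈ A.toStarSubalgebra, x * y = y * x := hA.2.1
  have h1 : (S.val w s).re ≤ (S.val w (sQ E b (Q0.inf hAc R))).re :=
    val_le S hs (sQ_mem hA hE hb _) (hsle _) w
  rw [val_sQ S hA hE hb] at h1
  have h2 : ∑ j, hh S E b ((Q0.inf hAc R).e j) w ^ 2 =
      ∑ i, ∑ j, hh S E b (Q0.e i * R.e j) w ^ 2 := Fintype.sum_prod_type _
  rw [h2] at h1
  rw [val_sub S (sQ_mem hA hE hb Q0) hs, Complex.sub_re, val_sQ S hA hE hb] at hw4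
  have h3 : ∀ i, ∑ j, hh S E b (Q0.e i * R.e j) w ^ 2 ≤ hh S E b (Q0.e i) w ^ 2 := by
    intro i
    rw [← sum_hh_mul S hA hE hb (Q0.mem i) R w]
    exact sum_sq_le_sq_sum _ _ fun k => hh_mul_nonneg S hA hE hb (Q0.mem i) (R.mem k) (Q0.proj i)
      (R.proj k) w
  have h4 : hh S E b (Q0.e l) w ^ 2 - ∑ j, hh S E b (Q0.e l * R.e j) w ^ 2 ≤
      ∑ i, (hh S E b (Q0.e i) w ^ 2 - ∑ j, hh S E b (Q0.e i * R.e j) w ^ 2) :=
    Finset.single_le_sum (f := fun i => hh S E b (Q0.e i) w ^ 2 -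
      ∑ j, hh S E b (Q0.e i * R.e j) w ^ 2) (fun i _ => sub_nonneg.2 (h3 i)) (Finset.mem_univ l)
  rw [Finset.sum_sub_distrib] at h4
  have h5 : c ^ 2 / 4 ≤ hh S E b (Q0.e l) w ^ 2 := by linarith only [mul_pos (sub_pos.2 hw3) (sub_pos.2 hw3), mul_pos (sub_pos.2 hc) (sub_pos.2 hw3)]
  linarith only [h5, h4, h1, hw4, hk1]

end Vale.Agent.P078.W
end

section
/-! G3: majority vote for a central state. The block operators of `F.Mj` are replaced by their
adjoints, since only right multiplication by elements of `A` is controlled by the state. -/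

set_option linter.unusedSectionVars false

namespace Vale.Agent.P078.W

open Filter Topology
open Vale.Agent.P078 Vale.Agent.P078.C Vale.Agent.P078.F Vale.Agent.P078.F.Mj

universe u

variable {H : Type u} [NormedAddCommGroup H] [InnerProductSpace ℂ H] [CompleteSpace H]
variable {M A : VonNeumannAlgebra H} {ξ : ℕ → H} {E : (H →L[ℂ] H) →ₗ[ℂ] (H →L[ℂ] H)}

theorem maj3_n2_TT {ι : Type*} [Fintype ι] (ht : IsTrace A ξ)
    {g h : ι → (H →L[ℂ] H)} (hg : OP M g) (y : H →L[ℂ] H) :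
    n2 ξ (TT g h y) = ∑ j, n2 ξ (g j * y * h j) := by
  unfold n2
  rw [← Summable.tsum_finsetSum fun i _ => n2_summable ht _]
  refine tsum_congr fun n => ?_
  rw [TT_apply, norm_sq_orth hg]
  rfl

theorem maj3_star {p q y : H →L[ℂ] H} (hpp : IsStarProjection p) (hqq : IsStarProjection q) :
    star (p * y * q) = q * star y * p := by
  rw [star_mul, star_mul, hpp.isSelfAdjoint.star_eq, hqq.isSelfAdjoint.star_eq, mul_assoc]

/-- one block, the right projection in `A` -/
theorem maj3_block (hA : SO.IsMASA A M) (hξ : IsCState M A ξ) {p q y : H →L[ℂ] H} (hp : p ∈ M)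
    (hq : q ∈ A) (hy : y ∈ M) (hpp : IsStarProjection p) (hqq : IsStarProjection q) :
    vtr ξ (star (p * y * q) * (p * y * q)) = vtr ξ (q * (star y * p * y)) := by
  have hm : star y * p * y ∈ M := mul_mem (mul_mem (star_mem hy) hp) hy
  have hqM : q ∈ M := hA.1 q hq
  have h2 : star (p * y * q) * (p * y * q) = q * ((star y * p * y) * q) := by
    rw [maj3_star hpp hqq]
    calc q * star y * p * (p * y * q) = q * star y * (p * p) * y * q := by noncomm_ring
      _ = q * star y * p * y * q := by rw [hpp.isIdempotentElem.eq]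
      _ = _ := by noncomm_ring
  rw [h2, hξ.central q hq _ (mul_mem hm hqM), mul_assoc, hqq.isIdempotentElem.eq,
    ← hξ.central q hq _ hm]

/-- orthogonal projections onto blocks, the right projections in `A` -/
theorem n2_TT_sub3 {ι : Type*} [Fintype ι] (hA : SO.IsMASA A M) (hξ : IsCState M A ξ)
    {g h : ι → (H →L[ℂ] H)} (hg : OP M g) (hh : OP A h) {y : H →L[ℂ] H} (hy : y ∈ M) :
    n2 ξ (y - TT g h y) = n2 ξ y - n2 ξ (TT g h y) := by
  have ht := hξ.tr hA
  have h1 : (vtr ξ (star (TT g h y) * y)).re = n2 ξ (TT g h y) := by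
    rw [maj3_n2_TT ht hg]
    unfold Mj.TT
    rw [star_sum, Finset.sum_mul, vtr_sum ht, Complex.re_sum]
    refine Finset.sum_congr rfl fun j _ => ?_
    rw [n2_eq ht, maj3_block hA hξ (hg.mem j) (hh.mem j) hy (hg.proj j) (hh.proj j),
      maj3_star (hg.proj j) (hh.proj j), mul_assoc (h j), mul_assoc (h j), mul_assoc (star y)]
  rw [n2_sub ht, h1]
  ring

theorem maj3_star_VV {f b : H →L[ℂ] H} {th : (H →L[ℂ] H) → (H →L[ℂ] H)} (hA : SO.IsMASA A M)
    (hf : f ∈ A) (hfp : IsStarProjection f) (T : Th A th) (R : Part A.toStarSubalgebra) :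
    star (VV th f b R) = TT (fun j => f * R.e j) (fun j => th (R.e j)) (star b) := by
  unfold Mj.VV Mj.TT
  rw [star_sum]
  exact Finset.sum_congr rfl fun j _ =>
    maj3_star (T.proj _ (R.mem j) (R.proj j)) ((op_f hA hf hfp R).proj j)

/-- the mass of the adjoint of the block operator -/
theorem n2_star_VV3 {f b : H →L[ℂ] H} {th : (H →L[ℂ] H) → (H →L[ℂ] H)} (hA : SO.IsMASA A M)
    (hξ : IsCState M A ξ) (hE : IsTrExp M A ξ E) (hf : f ∈ A)
    (hfp : IsStarProjection f) (T : Th A th) (hb : b ∈ M) (R : Part A.toStarSubalgebra) :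
    n2 ξ (star (VV th f b R)) =
      (vtr ξ (∑ j, th (R.e j) * E (b * (f * R.e j) * star b))).re := by
  have ht := hξ.tr hA
  have hg := op_f hA hf hfp R
  rw [maj3_star_VV hA hf hfp T R, maj3_n2_TT ht hg, vtr_sum ht, Complex.re_sum]
  refine Finset.sum_congr rfl fun j _ => ?_
  have hth := T.mem _ (R.mem j) (R.proj j)
  rw [n2_eq ht, maj3_block hA hξ (hg.mem j) hth (star_mem hb) (hg.proj j)
    (T.proj _ (R.mem j) (R.proj j)), star_star]
  have hm : b * (f * R.e j) * star b ∈ M := mul_mem (mul_mem hb (hg.mem j)) (star_mem hb)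
  rw [← hE.tr _ (mul_mem (hA.1 _ hth) hm)]
  have h1 := hE.bimod _ hth 1 (one_mem A) _ hm
  rw [mul_one, mul_one] at h1
  rw [h1]

/-- uniform lower bound for the mass of the adjoints of the block operators -/
theorem exists_lower3 {X : Type*} [TopologicalSpace X] [MulAction (nrm M A) X] {S : Spec M A X}
    {K : Set X} {c : ℝ} {b f : H →L[ℂ] H}
    (V : Vote S E b f K c) (hA : SO.IsMASA A M) (hξ : IsCState M A ξ)
    (hE : IsTrExp M A ξ E) (hb : b ∈ M) (hK : K.Nonempty) {th : (H →L[ℂ] H) → (H →L[ℂ] H)}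
    (T : Th A th) (hth : ∀ p ∈ A, IsStarProjection p →
      (∀ w ∈ maj S E b f K p, S.val w (th p) = 1) ∧
        ∀ w, w ∉ maj S E b f K p → S.val w (th p) = 0) :
    ∃ δ : ℝ, 0 < δ ∧ ∀ R : Part A.toStarSubalgebra, δ ≤ n2 ξ (star (VV th f b R)) := by
  have ht := hξ.tr hA
  obtain ⟨e, he, hep, he1, he0⟩ := exists_ind S V.clopen
  obtain ⟨w0, hw0⟩ := hK
  have hcp := V.cpos
  have hpos : 0 < (vtr ξ e).re := by
    rcases (vtr_nonneg ht (proj_nonneg hep)).1.lt_or_eq with h | h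
    · exact h
    · exfalso
      have h1 : n2 ξ e = 0 := by
        rw [n2_eq ht, hep.isSelfAdjoint.star_eq, hep.isIdempotentElem.eq, ← h]
      have h2 := hξ.eq_zero hA (hA.1 e he) h1
      have h3 := he1 w0 hw0
      rw [h2, val_zero] at h3
      exact zero_ne_one h3
  refine ⟨c / 2 * (vtr ξ e).re, by (clear * - hcp hpos; positivity), fun R => ?_⟩
  rw [n2_star_VV3 hA hξ hE V.f_mem V.f_proj T hb R]
  have hmem : ∀ j, th (R.e j) * E (b * (f * R.e j) * star b) ∈ A := fun j =>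
    mul_mem (T.mem _ (R.mem j) (R.proj j)) (EMem hA hE hb (mul_mem V.f_mem (R.mem j)))
  have hfj : ∀ j, 0 ≤ f * R.e j := fun j =>
    proj_nonneg (Mj.proj_mul hA V.f_mem (R.mem j) V.f_proj (R.proj j))
  have hsa : IsSelfAdjoint (∑ j, th (R.e j) * E (b * (f * R.e j) * star b)) := by
    rw [IsSelfAdjoint, star_sum]
    refine Finset.sum_congr rfl fun j _ => ?_
    rw [star_mul, (sa_E hA hE hb (mul_mem V.f_mem (R.mem j)) (hfj j)).star_eq,
      (T.proj _ (R.mem j) (R.proj j)).isSelfAdjoint.star_eq]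
    exact hA.2.1 _ (EMem hA hE hb (mul_mem V.f_mem (R.mem j))) _ (T.mem _ (R.mem j) (R.proj j))
  have hle : ((c / 2 : ℝ) : ℂ) • e ≤ ∑ j, th (R.e j) * E (b * (f * R.e j) * star b) := by
    refine le_of_val S (smul_mem' _ he) (sum_mem fun j _ => hmem j) ?_ hsa fun w => ?_
    · rw [IsSelfAdjoint, star_smul, Complex.star_def, Complex.conj_ofReal,
        hep.isSelfAdjoint.star_eq]
    · rw [S.smul w _ e he, val_sum S _ _ hmem, Complex.re_sum]
      have hterm : ∀ j, (S.val w (th (R.e j) * E (b * (f * R.e j) * star b))).re =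
          (S.val w (th (R.e j))).re * hh S E b (f * R.e j) w := by
        intro j
        rw [S.mul w _ (T.mem _ (R.mem j) (R.proj j)) _
          (EMem hA hE hb (mul_mem V.f_mem (R.mem j))),
          val_hh S hA hE hb (mul_mem V.f_mem (R.mem j)) (hfj j), Complex.re_mul_ofReal]
      have hnn : ∀ j, 0 ≤ (S.val w (th (R.e j) * E (b * (f * R.e j) * star b))).re := by
        intro j
        rw [hterm]
        refine mul_nonneg ?_ (hh_nonneg S hA hE hb (mul_mem V.f_mem (R.mem j)) (hfj j) w)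
        exact (S.nonneg _ (T.mem _ (R.mem j) (R.proj j))
          (proj_nonneg (T.proj _ (R.mem j) (R.proj j))) w).1
      by_cases hw : w ∈ K
      · obtain ⟨j, hj⟩ := V.maj_exists hA hE hb R hw
        rw [he1 w hw, mul_one, Complex.ofReal_re]
        refine le_trans ?_ (Finset.single_le_sum (fun j _ => hnn j) (Finset.mem_univ j))
        rw [hterm, (hth _ (R.mem j) (R.proj j)).1 w hj, Complex.one_re, one_mul]
        have h1 := hj.2
        have h2 := V.lower w hw
        linarith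
      · rw [he0 w hw, mul_zero, Complex.zero_re]
        exact Finset.sum_nonneg fun j _ => hnn j
  have h := (vtr_nonneg ht (sub_nonneg.2 hle)).1
  rw [vtr_sub ht, vtr_smul ht, Complex.sub_re, Complex.re_ofReal_mul] at h
  (clear S K V hA hξ hE hb T hth ht he hep he1 he0 w0 hw0 hcp hpos hmem hfj hsa hle; linarith only [h])

end Vale.Agent.P078.W
end

section
/-! G3: one-sided majority vote for a central state. -/

set_option linter.unusedSectionVars false

namespace Vale.Agent.P078.W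

open Filter Topology
open Vale.Agent.P078 Vale.Agent.P078.C Vale.Agent.P078.F Vale.Agent.P078.F.Mj

universe u

variable {H : Type u} [NormedAddCommGroup H] [InnerProductSpace ℂ H] [CompleteSpace H]
variable {M A : VonNeumannAlgebra H} {ξ : ℕ → H} {E : (H →L[ℂ] H) →ₗ[ℂ] (H →L[ℂ] H)}

/-- limits of monotone families indexed by partitions -/
private theorem net_lim_maj3 (hξ : IsTrace A ξ) (hA : SO.IsMASA A M)
    (V : Part A.toStarSubalgebra → (H →L[ℂ] H)) {C : ℝ} (hC0 : 0 ≤ C) (hV : ∀ Q, V Q ∈ M)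
    (hC : ∀ Q, ‖V Q‖ ≤ C) (hmono : ∀ Q Q' : Part A.toStarSubalgebra, Q.Finer Q' →
      n2 ξ (V Q - V Q') ≤ n2 ξ (V Q) - n2 ξ (V Q')) :
    ∃ v ∈ M, ‖v‖ ≤ C ∧
      (∀ ε : ℝ, 0 < ε → ∃ Q : Part A.toStarSubalgebra, ∀ Q', Q.Finer Q' → n2 ξ (V Q' - v) ≤ ε) ∧
      ∃ U : Ultrafilter (Part A.toStarSubalgebra),
        (U : Filter _) ≤ Part.filter A.toStarSubalgebra ∧
        ∀ ζ η : H, Tendsto (fun Q => inner ℂ ζ (V Q η)) U (𝓝 (inner ℂ ζ (v η))) := by
  have hAs := SO.IsMASA.toStar hA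
  have := Part.filter_neBot hAs.2.1
  obtain ⟨U, hU⟩ : ∃ U : Ultrafilter (Part A.toStarSubalgebra),
      (U : Filter _) ≤ Part.filter A.toStarSubalgebra := ⟨Ultrafilter.of _, Ultrafilter.of_le _⟩
  obtain ⟨v, hv1, hv2⟩ := exists_wot_limit U V C (Eventually.of_forall hC) hC0
  refine ⟨v, mem_of_tendsto' (Eventually.of_forall hV) hv2, hv1, ?_, U, hU, hv2⟩
  intro ε hε
  have hne : Nonempty (Part A.toStarSubalgebra) := ⟨Part.trivialPart _⟩
  have hbdd : BddBelow (Set.range fun Q => n2 ξ (V Q)) :=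
    ⟨0, by rintro _ ⟨Q, rfl⟩; exact n2_nonneg _ _⟩
  obtain ⟨Q0, hQ0⟩ := exists_lt_of_ciInf_lt
    (show ⨅ Q, n2 ξ (V Q) < (⨅ Q, n2 ξ (V Q)) + ε by (clear hξ C hC0 hV hC hmono U hU v hv1 hv2 hbdd; linarith))
  refine ⟨Q0, fun Q' hQ' => ?_⟩
  have h1 : n2 ξ (V Q') ≤ n2 ξ (V Q0) := by
    (clear hξ C hC0 hV hC U hU v hv1 hv2 ε hε hbdd hQ0; linarith [hmono Q0 Q' hQ', n2_nonneg ξ (V Q0 - V Q')])
  refine n2_le_of_tendsto hξ (l := (U : Filter _)) (T := fun Q'' => V Q' - V Q'') ?_ ?_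
  · filter_upwards [hU (Part.eventually_finer Q')] with Q'' hQ''
    have h2 := hmono Q' Q'' hQ''
    have h3 := ciInf_le hbdd Q''
    (clear hξ C hC0 hV hC U hU v hv1 hv2 hε; linarith)
  · intro ζ η
    simp only [sub_apply, inner_sub_right]
    exact tendsto_const_nhds.sub (hv2 ζ η)

/-- the state passes to weak operator limits of bounded families -/
private theorem vtr_lim_zero_maj3 (hA : SO.IsMASA A M) (hξ : IsCState M A ξ) {I : Type*}
    {l : Filter I} [l.NeBot] {T : I → (H →L[ℂ] H)} {L n a : H →L[ℂ] H} (hn : n ∈ M) (ha : a ∈ A)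
    (hLM : L ∈ M) {C : ℝ} (hTM : ∀ i, T i ∈ M) (hTC : ∀ i, ‖T i‖ ≤ C)
    (hL : ∀ ζ η : H, Tendsto (fun i => inner ℂ ζ (T i η)) l (𝓝 (inner ℂ ζ (L η))))
    (h0 : ∀ i, vtr ξ (n * T i * a) = 0) : vtr ξ (n * L * a) = 0 := by
  have hb : WCont M fun y => vtr ξ (y * a) := (hξ.wcont hA).mul_right (hA.1 a ha)
  have h1 := hb (‖n‖ * C) (n * L) (Filter.map (fun i => n * T i) l) (mul_mem hn hLM) ?_ ?_
  · refine tendsto_nhds_unique h1 ?_
    rw [tendsto_map'_iff]
    refine tendsto_const_nhds.congr fun i => ?_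
    exact (h0 i).symm
  · rw [eventually_map]
    refine Eventually.of_forall fun i => ⟨mul_mem hn (hTM i), ?_⟩
    exact (norm_mul_le _ _).trans (mul_le_mul_of_nonneg_left (hTC i) (norm_nonneg _))
  · intro x y
    rw [tendsto_map'_iff]
    have h2 := hL (star n x) y
    simp only [star_apply_inner] at h2
    exact h2

/-- the adjoint of a block operator -/
private theorem star_TT_maj3 {ι : Type*} [Fintype ι] {N : VonNeumannAlgebra H}
    {g h : ι → (H →L[ℂ] H)} (hg : OP N g) (hh : OP N h) (y : H →L[ℂ] H) :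
    star (TT g h y) = TT h g (star y) := by
  unfold Mj.TT
  rw [star_sum]
  refine Finset.sum_congr rfl fun j _ => ?_
  rw [star_mul, star_mul, (hg.proj j).isSelfAdjoint.star_eq, (hh.proj j).isSelfAdjoint.star_eq,
    mul_assoc]

/-- one-sided majority vote -/
theorem majority3 (hA : SO.IsMASA A M) (hξ : IsCState M A ξ) (hE : IsTrExp M A ξ E)
    {z : H →L[ℂ] H} (hz : z ∈ M) (hz1 : ‖z‖ ≤ 1) {c : ℝ} (hc : 0 < c)
    (hzc : ∀ Q : Part A.toStarSubalgebra, c ≤ ∑ j, n2 ξ (E (star z * Q.e j * z))) :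
    ∃ x ∈ M, x ≠ 0 ∧ ‖x‖ ≤ 1 ∧
      (∀ u : nrm M A, (∀ a ∈ A, ∀ a' ∈ A, E (op u * (a * z * a')) = 0) → E (op u * x) = 0) ∧
      (∀ p ∈ A, IsStarProjection p → ∃ p' ∈ A, IsStarProjection p' ∧ p * x = x * p') ∧
      ((∀ p ∈ A, IsStarProjection p → ∃ p' ∈ A, IsStarProjection p' ∧ z * p = p' * z) →
        ∀ p ∈ A, IsStarProjection p → ∃ p' ∈ A, IsStarProjection p' ∧ x * p = p' * x) := by
  have ht := hξ.tr hA
  have hne : Nontrivial H := by
    by_contra h
    rw [not_nontrivial_iff_subsingleton] at h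
    have h1 := hξ.norm_one
    have h2 : ∀ n, ‖ξ n‖ ^ 2 = 0 := by
      intro n
      rw [Subsingleton.elim (ξ n) 0, norm_zero, zero_pow two_ne_zero]
    rw [tsum_congr h2, tsum_zero] at h1
    exact zero_ne_one h1
  have hb : star z ∈ M := star_mem hz
  have hb1 : ‖star z‖ ≤ 1 := by rwa [norm_star]
  have hbc : ∀ Q : Part A.toStarSubalgebra,
      c ≤ ∑ j, n2 ξ (E (star z * Q.e j * star (star z))) := by
    intro Q
    rw [star_star]
    exact hzc Q
  obtain ⟨X, _, _, _, _, _, ⟨S⟩⟩ := exists_spec hA hne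
  obtain ⟨f, K, V, hK⟩ := exists_vote3 hA hξ hE hb hb1 hc hbc S
  obtain ⟨th, T, hth⟩ := V.exists_Th hA hE hb
  obtain ⟨δ, hδ, hδ'⟩ := exists_lower3 V hA hξ hE hb hK T hth
  have hopA : ∀ R : Part A.toStarSubalgebra, OP A fun j => th (R.e j) := fun R =>
    ⟨fun j => T.mem _ (R.mem j) (R.proj j), fun j => T.proj _ (R.mem j) (R.proj j),
      fun i j hij => T.disj _ (R.mem i) (R.proj i) _ (R.mem j) (R.proj j) (R.orth i j hij)⟩
  have hWM : ∀ R, star (VV th f (star z) R) ∈ M := fun R =>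
    star_mem (VV_mem hA V.f_mem V.f_proj T hb R)
  have hW1 : ∀ R, ‖star (VV th f (star z) R)‖ ≤ 1 := fun R => by
    rw [norm_star]
    exact norm_VV hA V.f_mem V.f_proj T hb1 R
  have hWf : ∀ R R' : Part A.toStarSubalgebra, R.Finer R' →
      TT (fun j => f * R'.e j) (fun j => th (R'.e j)) (star (VV th f (star z) R)) =
        star (VV th f (star z) R') := by
    intro R R' hR
    rw [← VV_finer hA V.f_mem V.f_proj T hR,
      star_TT_maj3 (op_th hA T R') (op_f hA V.f_mem V.f_proj R')]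
  obtain ⟨x, hx, hx1, hlim, U, hU, hwot⟩ := net_lim_maj3 ht hA
    (fun R => star (VV th f (star z) R)) zero_le_one hWM hW1 (by
      intro R R' hR
      have h1 := n2_TT_sub3 hA hξ (op_f hA V.f_mem V.f_proj R') (hopA R') (hWM R)
      rw [hWf R R' hR] at h1
      exact h1.le)
  have hWsum : ∀ R : Part A.toStarSubalgebra, star (VV th f (star z) R) =
      ∑ j, f * R.e j * z * th (R.e j) := by
    intro R
    unfold VV
    rw [star_TT_maj3 (op_th hA T R) (op_f hA V.f_mem V.f_proj R), star_star]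
    rfl
  refine ⟨x, hx, ?_, hx1, ?_, ?_, ?_⟩
  · rintro rfl
    obtain ⟨Q, hQ⟩ := hlim (δ / 2) (by positivity)
    have h1 := hQ Q (Part.Finer.refl Q)
    rw [sub_zero] at h1
    have h2 := hδ' Q
    linarith only [h2, h1, hδ]
  · intro u hu
    refine (hE.uniq _ (mul_mem (op_mem u) hx) 0 (zero_mem A) fun a ha => ?_).symm
    rw [zero_mul, vtr_zero]
    refine vtr_lim_zero_maj3 hA hξ (op_mem u) ha hx hWM hW1 hwot fun R => ?_
    rw [hWsum, Finset.mul_sum, Finset.sum_mul, vtr_sum ht]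
    refine Finset.sum_eq_zero fun j _ => ?_
    have hfj : f * R.e j ∈ A := mul_mem V.f_mem (R.mem j)
    have htj : th (R.e j) * a ∈ A := mul_mem (T.mem _ (R.mem j) (R.proj j)) ha
    have e : op u * (f * R.e j * z * th (R.e j)) * a =
        op u * (f * R.e j * z * (th (R.e j) * a)) := by noncomm_ring
    rw [e, ← hE.tr _ (mul_mem (op_mem u) (mul_mem (mul_mem (hA.1 _ hfj) hz) (hA.1 _ htj))),
      hu _ hfj _ htj, vtr_zero]
  · intro p hp hpp
    refine ⟨th p, T.mem p hp hpp, T.proj p hp hpp, (intertwine ?_ hwot).symm⟩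
    filter_upwards [hU (Part.eventually_finer (Part.two p hp hpp))] with R hR
    have h1 := congrArg star (VV_right (b := star z) (f := f) hA T hp hpp hR)
    rw [star_mul, star_mul, hpp.isSelfAdjoint.star_eq,
      (T.proj p hp hpp).isSelfAdjoint.star_eq] at h1
    exact h1.symm
  · intro h p hp hpp
    obtain ⟨p', hp', hpp', h1⟩ := h p hp hpp
    refine ⟨p', hp', hpp', intertwine ?_ hwot⟩
    have h2 : p * star z = star z * p' := by
      have h3 := congrArg star h1
      rw [star_mul, star_mul, hpp.isSelfAdjoint.star_eq, hpp'.isSelfAdjoint.star_eq] at h3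
      exact h3
    refine Eventually.of_forall fun R => ?_
    have h3 := congrArg star (VV_left hA V.f_mem T hp hp' h2 R)
    rw [star_mul, star_mul, hpp.isSelfAdjoint.star_eq, hpp'.isSelfAdjoint.star_eq] at h3
    exact h3

end Vale.Agent.P078.W
end

section
/-! G3: elements orthogonal to the normalizer have small blocks. -/

set_option linter.unusedSectionVars false

namespace Vale.Agent.P078.W

open Filter Topology
open Vale.Agent.P078 Vale.Agent.P078.C Vale.Agent.P078.F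

universe u

variable {H : Type u} [NormedAddCommGroup H] [InnerProductSpace ℂ H] [CompleteSpace H]
variable {M A : VonNeumannAlgebra H} {ξ : ℕ → H} {E : (H →L[ℂ] H) →ₗ[ℂ] (H →L[ℂ] H)}

/-- orthogonality to the normalizer is stable under `A`-bimodule operations -/
theorem orth_bimod3 (hA : SO.IsMASA A M) (hξ : IsCState M A ξ) (hE : IsTrExp M A ξ E)
    {z : H →L[ℂ] H} (hz : z ∈ M) (horth : ∀ u : nrm M A, E (op u * z) = 0)
    (u : nrm M A) {a a' : H →L[ℂ] H} (ha : a ∈ A) (ha' : a' ∈ A) :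
    E (op u * (a * z * a')) = 0 := by
  have h1 : op u * (a * z * a') = (op u * a * star (op u)) * (op u * z) * a' := by
    have h2 : (op u * a * star (op u)) * (op u * z) * a' =
        op u * a * (star (op u) * op u) * z * a' := by noncomm_ring
    rw [h2, star_op_mul, mul_one]
    noncomm_ring
  rw [h1, hE.bimod _ (conj_mem u ha) _ ha' _ (mul_mem (op_mem u) hz), horth u, mul_zero, zero_mul]

/-- orthogonality to the normalizer is stable under adjoints -/
theorem orth_star3 (hA : SO.IsMASA A M) (hξ : IsCState M A ξ) (hE : IsTrExp M A ξ E)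
    {z : H →L[ℂ] H} (hz : z ∈ M) (horth : ∀ u : nrm M A, E (op u * z) = 0) (u : nrm M A) :
    E (op u * star z) = 0 := by
  have h1 : op u * star z = star (z * star (op u)) := by rw [star_mul, star_star]
  have h2 : z * star (op u) = op u * (star (op u) * z) * star (op u) := by
    rw [← mul_assoc, op_mul_star, one_mul]
  have h3 : E (z * star (op u)) = 0 := by
    rw [h2, exp_cov hA hξ hE u (mul_mem (star_op_mem u) hz)]
    have h4 := horth u⁻¹
    rw [op_inv] at h4
    rw [h4, mul_zero, zero_mul]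
  rw [h1, hE.star _ (mul_mem hz (star_op_mem u)), h3, star_zero]

/-- orthogonality to the normalizer is stable under multiplication by the normalizer -/
theorem orth_nrm3 (hA : SO.IsMASA A M) (hξ : IsCState M A ξ) (hE : IsTrExp M A ξ E)
    {z : H →L[ℂ] H} (hz : z ∈ M) (horth : ∀ u : nrm M A, E (op u * z) = 0) (u v w : nrm M A) :
    E (op u * (op v * z * star (op w))) = 0 := by
  have h1 : op u * (op v * z * star (op w)) =
      op w * (op (w⁻¹ * u * v) * z) * star (op w) := by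
    rw [op_mul, op_mul, op_inv]
    have h2 : op w * (star (op w) * op u * op v * z) * star (op w) =
        (op w * star (op w)) * (op u * op v * z) * star (op w) := by noncomm_ring
    rw [h2, op_mul_star, one_mul]
    noncomm_ring
  rw [h1, exp_cov hA hξ hE w (mul_mem (op_mem _) hz), horth, mul_zero, zero_mul]

namespace B3

theorem n2_smul3 (hξ : IsTrace A ξ) (s : ℝ) (y : H →L[ℂ] H) :
    n2 ξ ((s : ℂ) • y) = s ^ 2 * n2 ξ y := by
  rw [n2_eq hξ, n2_eq hξ, star_smul, Complex.star_def, Complex.conj_ofReal,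
    smul_mul_smul_comm, vtr_smul hξ, ← Complex.ofReal_mul, Complex.re_ofReal_mul]
  ring

/-- second moments of the blocks decrease under refinement -/
theorem sum_mono3 (hA : SO.IsMASA A M) (hξ : IsCState M A ξ) {x : H →L[ℂ] H}
    (hin : ∀ e ∈ A, x * e * star x ∈ A) {Q R : Part A.toStarSubalgebra} (h : Q.Finer R) :
    ∑ j, n2 ξ (x * R.e j * star x) ≤ ∑ i, n2 ξ (x * Q.e i * star x) := by
  classical
  have ht := hξ.tr hA
  have hQR : ∀ i j, IsStarProjection (Q.e i * R.e j) := fun i j =>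
    (Q.proj i).mul (R.proj j) (hA.2.1 _ (Q.mem i) _ (R.mem j))
  have hmem : ∀ i j, Q.e i * R.e j ∈ A := fun i j => mul_mem (Q.mem i) (R.mem j)
  obtain ⟨X, hX⟩ : ∃ X : Q.ι → R.ι → (H →L[ℂ] H),
      ∀ i j, X i j = x * (Q.e i * R.e j) * star x := ⟨_, fun _ _ => rfl⟩
  have hXA : ∀ i j, X i j ∈ A := fun i j => by rw [hX]; exact hin _ (hmem i j)
  have hX0 : ∀ i j, 0 ≤ X i j := fun i j => by
    rw [hX]; exact Mj.conj_nonneg x (hQR i j).nonneg
  have hsumX : ∀ i, x * Q.e i * star x = ∑ j, X i j := by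
    intro i
    simp only [hX]
    rw [← Finset.sum_mul, ← Finset.mul_sum, ← Finset.mul_sum, R.sum_eq, mul_one]
  have h1 : ∀ i, ∑ j, n2 ξ (X i j) ≤ n2 ξ (x * Q.e i * star x) := by
    intro i
    rw [hsumX i, n2_eq ht, star_sum, Finset.sum_mul, vtr_sum ht, Complex.re_sum]
    refine Finset.sum_le_sum fun j _ => ?_
    rw [n2_eq ht, Finset.mul_sum, vtr_sum ht, Complex.re_sum]
    refine Finset.single_le_sum (f := fun k => (vtr ξ (star (X i j) * X i k)).re)
      (fun k _ => ?_) (Finset.mem_univ j)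
    rw [(IsSelfAdjoint.of_nonneg (hX0 i j)).star_eq]
    exact vtr_mul_nonneg ht (hXA i j) (hXA i k) (hX0 i j) (hX0 i k)
  have h2 : ∀ j, n2 ξ (x * R.e j * star x) ≤ ∑ i, n2 ξ (X i j) := by
    intro j
    by_cases h3 : ∃ i, Q.e i * R.e j = R.e j
    · obtain ⟨i, hi⟩ := h3
      refine le_trans (le_of_eq ?_) (Finset.single_le_sum (f := fun i => n2 ξ (X i j))
        (fun k _ => n2_nonneg _ _) (Finset.mem_univ i))
      simp only [hX]
      rw [hi]
    · push Not at h3
      have h4 : R.e j = 0 := by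
        have h5 : R.e j = ∑ i, Q.e i * R.e j := by rw [← Finset.sum_mul, Q.sum_eq, one_mul]
        rw [h5]
        exact Finset.sum_eq_zero fun i _ => (h i j).resolve_left (h3 i)
      rw [h4, mul_zero, zero_mul]
      refine le_trans (le_of_eq ?_) (Finset.sum_nonneg fun i _ => n2_nonneg _ _)
      simp [n2]
  refine (Finset.sum_le_sum fun j _ => h2 j).trans ?_
  rw [Finset.sum_comm]
  exact Finset.sum_le_sum fun i _ => h1 i

/-- the second moments of the blocks in terms of the block-diagonal part of `x* x` -/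
theorem sum_eq3 (hA : SO.IsMASA A M) (hξ : IsCState M A ξ) (x : H →L[ℂ] H)
    (Q : Part A.toStarSubalgebra) :
    ∑ i, n2 ξ (x * Q.e i * star x) = (vtr ξ (x * Q.E (star x * x) * star x)).re := by
  have ht := hξ.tr hA
  have h1 : ∀ i, n2 ξ (x * Q.e i * star x) =
      (vtr ξ (x * (Q.e i * (star x * x) * Q.e i) * star x)).re := by
    intro i
    rw [n2_eq ht, star_mul, star_mul, star_star, (Q.proj i).isSelfAdjoint.star_eq]
    simp only [mul_assoc]
  rw [Finset.sum_congr rfl fun i _ => h1 i, ← Complex.re_sum, ← vtr_sum ht, Part.E_apply,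
    Finset.mul_sum, Finset.sum_mul]

/-- the limit of the second moments is positive -/
theorem exists_low3 (hA : SO.IsMASA A M) (hξ : IsCState M A ξ) (hE : IsTrExp M A ξ E)
    {x : H →L[ℂ] H} (hx : x ∈ M) (hx0 : x ≠ 0) (hin : ∀ e ∈ A, x * e * star x ∈ A) :
    ∃ c : ℝ, 0 < c ∧ ∀ Q : Part A.toStarSubalgebra, c ≤ ∑ i, n2 ξ (x * Q.e i * star x) := by
  have hAs := SO.IsMASA.toStar hA
  have := Part.filter_neBot hAs.2.1
  have ht := hξ.tr hA
  have hB : star x * x ∈ M := mul_mem (star_mem hx) hx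
  have hEB : E (star x * x) ∈ A := hE.mem _ hB
  have hEB0 : 0 ≤ E (star x * x) := hE.nonneg _ hB (star_mul_self_nonneg x)
  refine ⟨(vtr ξ (x * E (star x * x) * star x)).re, ?_, fun Q => ?_⟩
  · have h0 : 0 ≤ (vtr ξ (x * E (star x * x) * star x)).re :=
      (vtr_nonneg ht (Mj.conj_nonneg x hEB0)).1
    refine lt_of_le_of_ne h0 fun h => hx0 ?_
    obtain ⟨S, hS⟩ : ∃ S, S = CFC.sqrt (E (star x * x)) := ⟨_, rfl⟩
    have hSA : S ∈ A := by rw [hS]; exact sqrt_mem A hEB
    have hSS : S * S = E (star x * x) := by rw [hS]; exact CFC.sqrt_mul_sqrt_self _ hEB0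
    have hSs : star S = S := by
      rw [hS]; exact (IsSelfAdjoint.of_nonneg (CFC.sqrt_nonneg _)).star_eq
    have h1 : n2 ξ (S * star x) = 0 := by
      rw [n2_eq ht, star_mul, star_star, hSs, h]
      congr 2
      rw [← hSS]
      noncomm_ring
    have h2 : S * star x = 0 :=
      hξ.eq_zero hA (mul_mem (hA.1 _ hSA) (star_mem hx)) h1
    have h3 : E (star x * x) * (star x * x) = 0 := by
      rw [← hSS]
      have h4 : S * S * (star x * x) = S * (S * star x) * x := by noncomm_ring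
      rw [h4, h2, mul_zero, zero_mul]
    have h5 : E (star x * x) * E (star x * x) = 0 := by
      rw [← E_mul_left hA hE hEB hB, h3, map_zero]
    have h6 : E (star x * x) = 0 := by
      refine hξ.eq_zero hA (hA.1 _ hEB) ?_
      rw [n2_eq ht, (IsSelfAdjoint.of_nonneg hEB0).star_eq, h5, vtr_zero, Complex.zero_re]
    refine hξ.eq_zero hA hx ?_
    rw [n2_eq ht, ← hE.tr _ hB, h6, vtr_zero, Complex.zero_re]
  · have hb : WCont M fun y => vtr ξ (x * y * star x) :=
      ((hξ.wcont hA).mul_right (star_mem hx)).mul_left hx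
    have h1 := hb ‖star x * x‖ (E (star x * x))
      (Filter.map (fun Q : Part A.toStarSubalgebra => Q.E (star x * x))
        (Part.filter A.toStarSubalgebra)) (hA.1 _ hEB)
      (by
        rw [eventually_map]
        exact Eventually.of_forall fun Q => ⟨Q.E_mem hAs.1 hB, Q.norm_E_le _⟩)
      (by
        intro a b
        rw [tendsto_map'_iff]
        exact tendsto_part_E hA hξ hE hB a b)
    rw [tendsto_map'_iff] at h1
    have h2 := (Complex.continuous_re.tendsto _).comp h1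
    refine le_of_tendsto h2 ?_
    filter_upwards [Part.eventually_finer Q] with R hR
    simp only [Function.comp_apply]
    rw [← sum_eq3 hA hξ]
    exact sum_mono3 hA hξ hin hR

end B3

/-- the masses of the blocks of the expectations of an element without atoms -/
theorem exists_left3 (hA : SO.IsMASA A M) (hξ : IsCState M A ξ) (hE : IsTrExp M A ξ E)
    {z : H →L[ℂ] H} (hz : z ∈ M) (horth : ∀ u : nrm M A, E (op u * z) = 0) {ε : ℝ}
    (hε : 0 < ε) : ∃ t : Part A.toStarSubalgebra, ∑ i, n2 ξ (E (star z * t.e i * z)) ≤ ε := by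
  by_contra hcon
  push Not at hcon
  have hAs := SO.IsMASA.toStar hA
  have ht := hξ.tr hA
  -- scaling
  obtain ⟨t, ht0, hbt⟩ : ∃ t : ℝ, 0 < t ∧ ‖(t : ℂ) • z‖ ≤ 1 := by
    refine ⟨(1 + ‖z‖)⁻¹, by (clear * -; positivity), ?_⟩
    rw [norm_smul, Complex.norm_real, Real.norm_eq_abs, abs_of_pos (by (clear * -; positivity)),
      inv_mul_le_iff₀ (by positivity)]
    linarith
  obtain ⟨b, hbdef⟩ : ∃ b : H →L[ℂ] H, b = (t : ℂ) • z := ⟨_, rfl⟩
  rw [← hbdef] at hbt
  have hbM : b ∈ M := by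
    rw [hbdef]
    exact Mj.smul_mem' _ hz
  have hborth : ∀ u : nrm M A, E (op u * b) = 0 := by
    intro u
    rw [hbdef, mul_smul_comm, map_smul, horth u, smul_zero]
  have hc : 0 < t ^ 4 * ε := by positivity
  have hD : ∀ Q : Part A.toStarSubalgebra,
      t ^ 4 * ε ≤ ∑ i, n2 ξ (E (star b * Q.e i * b)) := by
    intro Q
    have h1 : ∀ i, n2 ξ (E (star b * Q.e i * b)) = t ^ 4 * n2 ξ (E (star z * Q.e i * z)) := by
      intro i
      have h2 : star b * Q.e i * b = ((t ^ 2 : ℝ) : ℂ) • (star z * Q.e i * z) := by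
        rw [hbdef, star_smul, Complex.star_def, Complex.conj_ofReal, smul_mul_assoc,
          smul_mul_smul_comm]
        congr 1
        push_cast
        ring
      rw [h2, map_smul, B3.n2_smul3 ht]
      ring
    simp_rw [h1, ← Finset.mul_sum]
    exact mul_le_mul_of_nonneg_left (hcon Q).le (by positivity)
  -- first vote
  obtain ⟨x1, hx1M, hx10, hx1n, hx1o, hx1r, -⟩ := majority3 hA hξ hE hbM hbt hc hD
  have hx1orth : ∀ u : nrm M A, E (op u * x1) = 0 := fun u =>
    hx1o u fun a ha a' ha' => orth_bimod3 hA hξ hE hbM hborth u ha ha'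
  -- the adjoint
  have hsx1 : star x1 ∈ M := star_mem hx1M
  have hleft : ∀ p ∈ A, IsStarProjection p → ∃ p' ∈ A, IsStarProjection p' ∧
      star x1 * p = p' * star x1 := by
    intro p hp hpp
    obtain ⟨p', hp', hpp', h⟩ := hx1r p hp hpp
    refine ⟨p', hp', hpp', ?_⟩
    have h1 := congrArg star h
    rw [star_mul, star_mul, hpp.isSelfAdjoint.star_eq, hpp'.isSelfAdjoint.star_eq] at h1
    exact h1
  have hin : ∀ e ∈ A, x1 * e * star x1 ∈ A := by
    intro e he
    refine hA.2.2 _ (mul_mem (mul_mem hx1M (hA.1 _ he)) hsx1) ?_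
    intro a ha
    refine (hAs.comm_of_proj (y := x1 * e * star x1) ?_ a ha).symm
    intro p hp hpp
    obtain ⟨p', hp', hpp', h⟩ := hx1r p hp hpp
    have h1 := congrArg star h
    rw [star_mul, star_mul, hpp.isSelfAdjoint.star_eq, hpp'.isSelfAdjoint.star_eq] at h1
    symm
    calc p * (x1 * e * star x1) = (p * x1) * e * star x1 := by simp only [mul_assoc]
      _ = x1 * (p' * e) * star x1 := by rw [h]; simp only [mul_assoc]
      _ = x1 * (e * p') * star x1 := by rw [hA.2.1 p' hp' e he]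
      _ = x1 * e * (p' * star x1) := by simp only [mul_assoc]
      _ = x1 * e * star x1 * p := by rw [← h1]; simp only [mul_assoc]
  obtain ⟨c, hc0, hlow⟩ := B3.exists_low3 hA hξ hE hx1M hx10 hin
  -- second vote
  obtain ⟨x2, hx2M, hx20, -, hx2o, hx2r, hx2l⟩ :=
    majority3 hA hξ hE hsx1 (by rwa [norm_star]) hc0 (fun Q => by
      refine (hlow Q).trans (le_of_eq (Finset.sum_congr rfl fun i _ => ?_))
      rw [star_star, hE.idem _ (hin _ (Q.mem i))])
  have hx2orth : ∀ u : nrm M A, E (op u * x2) = 0 := fun u =>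
    hx2o u fun a ha a' ha' =>
      orth_bimod3 hA hξ hE hsx1 (orth_star3 hA hξ hE hx1M hx1orth) u ha ha'
  obtain ⟨u, hu⟩ := exists_nrm_of_normalizing hA hξ hE hx2M hx20 (hx2l hleft) hx2r
  exact hu (hx2orth u)

end Vale.Agent.P078.W
end

section
/-! G3: elements orthogonal to the normalizer have small blocks; splitting of the blocks. -/

set_option linter.unusedSectionVars false

namespace Vale.Agent.P078.W

open Filter Topology
open Vale.Agent.P078 Vale.Agent.P078.C Vale.Agent.P078.F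

universe u

variable {H : Type u} [NormedAddCommGroup H] [InnerProductSpace ℂ H] [CompleteSpace H]
variable {M A : VonNeumannAlgebra H} {ξ : ℕ → H} {E : (H →L[ℂ] H) →ₗ[ℂ] (H →L[ℂ] H)}

private theorem b3_op (Q : Part A.toStarSubalgebra) : Mj.OP A Q.e :=
  ⟨fun j => Q.mem j, Q.proj, Q.orth⟩

/-- the norm of the block-diagonal part -/
private theorem b3_n2_part_E (hξ : IsTrace A ξ) (Q : Part A.toStarSubalgebra)
    (x : H →L[ℂ] H) : n2 ξ (Q.E x) = ∑ i, n2 ξ (Q.e i * x * Q.e i) :=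
  Mj.n2_TT hξ (b3_op Q) x

/-- orthogonal left blocks -/
private theorem b3_n2_left (hξ : IsTrace A ξ) (Q : Part A.toStarSubalgebra)
    (y : H →L[ℂ] H) : ∑ i, n2 ξ (Q.e i * y) = n2 ξ y := by
  have h := Mj.n2_TT (h := fun _ => (1 : H →L[ℂ] H)) hξ (b3_op Q) y
  have h1 : Mj.TT Q.e (fun _ => (1 : H →L[ℂ] H)) y = y := by
    unfold Mj.TT
    simp only [mul_one]
    rw [← Finset.sum_mul, Q.sum_eq, one_mul]
  rw [h1] at h
  rw [h]
  simp only [mul_one]

/-- right blocks -/
private theorem b3_n2_right (hA : SO.IsMASA A M) (hξ : IsCState M A ξ)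
    (Q : Part A.toStarSubalgebra) {y : H →L[ℂ] H} (hy : y ∈ M) :
    ∑ j, n2 ξ (y * Q.e j) = n2 ξ y := by
  have ht := hξ.tr hA
  have h3 : ∀ j, n2 ξ (y * Q.e j) = (vtr ξ (star y * y * Q.e j)).re := by
    intro j
    have hPj : Q.e j ∈ M := hA.1 _ (Q.mem j)
    rw [n2_eq ht, star_mul, (Q.proj j).isSelfAdjoint.star_eq, mul_assoc,
      hξ.central (Q.e j) (Q.mem j) _ (mul_mem (star_mem hy) (mul_mem hy hPj))]
    congr 2
    rw [← mul_assoc, mul_assoc, Q.e_mul_self]
  rw [Finset.sum_congr rfl fun j _ => h3 j, ← Complex.re_sum, ← vtr_sum ht, ← Finset.mul_sum,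
    Q.sum_eq, mul_one, ← n2_eq ht]

/-- the block-diagonal part and the expectation -/
private theorem b3_n2_sub_E (hA : SO.IsMASA A M) (hξ : IsCState M A ξ) (hE : IsTrExp M A ξ E)
    (Q : Part A.toStarSubalgebra) {z : H →L[ℂ] H} (hz : z ∈ M) :
    n2 ξ (Q.E z - E z) = n2 ξ (Q.E z) - n2 ξ (E z) := by
  have ht := hξ.tr hA
  have hAs := SO.IsMASA.toStar hA
  have hQz : Q.E z ∈ M := Q.E_mem hAs.1 hz
  have hEz : E z ∈ A := hE.mem z hz
  have hEzM : E z ∈ M := hA.1 _ hEz
  have h1 : E (Q.E z) = E z := by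
    rw [Part.E_apply, map_sum]
    have h2 : ∀ i, E (Q.e i * z * Q.e i) = E z * Q.e i := by
      intro i
      rw [hE.bimod _ (Q.mem i) _ (Q.mem i) z hz, hA.2.1 _ (Q.mem i) _ hEz, mul_assoc,
        Q.e_mul_self]
    rw [Finset.sum_congr rfl fun i _ => h2 i, ← Finset.mul_sum, Q.sum_eq, mul_one]
  have h3 : vtr ξ (star (E z) * Q.E z) = vtr ξ (star (E z) * E z) := by
    rw [← hE.tr _ (mul_mem (star_mem hEzM) hQz)]
    have h4 := hE.bimod (star (E z)) (star_mem hEz) 1 (one_mem A) (Q.E z) hQz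
    rw [mul_one, mul_one, h1] at h4
    rw [h4]
  rw [Mj.n2_sub ht, h3, n2_eq ht (E z)]
  ring

/-- elements orthogonal to the normalizer have small blocks -/
theorem small_blocks3 (hA : SO.IsMASA A M) (hξ : IsCState M A ξ) (hE : IsTrExp M A ξ E)
    {z : H →L[ℂ] H} (hz : z ∈ M) (horth : ∀ u : nrm M A, E (op u * z) = 0) {ε : ℝ}
    (hε : 0 < ε) :
    ∃ t s : Part A.toStarSubalgebra, ∑ i, ∑ j, n4 ξ (t.e i * z * s.e j) ≤ ε := by
  have hAs := SO.IsMASA.toStar hA
  have ht := hξ.tr hA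
  have := Part.filter_neBot hAs.2.1
  obtain ⟨t, htε⟩ := exists_left3 hA hξ hE hz horth (half_pos hε)
  obtain ⟨δ, hδ, hδ'⟩ : ∃ δ : ℝ, 0 < δ ∧ (Fintype.card t.ι : ℝ) * δ ≤ ε / 2 := by
    refine ⟨ε / 2 / (Fintype.card t.ι + 1), by positivity, ?_⟩
    rw [mul_div_assoc', div_le_iff₀ (by (clear * -; positivity))]
    linarith only [hε]
  have htM : ∀ i, t.e i ∈ M := fun i => hA.1 _ (t.mem i)
  have hX : ∀ i, star z * t.e i * z ∈ M := fun i => mul_mem (mul_mem (star_mem hz) (htM i)) hz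
  have h1 : ∀ i : t.ι, ∀ᶠ J in Part.filter A.toStarSubalgebra,
      n2 ξ (J.E (star z * t.e i * z) - E (star z * t.e i * z)) ≤ δ := by
    intro i
    obtain ⟨Q, hQ⟩ := pinch_lim3 hA hξ hE (hX i) hδ
    filter_upwards [Part.eventually_finer Q] with J hJ
    exact hQ J hJ
  obtain ⟨s, hs⟩ := (eventually_all.2 h1).exists
  refine ⟨t, s, ?_⟩
  have h2 : ∀ i, ∑ j, n4 ξ (t.e i * z * s.e j) ≤ n2 ξ (E (star z * t.e i * z)) + δ := by
    intro i
    have h3 : ∀ j, n4 ξ (t.e i * z * s.e j) = n2 ξ (s.e j * (star z * t.e i * z) * s.e j) := by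
      intro j
      unfold n4
      congr 1
      rw [star_mul, star_mul, (t.proj i).isSelfAdjoint.star_eq, (s.proj j).isSelfAdjoint.star_eq]
      have h4 : s.e j * (star z * t.e i) * (t.e i * z * s.e j) =
          s.e j * (star z * (t.e i * t.e i) * z) * s.e j := by simp only [mul_assoc]
      rw [h4, t.e_mul_self]
    rw [Finset.sum_congr rfl fun j _ => h3 j, ← b3_n2_part_E ht]
    have h5 := b3_n2_sub_E hA hξ hE s (hX i)
    have h6 := hs i
    (clear horth ε hε ht htε hδ hδ' h1 h3; linarith only [h6, h5])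
  refine (Finset.sum_le_sum fun i _ => h2 i).trans ?_
  rw [Finset.sum_add_distrib, Finset.sum_const, Finset.card_univ, nsmul_eq_mul]
  linarith

/-- a block of a finer partition lies below a block of the coarser one -/
private theorem b3_below [Nontrivial (H →L[ℂ] H)] (hA : SO.IsMASA A M)
    {Q t : Part A.toStarSubalgebra} (h : Q.Finer t) (i : t.ι) : ∃ k, t.e i * Q.e k = t.e i := by
  have hAs := SO.IsMASA.toStar hA
  by_contra hcon
  push Not at hcon
  have h0 : ∀ k, t.e i * Q.e k = 0 := by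
    intro k
    rcases h k i with h4 | h4
    · exact absurd ((hAs.2.1 _ (t.mem i) _ (Q.mem k)).trans h4) (hcon k)
    · rw [hAs.2.1 _ (t.mem i) _ (Q.mem k), h4]
  have h3 : t.e i = ∑ k, t.e i * Q.e k := by rw [← Finset.mul_sum, Q.sum_eq, mul_one]
  have h5 : t.e i = 0 := by
    rw [h3]
    exact Finset.sum_eq_zero fun k _ => h0 k
  have h6 : Nonempty Q.ι := by
    by_contra h7
    rw [not_nonempty_iff] at h7
    have h8 := Q.sum_eq
    rw [Finset.univ_eq_empty, Finset.sum_empty] at h8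
    exact zero_ne_one h8
  obtain ⟨k⟩ := h6
  exact hcon k (by rw [h0 k, h5])

private theorem b3_norm_proj {e : H →L[ℂ] H} (he : IsStarProjection e) : ‖e‖ ≤ 1 :=
  ContinuousLinearMap.opNorm_le_bound _ zero_le_one fun v => by
    rw [one_mul]
    exact norm_proj_le he v

private theorem b3_conj_mono {a b c : H →L[ℂ] H} (h : a ≤ b) :
    star c * a * c ≤ star c * b * c := star_left_conjugate_le_conjugate h c

/-- splitting of the blocks of a fine partition into a part of small norm and a part which is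
small for the state -/
theorem blk_dec3 (hA : SO.IsMASA A M) (hξ : IsCState M A ξ) (hE : IsTrExp M A ξ E)
    {z : H →L[ℂ] H} (hz : z ∈ M) (hz1 : ‖z‖ ≤ 1) (horth : ∀ u : nrm M A, E (op u * z) = 0)
    {κ ε : ℝ} (hκ : 0 < κ) (hε : 0 < ε) :
    ∃ t₀ : Part A.toStarSubalgebra, ∀ t : Part A.toStarSubalgebra, t₀.Finer t →
      ∃ z' z'' : t.ι → t.ι → (H →L[ℂ] H), (∀ i j, z' i j ∈ M) ∧ (∀ i j, z'' i j ∈ M) ∧
        (∀ i j, t.e i * z * t.e j = z' i j + z'' i j) ∧ (∀ i j, ‖z' i j‖ ≤ κ) ∧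
        (∀ j, ∑ i, star (z'' i j) * z'' i j ≤ t.e j) ∧ ∑ i, ∑ j, n2 ξ (z'' i j) ≤ ε := by
  have hAs := SO.IsMASA.toStar hA
  have ht := hξ.tr hA
  rcases subsingleton_or_nontrivial (H →L[ℂ] H) with hsub | hnt
  · refine ⟨Part.trivialPart _, fun t _ => ⟨fun _ _ => 0, fun _ _ => 0, fun _ _ => zero_mem M,
      fun _ _ => zero_mem M, fun _ _ => Subsingleton.elim _ _, fun _ _ => ?_,
      fun j => (Subsingleton.elim _ _ : _ = t.e j).le, ?_⟩⟩
    · rw [norm_zero]
      exact hκ.le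
    · have h0 : n2 ξ (0 : H →L[ℂ] H) = 0 := by
        unfold n2
        simp only [zero_apply, norm_zero, ne_eq, OfNat.ofNat_ne_zero, not_false_eq_true, zero_pow, tsum_zero]
      simp only [h0, Finset.sum_const_zero]
      exact hε.le
  obtain ⟨t1, s1, h1⟩ := small_blocks3 hA hξ hE hz horth (mul_pos hε (pow_pos hκ 2))
  have ht1M : ∀ i, t1.e i ∈ M := fun i => hA.1 _ (t1.mem i)
  have hs1M : ∀ i, s1.e i ∈ M := fun i => hA.1 _ (s1.mem i)
  have hxM : ∀ k l, t1.e k * z * s1.e l ∈ M := fun k l => mul_mem (mul_mem (ht1M k) hz) (hs1M l)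
  choose x' x'' hx' hx'' hsum hnorm hle hn2 using fun k l => exists_trunc3 ht (hxM k l) hκ
  refine ⟨t1.inf hAs.2.1 s1, fun t htf => ?_⟩
  have hft := Part.finer_of_inf_left hAs.2.1 htf
  have hfs := Part.finer_of_inf_right hAs.2.1 htf
  choose kf hkf using fun i => b3_below hA hft i
  choose lf hlf using fun j => b3_below hA hfs j
  have htM : ∀ i, t.e i ∈ M := fun i => hA.1 _ (t.mem i)
  have hlf' : ∀ j, s1.e (lf j) * t.e j = t.e j := fun j =>
    (hAs.2.1 _ (s1.mem _) _ (t.mem j)).trans (hlf j)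
  have hst : ∀ i, star (t.e i) = t.e i := fun i => (t.proj i).isSelfAdjoint.star_eq
  have hst1 : ∀ i, star (t1.e i) = t1.e i := fun i => (t1.proj i).isSelfAdjoint.star_eq
  have hss1 : ∀ i, star (s1.e i) = s1.e i := fun i => (s1.proj i).isSelfAdjoint.star_eq
  refine ⟨fun i j => t.e i * x' (kf i) (lf j) * t.e j, fun i j => t.e i * x'' (kf i) (lf j) * t.e j,
    fun i j => mul_mem (mul_mem (htM i) (hx' _ _)) (htM j),
    fun i j => mul_mem (mul_mem (htM i) (hx'' _ _)) (htM j), ?_, ?_, ?_, ?_⟩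
  · intro i j
    have h2 : t.e i * z * t.e j = t.e i * (t1.e (kf i) * z * s1.e (lf j)) * t.e j := by
      conv_lhs => rw [← hkf i, ← hlf' j]
      simp only [mul_assoc]
    rw [h2, hsum, mul_add, add_mul]
  · intro i j
    calc ‖t.e i * x' (kf i) (lf j) * t.e j‖ ≤ ‖t.e i‖ * ‖x' (kf i) (lf j)‖ * ‖t.e j‖ :=
          (norm_mul_le _ _).trans (mul_le_mul_of_nonneg_right (norm_mul_le _ _) (norm_nonneg _))
      _ ≤ 1 * κ * 1 := by
          refine mul_le_mul ?_ (b3_norm_proj (t.proj j)) (norm_nonneg _) (by positivity)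
          exact mul_le_mul (b3_norm_proj (t.proj i)) (hnorm _ _) (norm_nonneg _) zero_le_one
      _ = κ := by ring
  · intro j
    -- every term is at most the sum over all blocks of `t1`
    have h2 : ∀ i, star (t.e i * x'' (kf i) (lf j) * t.e j) * (t.e i * x'' (kf i) (lf j) * t.e j) ≤
        ∑ k, star (x'' k (lf j) * t.e j) * t.e i * (x'' k (lf j) * t.e j) := by
      intro i
      have h3 : star (t.e i * x'' (kf i) (lf j) * t.e j) * (t.e i * x'' (kf i) (lf j) * t.e j) =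
          star (x'' (kf i) (lf j) * t.e j) * t.e i * (x'' (kf i) (lf j) * t.e j) := by
        rw [star_mul, star_mul, star_mul, hst, hst]
        have h4 : t.e j * (star (x'' (kf i) (lf j)) * t.e i) * (t.e i * x'' (kf i) (lf j) * t.e j) =
            t.e j * star (x'' (kf i) (lf j)) * (t.e i * t.e i) * (x'' (kf i) (lf j) * t.e j) := by
          simp only [mul_assoc]
        rw [h4, t.e_mul_self]
      rw [h3]
      refine Finset.single_le_sum (f := fun k =>
        star (x'' k (lf j) * t.e j) * t.e i * (x'' k (lf j) * t.e j)) (fun k _ => ?_)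
        (Finset.mem_univ (kf i))
      exact star_left_conjugate_nonneg (t.proj i).nonneg _
    refine (Finset.sum_le_sum fun i _ => h2 i).trans ?_
    rw [Finset.sum_comm]
    have h5 : ∀ k, ∑ i, star (x'' k (lf j) * t.e j) * t.e i * (x'' k (lf j) * t.e j) ≤
        star (t.e j) * (s1.e (lf j) * (star z * t1.e k * z) * s1.e (lf j)) * t.e j := by
      intro k
      rw [← Finset.sum_mul, ← Finset.mul_sum, t.sum_eq, mul_one]
      have h6 : star (x'' k (lf j) * t.e j) * (x'' k (lf j) * t.e j) =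
          star (t.e j) * (star (x'' k (lf j)) * x'' k (lf j)) * t.e j := by
        rw [star_mul]
        simp only [mul_assoc]
      rw [h6]
      refine b3_conj_mono ((hle k (lf j)).trans (le_of_eq ?_))
      rw [star_mul, star_mul, hst1, hss1]
      have h7 : s1.e (lf j) * (star z * t1.e k) * (t1.e k * z * s1.e (lf j)) =
          s1.e (lf j) * (star z * (t1.e k * t1.e k) * z) * s1.e (lf j) := by
        simp only [mul_assoc]
      rw [h7, t1.e_mul_self]
    refine (Finset.sum_le_sum fun k _ => h5 k).trans ?_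
    have h8 : ∑ k, star (t.e j) * (s1.e (lf j) * (star z * t1.e k * z) * s1.e (lf j)) * t.e j =
        star (t.e j) * (star z * z) * t.e j := by
      have h9 : ∀ k, star (t.e j) * (s1.e (lf j) * (star z * t1.e k * z) * s1.e (lf j)) * t.e j =
          (t.e j * star z) * t1.e k * (z * t.e j) := by
        intro k
        rw [hst]
        have h10 : t.e j * (s1.e (lf j) * (star z * t1.e k * z) * s1.e (lf j)) * t.e j =
            (t.e j * s1.e (lf j)) * (star z * t1.e k * z) * (s1.e (lf j) * t.e j) := by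
          simp only [mul_assoc]
        rw [h10, hlf, hlf']
        simp only [mul_assoc]
      rw [Finset.sum_congr rfl fun k _ => h9 k, ← Finset.sum_mul, ← Finset.mul_sum, t1.sum_eq,
        mul_one, hst]
      simp only [mul_assoc]
    rw [h8]
    have h11 : star z * z ≤ 1 := by
      have h12 := (IsSelfAdjoint.star_mul_self z).le_algebraMap_norm_self
      rw [CStarRing.norm_star_mul_self] at h12
      refine h12.trans ?_
      rw [← map_one (algebraMap ℝ (H →L[ℂ] H))]
      exact algebraMap_mono _ (by linarith only [mul_nonneg (sub_nonneg.2 hz1) (sub_nonneg.2 (norm_nonneg z)), mul_nonneg (sub_nonneg.2 hz1) (sub_nonneg.2 hz1)])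
    refine (b3_conj_mono h11).trans (le_of_eq ?_)
    rw [mul_one, hst, t.e_mul_self]
  · have h2 : ∀ i j, n2 ξ (t.e i * x'' (kf i) (lf j) * t.e j) ≤
        ∑ k, ∑ l, n2 ξ (t.e i * (x'' k l * t.e j)) := by
      intro i j
      rw [mul_assoc]
      refine le_trans ?_ (Finset.single_le_sum (f := fun k => ∑ l, n2 ξ (t.e i * (x'' k l * t.e j)))
        (fun k _ => Finset.sum_nonneg fun l _ => n2_nonneg _ _) (Finset.mem_univ (kf i)))
      exact Finset.single_le_sum (f := fun l => n2 ξ (t.e i * (x'' (kf i) l * t.e j)))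
        (fun l _ => n2_nonneg _ _) (Finset.mem_univ (lf j))
    refine (Finset.sum_le_sum fun i _ => Finset.sum_le_sum fun j _ => h2 i j).trans ?_
    have h3 : ∑ i, ∑ j, ∑ k, ∑ l, n2 ξ (t.e i * (x'' k l * t.e j)) =
        ∑ k, ∑ l, ∑ j, ∑ i, n2 ξ (t.e i * (x'' k l * t.e j)) := by
      rw [Finset.sum_congr rfl fun i _ => Finset.sum_comm, Finset.sum_comm]
      refine Finset.sum_congr rfl fun k _ => ?_
      rw [Finset.sum_congr rfl fun i _ => Finset.sum_comm, Finset.sum_comm]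
      refine Finset.sum_congr rfl fun l _ => ?_
      rw [Finset.sum_comm]
    rw [h3]
    have h4 : ∀ k l, ∑ j, ∑ i, n2 ξ (t.e i * (x'' k l * t.e j)) ≤
        n4 ξ (t1.e k * z * s1.e l) / κ ^ 2 := by
      intro k l
      rw [Finset.sum_congr rfl fun j _ => b3_n2_left ht t (x'' k l * t.e j),
        b3_n2_right hA hξ t (hx'' k l)]
      exact hn2 k l
    refine (Finset.sum_le_sum fun k _ => Finset.sum_le_sum fun l _ => h4 k l).trans ?_
    simp only [← Finset.sum_div]
    rw [div_le_iff₀ (pow_pos hκ 2)]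
    exact h1

end Vale.Agent.P078.W
end

section
/-! G3: splitting of the blocks between overlapping neighbourhoods. -/

set_option linter.unusedSectionVars false

namespace Vale.Agent.P078.W

open Filter Topology
open Vale.Agent.P078 Vale.Agent.P078.C Vale.Agent.P078.F Vale.Agent.P078.Y
open scoped Classical

universe u

variable {H : Type u} [NormedAddCommGroup H] [InnerProductSpace ℂ H] [CompleteSpace H]
variable {M A : VonNeumannAlgebra H} {ξ : ℕ → H} {E : (H →L[ℂ] H) →ₗ[ℂ] (H →L[ℂ] H)}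

/-- the blocks of `y` between the neighbourhoods split into a part of small norm and a bounded part
which is small for the state -/
def Dec (M : VonNeumannAlgebra H) (ξ : ℕ → H) (f : Part A.toStarSubalgebra) {I : Type*}
    [Fintype I] (near : f.ι → Finset I) (y : H →L[ℂ] H) (κ c ε : ℝ) : Prop :=
  ∃ y' y'' : I → I → (H →L[ℂ] H), (∀ i j, y' i j ∈ M) ∧ (∀ i j, y'' i j ∈ M) ∧
    (∀ i j, nbh f near i * y * nbh f near j = y' i j + y'' i j) ∧ (∀ i j, ‖y' i j‖ ≤ κ) ∧
    ∑ i, ∑ j, star (y'' i j) * y'' i j ≤ (c : ℂ) • (1 : H →L[ℂ] H) ∧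
    ∑ i, ∑ j, n2 ξ (y'' i j) ≤ ε

private theorem nbh_eq0 (f : Part A.toStarSubalgebra) {I : Type*} (near : f.ι → Finset I) (i : I) :
    nbh f near i = nb f near i := by
  unfold nbh se nb
  exact Finset.sum_congr rfl fun l _ => by congr 1

private theorem norm_op_le0 (v : nrm M A) : ‖op v‖ ≤ 1 := by
  have h1 : ‖op v‖ * ‖op v‖ = ‖(1 : H →L[ℂ] H)‖ := by
    rw [← star_op_mul v, CStarRing.norm_star_mul_self]
  have h2 : ‖(1 : H →L[ℂ] H)‖ ≤ 1 := ContinuousLinearMap.norm_id_le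
  have h3 := norm_nonneg (op v)
  nlinarith

private theorem norm_proj_le0 {p : H →L[ℂ] H} (hp : IsStarProjection p) : ‖p‖ ≤ 1 := by
  have h1 : ‖p‖ * ‖p‖ = ‖p‖ := by
    rw [← CStarRing.norm_star_mul_self, hp.isSelfAdjoint.star_eq, hp.isIdempotentElem.eq]
  have h3 := norm_nonneg p
  nlinarith

private theorem norm_mul3_le0 {a b c : H →L[ℂ] H} (ha : ‖a‖ ≤ 1) (hc : ‖c‖ ≤ 1) :
    ‖a * b * c‖ ≤ ‖b‖ := by
  calc ‖a * b * c‖ ≤ ‖a‖ * ‖b‖ * ‖c‖ :=
        (norm_mul_le _ _).trans (mul_le_mul_of_nonneg_right (norm_mul_le _ _) (norm_nonneg _))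
    _ ≤ 1 * ‖b‖ * 1 := by (clear * - ha hc; gcongr)
    _ = ‖b‖ := by ring

private theorem star_mul_le0 {a b : H →L[ℂ] H} (ha : ‖a‖ ≤ 1) :
    star (a * b) * (a * b) ≤ star b * b := by
  have h1 : star a * a ≤ 1 := by
    have h2 := (IsSelfAdjoint.star_mul_self a).le_algebraMap_norm_self
    rw [CStarRing.norm_star_mul_self] at h2
    refine h2.trans ?_
    rw [← map_one (algebraMap ℝ (H →L[ℂ] H))]
    refine algebraMap_mono (H →L[ℂ] H) ?_
    have h3 := norm_nonneg a
    (clear b h2; nlinarith)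
  have h2 : star b * b - star (a * b) * (a * b) = star b * (1 - star a * a) * b := by
    rw [star_mul]
    noncomm_ring
  rw [← sub_nonneg, h2]
  exact star_left_conjugate_nonneg (sub_nonneg.2 h1) b

/-- a family which is square summable to at most `1` and small for the state stays small after
right multiplication by `v` -/
private theorem sum_right0 (hA : SO.IsMASA A M) (hξ : IsCState M A ξ) {K : Type*} (s : Finset K)
    {v : H →L[ℂ] H} {η δ : ℝ}
    (hδ : ∀ x ∈ M, ‖x‖ ≤ 1 → n2 ξ x ≤ δ → n2 ξ (x * v) ≤ η) {x : K → (H →L[ℂ] H)}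
    (hx : ∀ k ∈ s, x k ∈ M) (hx1 : ∑ k ∈ s, star (x k) * x k ≤ 1) (hx2 : ∑ k ∈ s, n2 ξ (x k) ≤ δ) :
    ∑ k ∈ s, n2 ξ (x k * v) ≤ η := by
  have ht := hξ.tr hA
  set Z : H →L[ℂ] H := ∑ k ∈ s, star (x k) * x k with hZ
  have hZ0 : 0 ≤ Z := Finset.sum_nonneg fun k _ => star_mul_self_nonneg _
  have hZM : Z ∈ M := sum_mem fun k hk => mul_mem (star_mem (hx k hk)) (hx k hk)
  set d := CFC.sqrt Z with hd
  have hdM : d ∈ M := F.sqrt_mem M hZM
  have hdd : d * d = Z := CFC.sqrt_mul_sqrt_self _ hZ0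
  have hds : star d = d := (IsSelfAdjoint.of_nonneg (CFC.sqrt_nonneg _)).star_eq
  have hZ1 : ‖Z‖ ≤ 1 := by
    refine (CStarAlgebra.norm_le_norm_of_nonneg_of_le hZ0 hx1).trans ?_
    exact ContinuousLinearMap.norm_id_le
  have hd1 : ‖d‖ ≤ 1 := by
    have h1 : ‖d‖ * ‖d‖ = ‖Z‖ := by
      rw [← CStarRing.norm_star_mul_self, hds, hdd]
    have h3 := norm_nonneg d
    (by_contra nlg; linarith [mul_eq_zero_of_left (sub_eq_zero.2 h1) (‖d‖ * ‖d‖ - (‖Z‖)), mul_eq_zero_of_left (sub_eq_zero.2 h1) (1 - (‖Z‖)), mul_nonneg (sub_nonneg.2 hZ1) (sub_nonneg.2 hZ1), mul_eq_zero_of_left (sub_eq_zero.2 h1) (‖d‖ - (1)), mul_nonneg (le_of_lt (sub_pos.2 (not_le.1 nlg))) (sub_nonneg.2 hZ1), mul_pos (sub_pos.2 (not_le.1 nlg)) (sub_pos.2 (not_le.1 nlg)), mul_eq_zero_of_left (sub_eq_zero.2 h1) (0 - (0 - ‖d‖ * ‖d‖)), mul_nonneg (mul_self_nonneg (‖d‖ : ℝ)) (sub_nonneg.2 hZ1), mul_nonneg (mul_self_nonneg (‖d‖ : ℝ)) (le_of_lt (sub_pos.2 (not_le.1 nlg)))])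
  have key : ∀ w : H →L[ℂ] H, n2 ξ (d * w) = ∑ k ∈ s, n2 ξ (x k * w) := by
    intro w
    have h1 : star (d * w) * (d * w) = ∑ k ∈ s, star (x k * w) * (x k * w) := by
      have h2 : star (d * w) * (d * w) = star w * (d * d) * w := by
        rw [star_mul, hds]
        noncomm_ring
      rw [h2, hdd, hZ, Finset.mul_sum, Finset.sum_mul]
      refine Finset.sum_congr rfl fun k _ => ?_
      rw [star_mul]
      noncomm_ring
    rw [n2_eq ht, h1, vtr_sum ht, Complex.re_sum]
    exact Finset.sum_congr rfl fun k _ => (n2_eq ht _).symm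
  rw [← key]
  refine hδ d hdM hd1 ?_
  have h1 := key 1
  simp only [mul_one] at h1
  rw [h1]
  exact hx2

private theorem sum_nbp_le0 {I : Type*} [Fintype I] {n : ℕ} (f : Part A.toStarSubalgebra)
    (idx : Fin n → f.ι → I) (g : Fin n) : ∑ j, nbp f idx j g ≤ 1 := by
  have h1 : ∑ j, nbp f idx j g =
      ∑ l, if ∀ g' < g, idx g' l ≠ idx g l then f.e l else 0 := by
    unfold nbp
    rw [Finset.sum_comm]
    refine Finset.sum_congr rfl fun l _ => ?_
    rw [Finset.sum_eq_single (idx g l)]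
    · simp only [true_and]
    · intro j _ hj
      rw [if_neg]
      rintro ⟨h, -⟩
      exact hj h.symm
    · intro h
      exact absurd (Finset.mem_univ _) h
  rw [h1, ← f.sum_eq]
  refine Finset.sum_le_sum fun l _ => ?_
  split_ifs
  · exact le_rfl
  · exact (f.proj l).nonneg

/-- fine partitions make all blocks between neighbourhoods small -/
theorem dec_small3 (hA : SO.IsMASA A M) (hξ : IsCState M A ξ) (hE : IsTrExp M A ξ E)
    {y : H →L[ℂ] H} (hy : y ∈ M) (hy1 : ‖y‖ ≤ 1) (horth : ∀ u : nrm M A, E (op u * y) = 0)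
    {n : ℕ} (u : Fin n → nrm M A) {κ ε : ℝ} (hκ : 0 < κ) (hε : 0 < ε) :
    ∃ t₀ : Part A.toStarSubalgebra, ∀ t f : Part A.toStarSubalgebra, t₀.Finer t →
      ∀ idx : Fin n → f.ι → t.ι,
      (∀ g l, (star (op (u g)) * t.e (idx g l) * op (u g)) * f.e l = f.e l) →
      Dec M ξ f (fun l => Finset.univ.image fun g => idx g l) y κ ((n : ℝ) ^ 4) ε := by
  have ht := hξ.tr hA
  rcases Nat.eq_zero_or_pos n with hn | hn
  · subst hn
    refine ⟨Part.trivialPart _, fun t f _ idx _ => ?_⟩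
    refine ⟨fun _ _ => 0, fun _ _ => 0, fun _ _ => zero_mem M, fun _ _ => zero_mem M, ?_, ?_,
      ?_, ?_⟩
    · intro i j
      rw [nbh_eq0, nb_eq_sum]
      simp
    · intro i j
      rw [norm_zero]
      exact hκ.le
    · simp only [star_zero, mul_zero, Finset.sum_const_zero, CharP.cast_eq_zero, ne_eq, OfNat.ofNat_ne_zero, not_false_eq_true, zero_pow, Complex.ofReal_zero, zero_smul, Std.le_refl]
    · simp only [F.n2_zero, Finset.sum_const_zero]
      exact hε.le
  have hN : (0 : ℝ) < n := by exact_mod_cast hn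
  set N : ℝ := (n : ℝ) with hNdef
  have hκ' : 0 < κ / N ^ 2 := by (clear * - hκ hn; positivity)
  have hη : 0 < ε / N ^ 4 := by (clear * - hε hn; positivity)
  have hzM : ∀ p : Fin n × Fin n, op (u p.1) * y * star (op (u p.2)) ∈ M := fun p =>
    mul_mem (mul_mem (op_mem _) hy) (star_mem (op_mem _))
  have hz1 : ∀ p : Fin n × Fin n, ‖op (u p.1) * y * star (op (u p.2))‖ ≤ 1 := fun p =>
    (norm_mul3_le0 (norm_op_le0 _) (by rw [norm_star]; exact norm_op_le0 _)).trans hy1
  have hdel : ∀ g : Fin n, ∃ δ : ℝ, 0 < δ ∧ ∀ x ∈ M, ‖x‖ ≤ 1 → n2 ξ x ≤ δ →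
      n2 ξ (x * op (u g)) ≤ ε / N ^ 4 := fun g => uni_right hA hξ (op_mem (u g)) hη
  choose δ hδ0 hδ using hdel
  have hQ : ∀ p : Fin n × Fin n, ∃ t₀ : Part A.toStarSubalgebra,
      ∀ t : Part A.toStarSubalgebra, t₀.Finer t →
      ∃ z' z'' : t.ι → t.ι → (H →L[ℂ] H), (∀ i j, z' i j ∈ M) ∧ (∀ i j, z'' i j ∈ M) ∧
        (∀ i j, t.e i * (op (u p.1) * y * star (op (u p.2))) * t.e j = z' i j + z'' i j) ∧
        (∀ i j, ‖z' i j‖ ≤ κ / N ^ 2) ∧
        (∀ j, ∑ i, star (z'' i j) * z'' i j ≤ t.e j) ∧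
        ∑ i, ∑ j, n2 ξ (z'' i j) ≤ δ p.2 := fun p =>
    blk_dec3 hA hξ hE (hzM p) (hz1 p)
      (fun v => orth_nrm3 hA hξ hE hy horth v (u p.1) (u p.2)) hκ' (hδ0 p.2)
  choose Q hQ' using hQ
  obtain ⟨t₀, ht₀⟩ := exists_common hA Finset.univ Q
  refine ⟨t₀, fun t f htf idx hidx => ?_⟩
  have hdec := fun p : Fin n × Fin n => hQ' p t (ht₀ t htf p (Finset.mem_univ _))
  choose z' z'' hz'M hz''M hzeq hz'n hz''s hz''δ using hdec
  have hnM : ∀ i g, nbp f idx i g ∈ M := fun i g => hA.1 _ (nbp_mem f idx i g)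
  -- transport of a block
  set W : Fin n × Fin n → t.ι → t.ι → (H →L[ℂ] H) → (H →L[ℂ] H) := fun p i j w =>
    nbp f idx i p.1 * (star (op (u p.1)) * w * op (u p.2)) * nbp f idx j p.2 with hW
  have hWM : ∀ p i j w, w ∈ M → W p i j w ∈ M := fun p i j w hw =>
    mul_mem (mul_mem (hnM i p.1) (mul_mem (mul_mem (star_mem (op_mem _)) hw) (op_mem _)))
      (hnM j p.2)
  have hleft : ∀ p : Fin n × Fin n, ∀ i, ‖nbp f idx i p.1 * star (op (u p.1))‖ ≤ 1 := by
    intro p i
    refine (norm_mul_le _ _).trans (mul_le_one₀ (norm_proj_le0 (nbp_proj f idx i p.1))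
      (norm_nonneg _) ?_)
    rw [norm_star]
    exact norm_op_le0 _
  have hright : ∀ p : Fin n × Fin n, ∀ j, ‖op (u p.2) * nbp f idx j p.2‖ ≤ 1 := by
    intro p j
    exact (norm_mul_le _ _).trans (mul_le_one₀ (norm_op_le0 _)
      (norm_nonneg _) (norm_proj_le0 (nbp_proj f idx j p.2)))
  have hW1 : ∀ p i j w, W p i j w =
      (nbp f idx i p.1 * star (op (u p.1))) * w * (op (u p.2) * nbp f idx j p.2) := by
    intro p i j w
    simp only [hW, mul_assoc]
  have hWn : ∀ p i j w, ‖W p i j w‖ ≤ ‖w‖ := by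
    intro p i j w
    rw [hW1]
    exact norm_mul3_le0 (hleft p i) (hright p j)
  have hWadd : ∀ p i j w w', W p i j (w + w') = W p i j w + W p i j w' := by
    intro p i j w w'
    simp only [hW, mul_add, add_mul]
  have hWeq : ∀ p i j, nbp f idx i p.1 * y * nbp f idx j p.2 =
      W p i j (z' p i j) + W p i j (z'' p i j) := by
    intro p i j
    rw [← hWadd, ← hzeq p i j]
    have h3 : nbp f idx i p.1 * y * nbp f idx j p.2 = nbp f idx i p.1 *
        ((star (op (u p.1)) * (t.e i * (op (u p.1) * y * star (op (u p.2))) * t.e j)) *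
          op (u p.2)) * nbp f idx j p.2 := by
      conv_lhs => rw [← nbp_mul u idx hidx i p.1, ← mul_nbp u idx hidx j p.2]
      simp only [mul_assoc]
    exact h3
  have hWsq : ∀ p, ∑ i, ∑ j, star (W p i j (z'' p i j)) * W p i j (z'' p i j) ≤ 1 := by
    intro p
    rw [Finset.sum_comm]
    refine le_trans (Finset.sum_le_sum fun j _ => ?_) (sum_nbp_le0 f idx p.2)
    have h1 : ∀ i, star (W p i j (z'' p i j)) * W p i j (z'' p i j) ≤
        star (op (u p.2) * nbp f idx j p.2) * (star (z'' p i j) * z'' p i j) *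
          (op (u p.2) * nbp f idx j p.2) := by
      intro i
      rw [hW1, mul_assoc _ (z'' p i j)]
      refine (star_mul_le0 (hleft p i)).trans (le_of_eq ?_)
      rw [star_mul]
      simp only [mul_assoc]
    refine (Finset.sum_le_sum fun i _ => h1 i).trans ?_
    rw [← Finset.sum_mul, ← Finset.mul_sum]
    have h2 := star_left_conjugate_le_conjugate (hz''s p j) (op (u p.2) * nbp f idx j p.2)
    refine h2.trans (le_of_eq ?_)
    have h3 : star (op (u p.2) * nbp f idx j p.2) * t.e j * (op (u p.2) * nbp f idx j p.2) =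
        nbp f idx j p.2 * ((star (op (u p.2)) * t.e j * op (u p.2)) * nbp f idx j p.2) := by
      rw [star_mul, (nbp_proj f idx j p.2).isSelfAdjoint.star_eq]
      simp only [mul_assoc]
    rw [h3, mul_nbp u idx hidx j p.2, (nbp_proj f idx j p.2).isIdempotentElem.eq]
  have hWδ : ∀ p, ∑ i, ∑ j, n2 ξ (W p i j (z'' p i j)) ≤ ε / N ^ 4 := by
    intro p
    have h1 : ∀ i j, n2 ξ (W p i j (z'' p i j)) ≤ n2 ξ (z'' p i j * op (u p.2)) := by
      intro i j
      have e1 : W p i j (z'' p i j) = (nbp f idx i p.1 * star (op (u p.1))) *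
          (z'' p i j * op (u p.2)) * nbp f idx j p.2 := by
        simp only [hW, mul_assoc]
      have hm : (nbp f idx i p.1 * star (op (u p.1))) * (z'' p i j * op (u p.2)) ∈ M :=
        mul_mem (mul_mem (hnM i p.1) (star_mem (op_mem _))) (mul_mem (hz''M p i j) (op_mem _))
      rw [e1]
      refine (hξ.n2_mul_le hA hm (nbp_mem f idx j p.2)).trans ?_
      have h2 := norm_proj_le0 (nbp_proj f idx j p.2)
      have h3 := norm_nonneg (nbp f idx j p.2)
      have h4 : ‖nbp f idx j p.2‖ ^ 2 ≤ 1 := by linarith only [mul_nonneg (sub_nonneg.2 h2) (sub_nonneg.2 h3), mul_nonneg (sub_nonneg.2 h2) (sub_nonneg.2 h2)]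
      refine (mul_le_of_le_one_right (n2_nonneg _ _) h4).trans ?_
      refine (C.n2_mul_le ht _ _).trans ?_
      have h5 := hleft p i
      have h6 := norm_nonneg (nbp f idx i p.1 * star (op (u p.1)))
      have h7 : ‖nbp f idx i p.1 * star (op (u p.1))‖ ^ 2 ≤ 1 := by linarith only [mul_nonneg (sub_nonneg.2 h5) (sub_nonneg.2 h6), mul_nonneg (sub_nonneg.2 h5) (sub_nonneg.2 h5)]
      exact mul_le_of_le_one_left (n2_nonneg _ _) h7
    refine (Finset.sum_le_sum fun i _ => Finset.sum_le_sum fun j _ => h1 i j).trans ?_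
    have h2 := sum_right0 hA hξ (Finset.univ : Finset (t.ι × t.ι)) (hδ p.2)
      (x := fun k => z'' p k.1 k.2) (fun k _ => hz''M p k.1 k.2) ?_ ?_
    · rwa [Fintype.sum_prod_type] at h2
    · rw [Fintype.sum_prod_type, Finset.sum_comm, ← t.sum_eq]
      exact Finset.sum_le_sum fun j _ => hz''s p j
    · rw [Fintype.sum_prod_type]
      exact hz''δ p
  have hcard : ((Finset.univ : Finset (Fin n × Fin n)).card : ℝ) = N ^ 2 := by
    rw [Finset.card_univ, Fintype.card_prod, Fintype.card_fin]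
    push_cast
    ring
  refine ⟨fun i j => ∑ p, W p i j (z' p i j), fun i j => ∑ p, W p i j (z'' p i j),
    fun i j => sum_mem fun p _ => hWM p i j _ (hz'M p i j),
    fun i j => sum_mem fun p _ => hWM p i j _ (hz''M p i j), ?_, ?_, ?_, ?_⟩
  · intro i j
    rw [nbh_eq0, nbh_eq0, ← Finset.sum_add_distrib]
    have h1 : nb f (fun l => Finset.univ.image fun g => idx g l) i * y *
        nb f (fun l => Finset.univ.image fun g => idx g l) j =
        ∑ p : Fin n × Fin n, nbp f idx i p.1 * y * nbp f idx j p.2 := by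
      rw [nb_eq_sum, nb_eq_sum, Fintype.sum_prod_type, Finset.sum_mul, Finset.sum_mul]
      refine Finset.sum_congr rfl fun g _ => ?_
      rw [Finset.mul_sum]
    rw [h1]
    exact Finset.sum_congr rfl fun p _ => hWeq p i j
  · intro i j
    refine (norm_sum_le _ _).trans ?_
    refine (Finset.sum_le_sum fun p _ => (hWn p i j _).trans (hz'n p i j)).trans (le_of_eq ?_)
    rw [Finset.sum_const, nsmul_eq_mul, hcard]
    field_simp
  · have h1 : ∀ i j, star (∑ p, W p i j (z'' p i j)) * (∑ p, W p i j (z'' p i j)) ≤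
        (N ^ 2 : ℝ) • ∑ p, star (W p i j (z'' p i j)) * W p i j (z'' p i j) := by
      intro i j
      have h2 := star_sum_mul_sum_le (Finset.univ : Finset (Fin n × Fin n))
        fun p => W p i j (z'' p i j)
      rwa [hcard] at h2
    refine (Finset.sum_le_sum fun i _ => Finset.sum_le_sum fun j _ => h1 i j).trans ?_
    have h2 : ∑ i, ∑ j, (N ^ 2 : ℝ) • ∑ p, star (W p i j (z'' p i j)) * W p i j (z'' p i j) =
        (N ^ 2 : ℝ) • ∑ p, ∑ i, ∑ j, star (W p i j (z'' p i j)) * W p i j (z'' p i j) := by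
      simp only [← Finset.smul_sum]
      congr 1
      rw [Finset.sum_congr rfl fun i _ => Finset.sum_comm]
      rw [Finset.sum_comm]
    rw [h2]
    have h3 : ∑ p, ∑ i, ∑ j, star (W p i j (z'' p i j)) * W p i j (z'' p i j) ≤
        (N ^ 2 : ℝ) • (1 : H →L[ℂ] H) := by
      refine (Finset.sum_le_sum fun p _ => hWsq p).trans (le_of_eq ?_)
      rw [Finset.sum_const, ← hcard, Nat.cast_smul_eq_nsmul]
    refine (smul_le_smul_of_nonneg_left h3 (by positivity)).trans (le_of_eq ?_)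
    rw [smul_smul, ← pow_add]
    exact (Complex.coe_smul _ _).symm
  · have h1 : ∀ i j, n2 ξ (∑ p, W p i j (z'' p i j)) ≤
        N ^ 2 * ∑ p, n2 ξ (W p i j (z'' p i j)) := by
      intro i j
      have h2 := F.n2_sum_le ht (Finset.univ : Finset (Fin n × Fin n))
        fun p => W p i j (z'' p i j)
      rwa [hcard] at h2
    refine (Finset.sum_le_sum fun i _ => Finset.sum_le_sum fun j _ => h1 i j).trans ?_
    have h2 : ∑ i, ∑ j, N ^ 2 * ∑ p, n2 ξ (W p i j (z'' p i j)) =
        N ^ 2 * ∑ p, ∑ i, ∑ j, n2 ξ (W p i j (z'' p i j)) := by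
      simp only [← Finset.mul_sum]
      congr 1
      rw [Finset.sum_congr rfl fun i _ => Finset.sum_comm]
      rw [Finset.sum_comm]
    rw [h2]
    have h3 : ∑ p, ∑ i, ∑ j, n2 ξ (W p i j (z'' p i j)) ≤ N ^ 2 * (ε / N ^ 4) := by
      refine (Finset.sum_le_sum fun p _ => hWδ p).trans (le_of_eq ?_)
      rw [Finset.sum_const, nsmul_eq_mul, hcard]
    refine (mul_le_mul_of_nonneg_left h3 (by positivity)).trans (le_of_eq ?_)
    field_simp

end Vale.Agent.P078.W
end

section
/-! G3: the error term on the Fourier side, one step of the recursion. -/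

set_option linter.unusedSectionVars false

namespace Vale.Agent.P078.W

open Filter Topology
open Vale.Agent.P078 Vale.Agent.P078.C Vale.Agent.P078.F Vale.Agent.P078.Y
open scoped Classical ComplexConjugate

universe u

variable {H : Type u} [NormedAddCommGroup H] [InnerProductSpace ℂ H] [CompleteSpace H]
variable {M A : VonNeumannAlgebra H} {ξ : ℕ → H}
variable {I : Type*} [Fintype I] {r : ℕ} [NeZero r]
variable {f : Part A.toStarSubalgebra} {near : f.ι → Finset I} {col : f.ι → (I → ZMod r) → ZMod r}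

theorem sum_F_le3 (hξ : IsTrace A ξ) {F : (I → ZMod r) → (H →L[ℂ] H)}
    (hev : ∀ U, evj U F ∈ M ∧ ‖evj U F‖ ≤ 1) : ∑ k, n2 ξ (F k) ≤ 1 := by
  have hN := cardΩ_pos (I := I) (r := r)
  have h1 := parseval_j hξ F
  have h2 : ∑ U, n2 ξ (evj U F) ≤ (Fintype.card (I → ZMod r) : ℝ) := by
    refine (Finset.sum_le_sum fun U _ =>
      (n2_le hξ _).trans (pow_le_one₀ (norm_nonneg _) (hev U).2)).trans (le_of_eq ?_)
    rw [Finset.sum_const, nsmul_eq_mul, Finset.card_univ, mul_one]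
  rw [h1] at h2
  refine le_of_mul_le_mul_left ?_ hN
  rw [mul_one]
  exact h2

/-- a finite family, multiplied on the right by the coefficients -/
theorem fam_le3 (hξ : IsTrace A ξ) {ι : Type*} (s : Finset ι) (z : ι → (H →L[ℂ] H))
    (hz : ∀ i, z i ∈ M) {C e τ : ℝ} (hC : 0 < C)
    (hZ : ∑ i ∈ s, star (z i) * z i ≤ (C : ℂ) • (1 : H →L[ℂ] H))
    (hn : ∑ i ∈ s, n2 ξ (z i) ≤ C * e) {F : (I → ZMod r) → (H →L[ℂ] H)}
    (hτ : ∀ x ∈ M, ‖x‖ ≤ 1 → n2 ξ x ≤ e → ∀ U, n2 ξ (x * evj U F) ≤ τ) :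
    ∑ i ∈ s, ∑ k, n2 ξ (z i * F k) ≤ C * τ := by
  have hN := cardΩ_pos (I := I) (r := r)
  obtain ⟨Z, hZd⟩ : ∃ Z : H →L[ℂ] H, Z = ∑ i ∈ s, star (z i) * z i := ⟨_, rfl⟩
  have hZ0 : 0 ≤ Z := by
    rw [hZd]
    exact Finset.sum_nonneg fun i _ => star_mul_self_nonneg _
  have hZM : Z ∈ M := by
    rw [hZd]
    exact sum_mem fun i _ => mul_mem (star_mem (hz i)) (hz i)
  rw [← hZd] at hZ
  have hss : CFC.sqrt Z * CFC.sqrt Z = Z := CFC.sqrt_mul_sqrt_self Z hZ0
  have hsa : star (CFC.sqrt Z) = CFC.sqrt Z := (IsSelfAdjoint.of_nonneg (CFC.sqrt_nonneg Z)).star_eq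
  have hsM : CFC.sqrt Z ∈ M := Vale.Agent.P078.F.sqrt_mem M hZM
  have hsum : ∀ T : H →L[ℂ] H, ∑ i ∈ s, n2 ξ (z i * T) = n2 ξ (CFC.sqrt Z * T) := by
    intro T
    have e1 : star (CFC.sqrt Z * T) * (CFC.sqrt Z * T) = ∑ i ∈ s, star (z i * T) * (z i * T) := by
      have e2 : star (CFC.sqrt Z * T) * (CFC.sqrt Z * T) = star T * (CFC.sqrt Z * CFC.sqrt Z) * T := by
        rw [star_mul, hsa]; simp only [mul_assoc]
      rw [e2, hss, hZd, Finset.mul_sum, Finset.sum_mul]
      refine Finset.sum_congr rfl fun i _ => ?_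
      rw [star_mul]; simp only [mul_assoc]
    rw [n2_eq hξ, e1, vtr_sum hξ, Complex.re_sum]
    exact Finset.sum_congr rfl fun i _ => n2_eq hξ _
  have hCs : 0 < Real.sqrt C := Real.sqrt_pos.2 hC
  obtain ⟨x, hx⟩ : ∃ x : H →L[ℂ] H, x = (((Real.sqrt C)⁻¹ : ℝ) : ℂ) • CFC.sqrt Z := ⟨_, rfl⟩
  have hxM : x ∈ M := by rw [hx]; exact M.toStarSubalgebra.smul_mem hsM _
  have hn2 : ∀ T : H →L[ℂ] H, n2 ξ (CFC.sqrt Z * T) = C * n2 ξ (x * T) := by
    intro T
    rw [hx, smul_mul_assoc, Vale.Agent.P078.F.n2_smul, Complex.norm_real, Real.norm_eq_abs, sq_abs, inv_pow,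
      Real.sq_sqrt hC.le, ← mul_assoc, mul_inv_cancel₀ hC.ne', one_mul]
  have hxn : ‖x‖ ≤ 1 := by
    have h1 : ‖CFC.sqrt Z‖ * ‖CFC.sqrt Z‖ ≤ C := by
      have h2 : ‖star (CFC.sqrt Z) * CFC.sqrt Z‖ = ‖CFC.sqrt Z‖ * ‖CFC.sqrt Z‖ :=
        CStarRing.norm_star_mul_self
      rw [← h2, hsa, hss]
      refine (CStarAlgebra.norm_le_norm_of_nonneg_of_le hZ0 hZ).trans ?_
      rw [norm_smul, Complex.norm_real, Real.norm_eq_abs, abs_of_pos hC]
      have h3 : ‖(1 : H →L[ℂ] H)‖ ≤ 1 := ContinuousLinearMap.norm_id_le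
      linarith only [mul_nonneg (le_of_lt (sub_pos.2 hC)) (sub_nonneg.2 h3)]
    have h4 : ‖CFC.sqrt Z‖ ≤ Real.sqrt C := by
      apply Real.le_sqrt_of_sq_le
      rw [sq]; exact h1
    rw [hx, norm_smul, Complex.norm_real, Real.norm_eq_abs, abs_of_pos (inv_pos.2 hCs),
      inv_mul_le_iff₀ hCs, mul_one]
    exact h4
  have hxe : n2 ξ x ≤ e := by
    have h1 := hsum 1
    have h2 := hn2 1
    simp only [mul_one] at h1 h2
    rw [h1, h2] at hn
    exact le_of_mul_le_mul_left hn hC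
  have key : ∀ U : I → ZMod r, ∑ i ∈ s, n2 ξ (z i * evj U F) ≤ C * τ := by
    intro U
    rw [hsum, hn2]
    exact mul_le_mul_of_nonneg_left (hτ x hxM hxn hxe U) hC.le
  have h1 : (Fintype.card (I → ZMod r) : ℝ) * ∑ i ∈ s, ∑ k, n2 ξ (z i * F k) ≤
      (Fintype.card (I → ZMod r) : ℝ) * (C * τ) := by
    rw [Finset.mul_sum]
    have h2 : ∀ i, (Fintype.card (I → ZMod r) : ℝ) * ∑ k, n2 ξ (z i * F k) =
        ∑ U, n2 ξ (z i * evj U F) := by
      intro i
      have h3 := parseval_j hξ fun k => z i * F k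
      rw [← h3]
      refine Finset.sum_congr rfl fun U _ => ?_
      congr 1
      unfold evj
      rw [Finset.mul_sum]
      exact Finset.sum_congr rfl fun k _ => by rw [mul_smul_comm]
    rw [Finset.sum_congr rfl fun i _ => h2 i, Finset.sum_comm]
    refine (Finset.sum_le_sum fun U _ => key U).trans (le_of_eq ?_)
    rw [Finset.sum_const, nsmul_eq_mul, Finset.card_univ]
  exact le_of_mul_le_mul_left h1 hN

/-- the number of subsets of a neighbourhood -/
theorem card_sub3 (near : f.ι → Finset I) {b : ℕ} (hb : ∀ l, (near l).card ≤ b) (l : f.ι) (g : ℝ)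
    (hg : 0 ≤ g) : ∑ R : Finset I, (if R ⊆ near l then g else 0) ≤ 2 ^ b * g := by
  rw [← Finset.sum_filter, Finset.sum_const, nsmul_eq_mul]
  have h3 : (Finset.univ.filter fun R : Finset I => R ⊆ near l) = (near l).powerset := by
    ext R
    simp only [Finset.mem_filter, Finset.mem_univ, true_and, Finset.mem_powerset]
  rw [h3, Finset.card_powerset]
  push_cast
  refine mul_le_mul_of_nonneg_right ?_ hg
  exact pow_le_pow_right₀ (by norm_num) (hb l)

theorem se_memA (f : Part A.toStarSubalgebra) (p : f.ι → Prop) : se f p ∈ A := by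
  unfold se
  refine sum_mem fun l _ => ?_
  split_ifs
  · exact f.mem l
  · exact zero_mem A

theorem n2_mul_se3 (hξ : IsTrace A ξ) (hcen : ∀ a ∈ A, ∀ x ∈ M, vtr ξ (a * x) = vtr ξ (x * a))
    (hAM : ∀ a ∈ A, a ∈ M) (f : Part A.toStarSubalgebra) (p : f.ι → Prop) {w : H →L[ℂ] H}
    (hw : w ∈ M) : n2 ξ (w * se f p) =
      ∑ l, if p l then (vtr ξ (star w * w * f.e l)).re else 0 := by
  have h0 : se f p * se f p = se f p := by
    rw [se_mul_se]
    congr 1
    funext l
    exact propext ⟨fun h => h.1, fun h => ⟨h, h⟩⟩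
  have h1 : star (w * se f p) * (w * se f p) = se f p * (star w * w * se f p) := by
    rw [star_mul, se_star]; simp only [mul_assoc]
  have hA := se_memA f p
  rw [n2_eq hξ, h1, hcen _ hA _ (mul_mem (mul_mem (star_mem hw) hw) (hAM _ hA)), mul_assoc, h0]
  unfold se
  rw [Finset.mul_sum, vtr_sum hξ, Complex.re_sum]
  refine Finset.sum_congr rfl fun l _ => ?_
  split_ifs
  · rfl
  · rw [mul_zero, vtr_zero, Complex.zero_re]

theorem vtr_mul_e_nonneg3 (hξ : IsTrace A ξ)
    (hcen : ∀ a ∈ A, ∀ x ∈ M, vtr ξ (a * x) = vtr ξ (x * a))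
    (hAM : ∀ a ∈ A, a ∈ M) (f : Part A.toStarSubalgebra) {w : H →L[ℂ] H}
    (hw : w ∈ M) (l : f.ι) : 0 ≤ (vtr ξ (star w * w * f.e l)).re := by
  have h1 : vtr ξ (star w * w * f.e l) = vtr ξ (star (w * f.e l) * (w * f.e l)) := by
    have h2 : star (w * f.e l) * (w * f.e l) = f.e l * (star w * w * f.e l) := by
      rw [star_mul, (f.proj l).isSelfAdjoint.star_eq]; simp only [mul_assoc]
    rw [h2, hcen _ (f.mem l) _ (mul_mem (mul_mem (star_mem hw) hw) (hAM _ (f.mem l))),
      mul_assoc (star w * w), f.e_mul_self]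
  rw [h1, ← n2_eq hξ]
  exact n2_nonneg _ _

theorem sum_sub_le3 (hξ : IsTrace A ξ) (hcen : ∀ a ∈ A, ∀ x ∈ M, vtr ξ (a * x) = vtr ξ (x * a))
    (hAM : ∀ a ∈ A, a ∈ M) (near : f.ι → Finset I) {b : ℕ}
    (hb : ∀ l, (near l).card ≤ b) {w : H →L[ℂ] H} (hw : w ∈ M) :
    ∑ R : Finset I, n2 ξ (w * se f (fun l => R ⊆ near l)) ≤ 2 ^ b * n2 ξ w := by
  rw [Finset.sum_congr rfl fun R _ => n2_mul_se3 hξ hcen hAM f (fun l => R ⊆ near l) hw,
    Finset.sum_comm]
  have h1 : n2 ξ w = ∑ l, (vtr ξ (star w * w * f.e l)).re := by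
    rw [n2_eq hξ, ← Complex.re_sum, ← vtr_sum hξ, ← Finset.mul_sum, f.sum_eq, mul_one]
  rw [h1, Finset.mul_sum]
  refine Finset.sum_le_sum fun l _ => ?_
  refine le_trans (le_of_eq ?_) (card_sub3 near hb l _ (vtr_mul_e_nonneg3 hξ hcen hAM f hw l))
  exact Finset.sum_congr rfl fun R _ => by congr 1

/-- the operator bound for the truncated pieces -/
theorem sum_se_le3 (near : f.ι → Finset I) {b : ℕ}
    (hb : ∀ l, (near l).card ≤ b) {c : ℝ} (hc : 0 < c) :
    ∑ R : Finset I, (c : ℂ) • se f (fun l => R ⊆ near l) ≤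
      ((2 ^ b * c : ℝ) : ℂ) • (1 : H →L[ℂ] H) := by
  have h1 : ∑ R : Finset I, (c : ℂ) • se f (fun l => R ⊆ near l) =
      ∑ l, (((∑ R : Finset I, (if R ⊆ near l then c else 0) : ℝ)) : ℂ) • f.e l := by
    unfold se
    simp only [Finset.smul_sum]
    rw [Finset.sum_comm]
    refine Finset.sum_congr rfl fun l _ => ?_
    rw [Complex.ofReal_sum, Finset.sum_smul]
    refine Finset.sum_congr rfl fun R _ => ?_
    split_ifs
    · rfl
    · rw [smul_zero, Complex.ofReal_zero, zero_smul]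
  have h2 : ((2 ^ b * c : ℝ) : ℂ) • (1 : H →L[ℂ] H) = ∑ l, ((2 ^ b * c : ℝ) : ℂ) • f.e l := by
    rw [← Finset.smul_sum, f.sum_eq]
  rw [h1, h2]
  refine Finset.sum_le_sum fun l _ => ?_
  rw [← sub_nonneg, ← sub_smul, ← Complex.ofReal_sub, Complex.coe_smul]
  exact smul_nonneg (sub_nonneg.2 (card_sub3 near hb l c hc.le)) (f.proj l).nonneg

/-- the error term is small -/
theorem sum_ZZn3 (hξ : IsTrace A ξ) (hcen : ∀ a ∈ A, ∀ x ∈ M, vtr ξ (a * x) = vtr ξ (x * a))
    (hAM : ∀ a ∈ A, a ∈ M) (near : f.ι → Finset I) {b : ℕ}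
    (hb : ∀ l, (near l).card ≤ b) {y : H →L[ℂ] H} (hy : y ∈ M)
    {d : ℕ} {F : (I → ZMod r) → (H →L[ℂ] H)} (hF : Dg d F)
    (hev : ∀ U, evj U F ∈ M ∧ ‖evj U F‖ ≤ 1) {κ c ε τ : ℝ} (hc : 0 < c)
    (hD : Dec M ξ f near y κ c ε)
    (hτ : ∀ x ∈ M, ‖x‖ ≤ 1 → n2 ξ x ≤ ε / c → ∀ U, n2 ξ (x * evj U F) ≤ τ) :
    ∑ k, n2 ξ (ZZn near y F k) ≤ 2 ^ d * (2 * (κ ^ 2 * (d * 2 ^ d)) +
      2 * (2 ^ b * c * τ)) := by
  obtain ⟨y', y'', hy', hy'', hsum, hnorm, hop, hn2⟩ := hD
  -- the truncated pieces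
  obtain ⟨z, hz⟩ : ∃ z : I → Finset I → (H →L[ℂ] H), z = fun i R =>
    if h : R.Nonempty then y'' i h.choose * se f (fun l => R ⊆ near l) else 0 := ⟨_, rfl⟩
  have hzM : ∀ i R, z i R ∈ M := by
    intro i R
    rw [hz]
    by_cases h : R.Nonempty
    · simp only [h, dif_pos]
      exact mul_mem (hy'' _ _) (se_mem hAM f _)
    · simp only [h, dif_neg, not_false_iff]
      exact zero_mem _
  have hzle : ∀ i R, n2 ξ (z i R) ≤ ∑ j, n2 ξ (y'' i j * se f (fun l => R ⊆ near l)) := by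
    intro i R
    rw [hz]
    by_cases h : R.Nonempty
    · simp only [h, dif_pos]
      exact Finset.single_le_sum (f := fun j => n2 ξ (y'' i j * se f (fun l => R ⊆ near l)))
        (fun j _ => n2_nonneg _ _) (Finset.mem_univ _)
    · simp only [h, dif_neg, not_false_iff]
      rw [n2_zero]
      exact Finset.sum_nonneg fun j _ => n2_nonneg _ _
  -- pointwise estimate
  have h1 : ∀ k, n2 ξ (ZZn near y F k) ≤ 2 ^ d * (2 * (κ ^ 2 * (d * 2 ^ d) * n2 ξ (F k)) +
      2 * ∑ i, ∑ R : Finset I, n2 ξ (z i R * F k)) := by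
    intro k
    have hpos : 0 ≤ ∑ i, ∑ R : Finset I, n2 ξ (z i R * F k) :=
      Finset.sum_nonneg fun i _ => Finset.sum_nonneg fun R _ => n2_nonneg _ _
    have hpos' := n2_nonneg ξ (F k)
    by_cases hd : d < (sup k).card
    · have h2 : ZZn near y F k = 0 := by
        unfold ZZn
        rw [hF k hd, mul_zero, mul_zero, mul_zero]
      rw [h2, n2_zero]
      (clear * - hpos' hpos; positivity)
    · push Not at hd
      set S := sup k with hS
      have h2 : n2 ξ (ZZn near y F k) ≤ ∑ i ∈ S, n2 ξ (nbh f near i *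
          (y * (se f (fun l => ¬ Disjoint (near l) S) * F k))) :=
        n2_union_le hξ near S _
      refine h2.trans ?_
      have hcard : (((S.powerset.erase ∅).card : ℕ) : ℝ) ≤ 2 ^ d := by
        have h3 : (S.powerset.erase ∅).card ≤ 2 ^ d := by
          refine (Finset.card_le_card (Finset.erase_subset _ _)).trans ?_
          rw [Finset.card_powerset]
          exact Nat.pow_le_pow_right (by norm_num) hd
        exact_mod_cast h3
      have h3 : ∀ i, n2 ξ (nbh f near i * (y * (se f (fun l => ¬ Disjoint (near l) S) * F k))) ≤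
          2 ^ d * ∑ R ∈ S.powerset.erase ∅, (2 * (κ ^ 2 * n2 ξ (F k)) +
            2 * n2 ξ (z i R * F k)) := by
        intro i
        have e1 : nbh f near i * (y * (se f (fun l => ¬ Disjoint (near l) S) * F k)) =
            ∑ R ∈ S.powerset.erase ∅, (-(-1 : ℂ) ^ R.card) •
              (nbh f near i * (y * (se f (fun l => R ⊆ near l) * F k))) := by
          rw [se_incl, Finset.sum_mul, Finset.mul_sum, Finset.mul_sum]
          refine Finset.sum_congr rfl fun R _ => ?_
          rw [smul_mul_assoc, mul_smul_comm, mul_smul_comm]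
        rw [e1]
        refine (n2_sum_le hξ _ _).trans ?_
        refine mul_le_mul hcard (Finset.sum_le_sum fun R hR => ?_)
          (Finset.sum_nonneg fun R _ => n2_nonneg _ _) (by positivity)
        have hRne : R.Nonempty := Finset.nonempty_iff_ne_empty.2 (Finset.mem_erase.1 hR).1
        rw [n2_smul, norm_neg, norm_pow, norm_neg, norm_one, one_pow, one_pow, one_mul]
        have e2 : nbh f near hRne.choose * se f (fun l => R ⊆ near l) =
            se f (fun l => R ⊆ near l) := by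
          have e3 := se_mul_se f (fun l => hRne.choose ∈ near l) (fun l => R ⊆ near l)
          have e4 : (fun l => hRne.choose ∈ near l ∧ R ⊆ near l) = fun l => R ⊆ near l := by
            funext l
            refine propext ⟨fun h => h.2, fun h => ⟨h hRne.choose_spec, h⟩⟩
          rw [e4] at e3
          exact e3
        have e3 : nbh f near i * (y * (se f (fun l => R ⊆ near l) * F k)) =
            y' i hRne.choose * (se f (fun l => R ⊆ near l) * F k) + z i R * F k := by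
          have e4 : z i R = y'' i hRne.choose * se f (fun l => R ⊆ near l) := by
            rw [hz]
            simp only [hRne, dif_pos]
          rw [e4, mul_assoc (y'' i hRne.choose), ← add_mul, ← hsum]
          conv_lhs => rw [← e2]
          simp only [mul_assoc]
        rw [e3]
        refine (n2_add_le hξ _ _).trans ?_
        have e5 : n2 ξ (y' i hRne.choose * (se f (fun l => R ⊆ near l) * F k)) ≤
            κ ^ 2 * n2 ξ (F k) := by
          refine (n2_mul_le hξ _ _).trans ?_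
          exact mul_le_mul (pow_le_pow_left₀ (norm_nonneg _) (hnorm _ _) 2)
            (n2_se_mul_le hξ f _ _) (n2_nonneg _ _) (by (clear * -; positivity))
        linarith only [e5]
      refine (Finset.sum_le_sum fun i _ => h3 i).trans ?_
      rw [← Finset.mul_sum]
      refine mul_le_mul_of_nonneg_left ?_ (by positivity)
      simp only [Finset.sum_add_distrib, ← Finset.mul_sum, Finset.sum_const, nsmul_eq_mul]
      have h4 : ∑ i ∈ S, ∑ R ∈ S.powerset.erase ∅, n2 ξ (z i R * F k) ≤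
          ∑ i, ∑ R : Finset I, n2 ξ (z i R * F k) := by
        refine (Finset.sum_le_sum fun i _ => Finset.sum_le_sum_of_subset_of_nonneg
          (Finset.subset_univ _) fun R _ _ => n2_nonneg _ _).trans ?_
        exact Finset.sum_le_sum_of_subset_of_nonneg (Finset.subset_univ _)
          fun i _ _ => Finset.sum_nonneg fun R _ => n2_nonneg _ _
      have h5 : (S.card : ℝ) * (((S.powerset.erase ∅).card : ℝ) * (2 * (κ ^ 2 * n2 ξ (F k)))) ≤
          2 * (κ ^ 2 * (d * 2 ^ d) * n2 ξ (F k)) := by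
        have h6 : (S.card : ℝ) ≤ d := by exact_mod_cast hd
        have h7 : (S.card : ℝ) * ((S.powerset.erase ∅).card : ℝ) ≤ d * 2 ^ d :=
          mul_le_mul h6 hcard (Nat.cast_nonneg _) (Nat.cast_nonneg _)
        have h8 : 0 ≤ 2 * (κ ^ 2 * n2 ξ (F k)) := by (clear * - hpos'; positivity)
        calc (S.card : ℝ) * (((S.powerset.erase ∅).card : ℝ) * (2 * (κ ^ 2 * n2 ξ (F k))))
            = ((S.card : ℝ) * ((S.powerset.erase ∅).card : ℝ)) *
              (2 * (κ ^ 2 * n2 ξ (F k))) := by ring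
          _ ≤ (d * 2 ^ d) * (2 * (κ ^ 2 * n2 ξ (F k))) := mul_le_mul_of_nonneg_right h7 h8
          _ = 2 * (κ ^ 2 * (d * 2 ^ d) * n2 ξ (F k)) := by ring
      linarith only [h5, h4]
  -- sum over `k`
  have h2 : ∑ k, n2 ξ (ZZn near y F k) ≤ 2 ^ d * (2 * (κ ^ 2 * (d * 2 ^ d) * ∑ k, n2 ξ (F k)) +
      2 * ∑ i, ∑ R : Finset I, ∑ k, n2 ξ (z i R * F k)) := by
    refine (Finset.sum_le_sum fun k _ => h1 k).trans (le_of_eq ?_)
    rw [← Finset.mul_sum, Finset.sum_add_distrib, ← Finset.mul_sum, ← Finset.mul_sum,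
      ← Finset.mul_sum, Finset.sum_comm]
    congr 3
    exact Finset.sum_congr rfl fun i _ => Finset.sum_comm
  refine h2.trans (mul_le_mul_of_nonneg_left ?_ (by positivity))
  have h3 : κ ^ 2 * (d * 2 ^ d) * ∑ k, n2 ξ (F k) ≤ κ ^ 2 * (d * 2 ^ d) := by
    have h4 := sum_F_le3 hξ hev
    have h5 : 0 ≤ κ ^ 2 * ((d : ℝ) * 2 ^ d) := by (clear * -; positivity)
    linarith only [mul_nonneg (sub_nonneg.2 h4) (sub_nonneg.2 h5)]
  have h4 : ∑ i, ∑ R : Finset I, ∑ k, n2 ξ (z i R * F k) ≤ 2 ^ b * c * τ := by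
    have h5 := fam_le3 (M := M) (F := F) hξ (Finset.univ : Finset (I × Finset I))
      (fun p => z p.1 p.2) (fun p => hzM _ _) (C := 2 ^ b * c) (e := ε / c) (τ := τ)
      (by (clear * - hc; positivity)) ?_ ?_ hτ
    · rw [Fintype.sum_prod_type] at h5
      exact h5
    · -- the operator bound
      refine le_trans ?_ (sum_se_le3 near hb hc)
      rw [Fintype.sum_prod_type, Finset.sum_comm]
      refine Finset.sum_le_sum fun R _ => ?_
      by_cases h : R.Nonempty
      · have e1 : ∀ i, star (z i R) * z i R = se f (fun l => R ⊆ near l) *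
            (star (y'' i h.choose) * y'' i h.choose) * se f (fun l => R ⊆ near l) := by
          intro i
          rw [hz]
          simp only [h, dif_pos]
          rw [star_mul, se_star]; simp only [mul_assoc]
        change ∑ i, star (z i R) * z i R ≤ _
        rw [Finset.sum_congr rfl fun i _ => e1 i, ← Finset.sum_mul, ← Finset.mul_sum]
        have e2 : ∑ i, star (y'' i h.choose) * y'' i h.choose ≤ (c : ℂ) • (1 : H →L[ℂ] H) := by
          refine le_trans (Finset.sum_le_sum fun i _ => ?_) hop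
          exact Finset.single_le_sum (f := fun j => star (y'' i j) * y'' i j)
            (fun j _ => star_mul_self_nonneg _) (Finset.mem_univ _)
        have e3 := star_left_conjugate_le_conjugate e2 (se f (fun l => R ⊆ near l))
        rw [se_star] at e3
        refine e3.trans (le_of_eq ?_)
        rw [mul_smul_comm, mul_one, smul_mul_assoc, se_mul_se]
        congr 2
        funext l
        exact propext ⟨fun h => h.1, fun h => ⟨h, h⟩⟩
      · have e1 : ∀ i, star (z i R) * z i R = 0 := by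
          intro i
          rw [hz]
          simp only [h, dif_neg, not_false_iff]
          rw [mul_zero]
        change ∑ i, star (z i R) * z i R ≤ _
        rw [Finset.sum_congr rfl fun i _ => e1 i, Finset.sum_const_zero, Complex.coe_smul]
        refine smul_nonneg hc.le ?_
        have e2 : se f (fun l => R ⊆ near l) =
            star (se f (fun l => R ⊆ near l)) * se f (fun l => R ⊆ near l) := by
          rw [se_star, se_mul_se]
          congr 1
          funext l
          exact propext ⟨fun h => ⟨h, h⟩, fun h => h.1⟩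
        rw [e2]
        exact star_mul_self_nonneg _
    · rw [Fintype.sum_prod_type]
      have h6 : ∀ i, ∑ R : Finset I, n2 ξ (z i R) ≤ ∑ j, 2 ^ b * n2 ξ (y'' i j) := by
        intro i
        refine (Finset.sum_le_sum fun R _ => hzle i R).trans ?_
        rw [Finset.sum_comm]
        exact Finset.sum_le_sum fun j _ => sum_sub_le3 hξ hcen hAM near hb (hy'' i j)
      refine (Finset.sum_le_sum fun i _ => h6 i).trans ?_
      simp only [← Finset.mul_sum]
      have h7 : (2 : ℝ) ^ b * c * (ε / c) = 2 ^ b * ε := by (clear * - hc; field_simp)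
      rw [h7]
      exact mul_le_mul_of_nonneg_left hn2 (by positivity)
  (clear y hy hF y' hy' hsum hnorm h1 h2; linarith)

end Vale.Agent.P078.W
end

section
/-! G3: one step of the recursion for central states. -/

set_option linter.unusedSectionVars false

namespace Vale.Agent.P078.W

open Filter Topology
open Vale.Agent.P078 Vale.Agent.P078.C Vale.Agent.P078.F Vale.Agent.P078.Y
open scoped Classical ComplexConjugate

universe u

variable {H : Type u} [NormedAddCommGroup H] [InnerProductSpace ℂ H] [CompleteSpace H]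
variable {M A : VonNeumannAlgebra H} {ξ : ℕ → H}
variable {I : Type*} [Fintype I] {r : ℕ} [NeZero r]
variable {f : Part A.toStarSubalgebra} {near : f.ι → Finset I} {col : f.ι → (I → ZMod r) → ZMod r}

/-- one step of the recursion -/
theorem step3 (hξ : IsTrace A ξ) (hcen : ∀ a ∈ A, ∀ x ∈ M, vtr ξ (a * x) = vtr ξ (x * a))
    (hAM : ∀ a ∈ A, a ∈ M) (hR : Rule f near col) {b : ℕ}
    (hb : ∀ l, (near l).card ≤ b) {y : H →L[ℂ] H} (hy : y ∈ M) (hy1 : ‖y‖ ≤ 1) (n : ℕ)
    {θ κ c ε τ : ℝ} (hθ : 0 < θ) (hc : 0 < c) (hD : Dec M ξ f near y κ c ε)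
    (hτ : ∀ x ∈ M, ‖x‖ ≤ 1 → n2 ξ x ≤ ε / c → ∀ a U,
      n2 ξ (x * (Pop f col a U * Sop f col y U ^ n)) ≤ τ) :
    ∑ U, n2 ξ (Sop f col y U ^ (n + 1)) ≤ (1 + θ) * (4 / r) * ∑ U, n2 ξ (Sop f col y U ^ n) +
      (1 + θ⁻¹) * (r * (Fintype.card (I → ZMod r) *
        (2 ^ (b + n * (b + 0 + b)) * (2 * (κ ^ 2 * ((b + n * (b + 0 + b) : ℕ) *
          2 ^ (b + n * (b + 0 + b)))) + 2 * (2 ^ b * c * τ))))) := by
  have hrep : ∀ a : ZMod r, ∃ F : (I → ZMod r) → (H →L[ℂ] H),
      (∀ U, evj U F = Pop f col a U * Sop f col y U ^ n) ∧ Dg (b + n * (b + 0 + b)) F :=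
    fun a => rep_mul (rep_Pop hR hb a) (rep_pow (rep_Sop hR hb y) n)
  choose F hF1 hF2 using hrep
  have hev : ∀ a U, evj U (F a) ∈ M ∧ ‖evj U (F a)‖ ≤ 1 := by
    intro a U
    rw [hF1]
    exact ⟨mul_mem (Pop_mem hAM a U) (pow_mem (Sop_mem hAM hy U) n), norm_PS hy1 a U n⟩
  -- vector inequality
  have key : ∀ m, ∑ U : I → ZMod r, ‖(Sop f col y U ^ (n + 1)) (ξ m)‖ ^ 2 ≤
      (1 + θ) * (4 / r) * ∑ U : I → ZMod r, ‖(Sop f col y U ^ n) (ξ m)‖ ^ 2 +
      (1 + θ⁻¹) * ∑ a, ∑ U : I → ZMod r, ‖(evj U (ZZn near y (F a))) (ξ m)‖ ^ 2 := by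
    intro m
    have h1 := main_ineq hR hy1 hθ fun U => (Sop f col y U ^ n) (ξ m)
    have e1 : ∀ U, Sop f col y U ((Sop f col y U ^ n) (ξ m)) =
        (Sop f col y U ^ (n + 1)) (ξ m) := by
      intro U
      rw [pow_succ']
      rfl
    have e2 : ∀ a (U : I → ZMod r), Zop f near y
        (fun V => Pop f col a V ((Sop f col y V ^ n) (ξ m))) U =
        (evj U (ZZn near y (F a))) (ξ m) := by
      intro a U
      rw [← Z_ev]
      congr 1
      funext V
      rw [hF1]
      rfl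
    simp only [e1, e2] at h1
    exact h1
  -- sum over the vectors
  have s1 : Summable fun m => ∑ U : I → ZMod r, ‖(Sop f col y U ^ (n + 1)) (ξ m)‖ ^ 2 :=
    summable_sum fun U _ => n2_summable hξ _
  have s2 : Summable fun m => ∑ U : I → ZMod r, ‖(Sop f col y U ^ n) (ξ m)‖ ^ 2 :=
    summable_sum fun U _ => n2_summable hξ _
  have s3' : ∀ a, Summable fun m => ∑ U : I → ZMod r,
      ‖(evj U (ZZn near y (F a))) (ξ m)‖ ^ 2 := fun a =>
    summable_sum fun U _ => n2_summable hξ _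
  have s3 : Summable fun m => ∑ a, ∑ U : I → ZMod r,
      ‖(evj U (ZZn near y (F a))) (ξ m)‖ ^ 2 := summable_sum fun a _ => s3' a
  have h1 := Summable.tsum_le_tsum key s1 ((s2.mul_left _).add (s3.mul_left _))
  rw [(s2.mul_left _).tsum_add (s3.mul_left _), tsum_mul_left, tsum_mul_left,
    Summable.tsum_finsetSum fun U _ => n2_summable hξ _,
    Summable.tsum_finsetSum fun U _ => n2_summable hξ _,
    Summable.tsum_finsetSum fun a _ => s3' a] at h1
  refine h1.trans (add_le_add le_rfl (mul_le_mul_of_nonneg_left ?_ (by (clear * - hθ; positivity))))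
  have h2 : ∀ a, ∑' m, ∑ U : I → ZMod r, ‖(evj U (ZZn near y (F a))) (ξ m)‖ ^ 2 ≤
      Fintype.card (I → ZMod r) *
        (2 ^ (b + n * (b + 0 + b)) * (2 * (κ ^ 2 * ((b + n * (b + 0 + b) : ℕ) *
          2 ^ (b + n * (b + 0 + b)))) + 2 * (2 ^ b * c * τ))) := by
    intro a
    rw [Summable.tsum_finsetSum fun U _ => n2_summable hξ _]
    have h3 := parseval_j hξ (ZZn near y (F a))
    unfold n2 at h3
    rw [h3]
    refine mul_le_mul_of_nonneg_left (sum_ZZn3 hξ hcen hAM near hb hy (hF2 a) (hev a) hc hD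
      fun x hx hx1 hx2 U => ?_) (Nat.cast_nonneg _)
    rw [hF1]
    exact hτ x hx hx1 hx2 a U
  refine (Finset.sum_le_sum fun a _ => h2 a).trans (le_of_eq ?_)
  rw [Finset.sum_const, Finset.card_univ, ZMod.card, nsmul_eq_mul]

end Vale.Agent.P078.W
end

section
/-! G3: moments and paving of the mixing part, averaged over the labels. -/

set_option linter.unusedSectionVars false

namespace Vale.Agent.P078.W

open Filter Topology
open Vale.Agent.P078 Vale.Agent.P078.C Vale.Agent.P078.F Vale.Agent.P078.Y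
open scoped Classical ComplexConjugate

universe u

variable {H : Type u} [NormedAddCommGroup H] [InnerProductSpace ℂ H] [CompleteSpace H]
variable {M A : VonNeumannAlgebra H} {ξ : ℕ → H} {E : (H →L[ℂ] H) →ₗ[ℂ] (H →L[ℂ] H)}

private theorem mom3_scal {c c' : ℝ} (h : c ≤ c') :
    ((c : ℂ) • (1 : H →L[ℂ] H)) ≤ (c' : ℂ) • (1 : H →L[ℂ] H) := by
  rw [← sub_nonneg, ← sub_smul]
  have h0 : 0 ≤ c' - c := sub_nonneg.2 h
  have h1 := star_left_conjugate_nonneg (zero_le_one' (H →L[ℂ] H))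
    (((Real.sqrt (c' - c) : ℝ) : ℂ) • (1 : H →L[ℂ] H))
  have h2 : star (((Real.sqrt (c' - c) : ℝ) : ℂ) • (1 : H →L[ℂ] H)) * 1 *
      (((Real.sqrt (c' - c) : ℝ) : ℂ) • (1 : H →L[ℂ] H)) =
        ((c' : ℂ) - (c : ℂ)) • (1 : H →L[ℂ] H) := by
    rw [star_smul, star_one, Complex.star_def, Complex.conj_ofReal, smul_mul_assoc, one_mul,
      smul_mul_assoc, one_mul, smul_smul, ← Complex.ofReal_mul, Real.mul_self_sqrt h0,
      Complex.ofReal_sub]
  rwa [h2] at h1

private theorem mom3_dec {f : Part A.toStarSubalgebra} {I : Type*} [Fintype I]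
    {near : f.ι → Finset I} {y : H →L[ℂ] H} {κ κ' c c' ε ε' : ℝ} (hκ : κ ≤ κ') (hc : c ≤ c')
    (hε : ε ≤ ε') (h : Dec M ξ f near y κ c ε) : Dec M ξ f near y κ' c' ε' := by
  obtain ⟨y', y'', h1, h2, h3, h4, h5, h6⟩ := h
  exact ⟨y', y'', h1, h2, h3, fun i j => (h4 i j).trans hκ, h5.trans (mom3_scal hc),
    h6.trans hε⟩

/-- moments -/
theorem mix_moment3 (hA : SO.IsMASA A M) (hξ : IsCState M A ξ) {y : H →L[ℂ] H} (hy : y ∈ M)
    (hy1 : ‖y‖ ≤ 1) (r : ℕ) [NeZero r] (b n : ℕ) {c : ℝ} (hc : 0 < c) : ∀ η : ℝ, 0 < η →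
      ∃ κ : ℝ, 0 < κ ∧ ∃ ε : ℝ, 0 < ε ∧
      ∀ (f : Part A.toStarSubalgebra) (I : Type) [Fintype I] (near : f.ι → Finset I)
        (col : f.ι → (I → ZMod r) → ZMod r), Rule f near col → (∀ l, (near l).card ≤ b) →
        Dec M ξ f near y κ c ε →
        ∑ U, n2 ξ (Sop f col y U ^ n) ≤ Fintype.card (I → ZMod r) * ((4 / r) ^ n + η) := by
  have ht := hξ.tr hA
  have hr : (0 : ℝ) < r := by exact_mod_cast NeZero.pos r
  induction n with
  | zero =>
    intro η hη
    refine ⟨1, one_pos, 1, one_pos, fun f I _ near col _ _ _ => ?_⟩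
    have h1 : ∀ U : I → ZMod r, n2 ξ (Sop f col y U ^ 0) ≤ 1 := by
      intro U
      rw [pow_zero]
      refine (n2_le ht 1).trans ?_
      exact pow_le_one₀ (norm_nonneg _) ContinuousLinearMap.norm_id_le
    refine (Finset.sum_le_sum fun U _ => h1 U).trans ?_
    rw [Finset.sum_const, Finset.card_univ, nsmul_eq_mul, pow_zero]
    exact mul_le_mul_of_nonneg_left (by linarith) (Nat.cast_nonneg _)
  | succ n ih =>
    intro η hη
    obtain ⟨q, hq⟩ : ∃ q : ℝ, q = 4 / (r : ℝ) := ⟨_, rfl⟩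
    have hq0 : 0 ≤ q := by rw [hq]; (clear * - hr; positivity)
    obtain ⟨κ1, hκ1, ε1, hε1, h1⟩ := ih (η / (8 * (q + 1))) (by (clear * - hη hq0; positivity))
    rw [← hq] at h1 ⊢
    obtain ⟨θ, hθ⟩ : ∃ θ : ℝ, θ = min 1 (η / (4 * (q ^ (n + 1) + 1))) := ⟨_, rfl⟩
    have hθ0 : 0 < θ := by
      rw [hθ]
      have : 0 < η / (4 * (q ^ (n + 1) + 1)) := by positivity
      positivity
    obtain ⟨D, hD⟩ : ∃ D : ℕ, D = b + n * (b + 0 + b) := ⟨_, rfl⟩
    obtain ⟨K1, hK1⟩ : ∃ K1 : ℝ, K1 = (1 + θ⁻¹) * (r * (2 ^ D * (2 * ((D : ℝ) * 2 ^ D)))) + 1 :=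
      ⟨_, rfl⟩
    have hK10 : 0 < K1 := by rw [hK1]; (clear * - hθ0 hr; (clear * - hθ0 hr; positivity))
    obtain ⟨κ2, hκ2⟩ : ∃ κ2 : ℝ, κ2 = Real.sqrt (η / (4 * K1)) := ⟨_, rfl⟩
    have hκ20 : 0 < κ2 := by rw [hκ2]; exact Real.sqrt_pos.2 (by positivity)
    have hκ22 : κ2 ^ 2 = η / (4 * K1) := by rw [hκ2]; exact Real.sq_sqrt (by positivity)
    obtain ⟨κ, hκ⟩ : ∃ κ : ℝ, κ = min κ1 κ2 := ⟨_, rfl⟩
    have hκ0 : 0 < κ := by rw [hκ]; exact lt_min hκ1 hκ20
    have hκsq : κ ^ 2 ≤ η / (4 * K1) := by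
      rw [← hκ22]
      exact pow_le_pow_left₀ hκ0.le (by rw [hκ]; exact min_le_right _ _) 2
    obtain ⟨K2, hK2⟩ : ∃ K2 : ℝ, K2 = (1 + θ⁻¹) * (r * (2 ^ D * (2 * (2 ^ b * c)))) := ⟨_, rfl⟩
    have hK20 : 0 < K2 := by rw [hK2]; (clear * - hθ0 hr hc; positivity)
    obtain ⟨τ, hτ⟩ : ∃ τ : ℝ, τ = η / (4 * K2) := ⟨_, rfl⟩
    have hτ0 : 0 < τ := by rw [hτ]; (clear * - hη hK20; positivity)
    obtain ⟨ε', hε', hword⟩ := word_small3 hA hξ hy hy1 n hτ0
    refine ⟨κ, hκ0, min ε1 (c * ε'), lt_min hε1 (mul_pos hc hε'),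
      fun f I _ near col hR hb hDec => ?_⟩
    have h2 := h1 f I near col hR hb
      (mom3_dec (by rw [hκ]; exact min_le_left _ _) le_rfl (min_le_left _ _) hDec)
    have hstep := step3 ht hξ.central (fun a ha => hA.1 a ha) hR hb hy hy1 n (τ := τ) hθ0 hc hDec
      (fun x hx hx1 hxn a U => hword (cpart f fun l => col l U) a x hx hx1 (hxn.trans (by
        rw [div_le_iff₀ hc, mul_comm ε' c]
        exact min_le_right _ _)))
    refine hstep.trans ?_
    rw [← hD, ← hq]
    obtain ⟨Nc, hNc⟩ : ∃ Nc : ℝ, Nc = (Fintype.card (I → ZMod r) : ℝ) := ⟨_, rfl⟩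
    have hNc0 : 0 ≤ Nc := by rw [hNc]; positivity
    rw [← hNc] at h2 ⊢
    have a1 : (1 + θ) * q * ∑ U : I → ZMod r, n2 ξ (Sop f col y U ^ n) ≤
        Nc * (q ^ (n + 1) + η / 2) := by
      have b1 : (1 + θ) * q * ∑ U : I → ZMod r, n2 ξ (Sop f col y U ^ n) ≤
          (1 + θ) * q * (Nc * (q ^ n + η / (8 * (q + 1)))) :=
        mul_le_mul_of_nonneg_left h2 (by (clear * - hθ0 hq0; positivity))
      have b2 : (1 + θ) * q * (q ^ n + η / (8 * (q + 1))) ≤ q ^ (n + 1) + η / 2 := by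
        have c1 : θ * q ^ (n + 1) ≤ η / 4 := by
          have d1 : θ ≤ η / (4 * (q ^ (n + 1) + 1)) := by rw [hθ]; exact min_le_right _ _
          have d2 : θ * q ^ (n + 1) ≤ η / (4 * (q ^ (n + 1) + 1)) * q ^ (n + 1) :=
            mul_le_mul_of_nonneg_right d1 (by (clear * - hq0; positivity))
          have d3 : η / (4 * (q ^ (n + 1) + 1)) * q ^ (n + 1) ≤ η / 4 := by
            rw [div_mul_eq_mul_div, div_le_div_iff₀ (by (clear * - hq0; positivity)) (by norm_num)]
            linarith only [hη]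
          linarith only [d2, d3]
        have c2 : (1 + θ) * q * (η / (8 * (q + 1))) ≤ η / 4 := by
          have d1 : θ ≤ 1 := by rw [hθ]; exact min_le_left _ _
          have d2 : (1 + θ) * q * (η / (8 * (q + 1))) ≤ 2 * q * (η / (8 * (q + 1))) := by
            refine mul_le_mul_of_nonneg_right ?_ (by (clear * - hη hq0; positivity))
            exact mul_le_mul_of_nonneg_right (by linarith only [d1]) hq0
          have d3 : 2 * q * (η / (8 * (q + 1))) ≤ η / 4 := by
            rw [← mul_div_assoc, div_le_div_iff₀ (by (clear * - hq0; positivity)) (by norm_num)]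
            linarith only [hη]
          linarith only [d2, d3]
        calc (1 + θ) * q * (q ^ n + η / (8 * (q + 1)))
            = q ^ (n + 1) + θ * q ^ (n + 1) + (1 + θ) * q * (η / (8 * (q + 1))) := by ring
          _ ≤ q ^ (n + 1) + η / 2 := by linarith only [c1, c2]
      calc (1 + θ) * q * ∑ U : I → ZMod r, n2 ξ (Sop f col y U ^ n)
          ≤ (1 + θ) * q * (Nc * (q ^ n + η / (8 * (q + 1)))) := b1
        _ = Nc * ((1 + θ) * q * (q ^ n + η / (8 * (q + 1)))) := by ring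
        _ ≤ Nc * (q ^ (n + 1) + η / 2) := mul_le_mul_of_nonneg_left b2 hNc0
    have a2 : (1 + θ⁻¹) * (r * (2 ^ D * (2 * (κ ^ 2 * ((D : ℝ) * 2 ^ D)) +
        2 * (2 ^ b * c * τ)))) ≤ η / 2 := by
      have b1 : (1 + θ⁻¹) * (r * (2 ^ D * (2 * (κ ^ 2 * ((D : ℝ) * 2 ^ D)) +
          2 * (2 ^ b * c * τ)))) =
          ((1 + θ⁻¹) * (r * (2 ^ D * (2 * ((D : ℝ) * 2 ^ D))))) * κ ^ 2 +
          K2 * τ := by rw [hK2]; ring
      rw [b1]
      have b2 : ((1 + θ⁻¹) * (r * (2 ^ D * (2 * ((D : ℝ) * 2 ^ D))))) * κ ^ 2 ≤ η / 4 := by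
        have c1 : ((1 + θ⁻¹) * (r * (2 ^ D * (2 * ((D : ℝ) * 2 ^ D))))) * κ ^ 2 ≤ K1 * κ ^ 2 :=
          mul_le_mul_of_nonneg_right (by rw [hK1]; linarith only []) (by (clear * - hκ0; positivity))
        have c2 : K1 * κ ^ 2 ≤ K1 * (η / (4 * K1)) := mul_le_mul_of_nonneg_left hκsq hK10.le
        have c3 : K1 * (η / (4 * K1)) = η / 4 := by field_simp
        linarith only [c1, c2, c3]
      have b3 : K2 * τ = η / 4 := by rw [hτ]; (clear * - hK20 hη; field_simp)
      (clear * - b2 b3; linarith)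
    calc (1 + θ) * q * ∑ U : I → ZMod r, n2 ξ (Sop f col y U ^ n) +
        (1 + θ⁻¹) * (r * (Nc * (2 ^ D * (2 * (κ ^ 2 * ((D : ℝ) * 2 ^ D)) +
          2 * (2 ^ b * c * τ)))))
        = (1 + θ) * q * ∑ U : I → ZMod r, n2 ξ (Sop f col y U ^ n) +
          Nc * ((1 + θ⁻¹) * (r * (2 ^ D * (2 * (κ ^ 2 * ((D : ℝ) * 2 ^ D)) +
          2 * (2 ^ b * c * τ))))) := by ring
      _ ≤ Nc * (q ^ (n + 1) + η / 2) + Nc * (η / 2) :=
          add_le_add a1 (mul_le_mul_of_nonneg_left a2 hNc0)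
      _ = Nc * (q ^ (n + 1) + η) := by ring

/-- the mixing part is paved by most samples of every equivariant local random colouring -/
theorem mix_paving3 (hA : SO.IsMASA A M) (hξ : IsCState M A ξ) {y : H →L[ℂ] H} (hy : y ∈ M)
    (hsa : IsSelfAdjoint y) (hy1 : ‖y‖ ≤ 1) (r : ℕ) [NeZero r] (b : ℕ) {c s δ : ℝ}
    (hc : 0 < c) (hs : 2 / Real.sqrt r < s) (hδ : 0 < δ) : ∃ κ : ℝ, 0 < κ ∧ ∃ ε : ℝ, 0 < ε ∧
      ∀ (f : Part A.toStarSubalgebra) (I : Type) [Fintype I] (near : f.ι → Finset I)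
        (col : f.ι → (I → ZMod r) → ZMod r), Rule f near col → (∀ l, (near l).card ≤ b) →
        Dec M ξ f near y κ c ε →
        ∑ U : I → ZMod r, n2 ξ (Sop f col y U - cfc (clp s) (Sop f col y U)) ≤
          Fintype.card (I → ZMod r) * δ := by
  have ht := hξ.tr hA
  have hr0 : (0 : ℝ) < r := by exact_mod_cast NeZero.pos r
  have hq0 : 0 ≤ 2 / Real.sqrt r := by (clear * - hr0; positivity)
  have hs0 : 0 < s := lt_of_le_of_lt hq0 hs
  have hq : 4 / (r : ℝ) < s ^ 2 := by
    have e1 : (2 / Real.sqrt r) ^ 2 = 4 / r := by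
      rw [div_pow, Real.sq_sqrt hr0.le]
      norm_num
    rw [← e1]
    exact pow_lt_pow_left₀ hs hq0 two_ne_zero
  obtain ⟨ρ, hρ⟩ : ∃ ρ : ℝ, ρ = 4 / (r : ℝ) / s ^ 2 := ⟨_, rfl⟩
  have hρ0 : 0 ≤ ρ := by rw [hρ]; (clear * - hr0 hs0; positivity)
  have hρ1 : ρ < 1 := by rw [hρ, div_lt_one (by positivity)]; exact hq
  obtain ⟨n, hn⟩ := exists_pow_lt_of_lt_one (show 0 < δ / (2 * s ^ 2) by positivity) hρ1
  obtain ⟨κ, hκ, ε, hε, h1⟩ := mix_moment3 hA hξ hy hy1 r b (n + 1) hc (s ^ (2 * n) * δ / 2)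
    (by positivity)
  refine ⟨κ, hκ, ε, hε, fun f I _ near col hR hb hDec => ?_⟩
  have h2 := h1 f I near col hR hb hDec
  have h3 : ∀ U : I → ZMod r, n2 ξ (Sop f col y U - cfc (clp s) (Sop f col y U)) ≤
      (s ^ (2 * n))⁻¹ * n2 ξ (Sop f col y U ^ (n + 1)) := fun U =>
    n2_clp_le ht (Sop_sa (f := f) (col := col) hsa U) hs0 n
  refine (Finset.sum_le_sum fun U _ => h3 U).trans ?_
  rw [← Finset.mul_sum]
  have h8 := mul_le_mul_of_nonneg_left h2 (show 0 ≤ (s ^ (2 * n))⁻¹ by positivity)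
  refine h8.trans ?_
  obtain ⟨Nc, hNc⟩ : ∃ Nc : ℝ, Nc = (Fintype.card (I → ZMod r) : ℝ) := ⟨_, rfl⟩
  have hNc0 : 0 ≤ Nc := by rw [hNc]; positivity
  rw [← hNc]
  have e4 : (4 / (r : ℝ)) = ρ * s ^ 2 := by
    rw [hρ]
    (clear * - hs0 hr0; field_simp)
  rw [e4]
  have e5 : (s ^ (2 * n))⁻¹ * (Nc * ((ρ * s ^ 2) ^ (n + 1) + s ^ (2 * n) * δ / 2)) =
      Nc * (s ^ 2 * ρ ^ (n + 1) + δ / 2) := by
    rw [mul_pow, ← pow_mul, show 2 * (n + 1) = 2 * n + 2 by ring, pow_add]
    field_simp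
    ring
  rw [e5]
  refine mul_le_mul_of_nonneg_left ?_ hNc0
  have h9 : ρ ^ (n + 1) ≤ ρ ^ n := pow_le_pow_of_le_one hρ0 hρ1.le (Nat.le_succ n)
  have h10 : s ^ 2 * ρ ^ (n + 1) ≤ s ^ 2 * (δ / (2 * s ^ 2)) :=
    mul_le_mul_of_nonneg_left (h9.trans hn.le) (by positivity)
  have h11 : s ^ 2 * (δ / (2 * s ^ 2)) = δ / 2 := by (clear * - hs0 hδ; field_simp)
  (clear * - h10 h11; linarith only [h11, h10])

/-- (Y): a self-adjoint contraction orthogonal to the normalizer is paved by most samples of every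
equivariant local random colouring with labels on a fine partition -/
theorem mix3 (hA : SO.IsMASA A M) (hξ : IsCState M A ξ) (hE : IsTrExp M A ξ E)
    {y : H →L[ℂ] H} (hy : y ∈ M) (hsa : IsSelfAdjoint y) (hy1 : ‖y‖ ≤ 1)
    (horth : ∀ u : nrm M A, E (op u * y) = 0)
    {n : ℕ} (u : Fin n → nrm M A) (r : ℕ) [NeZero r] {s δ : ℝ}
    (hs : 2 / Real.sqrt r < s) (hδ : 0 < δ) :
    ∃ t₀ : Part A.toStarSubalgebra, ∀ t f : Part A.toStarSubalgebra, t₀.Finer t →
      ∀ idx : Fin n → f.ι → t.ι,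
      (∀ g l, (star (op (u g)) * t.e (idx g l) * op (u g)) * f.e l = f.e l) →
      ∀ col : f.ι → (t.ι → ZMod r) → ZMod r,
      (∀ l U V, (∀ g, U (idx g l) = V (idx g l)) → col l U = col l V) →
      (∀ l U, col l (fun i => U i + 1) = col l U + 1) →
      ∑ U : t.ι → ZMod r, n2 ξ (Sop f col y U - cfc (clp s) (Sop f col y U)) ≤
        Fintype.card (t.ι → ZMod r) * δ := by
  obtain ⟨κ, hκ, ε, hε, h1⟩ := mix_paving3 hA hξ hy hsa hy1 r n (c := (n : ℝ) ^ 4 + 1)
    (by (clear * -; positivity)) hs hδ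
  obtain ⟨t₀, h2⟩ := dec_small3 hA hξ hE hy hy1 horth u hκ hε
  refine ⟨t₀, fun t f ht idx hidx col hdep heqv => ?_⟩
  refine h1 f t.ι (fun l => Finset.univ.image fun g => idx g l) col
    ⟨fun l U V hUV => hdep l U V fun g => hUV _ (Finset.mem_image_of_mem _ (Finset.mem_univ g)),
      heqv⟩ (fun l => ?_) (mom3_dec le_rfl (by linarith only []) le_rfl (h2 t f ht idx hidx))
  refine Finset.card_image_le.trans ?_
  rw [Finset.card_univ, Fintype.card_fin]

end Vale.Agent.P078.W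
end

section
/-! G3: most samples of finitely many rules pave the mixing part. -/

set_option linter.unusedSectionVars false

namespace Vale.Agent.P078.W

open Filter Topology
open Vale.Agent.P078 Vale.Agent.P078.C Vale.Agent.P078.F Vale.Agent.P078.Y
open scoped Classical

universe u

variable {H : Type u} [NormedAddCommGroup H] [InnerProductSpace ℂ H] [CompleteSpace H]
variable {M A : VonNeumannAlgebra H} {ξ : ℕ → H} {E : (H →L[ℂ] H) →ₗ[ℂ] (H →L[ℂ] H)}
variable {X : Type*} [TopologicalSpace X] [MulAction (nrm M A) X]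

/-- the colouring data of one rule, for the labels of a fixed partition -/
theorem paint3_one (hA : SO.IsMASA A M) (𝒮 : Spec M A X) (y : H →L[ℂ] H) {k : ℕ}
    {B : Finset (nrm M A)} {Φ : X → (nrm M A → Fin (k + 1)) → Fin (k + 1)}
    (hΦ : D.IsRuleA B Φ) {n : ℕ} (u : Fin n → nrm M A)
    (hu : ∀ g, g ∈ insert 1 B ↔ ∃ j, u j = g) (t : Part A.toStarSubalgebra) (i : X → t.ι)
    (hi : IsLocallyConstant i) (hval : ∀ j ω, 𝒮.val ω (t.e j) = if i ω = j then 1 else 0) :
    ∃ (f : Part A.toStarSubalgebra) (idx : Fin n → f.ι → t.ι)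
      (col : f.ι → (t.ι → ZMod (k + 1)) → ZMod (k + 1)),
      (∀ g l, (star (op (u g)) * t.e (idx g l) * op (u g)) * f.e l = f.e l) ∧
      (∀ l U V, (∀ g, U (idx g l) = V (idx g l)) → col l U = col l V) ∧
      (∀ l U, col l (fun i => U i + 1) = col l U + 1) ∧
      ∀ (U : t.ι → Fin (k + 1)) (P : Fin (k + 1) → (H →L[ℂ] H)), IsPart A P →
        (∀ a x, 𝒮.val x (P a) = if Φ x (fun g => U (i (g • x))) = a then 1 else 0) →
        pinch P y = Sop f col y U := by
  obtain ⟨j₀, -⟩ := (hu 1).1 (Finset.mem_insert_self _ _)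
  have hB : ∀ g ∈ B, ∃ j, u j = g := fun g hg => (hu g).1 (Finset.mem_insert_of_mem hg)
  -- extension by zero of the seen labels
  obtain ⟨ext, hext⟩ : ∃ ext : (Fin n → Fin (k + 1)) → (nrm M A → Fin (k + 1)),
      ∀ c, ext c = fun g => if h : ∃ j, u j = g then c h.choose else 0 := ⟨_, fun _ => rfl⟩
  have hext1 : ∀ c, ∀ g ∈ B, ∃ j, u j = g ∧ ext c g = c j := by
    intro c g hg
    have h := hB g hg
    refine ⟨h.choose, h.choose_spec, ?_⟩
    rw [hext]
    simp only
    rw [dif_pos h]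
  have hext2 : ∀ c c', (∀ j, c' j = c j + 1) → ∀ g ∈ B, ext c' g = ext c g + 1 := by
    intro c c' hc g hg
    have h := hB g hg
    rw [hext, hext]
    simp only
    rw [dif_pos h, dif_pos h, hc]
  obtain ⟨F, hFdef⟩ : ∃ F : X → (Fin n → t.ι) × ((Fin n → Fin (k + 1)) → Fin (k + 1)),
      ∀ ω, F ω = (fun g => i (u g • ω), fun c => Φ ω (ext c)) := ⟨_, fun _ => rfl⟩
  have hF : IsLocallyConstant F := by
    rw [IsLocallyConstant.iff_eventually_eq]
    intro ω
    have h1 : ∀ g : Fin n, ∀ᶠ ω' in 𝓝 ω, i (u g • ω') = i (u g • ω) := fun g =>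
      (𝒮.contAct (u g)).continuousAt.eventually
        ((IsLocallyConstant.iff_eventually_eq i).1 hi (u g • ω))
    have h2 : ∀ c : Fin n → Fin (k + 1), ∀ᶠ ω' in 𝓝 ω, Φ ω' (ext c) = Φ ω (ext c) := fun c =>
      (IsLocallyConstant.iff_eventually_eq _).1 (hΦ.lc (ext c)) ω
    filter_upwards [Filter.eventually_all.2 h1, Filter.eventually_all.2 h2] with ω' h3 h4
    rw [hFdef, hFdef]
    exact Prod.ext (funext h3) (funext h4)
  obtain ⟨fe, hf1, hf2, hf3, hf4, hf5⟩ := exists_partY hA 𝒮 F hF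
  obtain ⟨col, hcol⟩ : ∃ col : (Fin n → t.ι) × ((Fin n → Fin (k + 1)) → Fin (k + 1)) →
      (t.ι → Fin (k + 1)) → Fin (k + 1), ∀ l U, col l U =
        if ∃ ω, F ω = l then l.2 (fun g => U (l.1 g)) else U (l.1 j₀) := ⟨_, fun _ _ => rfl⟩
  have hdep : ∀ (l : (Fin n → t.ι) × ((Fin n → Fin (k + 1)) → Fin (k + 1)))
      (U V : t.ι → Fin (k + 1)), (∀ g, U (l.1 g) = V (l.1 g)) → col l U = col l V := by
    intro l U V h
    rw [hcol, hcol]
    split_ifs with h1
    · exact congrArg l.2 (funext fun g => h g)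
    · exact h j₀
  have heqv : ∀ (l : (Fin n → t.ι) × ((Fin n → Fin (k + 1)) → Fin (k + 1)))
      (U : t.ι → Fin (k + 1)), col l (fun i => U i + 1) = col l U + 1 := by
    intro l U
    rw [hcol, hcol]
    split_ifs with h1
    · obtain ⟨ω, rfl⟩ := h1
      rw [hFdef]
      simp only
      have h2 := hΦ.equiv ω (ext fun g => U (i (u g • ω))) 1
      refine Eq.trans ?_ h2
      refine hΦ.loc ω _ _ fun g hg => ?_
      exact hext2 _ _ (fun j => rfl) g hg
    · rfl
  let f₀ : Part A.toStarSubalgebra :=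
    ⟨(Fin n → t.ι) × ((Fin n → Fin (k + 1)) → Fin (k + 1)), fe, hf1, hf2, hf3, hf4⟩
  refine ⟨f₀, fun g l => l.1 g, col, fun g l => ?_, fun l U V h => hdep l U V h, heqv,
    fun U P hP hPv => ?_⟩
  · change (star (op (u g)) * t.e (l.1 g) * op (u g)) * fe l = fe l
    have h1 : star (op (u g)) * t.e (l.1 g) * op (u g) ∈ A := (u g).2.2.2 _ (t.mem _)
    refine spec_ext 𝒮 (mul_mem h1 (hf1 l)) (hf1 l) fun ω => ?_
    rw [𝒮.mul ω _ h1 _ (hf1 l), hf5]
    have h2 := 𝒮.act (u g) ω _ (t.mem (l.1 g))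
    rw [hval] at h2
    split_ifs with h
    · rw [mul_one]
      refine h2.symm.trans ?_
      rw [if_pos]
      rw [← h, hFdef]
    · rw [mul_zero]
  · have hPe : ∀ a, P a = ∑ l, if col l U = a then fe l else 0 := by
      intro a
      refine spec_ext 𝒮 (hP.1 a).1 (sum_mem fun l _ => ?_) fun ω => ?_
      · split_ifs
        exacts [hf1 l, zero_mem A]
      · rw [hPv, 𝒮.val_sum _ _ (fun l _ => by
          split_ifs
          exacts [hf1 l, zero_mem A])]
        have h1 : Φ ω (fun g => U (i (g • ω))) = col (F ω) U := by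
          rw [hcol, if_pos ⟨ω, rfl⟩, hFdef]
          simp only
          refine hΦ.loc ω _ _ fun g hg => ?_
          obtain ⟨j, h2, h3⟩ := hext1 (fun g => U (i (u g • ω))) g hg
          rw [h3, h2]
        rw [h1, Finset.sum_eq_single (F ω)]
        · split_ifs with h2
          · rw [hf5, if_pos rfl]
          · rw [𝒮.val_zero]
        · intro l _ hl
          split_ifs with h2
          · rw [hf5, if_neg (Ne.symm hl)]
          · rw [𝒮.val_zero]
        · exact fun h => absurd (Finset.mem_univ _) h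
    have hPop : ∀ a : ZMod (k + 1), P a = Pop f₀ col a U := by
      intro a
      refine Eq.trans ?_ (Pop_eq (I := t.ι) (r := k + 1) (Q := f₀) (col := col) a U).symm
      refine (hPe a).trans (Finset.sum_congr rfl fun l _ => ?_)
      congr
    refine Eq.trans ?_ (Sop_eq (I := t.ι) (r := k + 1) (f := f₀) (col := col) y U).symm
    exact Finset.sum_congr rfl fun a _ => by rw [hPop a]

/-- finitely many samples `U j` such that, for every rule `Φ ω` of a finite family, the partitions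
given by `Φ ω` and `U j` pave `y` on average over `j` -/
theorem paint3 (hA : SO.IsMASA A M) (hξ : IsCState M A ξ) (hE : IsTrExp M A ξ E)
    {y : H →L[ℂ] H} (hy : y ∈ M) (hsa : IsSelfAdjoint y) (hy1 : ‖y‖ ≤ 1)
    (horth : ∀ u : nrm M A, E (op u * y) = 0) (𝒮 : Spec M A X) {k : ℕ}
    {Ω : Type} [Fintype Ω] {B : Finset (nrm M A)}
    {Φ : Ω → X → (nrm M A → Fin (k + 1)) → Fin (k + 1)} (hΦ : ∀ ω, D.IsRuleA B (Φ ω))
    {s δ : ℝ} (hs : 2 / Real.sqrt ((k + 1 : ℕ) : ℝ) < s) (hδ : 0 < δ) :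
    ∃ (J : Type) (_ : Fintype J) (_ : Nonempty J) (U : J → X → Fin (k + 1)) (d : Ω → J → ℝ),
      (∀ j, IsLocallyConstant (U j)) ∧ (∀ ω, ∑ j, d ω j ≤ δ * Fintype.card J) ∧
      ∀ ω j (P : Fin (k + 1) → (H →L[ℂ] H)), IsPart A P →
        (∀ i x, 𝒮.val x (P i) = if Φ ω x (fun g => U j (g • x)) = i then 1 else 0) →
        ∃ w ∈ M, IsSelfAdjoint w ∧ ‖w‖ ≤ s ∧ n2 ξ (pinch P y - w) ≤ d ω j := by
  have hs0 : 0 < s := lt_of_le_of_lt (by positivity) hs
  -- enumeration of the window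
  obtain ⟨n, u, hu⟩ : ∃ (n : ℕ) (u : Fin n → nrm M A), ∀ g, g ∈ insert 1 B ↔ ∃ j, u j = g := by
    refine ⟨_, fun j => ((insert 1 B).equivFin.symm j : nrm M A), fun g => ⟨fun hg => ?_, ?_⟩⟩
    · exact ⟨(insert 1 B).equivFin ⟨g, hg⟩, by simp⟩
    · rintro ⟨j, rfl⟩
      exact ((insert 1 B).equivFin.symm j).2
  obtain ⟨t, hmix⟩ := mix3 hA hξ hE hy hsa hy1 horth u (k + 1) hs hδ
  obtain ⟨i, hi, hval⟩ := exists_label 𝒮 t
  choose f idx col h1 h2 h3 h4 using fun ω => paint3_one hA 𝒮 y (hΦ ω) u hu t i hi hval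
  refine ⟨t.ι → ZMod (k + 1), inferInstance, ⟨0⟩, fun j x => j (i x), fun ω j =>
    n2 ξ (Sop (f ω) (col ω) y j - cfc (clp s) (Sop (f ω) (col ω) y j)),
    fun j => hi.comp _, fun ω => ?_, fun ω j P hP hPv => ?_⟩
  · rw [mul_comm]
    exact hmix t (f ω) (Part.Finer.refl t) (idx ω) (h1 ω) (col ω) (h2 ω) (h3 ω)
  · have hTM := Sop_mem (f := f ω) (col := col ω) hA.1 hy j
    refine ⟨cfc (clp s) (Sop (f ω) (col ω) y j), F.cfc_mem M hTM _, cfc_predicate _ _, ?_, ?_⟩
    · refine norm_cfc_le hs0.le fun t _ => ?_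
      rw [Real.norm_eq_abs, abs_le]
      unfold clp
      exact ⟨le_max_left _ _, max_le (by linarith only [hs0]) (min_le_right _ _)⟩
    · rw [h4 ω j P hP hPv]

end Vale.Agent.P078.W
end

section
/-! P078 W-G3: the mixing part, averaged over the source, for a finite family of rules. -/

namespace Vale.Agent.P078.W

open Filter Topology Finset
open Vale.Agent.P078 Vale.Agent.P078.C
open scoped Classical

universe u

variable {H : Type u} [NormedAddCommGroup H] [InnerProductSpace ℂ H] [CompleteSpace H]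
variable {M A N : VonNeumannAlgebra H} {ξ : ℕ → H} {E : (H →L[ℂ] H) →ₗ[ℂ] (H →L[ℂ] H)}

/-- the mixing part `y` (two-sided orthogonal to the algebra `N` generated by the normalizer) is
paved by most sources, simultaneously for a finite family of rules -/
theorem paint_avg (hA : SO.IsMASA A M) (hξ : IsCState M A ξ) (hE : IsTrExp M A ξ E)
    {y : H →L[ℂ] H} (hy : y ∈ M)
    (hsa : IsSelfAdjoint y) (hy1 : ‖y‖ ≤ 1)
    (horth : ∀ g h : nrm M A, E (star (op g) * y * op h) = 0)
    {X : Type*} [TopologicalSpace X] [CompactSpace X] [T2Space X] [TotallyDisconnectedSpace X]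
    [MulAction (nrm M A) X] (𝒮 : Spec M A X) {k : ℕ} {Ω : Type} [Fintype Ω]
    {B : Finset (nrm M A)}
    {Φ : Ω → X → (nrm M A → Fin (k + 1)) → Fin (k + 1)} (hΦ : ∀ ω, D.IsRuleA B (Φ ω))
    {s δ : ℝ} (hs : 2 / Real.sqrt ((k + 1 : ℕ) : ℝ) < s) (hδ : 0 < δ) :
    ∃ (J : Type) (_ : Fintype J) (_ : Nonempty J) (U : J → X → Fin (k + 1)),
      (∀ j, IsLocallyConstant (U j)) ∧
      ∃ P : J → Ω → Fin (k + 1) → (H →L[ℂ] H), (∀ j ω, IsPart A (P j ω)) ∧
      (∀ j ω i v, 𝒮.val v (P j ω i) =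
        if Φ ω v (fun g => U j (g • v)) = i then 1 else 0) ∧
      ∃ w : J → Ω → (H →L[ℂ] H), (∀ j ω, w j ω ∈ M ∧ IsSelfAdjoint (w j ω) ∧ ‖w j ω‖ ≤ s) ∧
        ∀ ω, ∑ j, n2 ξ (pinch (P j ω) y - w j ω) ≤ δ * Fintype.card J := by
  have horth' : ∀ u : nrm M A, E (op u * y) = 0 := by
    intro u
    have h := horth u⁻¹ 1
    rwa [op_inv, star_star, op_one, mul_one] at h
  obtain ⟨J, hJ, hJne, U, d, hU, hd, hmain⟩ :=
    paint3 hA hξ hE hy hsa hy1 horth' 𝒮 hΦ hs hδ
  have hlc : ∀ j ω, IsLocallyConstant fun v => Φ ω v (fun g => U j (g • v)) := by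
    intro j ω
    rw [IsLocallyConstant.iff_eventually_eq]
    intro v
    have h1 : ∀ g ∈ B, ∀ᶠ v' in 𝓝 v, U j (g • v') = U j (g • v) := fun g _ =>
      (𝒮.contAct g).continuousAt.eventually
        ((IsLocallyConstant.iff_eventually_eq _).1 (hU j) (g • v))
    have h2 : ∀ᶠ v' in 𝓝 v, ∀ g ∈ B, U j (g • v') = U j (g • v) :=
      (Filter.eventually_all_finset B).2 h1
    have h3 := (IsLocallyConstant.iff_eventually_eq _).1 ((hΦ ω).lc (fun g => U j (g • v))) v
    filter_upwards [h2, h3] with v' h4 h5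
    rw [(hΦ ω).loc v' (fun g => U j (g • v')) (fun g => U j (g • v)) h4, h5]
  choose P hP hPv using fun j ω => exists_part hA 𝒮 _ (hlc j ω)
  choose w hwM hws hwn hw using fun j ω => hmain ω j (P j ω) (hP j ω) (hPv j ω)
  refine ⟨J, hJ, hJne, U, hU, P, hP, fun j ω i v => hPv j ω i v, w,
    fun j ω => ⟨hwM j ω, hws j ω, hwn j ω⟩, fun ω => ?_⟩
  exact (Finset.sum_le_sum fun j _ => hw j ω).trans (hd ω)

end Vale.Agent.P078.W
end
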