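import Vale.Agent.P078.Bdl.W1
import Vale.Agent.P078.Bdl.W3
import Vale.Agent.P078.Bdl.W2
import Vale.Agent.P078.Bdl.Fast

set_option linter.all false
attribute [local instance] Vale.Agent.P078.Fast.a01 Vale.Agent.P078.Fast.a02
  Vale.Agent.P078.Fast.a03 Vale.Agent.P078.Fast.a04 Vale.Agent.P078.Fast.a05
  Vale.Agent.P078.Fast.a06 Vale.Agent.P078.Fast.a07 Vale.Agent.P078.Fast.a08
  Vale.Agent.P078.Fast.a09 Vale.Agent.P078.Fast.a10 Vale.Agent.P078.Fast.a11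
  Vale.Agent.P078.Fast.a12 Vale.Agent.P078.Fast.a13 Vale.Agent.P078.Fast.a14
  Vale.Agent.P078.Fast.a15 Vale.Agent.P078.Fast.a16 Vale.Agent.P078.Fast.a17
  Vale.Agent.P078.Fast.a18 Vale.Agent.P078.Fast.a19 Vale.Agent.P078.Fast.a20
  Vale.Agent.P078.Fast.a21 Vale.Agent.P078.Fast.a22 Vale.Agent.P078.Fast.a23
  Vale.Agent.P078.Fast.a24 Vale.Agent.P078.Fast.a25 Vale.Agent.P078.Fast.a26
  Vale.Agent.P078.Fast.a27 Vale.Agent.P078.Fast.a28 Vale.Agent.P078.Fast.a29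
  Vale.Agent.P078.Fast.a30 Vale.Agent.P078.Fast.a31 Vale.Agent.P078.Fast.a32
  Vale.Agent.P078.Fast.a33 Vale.Agent.P078.Fast.a34 Vale.Agent.P078.Fast.a35
  Vale.Agent.P078.Fast.a36 Vale.Agent.P078.Fast.a37 Vale.Agent.P078.Fast.a38
  Vale.Agent.P078.Fast.a39 Vale.Agent.P078.Fast.a40 Vale.Agent.P078.Fast.a41
  Vale.Agent.P078.Fast.a42 Vale.Agent.P078.Fast.a43 Vale.Agent.P078.Fast.a44
  Vale.Agent.P078.Fast.a45 Vale.Agent.P078.Fast.a46 Vale.Agent.P078.Fast.a47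
  Vale.Agent.P078.Fast.a48 Vale.Agent.P078.Fast.a49 Vale.Agent.P078.Fast.a50
  Vale.Agent.P078.Fast.a51 Vale.Agent.P078.Fast.a52 Vale.Agent.P078.Fast.a53
  Vale.Agent.P078.Fast.a54
attribute [local instance] Vale.Agent.P078.Fast.b01 Vale.Agent.P078.Fast.b02
  Vale.Agent.P078.Fast.b03 Vale.Agent.P078.Fast.b04 Vale.Agent.P078.Fast.b05
  Vale.Agent.P078.Fast.b06 Vale.Agent.P078.Fast.b07 Vale.Agent.P078.Fast.b08
  Vale.Agent.P078.Fast.b09 Vale.Agent.P078.Fast.b10 Vale.Agent.P078.Fast.b11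

section
/-! P078 W-G4: one sample of one rule paves both parts; paving in the `2`-norm of a central
state. -/

set_option linter.unusedSectionVars false

namespace Vale.Agent.P078.W

open Filter Topology Finset
open Vale.Agent.P078 Vale.Agent.P078.C

universe u

variable {H : Type u} [NormedAddCommGroup H] [InnerProductSpace ℂ H] [CompleteSpace H]
variable {M A : VonNeumannAlgebra H} {ξ : ℕ → H} {E : (H →L[ℂ] H) →ₗ[ℂ] (H →L[ℂ] H)}

/-- two nonnegative quantities which are small on average over rows and columns are both small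
somewhere -/
private theorem exists_both_small {J Ω : Type} [Fintype J] [Fintype Ω] [Nonempty J] [Nonempty Ω]
    {a b : J → Ω → ℝ} (ha : ∀ j ω, 0 ≤ a j ω) (hb : ∀ j ω, 0 ≤ b j ω) {c : ℝ}
    (h1 : ∀ j, ∑ ω, a j ω ≤ c * Fintype.card Ω) (h2 : ∀ ω, ∑ j, b j ω ≤ c * Fintype.card J) :
    ∃ j ω, a j ω ≤ 2 * c ∧ b j ω ≤ 2 * c := by
  by_contra hcon
  push Not at hcon
  have h3 : ∀ j ω, 2 * c < a j ω + b j ω := by
    intro j ω
    by_cases h : a j ω ≤ 2 * c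
    · have := hcon j ω h
      linarith [ha j ω]
    · rw [not_le] at h
      linarith [hb j ω]
  have h4 : ∑ j : J, ∑ ω : Ω, (2 * c) < ∑ j, ∑ ω, (a j ω + b j ω) :=
    Finset.sum_lt_sum_of_nonempty Finset.univ_nonempty fun j _ =>
      Finset.sum_lt_sum_of_nonempty Finset.univ_nonempty fun ω _ => h3 j ω
  have h5 : ∑ j, ∑ ω, (a j ω + b j ω) ≤ ∑ j : J, ∑ ω : Ω, (2 * c) := by
    have e1 : ∑ j, ∑ ω, (a j ω + b j ω) = ∑ j, ∑ ω, a j ω + ∑ ω, ∑ j, b j ω := by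
      rw [Finset.sum_comm (f := fun ω j => b j ω), ← Finset.sum_add_distrib]
      exact Finset.sum_congr rfl fun j _ => Finset.sum_add_distrib
    have e2 : ∑ j, ∑ ω, a j ω ≤ (Fintype.card J : ℝ) * (c * Fintype.card Ω) := by
      refine (Finset.sum_le_sum fun j _ => h1 j).trans (le_of_eq ?_)
      rw [Finset.sum_const, Finset.card_univ, nsmul_eq_mul]
    have e3 : ∑ ω, ∑ j, b j ω ≤ (Fintype.card Ω : ℝ) * (c * Fintype.card J) := by
      refine (Finset.sum_le_sum fun ω _ => h2 ω).trans (le_of_eq ?_)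
      rw [Finset.sum_const, Finset.card_univ, nsmul_eq_mul]
    have e4 : ∑ j : J, ∑ ω : Ω, (2 * c) =
        (Fintype.card J : ℝ) * ((Fintype.card Ω : ℝ) * (2 * c)) := by
      simp only [Finset.sum_const, Finset.card_univ, nsmul_eq_mul]
    rw [e1, e4]
    linarith
  exact absurd h4 (not_lt.mpr h5)

/-- both parts of `x` are paved by one sample of one rule -/
theorem masa_pair3 (hA : SO.IsMASA A M) (hξ : IsCState M A ξ) (hE : IsTrExp M A ξ E)
    {k : ℕ} (hk : 18 ≤ k + 1) {u s : ℝ} (hu : 268 < u * Real.sqrt ((k + 1 : ℕ) : ℝ))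
    (hs : 2 / Real.sqrt ((k + 1 : ℕ) : ℝ) < s)
    {x : H →L[ℂ] H} (hx : x ∈ M) (hxs : IsSelfAdjoint x)
    (hx1 : ‖x‖ ≤ 1) (hEx : E x = 0) {δ : ℝ} (hδ : 0 < δ) :
    ∃ P : Fin (k + 1) → (H →L[ℂ] H), IsPart A P ∧ ∃ w ∈ M, ‖w‖ ≤ u + 2 * s ∧
      n2 ξ (pinch P x - w) ≤ δ := by
  classical
  have ht := hξ.tr hA
  -- the slack
  obtain ⟨d, hd, hdu, hdδ⟩ : ∃ d : ℝ, 0 < d ∧
      268 * (1 + d) < u * Real.sqrt ((k + 1 : ℕ) : ℝ) ∧ d < δ / 36 := by
    have h1 : 0 < (u * Real.sqrt ((k + 1 : ℕ) : ℝ) - 268) / 268 := by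
      apply div_pos _ (by norm_num); linarith only [hu]
    have h2 : 0 < δ / 36 := by positivity
    refine ⟨min ((u * Real.sqrt ((k + 1 : ℕ) : ℝ) - 268) / 268) (δ / 36) / 2,
      half_pos (lt_min h1 h2), ?_, ?_⟩
    · have h3 := min_le_left ((u * Real.sqrt ((k + 1 : ℕ) : ℝ) - 268) / 268) (δ / 36)
      linarith only [h3, h1]
    · have h3 := min_le_right ((u * Real.sqrt ((k + 1 : ℕ) : ℝ) - 268) / 268) (δ / 36)
      have h4 := half_lt_self (lt_min h1 h2)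
      linarith only [h4, h3]
  obtain ⟨x', z, hx', hx's, hx'n, hEx', hzM, hzs, hz1, hn, hzo⟩ :=
    exists_split hA hξ hE hx hxs hx1 hEx hd
  have hx'M : x' ∈ M := nspan_le hx'
  -- the mixing part
  obtain ⟨y, hy⟩ : ∃ y, y = ((2⁻¹ : ℝ) : ℂ) • (x - z) := ⟨_, rfl⟩
  have hyM : y ∈ M := by rw [hy]; exact M.toStarSubalgebra.smul_mem (sub_mem hx hzM) _
  have hys : IsSelfAdjoint y := by
    rw [hy, IsSelfAdjoint, star_smul, (hxs.sub hzs).star_eq]
    simp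
  have hyn : ‖y‖ ≤ 1 := by
    have h2 : ‖x - z‖ ≤ 2 := by
      refine (norm_sub_le _ _).trans ?_
      linarith only [hz1, hx1]
    rw [hy, norm_smul, Complex.norm_real, Real.norm_of_nonneg (by norm_num)]
    linarith only [h2]
  have hyo : ∀ g h : nrm M A, E (star (op g) * y * op h) = 0 := by
    intro g h
    rw [hy, mul_smul_comm, smul_mul_assoc, map_smul, hzo g h, smul_zero]
  -- the rules and the samples
  obtain ⟨X, _, _, _, _, _, ⟨𝒮⟩⟩ := exists_spec hA (nontrivial_of_trace ht)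
  obtain ⟨Ω, _, _, B, Φ, hΦ, hrule⟩ := two_sided_rule3 hA hξ hE 𝒮 hx' hx's hEx' (a := 1 + d)
    (by linarith only [hd]) hx'n (r := k + 1) hk hdu (δ := δ / 72) (by positivity)
  obtain ⟨J, _, _, U, hU, P, hP, hPv, w₂, hw₂, hn₂⟩ := paint_avg hA hξ hE hyM hys hyn hyo 𝒮 hΦ hs
    (δ := δ / 72) (by positivity)
  have hrule' := fun j => hrule (U j) (hU j) (P j) (hP j) (hPv j)
  choose w₁ hw₁ hn₁ using hrule'
  obtain ⟨j, ω, h1, h2⟩ := exists_both_small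
    (a := fun j ω => n2 ξ (pinch (P j ω) x' - w₁ j ω))
    (b := fun j ω => n2 ξ (pinch (P j ω) y - w₂ j ω))
    (fun j ω => n2_nonneg _ _) (fun j ω => n2_nonneg _ _) hn₁ hn₂
  refine ⟨P j ω, hP j ω, w₁ j ω + ((2 : ℝ) : ℂ) • w₂ j ω,
    add_mem (hw₁ j ω).1 (M.toStarSubalgebra.smul_mem (hw₂ j ω).1 _), ?_, ?_⟩
  · refine (norm_add_le _ _).trans ?_
    have h3 := (hw₁ j ω).2.2
    have h4 : ‖((2 : ℝ) : ℂ) • w₂ j ω‖ ≤ 2 * s := by
      rw [norm_smul, Complex.norm_real, Real.norm_of_nonneg (by norm_num)]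
      linarith only [(hw₂ j ω).2.2]
    linarith only [h4, h3]
  · have hxz : x = (z - x') + x' + ((2 : ℝ) : ℂ) • y := by
      rw [hy, smul_smul, ← Complex.ofReal_mul, mul_inv_cancel₀ (by norm_num), Complex.ofReal_one,
        one_smul]
      abel
    have e1 : pinch (P j ω) x - (w₁ j ω + ((2 : ℝ) : ℂ) • w₂ j ω) =
        (pinch (P j ω) (z - x') + (pinch (P j ω) x' - w₁ j ω)) +
          ((2 : ℝ) : ℂ) • (pinch (P j ω) y - w₂ j ω) := by
      conv_lhs => rw [hxz]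
      rw [G.pinch_add, G.pinch_add, G.pinch_smul, smul_sub]
      abel
    have e2 : n2 ξ (pinch (P j ω) (z - x')) ≤ δ / 36 := by
      refine (hξ.n2_pinch_le hA (hP j ω) (sub_mem hzM hx'M)).trans ?_
      rw [← n2_neg, neg_sub]
      exact hn.trans hdδ.le
    have hn1' : n2 ξ (pinch (P j ω) x' - w₁ j ω) ≤ δ / 36 := by
      refine h1.trans (le_of_eq ?_); ring
    have hn2' : n2 ξ (pinch (P j ω) y - w₂ j ω) ≤ δ / 36 := by
      refine h2.trans (le_of_eq ?_); ring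
    have e4 : Real.sqrt (n2 ξ (pinch (P j ω) x - (w₁ j ω + ((2 : ℝ) : ℂ) • w₂ j ω))) ≤
        Real.sqrt δ := by
      rw [e1]
      refine (sqrt_n2_add ht _ _).trans ?_
      have e5 := sqrt_n2_add ht (pinch (P j ω) (z - x')) (pinch (P j ω) x' - w₁ j ω)
      rw [G.sqrt_n2_smul ht 2 (by norm_num)]
      have e6 := Real.sqrt_le_sqrt e2
      have e7 := Real.sqrt_le_sqrt hn1'
      have e8 := Real.sqrt_le_sqrt hn2'
      have e9 : Real.sqrt (δ / 36) = Real.sqrt δ / 6 := by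
        rw [Real.sqrt_div' _ (by norm_num), show (36 : ℝ) = 6 ^ 2 by norm_num,
          Real.sqrt_sq (by norm_num)]
      have e10 := Real.sqrt_nonneg δ
      linarith only [e10, e9, e8, e7, e6, e5]
    exact (Real.sqrt_le_sqrt_iff hδ.le).1 e4

/-- paving in the `2`-norm of a central state -/
theorem masa_two_norm3 (hA : SO.IsMASA A M) (hξ : IsCState M A ξ) (hE : IsTrExp M A ξ E)
    {ε : ℝ} (hε : 0 < ε) (hε1 : ε < 1) {x : H →L[ℂ] H} (hx : x ∈ M) (hxs : IsSelfAdjoint x)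
    (hx1 : ‖x‖ ≤ 1) (hEx : E x = 0) {δ : ℝ} (hδ : 0 < δ) :
    ∃ (r : ℕ) (P : Fin r → (H →L[ℂ] H)), (r : ℝ) ≤ 75000 / ε ^ 2 ∧
        IsPart A P ∧ ∃ w ∈ M, ‖w‖ ≤ ε ∧ n2 ξ (pinch P x - w) ≤ δ := by
  obtain ⟨k, hk, hk'⟩ : ∃ k : ℕ, 74500 / ε ^ 2 ≤ ((k + 1 : ℕ) : ℝ) ∧
      ((k + 1 : ℕ) : ℝ) ≤ 74500 / ε ^ 2 + 1 := by
    refine ⟨⌊74500 / ε ^ 2⌋₊, ?_, ?_⟩
    · push_cast
      exact (Nat.lt_floor_add_one _).le
    · push_cast
      have := Nat.floor_le (a := 74500 / ε ^ 2) (by positivity)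
      linarith
  have hs : 272.94 / ε ≤ Real.sqrt ((k + 1 : ℕ) : ℝ) := by
    apply Real.le_sqrt_of_sq_le
    calc (272.94 / ε) ^ 2 = 74496.2436 / ε ^ 2 := by ring
      _ ≤ 74500 / ε ^ 2 := by gcongr; norm_num
      _ ≤ _ := hk
  have h0 : 0 < Real.sqrt ((k + 1 : ℕ) : ℝ) := lt_of_lt_of_le (by positivity) hs
  have hk2 : 18 ≤ k + 1 := by
    have h1 : (18 : ℝ) ≤ ((k + 1 : ℕ) : ℝ) := by
      refine le_trans ?_ hk
      rw [le_div_iff₀ (by positivity)]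
      (by_contra nlg; linarith only [nlg, mul_pos (sub_pos.2 hε1) (sub_pos.2 hε1), mul_pos (sub_pos.2 hε) (sub_pos.2 hε1), mul_pos (sub_pos.2 hε) (sub_pos.2 hε), mul_nonneg (le_of_lt (sub_pos.2 (not_le.1 nlg))) (sub_nonneg.2 hk'), mul_nonneg (le_of_lt (sub_pos.2 (not_le.1 nlg))) (sub_nonneg.2 hk)])
    exact_mod_cast h1
  have hsq := hs
  rw [div_le_iff₀ hε] at hsq
  have hu : 268 < 0.982 * ε * Real.sqrt ((k + 1 : ℕ) : ℝ) := by linarith only [hsq, hε1, hε]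
  have hs' : 2 / Real.sqrt ((k + 1 : ℕ) : ℝ) < 0.0074 * ε := by
    rw [div_lt_iff₀ h0]
    linarith only [hsq, hε1, hε]
  obtain ⟨P, hP, w, hwM, hwn, hn⟩ := masa_pair3 hA hξ hE hk2 hu hs' hx hxs hx1 hEx hδ
  refine ⟨k + 1, P, ?_, hP, w, hwM, hwn.trans (by linarith only [hε]), hn⟩
  refine hk'.trans ?_
  have : (1 : ℝ) ≤ 1 / ε ^ 2 := by
    rw [le_div_iff₀ (by positivity)]; (by_contra nlg; linarith only [nlg, mul_pos (sub_pos.2 hε1) (sub_pos.2 hu), mul_pos (sub_pos.2 hε1) (sub_pos.2 h0), mul_pos (sub_pos.2 hε1) (sub_pos.2 hε1), mul_pos (sub_pos.2 hε) (sub_pos.2 hε1), mul_pos (sub_pos.2 (not_le.1 nlg)) (sub_pos.2 h0)])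
  have e : (75000 : ℝ) / ε ^ 2 = 74500 / ε ^ 2 + 500 * (1 / ε ^ 2) := by ring
  linarith only [e, this, hε1, hε]

end Vale.Agent.P078.W
end

section
/-! So-paving with `C ε⁻²` projections for every maximal abelian subalgebra of every
von Neumann algebra. -/

namespace Vale.Agent.P078.WG

open Vale.Agent.P078

universe u

/-- paving for central vector states -/
theorem cpave : CPave.{u} 75000 := by
  intro K _ _ _ N B ξ E hB hξ hE ε hε hε1 x hx hxs hx1 hEx δ hδ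
  exact Vale.Agent.P078.W.masa_two_norm3 hB hξ hE hε hε1 hx hxs hx1 hEx hδ

/-- the so-paving bound for all maximal abelian subalgebras of all von Neumann algebras, and the
matching lower bound for factors of type II₁ -/
theorem main_all {H : Type*} [NormedAddCommGroup H] [InnerProductSpace ℂ H] [CompleteSpace H]
    (M A : VonNeumannAlgebra H) (hA : SO.IsMASA A M) :
    (∀ ε : ℝ, 0 < ε → ε < 1 → SO.pavingNumber M A 1 ε ≤ (⌈1200002 / ε ^ 2⌉₊ : ℕ∞)) ∧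
    (SO.IsTypeII1Factor M → ∀ ε : ℝ, 0 < ε →
      (⌈1 / ε ^ 2⌉₊ : ℕ∞) ≤ SO.pavingNumber M A 1 ε) := by
  refine ⟨fun ε hε hε1 => ?_, (SO.growth hA).2.2⟩
  have h := nPave_le_all cpave (by norm_num) hA hε hε1
  norm_num at h ⊢
  exact h

end Vale.Agent.P078.WG
end
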